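import Mathlib
import Crest.Agent.R128.Coc

set_option autoImplicit false

open MeasureTheory Filter Topology
open Crest.AnalysisR.StandardFamily

namespace Crest.Agent.R128

theorem cos_sub_cos_ge {A B : ℝ} (hA : 0 ≤ A) (hAB : A ≤ B) (hB : B ≤ Real.pi) :
    2 * Real.sin ((A + B) / 2) * ((B - A) / Real.pi) ≤ Real.cos A - Real.cos B := by
  have e : Real.cos A - Real.cos B = 2 * Real.sin ((A + B) / 2) * Real.sin ((B - A) / 2) := by
    rw [Real.cos_sub_cos]
    have : (A - B) / 2 = -((B - A) / 2) := by ring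
    rw [this, Real.sin_neg]
    ring
  rw [e]
  have h1 : 0 ≤ Real.sin ((A + B) / 2) :=
    Real.sin_nonneg_of_nonneg_of_le_pi (by linarith) (by linarith)
  have h2 : (B - A) / Real.pi ≤ Real.sin ((B - A) / 2) := by
    have := Real.mul_le_sin (x := (B - A) / 2) (by linarith) (by linarith [Real.pi_pos])
    calc (B - A) / Real.pi = 2 / Real.pi * ((B - A) / 2) := by ring
      _ ≤ _ := this
  exact mul_le_mul_of_nonneg_left h2 (by positivity)


theorem cos_sub_cos_ge_lin {A B : ℝ} (hA : 0 ≤ A) (hAB : A ≤ B) (hB : B ≤ Real.pi)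
    (hcA : |Real.cos A| ≤ 3 / 4) (hcB : |Real.cos B| ≤ 3 / 4) :
    (B - A) / Real.pi ≤ Real.cos A - Real.cos B := by
  refine le_trans ?_ (cos_sub_cos_ge hA hAB hB)
  have hpi := Real.pi_pos
  have h0 : 0 ≤ (B - A) / Real.pi := div_nonneg (by linarith) hpi.le
  have hs : ∀ X : ℝ, 0 ≤ X → X ≤ Real.pi → |Real.cos X| ≤ 3 / 4 → 1 / 2 ≤ Real.sin X := by
    intro X h1 h2 h3
    have h4 := Real.sin_nonneg_of_nonneg_of_le_pi h1 h2
    have h5 := Real.sin_sq_add_cos_sq X
    have h6 : Real.cos X ^ 2 ≤ 9 / 16 := by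
      rw [← sq_abs]
      nlinarith [abs_nonneg (Real.cos X)]
    nlinarith
  have hA' := hs A hA (by linarith) hcA
  have hB' := hs B (by linarith) hB hcB
  have h3 : Real.sin A + Real.sin B ≤ 2 * Real.sin ((A + B) / 2) := by
    have e : Real.sin A + Real.sin B = 2 * Real.sin ((A + B) / 2) * Real.cos ((A - B) / 2) := by
      have e1 : A = (A + B) / 2 + (A - B) / 2 := by ring
      have e2 : B = (A + B) / 2 - (A - B) / 2 := by ring
      conv_lhs => rw [e1, e2]
      rw [Real.sin_add, Real.sin_sub]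
      ring
    rw [e]
    have h1 : 0 ≤ Real.sin ((A + B) / 2) :=
      Real.sin_nonneg_of_nonneg_of_le_pi (by linarith) (by linarith)
    have h2 := Real.cos_le_one ((A - B) / 2)
    nlinarith
  nlinarith


theorem abs_sub_le_of_cos_lin {σ d t t' : ℝ} (ht : t ∈ Set.Icc (0 : ℝ) (1 / 2))
    (ht' : t' ∈ Set.Icc (0 : ℝ) (1 / 2)) (hσ : |σ| ≤ 1 / 2) (hd : d ≤ 1 / 4)
    (h : |Real.cos (2 * Real.pi * t) - σ| ≤ d) (h' : |Real.cos (2 * Real.pi * t') - σ| ≤ d) :
    |t - t'| ≤ d := by
  have hpi := Real.pi_pos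
  wlog hle : t ≤ t' generalizing t t' with H
  · rw [abs_sub_comm]
    exact H ht' ht h' h (le_of_not_ge hle)
  have a1 := abs_le.mp hσ
  have h2 := abs_le.mp h
  have h3 := abs_le.mp h'
  have h1 := cos_sub_cos_ge_lin (A := 2 * Real.pi * t) (B := 2 * Real.pi * t')
    (by have := ht.1; positivity) (by nlinarith) (by nlinarith [ht'.2])
    (abs_le.mpr ⟨by linarith, by linarith⟩) (abs_le.mpr ⟨by linarith, by linarith⟩)
  have e : (2 * Real.pi * t' - 2 * Real.pi * t) / Real.pi = 2 * (t' - t) := by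
    field_simp
  rw [e] at h1
  rw [abs_sub_comm, abs_of_nonneg (by linarith)]
  linarith

theorem volume_le_of_pairwise {s : Set ℝ} {c : ℝ}
    (h : ∀ x ∈ s, ∀ y ∈ s, |x - y| ≤ c) : volume s ≤ ENNReal.ofReal c := by
  refine (Real.volume_le_diam s).trans ?_
  apply Metric.ediam_le
  intro x hx y hy
  rw [edist_dist, Real.dist_eq]
  exact ENNReal.ofReal_le_ofReal (h x hx y hy)

theorem cos_refl (t : ℝ) : Real.cos (2 * Real.pi * (1 - t)) = Real.cos (2 * Real.pi * t) := by
  have : 2 * Real.pi * (1 - t) = 2 * Real.pi - 2 * Real.pi * t := by ring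
  rw [this, Real.cos_two_pi_sub]

theorem volume_cos_aux {σ d c : ℝ} (hc : ∀ t ∈ Set.Icc (0 : ℝ) (1 / 2), ∀ t' ∈ Set.Icc (0 : ℝ) (1 / 2),
    |Real.cos (2 * Real.pi * t) - σ| ≤ d → |Real.cos (2 * Real.pi * t') - σ| ≤ d → |t - t'| ≤ c)
    (hc0 : 0 ≤ c) :
    volume {x : UnitAddCircle | |(AddCircle.toCircle x : ℂ).re - σ| ≤ d} ≤
      ENNReal.ofReal (2 * c) := by
  have hcont : Continuous fun x : UnitAddCircle => (AddCircle.toCircle x : ℂ).re :=
    Complex.continuous_re.comp (continuous_subtype_val.comp AddCircle.continuous_toCircle)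
  have hm : MeasurableSet {x : UnitAddCircle | |(AddCircle.toCircle x : ℂ).re - σ| ≤ d} :=
    (isClosed_le ((hcont.sub continuous_const).abs) continuous_const).measurableSet
  rw [← (UnitAddCircle.measurePreserving_mk 0).measure_preimage hm.nullMeasurableSet,
    Measure.restrict_apply ((UnitAddCircle.measurePreserving_mk 0).measurable hm)]
  have hsub : ((fun x : ℝ => (x : UnitAddCircle)) ⁻¹'
      {x : UnitAddCircle | |(AddCircle.toCircle x : ℂ).re - σ| ≤ d} ∩ Set.Ioc (0:ℝ) (0 + 1)) ⊆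
      {t : ℝ | t ∈ Set.Icc (0:ℝ) (1/2) ∧ |Real.cos (2 * Real.pi * t) - σ| ≤ d} ∪
      {t : ℝ | 1 - t ∈ Set.Icc (0:ℝ) (1/2) ∧ |Real.cos (2 * Real.pi * t) - σ| ≤ d} := by
    rintro t ⟨h1, h2⟩
    simp only [Set.mem_preimage, Set.mem_ofPred_eq] at h1
    rw [AddCircle.toCircle_apply_mk, Circle.coe_exp, Complex.exp_ofReal_mul_I_re, div_one] at h1
    by_cases h : t ≤ 1 / 2
    · left
      exact ⟨⟨h2.1.le, h⟩, h1⟩
    · right
      push Not at h
      refine ⟨⟨by linarith [h2.2], by linarith⟩, h1⟩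
  refine (measure_mono hsub).trans ((measure_union_le _ _).trans ?_)
  have e : ENNReal.ofReal (2 * c) = ENNReal.ofReal c + ENNReal.ofReal c := by
    rw [← ENNReal.ofReal_add hc0 hc0]
    congr 1
    ring
  rw [e]
  apply add_le_add
  · apply volume_le_of_pairwise
    rintro x ⟨hx, hx'⟩ y ⟨hy, hy'⟩
    exact hc x hx y hy hx' hy'
  · apply volume_le_of_pairwise
    rintro x ⟨hx, hx'⟩ y ⟨hy, hy'⟩
    rw [← cos_refl x] at hx'
    rw [← cos_refl y] at hy'
    have := hc _ hx _ hy hx' hy'
    rw [abs_sub_comm] at this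
    have e : (1 - y) - (1 - x) = x - y := by ring
    rwa [e] at this


/-- `|{ |cos 2πx - σ| ≤ d }| ≤ 4 d` for `|σ| ≤ 1/2` -/
theorem volume_cos_lin {σ d : ℝ} (hσ : |σ| ≤ 1 / 2) (hd : 0 ≤ d) :
    volume {x : UnitAddCircle | |(AddCircle.toCircle x : ℂ).re - σ| ≤ d} ≤
      ENNReal.ofReal (4 * d) := by
  by_cases h : d ≤ 1 / 4
  · refine (volume_cos_aux (σ := σ) (d := d) (c := d)
      (fun t ht t' ht' h1 h' => abs_sub_le_of_cos_lin ht ht' hσ h h1 h') hd).trans ?_
    exact ENNReal.ofReal_le_ofReal (by linarith)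
  · push Not at h
    refine (measure_mono (Set.subset_univ _)).trans ?_
    rw [UnitAddCircle.measure_univ]
    rw [← ENNReal.ofReal_one]
    exact ENNReal.ofReal_le_ofReal (by linarith)

theorem set_V_eq {k : ℝ} (hk : 0 < k) (s r : ℝ) :
    {x : UnitAddCircle | |V k x - s| ≤ r} =
      {x : UnitAddCircle | |(AddCircle.toCircle x : ℂ).re - (s - 2) / (2 * Real.pi * k)| ≤
        r / (2 * Real.pi * k)} := by
  ext x
  simp only [Set.mem_ofPred_eq]
  have hp : 0 < 2 * Real.pi * k := by positivity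
  rw [le_div_iff₀ hp, ← abs_of_pos hp, ← abs_mul, abs_of_pos hp]
  have : ((AddCircle.toCircle x : ℂ).re - (s - 2) / (2 * Real.pi * k)) * (2 * Real.pi * k) =
      V k x - s := by
    unfold V
    field_simp
    ring
  rw [this]


/-- `|{ |V - s| ≤ r }| ≤ r/k` for `|s| ≤ k`, `k ≥ 1`. -/
theorem volume_V_lin {k : ℝ} (hk : 1 ≤ k) {s : ℝ} (hs : |s| ≤ k) {r : ℝ} (hr : 0 ≤ r) :
    volume {x : UnitAddCircle | |V k x - s| ≤ r} ≤ ENNReal.ofReal (r / k) := by
  have hk0 : 0 < k := by linarith
  have h3 := Real.pi_gt_three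
  rw [set_V_eq hk0]
  have hp : 0 < 2 * Real.pi * k := by positivity
  refine (volume_cos_lin ?_ (by positivity)).trans (ENNReal.ofReal_le_ofReal ?_)
  · rw [abs_div, abs_of_pos hp, div_le_iff₀ hp]
    have : |s - 2| ≤ |s| + 2 := (abs_sub _ _).trans (by norm_num)
    nlinarith
  · rw [← mul_div_assoc, div_le_div_iff₀ hp hk0]
    nlinarith [mul_nonneg hr hk0.le]

/-- the same on the torus, second coordinate -/
theorem volume_Tor_snd (s : Set UnitAddCircle) :
    volume {z : Tor | z.2 ∈ s} = volume s := by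
  have : {z : Tor | z.2 ∈ s} = Set.univ ×ˢ s := by
    ext z
    simp
  rw [this, Measure.volume_eq_prod, Measure.prod_prod, UnitAddCircle.measure_univ, one_mul]


theorem volumeReal_V_le {k : ℝ} (hk : 1 ≤ k) {r : ℝ} (hr : 0 ≤ r) :
    (volume : Measure Tor).real {z : Tor | |V k z.2| ≤ r} ≤ r / k := by
  have h := volume_V_lin hk (s := 0) (by simpa using (by linarith : (0:ℝ) ≤ k)) hr
  simp only [sub_zero] at h
  have h2 := volume_Tor_snd {x : UnitAddCircle | |V k x| ≤ r}
  have h3 : (volume : Measure Tor) {z : Tor | |V k z.2| ≤ r} ≤ ENNReal.ofReal (r / k) := by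
    rw [← h2] at h
    exact h
  rw [measureReal_def]
  exact ENNReal.toReal_le_of_le_ofReal (by positivity) h3

theorem one_le_mx_Am (k : ℝ) (z : Tor) : 1 ≤ mx (Am k z) := by
  have := entry_le_mx (Am k z) 0 1
  simpa [Am] using this

theorem abs_V_le_mx_Am (k : ℝ) (z : Tor) : |V k z.2| ≤ mx (Am k z) := by
  have := entry_le_mx (Am k z) 1 1
  simpa [Am] using this

theorem lm_one (k : ℝ) (z : Tor) : lm k 1 z = Real.log (mx (Am k z)) := by
  unfold lm
  rw [show (1:ℕ) = 0 + 1 from rfl, Mn_succ, Mn_zero, one_mul]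

/-- `∫ log ‖A‖ ≥ log k - 3` -/
theorem log_sub_le_integral_lm_one {k : ℝ} (hk : 1 ≤ k) :
    Real.log k - 3 ≤ ∫ z : Tor, lm k 1 z := by
  have hk0 : 0 < k := by linarith
  obtain ⟨J, hJ⟩ := exists_nat_gt (Real.log k)
  let S : ℕ → Set Tor := fun j => {z : Tor | |V k z.2| ≤ k * Real.exp (-j)}
  have hSm : ∀ j, MeasurableSet (S j) := fun j =>
    (isClosed_le ((continuous_V k).comp continuous_snd).abs continuous_const).measurableSet
  have hpt : ∀ z : Tor, Real.log k - ∑ j ∈ Finset.range (J + 1), (S j).indicator (fun _ => (1:ℝ)) z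
      ≤ lm k 1 z := by
    intro z
    rw [lm_one]
    classical
    have hsum : ∑ j ∈ Finset.range (J + 1), (S j).indicator (fun _ => (1:ℝ)) z =
        (((Finset.range (J + 1)).filter (fun j => z ∈ S j)).card : ℝ) := by
      rw [Finset.card_filter]
      push_cast
      apply Finset.sum_congr rfl
      intro j _
      simp only [Set.indicator_apply]
    rw [hsum]
    set N := ((Finset.range (J + 1)).filter (fun j => z ∈ S j)).card with hN
    by_cases hc : N = J + 1
    · have h1 : 0 ≤ Real.log (mx (Am k z)) := Real.log_nonneg (one_le_mx_Am k z)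
      rw [hc]
      push_cast
      linarith
    · have hle : N ≤ J + 1 := by
        rw [hN]
        exact (Finset.card_filter_le _ _).trans (by simp)
      have hlt : N < J + 1 := lt_of_le_of_ne hle hc
      obtain ⟨j, hj1, hj2⟩ : ∃ j ≤ N, z ∉ S j := by
        by_contra hcon
        push Not at hcon
        have hsub : Finset.range (N + 1) ⊆ (Finset.range (J + 1)).filter (fun j => z ∈ S j) := by
          intro j hj
          rw [Finset.mem_range] at hj
          rw [Finset.mem_filter, Finset.mem_range]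
          exact ⟨by omega, hcon j (by omega)⟩
        have := Finset.card_le_card hsub
        rw [Finset.card_range, ← hN] at this
        omega
      have h2 : k * Real.exp (-j) < |V k z.2| := by
        simpa [S] using hj2
      have h3 : k * Real.exp (-j) < mx (Am k z) := lt_of_lt_of_le h2 (abs_V_le_mx_Am k z)
      have h4 := Real.log_le_log (by positivity) h3.le
      rw [Real.log_mul hk0.ne' (Real.exp_pos _).ne', Real.log_exp] at h4
      have h5 : (j : ℝ) ≤ N := by exact_mod_cast hj1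
      linarith
  have hind : ∀ j, Integrable ((S j).indicator (fun _ => (1:ℝ))) (volume : Measure Tor) :=
    fun j => (integrable_const (1:ℝ)).indicator (hSm j)
  have hI := integral_mono ((integrable_const (Real.log k)).sub
    (integrable_finsetSum (Finset.range (J + 1)) fun j _ => hind j)) (integrable_lm k 1)
    (fun z => by simpa using hpt z)
  simp only [Pi.sub_apply] at hI
  rw [integral_sub (integrable_const _)
    (integrable_finsetSum (Finset.range (J + 1)) fun j _ => hind j),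
    integral_finsetSum _ fun j _ => hind j] at hI
  have hc : ∫ _ : Tor, Real.log k = Real.log k := by simp
  rw [hc] at hI
  have hS : ∀ j, ∫ z : Tor, (S j).indicator (fun _ => (1:ℝ)) z ≤ Real.exp (-j) := by
    intro j
    rw [integral_indicator (hSm j), setIntegral_const, smul_eq_mul, mul_one]
    refine (volumeReal_V_le hk (by positivity)).trans (le_of_eq ?_)
    field_simp
  have hsum : ∑ j ∈ Finset.range (J + 1), ∫ z : Tor, (S j).indicator (fun _ => (1:ℝ)) z ≤ 3 := by
    refine (Finset.sum_le_sum fun j _ => hS j).trans ?_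
    have h1 : ∀ j : ℕ, Real.exp (-j) = (Real.exp (-1)) ^ j := by
      intro j
      rw [← Real.exp_nat_mul]
      congr 1
      ring
    simp only [h1]
    have h2 : Real.exp (-1) ≤ 1 / 2 := by
      rw [Real.exp_neg]
      have := Real.add_one_le_exp (1:ℝ)
      rw [inv_eq_one_div]
      exact one_div_le_one_div_of_le (by norm_num) (by linarith)
    calc ∑ j ∈ Finset.range (J + 1), (Real.exp (-1)) ^ j
        ≤ ∑ j ∈ Finset.range (J + 1), (1 / 2 : ℝ) ^ j :=
          Finset.sum_le_sum fun j _ => pow_le_pow_left₀ (Real.exp_pos _).le h2 j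
      _ ≤ 2 := sum_geometric_two_le _
      _ ≤ 3 := by norm_num
  linarith

end Crest.Agent.R128
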