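import Mathlib
import Crest.Agent.R128.AccSeq
import Crest.Agent.R128.Near

/-!
# Row 128, part A (helper485): reduction of S0172 to the density of deep tips

`TIP k h N z`: there is a vector `v` of norm one at `z` which is contracted below `exp (-h)` at
some time in `[-N, 0)` and at some time in `(0, N]`, and which has norm at most one in between (and less
than one just before: `z` is a first maximum, hence `|V k z.2| < 2`, `TIP_V`).
The start of the window is called `z'`, the vector there `w`.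
-/

set_option autoImplicit false
open MeasureTheory Filter Topology Finset
open Crest.AnalysisR.StandardFamily

namespace Crest.Agent.R128.Acc

/-- doubly contracted vectors; `z` is the place of the maximum -/
def TIP (k h : ℝ) (N : ℕ) (z : Tor) : Prop :=
  ∃ i j : ℕ, 0 < i ∧ i ≤ N ∧ 0 < j ∧ j ≤ N ∧ ∃ (z' : Tor) (w : ℝ × ℝ),
    (T k)^[i] z' = z ∧ ‖w‖ ≤ Real.exp (-h) ∧ ‖act (Mn k i z') w‖ = 1 ∧
    ‖act (Mn k (i - 1) z') w‖ < 1 ∧
    (∀ m, m ≤ i + j → ‖act (Mn k m z') w‖ ≤ 1) ∧ ‖act (Mn k (i + j) z') w‖ ≤ Real.exp (-h)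

/-- `l¹` norm of a row -/
noncomputable def rn (M : Matrix (Fin 2) (Fin 2) ℝ) (i : Fin 2) : ℝ := |M i 0| + |M i 1|

/-- `ρ_n`, norms of the rows of the cocycle -/
noncomputable def rr (k : ℝ) (z : Tor) (n : ℕ) : ℝ := rn (Mn k n z) 0

/-- digit -/
noncomputable def dg (k : ℝ) (z : Tor) (n : ℕ) : ℝ := |V k ((T k)^[n] z).2|

theorem row_succ_zero (k : ℝ) (n : ℕ) (z : Tor) (j : Fin 2) :
    Mn k (n + 1) z 0 j = Mn k n z 1 j := by
  rw [Mn_succ', Matrix.mul_apply, Fin.sum_univ_two]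
  simp [Am]

theorem row_succ_one (k : ℝ) (n : ℕ) (z : Tor) (j : Fin 2) :
    Mn k (n + 1) z 1 j = V k ((T k)^[n] z).2 * Mn k n z 1 j - Mn k n z 0 j := by
  rw [Mn_succ', Matrix.mul_apply, Fin.sum_univ_two]
  simp [Am]
  ring

theorem rr_succ (k : ℝ) (z : Tor) (n : ℕ) : rr k z (n + 1) = rn (Mn k n z) 1 := by
  unfold rr rn
  rw [row_succ_zero, row_succ_zero]

theorem rr_succ2 (k : ℝ) (z : Tor) (n : ℕ) : rr k z (n + 2) =
    |V k ((T k)^[n] z).2 * Mn k n z 1 0 - Mn k n z 0 0| +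
    |V k ((T k)^[n] z).2 * Mn k n z 1 1 - Mn k n z 0 1| := by
  rw [show n + 2 = (n + 1) + 1 from rfl, rr_succ]
  unfold rn
  rw [row_succ_one, row_succ_one]

theorem rr_h1 (k : ℝ) (z : Tor) (n : ℕ) :
    dg k z n * rr k z (n + 1) ≤ rr k z (n + 2) + rr k z n := by
  rw [rr_succ2, rr_succ]
  unfold dg rr rn
  set v := V k ((T k)^[n] z).2
  have a := abs_sub_abs_le_abs_sub (v * Mn k n z 1 0) (Mn k n z 0 0)
  have b := abs_sub_abs_le_abs_sub (v * Mn k n z 1 1) (Mn k n z 0 1)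
  rw [abs_mul] at a b
  nlinarith

theorem rr_h2 (k : ℝ) (z : Tor) (n : ℕ) :
    rr k z (n + 2) ≤ dg k z n * rr k z (n + 1) + rr k z n := by
  rw [rr_succ2, rr_succ]
  unfold dg rr rn
  set v := V k ((T k)^[n] z).2
  have a := abs_sub (v * Mn k n z 1 0) (Mn k n z 0 0)
  have b := abs_sub (v * Mn k n z 1 1) (Mn k n z 0 1)
  rw [abs_mul] at a b
  nlinarith

theorem rr_h3 (k : ℝ) (z : Tor) (n : ℕ) :
    rr k z n ≤ dg k z n * rr k z (n + 1) + rr k z (n + 2) := by
  rw [rr_succ2, rr_succ]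
  unfold dg rr rn
  set v := V k ((T k)^[n] z).2
  have a := abs_sub_abs_le_abs_sub (Mn k n z 0 0) (v * Mn k n z 1 0)
  have b := abs_sub_abs_le_abs_sub (Mn k n z 0 1) (v * Mn k n z 1 1)
  rw [abs_mul, abs_sub_comm] at a b
  nlinarith

theorem rr_h4 (k : ℝ) (z : Tor) (n : ℕ) : 1 ≤ rr k z n * rr k z (n + 1) := by
  rw [rr_succ]
  unfold rr rn
  have h := det_Mn k n z
  rw [Matrix.det_fin_two] at h
  have a := le_abs_self (Mn k n z 0 0 * Mn k n z 1 1)
  have b := neg_abs_le (Mn k n z 0 1 * Mn k n z 1 0)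
  rw [abs_mul] at a b
  have c := abs_nonneg (Mn k n z 0 0)
  have d := abs_nonneg (Mn k n z 0 1)
  have e := abs_nonneg (Mn k n z 1 0)
  have f := abs_nonneg (Mn k n z 1 1)
  have c1 := mul_nonneg c e
  have c2 := mul_nonneg d f
  nlinarith

theorem rr_nonneg (k : ℝ) (z : Tor) (n : ℕ) : 0 ≤ rr k z n := by
  unfold rr rn
  positivity

theorem rr_pos (k : ℝ) (z : Tor) (n : ℕ) : 0 < rr k z n := by
  rcases (rr_nonneg k z n).eq_or_lt with h | h
  · have := rr_h4 k z n
    rw [← h, zero_mul] at this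
    linarith
  · exact h

theorem rr_zero (k : ℝ) (z : Tor) : rr k z 0 = 1 := by
  unfold rr rn
  simp

theorem rr_one (k : ℝ) (z : Tor) : rr k z 1 = 1 := by
  rw [show (1:ℕ) = 0 + 1 from rfl, rr_succ]
  unfold rn
  simp

/-- the norm of the cocycle for the maximum norm -/
noncomputable def nm (k : ℝ) (n : ℕ) (z : Tor) : ℝ := max (rr k z n) (rr k z (n + 1))

theorem nm_pos (k : ℝ) (n : ℕ) (z : Tor) : 0 < nm k n z := lt_max_of_lt_left (rr_pos k z n)

theorem exp_bt (k : ℝ) (n : ℕ) (z : Tor) : Real.exp (bt (rr k z) n) = nm k n z :=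
  Real.exp_log (nm_pos k n z)

theorem abs_row_le (M : Matrix (Fin 2) (Fin 2) ℝ) (i : Fin 2) (v : ℝ × ℝ) :
    |M i 0 * v.1 + M i 1 * v.2| ≤ rn M i * ‖v‖ := by
  have h1 : |v.1| ≤ ‖v‖ := by simpa using norm_fst_le v
  have h2 : |v.2| ≤ ‖v‖ := by simpa using norm_snd_le v
  have a := abs_add_le (M i 0 * v.1) (M i 1 * v.2)
  rw [abs_mul, abs_mul] at a
  unfold rn
  have b := mul_le_mul_of_nonneg_left h1 (abs_nonneg (M i 0))
  have c := mul_le_mul_of_nonneg_left h2 (abs_nonneg (M i 1))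
  linarith

theorem norm_act_le (M : Matrix (Fin 2) (Fin 2) ℝ) (v : ℝ × ℝ) :
    ‖act M v‖ ≤ max (rn M 0) (rn M 1) * ‖v‖ := by
  rw [Prod.norm_def]
  unfold act
  simp only [Real.norm_eq_abs]
  apply max_le
  · exact (abs_row_le M 0 v).trans (mul_le_mul_of_nonneg_right (le_max_left _ _) (norm_nonneg v))
  · exact (abs_row_le M 1 v).trans (mul_le_mul_of_nonneg_right (le_max_right _ _) (norm_nonneg v))

theorem norm_act_Mn_le (k : ℝ) (n : ℕ) (z : Tor) (v : ℝ × ℝ) :
    ‖act (Mn k n z) v‖ ≤ nm k n z * ‖v‖ := by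
  have := norm_act_le (Mn k n z) v
  unfold nm
  rw [rr_succ]
  exact this

theorem exists_max_row (M : Matrix (Fin 2) (Fin 2) ℝ) (i : Fin 2) :
    ∃ e : ℝ × ℝ, ‖e‖ ≤ 1 ∧ M i 0 * e.1 + M i 1 * e.2 = rn M i := by
  have hs : ∀ x : ℝ, ∃ s : ℝ, |s| ≤ 1 ∧ x * s = |x| := by
    intro x
    rcases le_total 0 x with h | h
    · exact ⟨1, by simp, by rw [abs_of_nonneg h, mul_one]⟩
    · exact ⟨-1, by simp, by rw [abs_of_nonpos h]; ring⟩
  obtain ⟨s, hs1, hs2⟩ := hs (M i 0)
  obtain ⟨t, ht1, ht2⟩ := hs (M i 1)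
  refine ⟨(s, t), ?_, ?_⟩
  · rw [Prod.norm_def]
    exact max_le hs1 ht1
  · simp only [hs2, ht2]
    rfl

theorem exists_max (M : Matrix (Fin 2) (Fin 2) ℝ) :
    ∃ e : ℝ × ℝ, ‖e‖ ≤ 1 ∧ max (rn M 0) (rn M 1) ≤ ‖act M e‖ := by
  rcases le_total (rn M 0) (rn M 1) with h | h
  · obtain ⟨e, h1, h2⟩ := exists_max_row M 1
    refine ⟨e, h1, ?_⟩
    rw [max_eq_right h, ← h2, Prod.norm_def]
    exact (le_abs_self _).trans (le_max_right _ _)
  · obtain ⟨e, h1, h2⟩ := exists_max_row M 0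
    refine ⟨e, h1, ?_⟩
    rw [max_eq_left h, ← h2, Prod.norm_def]
    exact (le_abs_self _).trans (le_max_left _ _)

theorem act_smul (M : Matrix (Fin 2) (Fin 2) ℝ) (c : ℝ) (v : ℝ × ℝ) :
    act M (c • v) = c • act M v := by
  unfold act
  ext <;> simp <;> ring


theorem bt_le_lm (k : ℝ) (n : ℕ) (z : Tor) : bt (rr k z) n ≤ lm k n z + Real.log 2 := by
  have hp := mx_pos (det_Mn k n z)
  have h : nm k n z ≤ 2 * mx (Mn k n z) := by
    unfold nm
    rw [rr_succ]
    unfold rr rn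
    have a := entry_le_mx (Mn k n z) 0 0
    have b := entry_le_mx (Mn k n z) 0 1
    have c := entry_le_mx (Mn k n z) 1 0
    have d := entry_le_mx (Mn k n z) 1 1
    exact max_le (by linarith) (by linarith)
  have := Real.log_le_log (nm_pos k n z) h
  rw [Real.log_mul (by norm_num) hp.ne'] at this
  unfold lm bt
  unfold nm at this
  linarith

/-! ## Elementary properties of `TIP` -/




/-- area of the tips -/
noncomputable def NT (k h : ℝ) (N : ℕ) : ℝ := (volume : Measure Tor).real {z | TIP k h N z}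




/-! ## Pointwise and integrated accounting -/

theorem dg_le (k : ℝ) (hk : 0 ≤ k) (z : Tor) (n : ℕ) : dg k z n ≤ 2 + 2 * Real.pi * k := by
  unfold dg V
  have h1 : |((AddCircle.toCircle ((T k)^[n] z).2 : Circle) : ℂ).re| ≤ 1 := by
    have := Complex.abs_re_le_norm ((AddCircle.toCircle ((T k)^[n] z).2 : Circle) : ℂ)
    rwa [Circle.norm_coe] at this
  have h2 := abs_add_le 2 (2 * Real.pi * k * ((AddCircle.toCircle ((T k)^[n] z).2 : Circle) : ℂ).re)
  rw [abs_mul, abs_of_nonneg (by positivity : 0 ≤ 2 * Real.pi * k)] at h2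
  have h3 := mul_le_mul_of_nonneg_left h1 (by positivity : 0 ≤ 2 * Real.pi * k)
  have h4 : |(2 : ℝ)| = 2 := abs_of_pos (by norm_num)
  rw [h4] at h2
  linarith

theorem gn_ge (k : ℝ) (z : Tor) : lm k 1 z - Real.log 2 ≤ gn |V k z.2| := by
  have e : mx (Am k z) = max 1 |V k z.2| := by
    unfold mx Am
    simp
  rw [lm_one, e]
  unfold gn
  split_ifs with h
  · have : max 1 |V k z.2| ≤ 2 := max_le (by norm_num) h.le
    have := Real.log_le_log (lt_max_of_lt_left (by norm_num)) this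
    linarith
  · push Not at h
    rw [max_eq_right (by linarith), ← Real.log_div (by linarith) (by norm_num)]
    exact Real.log_le_log (by linarith) (by linarith)


theorem mp_iter (k : ℝ) (n : ℕ) : MeasurePreserving (T k)^[n] (volume : Measure Tor) volume :=
  (mp_T k).iterate n

theorem integral_comp_iter {k : ℝ} (n : ℕ) {f : Tor → ℝ} (hf : AEStronglyMeasurable f volume) :
    ∫ z, f ((T k)^[n] z) = ∫ z : Tor, f z := by
  have := (mp_iter k n).map_eq
  conv_rhs => rw [← this]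
  rw [integral_map (mp_iter k n).measurable.aemeasurable (by rw [this]; exact hf)]

theorem integrable_comp_iter {k : ℝ} (n : ℕ) {f : Tor → ℝ} (hf : Integrable f volume) :
    Integrable (fun z => f ((T k)^[n] z)) (volume : Measure Tor) :=
  (mp_iter k n).integrable_comp_of_integrable hf


/-! ## The reduction -/




end Crest.Agent.R128.Acc
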