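import Mathlib

set_option autoImplicit false

/-!
Row 128, node ALIGN: solutions of `s (n+2) = a (n+1) * s (n+1) - s n`, Wronskian,
`mu n = - P n / Q n`, and the equivalence between small ends of a two-sided solution and
the alignment equation `a 0 = mu⁺ + mu⁻ + O(ε²)`.
-/

namespace Crest.Agent.R128.Align

section algebra

variable {K : Type*} [Field K]

/-- the solution of `s (n+2) = a (n+1) * s (n+1) - s n` with `s 0 = u`, `s 1 = v` -/
def sol (a : ℕ → K) (u v : K) : ℕ → K
  | 0 => u
  | 1 => v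
  | n + 2 => a (n + 1) * sol a u v (n + 1) - sol a u v n

@[simp] theorem sol_zero (a : ℕ → K) (u v : K) : sol a u v 0 = u := rfl
@[simp] theorem sol_one (a : ℕ → K) (u v : K) : sol a u v 1 = v := rfl
theorem sol_add_two (a : ℕ → K) (u v : K) (n : ℕ) :
    sol a u v (n + 2) = a (n + 1) * sol a u v (n + 1) - sol a u v n := by
  rw [sol]

/-- any sequence satisfying the recursion is `sol` of its first two values -/
theorem eq_sol {a s : ℕ → K} {N : ℕ}
    (h : ∀ n, n + 2 ≤ N → s (n + 2) = a (n + 1) * s (n + 1) - s n) :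
    ∀ n, n ≤ N → s n = sol a (s 0) (s 1) n := by
  have key : ∀ n, (n ≤ N → s n = sol a (s 0) (s 1) n) ∧
      (n + 1 ≤ N → s (n + 1) = sol a (s 0) (s 1) (n + 1)) := by
    intro n
    induction n with
    | zero => exact ⟨fun _ => rfl, fun _ => rfl⟩
    | succ n ih =>
      refine ⟨ih.2, fun hn => ?_⟩
      rw [h n hn, sol_add_two, ih.1 (by omega), ih.2 (by omega)]
  exact fun n => (key n).1


/-- first fundamental solution, `P 0 = 1`, `P 1 = 0` -/
def P (a : ℕ → K) (n : ℕ) : K := sol a 1 0 n
/-- second fundamental solution, `Q 0 = 0`, `Q 1 = 1` -/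
def Q (a : ℕ → K) (n : ℕ) : K := sol a 0 1 n

@[simp] theorem P_zero (a : ℕ → K) : P a 0 = 1 := rfl
@[simp] theorem P_one (a : ℕ → K) : P a 1 = 0 := rfl
@[simp] theorem Q_zero (a : ℕ → K) : Q a 0 = 0 := rfl
@[simp] theorem Q_one (a : ℕ → K) : Q a 1 = 1 := rfl
theorem P_add_two (a : ℕ → K) (n : ℕ) : P a (n + 2) = a (n + 1) * P a (n + 1) - P a n :=
  sol_add_two a 1 0 n
theorem Q_add_two (a : ℕ → K) (n : ℕ) : Q a (n + 2) = a (n + 1) * Q a (n + 1) - Q a n :=
  sol_add_two a 0 1 n

/-- linearity -/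
theorem sol_eq (a : ℕ → K) (u v : K) (n : ℕ) : sol a u v n = u * P a n + v * Q a n := by
  have key : ∀ n, sol a u v n = u * P a n + v * Q a n ∧
      sol a u v (n + 1) = u * P a (n + 1) + v * Q a (n + 1) := by
    intro n
    induction n with
    | zero => simp
    | succ n ih =>
      refine ⟨ih.2, ?_⟩
      rw [sol_add_two, P_add_two, Q_add_two, ih.1, ih.2]
      ring
  exact (key n).1

/-- Wronskian of the two fundamental solutions -/
theorem wronskian (a : ℕ → K) (n : ℕ) : P a n * Q a (n + 1) - P a (n + 1) * Q a n = 1 := by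
  induction n with
  | zero => simp
  | succ n ih =>
    rw [P_add_two, Q_add_two]
    linear_combination ih

/-- Wronskian of a solution with `Q` -/
theorem wronskian_Q (a : ℕ → K) (u v : K) (n : ℕ) :
    sol a u v n * Q a (n + 1) - sol a u v (n + 1) * Q a n = u := by
  rw [sol_eq, sol_eq]
  linear_combination u * wronskian a n



/-- the slope of the solution which vanishes at `n` -/
def mu (a : ℕ → K) (n : ℕ) : K := -(P a n) / Q a n

theorem mu_succ_sub {a : ℕ → K} {n : ℕ} (h0 : Q a n ≠ 0) (h1 : Q a (n + 1) ≠ 0) :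
    mu a (n + 1) - mu a n = 1 / (Q a n * Q a (n + 1)) := by
  unfold mu
  rw [div_sub_div _ _ h1 h0, div_eq_div_iff (mul_ne_zero h1 h0) (mul_ne_zero h0 h1)]
  linear_combination (Q a n * Q a (n + 1)) * wronskian a n

theorem mu_sub {a : ℕ → K} {m : ℕ} : ∀ {n : ℕ}, m ≤ n → (∀ i, m ≤ i → i ≤ n → Q a i ≠ 0) →
    mu a n - mu a m = ∑ i ∈ Finset.Ico m n, 1 / (Q a i * Q a (i + 1)) := by
  intro n hmn
  induction n, hmn using Nat.le_induction with
  | base => intro _; simp
  | succ n hmn ih =>
    intro h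
    rw [Finset.sum_Ico_succ_top hmn, ← ih (fun i hi hi' => h i hi (by omega)),
      ← mu_succ_sub (h n hmn (by omega)) (h (n + 1) (by omega) le_rfl)]
    ring

/-- `v - u * mu n = s n / Q n` -/
theorem sub_mu {a : ℕ → K} (u v : K) {n : ℕ} (h : Q a n ≠ 0) :
    v - u * mu a n = sol a u v n / Q a n := by
  unfold mu
  rw [sol_eq, eq_div_iff h]
  field_simp
  ring





end algebra

section norm

variable {K : Type*} [NormedField K]









end norm

section real


end real

end Crest.Agent.R128.Align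
private theorem rz_2e07293a21 : type_of% @_root_.Crest.Agent.R128.Align.sol.eq_def := @_root_.Crest.Agent.R128.Align.sol.eq_def -- L18
private theorem rz_34d4bf69df : type_of% @_root_.Crest.Agent.R128.Align.sol.eq_1 := @_root_.Crest.Agent.R128.Align.sol.eq_1 -- L18
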