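import Crest.Agent.R128.Align
import Crest.Agent.R128.Two
import Crest.Agent.R128.Acc
import Crest.Agent.R128.TreeSum

-- ▼ part R128/AlignMn
section

/-!
# Row 128: tips as two-sided Jacobi fields and the alignment inequality (helper220)

`TIP_iff`: the event `Acc.TIP k h N z` in terms of a two-sided Jacobi field `x : ℤ → ℝ`,
`x (n+1) + x (n-1) = dz k z n * x n`, `dz k z n = V k (Tz k n z).2`.
`TIP_align`: the alignment inequality `|V k z.2 - mu⁺ - mu⁻| ≤ 4 exp (-2h)`.
-/

set_option autoImplicit false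
open MeasureTheory Filter Topology
open Crest.Agent.R128 Crest.Agent.R128.Two Crest.Agent.R128.Acc

namespace Crest.Agent.R128.AlignMn

/-- the digit at time `n : ℤ` -/
noncomputable def dz (k : ℝ) (z : Tor) (n : ℤ) : ℝ := V k (Tz k n z).2

/-- the Jacobi field with `(x (-1), x 0) = v` -/
noncomputable def xf (k : ℝ) (z : Tor) (v : ℝ × ℝ) (n : ℤ) : ℝ := (act (Az k n z) v).2

theorem act_one (v : ℝ × ℝ) : act (1 : Matrix (Fin 2) (Fin 2) ℝ) v = v := by
  unfold act
  simp

theorem act_Am (k : ℝ) (z : Tor) (v : ℝ × ℝ) : act (Am k z) v = (v.2, V k z.2 * v.2 - v.1) := by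
  unfold act Am
  ext <;> simp
  ring

theorem act_Az_succ (k : ℝ) (z : Tor) (v : ℝ × ℝ) (n : ℤ) :
    act (Az k (n + 1) z) v = (xf k z v n, dz k z n * xf k z v n - (act (Az k n z) v).1) := by
  rw [Az_succ, act_mul, act_Am]
  rfl

theorem act_Az_fst (k : ℝ) (z : Tor) (v : ℝ × ℝ) (n : ℤ) :
    (act (Az k n z) v).1 = xf k z v (n - 1) := by
  have h := act_Az_succ k z v (n - 1)
  rw [sub_add_cancel] at h
  rw [h]

theorem act_Az (k : ℝ) (z : Tor) (v : ℝ × ℝ) (n : ℤ) :
    act (Az k n z) v = (xf k z v (n - 1), xf k z v n) := by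
  ext
  · exact act_Az_fst k z v n
  · rfl

theorem xf_succ (k : ℝ) (z : Tor) (v : ℝ × ℝ) (n : ℤ) :
    xf k z v (n + 1) = dz k z n * xf k z v n - xf k z v (n - 1) := by
  rw [← act_Az_fst]
  have h := act_Az_succ k z v n
  exact congrArg Prod.snd h

theorem xf_zero (k : ℝ) (z : Tor) (v : ℝ × ℝ) : xf k z v 0 = v.2 := by
  unfold xf
  rw [Az_zero, act_one]

theorem xf_neg_one (k : ℝ) (z : Tor) (v : ℝ × ℝ) : xf k z v (-1) = v.1 := by
  have h := act_Az_fst k z v 0
  rw [Az_zero, act_one] at h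
  simpa using h.symm

theorem norm_act_Az (k : ℝ) (z : Tor) (v : ℝ × ℝ) (n : ℤ) :
    ‖act (Az k n z) v‖ = max |xf k z v (n - 1)| |xf k z v n| := by
  rw [act_Az, Prod.norm_def, Real.norm_eq_abs, Real.norm_eq_abs]

/-- every two-sided solution is a Jacobi field `xf` -/
theorem eq_xf {k : ℝ} {z : Tor} {x : ℤ → ℝ}
    (h : ∀ n, x (n + 1) = dz k z n * x n - x (n - 1)) (n : ℤ) :
    x n = xf k z (x (-1), x 0) n := by
  have key : ∀ n : ℤ, x (n - 1) = xf k z (x (-1), x 0) (n - 1) ∧ x n = xf k z (x (-1), x 0) n := by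
    intro n
    induction n using Int.induction_on with
    | zero =>
      constructor
      · simp [xf_neg_one]
      · simp [xf_zero]
    | succ i ih =>
      refine ⟨by simpa using ih.2, ?_⟩
      rw [h, xf_succ, ← ih.1, ← ih.2]
    | pred i ih =>
      have h1 := h (-(i : ℤ) - 1)
      have h2 := xf_succ k z (x (-1), x 0) (-(i : ℤ) - 1)
      rw [sub_add_cancel] at h1 h2
      refine ⟨?_, ih.1⟩
      linarith [ih.1, ih.2, h1, h2, congrArg (fun y => dz k z (-(i : ℤ) - 1) * y) ih.1]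
  exact (key n).2


/-- moving the base point: `Mn k m (Tz k (-i) z)` applied to `Az k (-i) z v` -/
theorem act_Mn_Tz (k : ℝ) (z : Tor) (v : ℝ × ℝ) (i m : ℕ) :
    act (Mn k m (Tz k (-(i : ℤ)) z)) (act (Az k (-(i : ℤ)) z) v)
      = act (Az k ((m : ℤ) - i) z) v := by
  rw [← act_mul, ← Az_natCast, ← Az_add, sub_eq_add_neg]


/-- forward digits `a 1, a 2, …` (index `0` is not used by `Align.sol`) -/
noncomputable def ap (k : ℝ) (z : Tor) (n : ℕ) : ℝ := dz k z n

/-- backward digits -/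
noncomputable def am (k : ℝ) (z : Tor) (n : ℕ) : ℝ := dz k z (-(n : ℤ))

theorem dz_zero (k : ℝ) (z : Tor) : dz k z 0 = V k z.2 := by
  unfold dz
  rw [Tz_zero]






end Crest.Agent.R128.AlignMn
end

-- ▼ part R128/AlignLam

/-!
# Row 128, node P4-IN (helper220): from a tip to the digit equation of the roughness lemma

`Wq n = (Q n, Q (n+1))`, `Wp n = (P n, P (n+1))` are fields (in the sense of `TreeSum.IsField`) of
the potential `sh a n = a (n+1)`; `nu n = lam (Wq n) (Wp n)`.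

* `TIP_nu`: `|V c + nu⁺ j + nu⁻ i| ≤ 4 exp (-2h)` for a tip;
* `nu_diff`: `|nu n - nu j| ≤ wt n j`;
* `nu_add_mu`: `nu n + mu (n+1) = Q n / (Q (n+1) ‖Wq n‖²)`;
* `TIP_digit`: the digit equation;
* `wt_regular`: `wt` over a stretch of regular digits.
-/

set_option autoImplicit false
open Crest.Agent.R128 Crest.Agent.R128.Two Crest.Agent.R128.Acc Crest.Agent.R128.AlignMn
open Crest.Agent.R128.TreeSum

namespace Crest.Agent.R128.AlignLam

/-- shifted potential -/
def sh (a : ℕ → ℝ) (n : ℕ) : ℝ := a (n + 1)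

/-- pair field of a solution -/
noncomputable def W (a : ℕ → ℝ) (u v : ℝ) (n : ℕ) : ℝ × ℝ := (Align.sol a u v n, Align.sol a u v (n + 1))

/-- pair field of `Q` (the `t`-field) -/
noncomputable def Wq (a : ℕ → ℝ) (n : ℕ) : ℝ × ℝ := (Align.Q a n, Align.Q a (n + 1))

/-- pair field of `P` -/
noncomputable def Wp (a : ℕ → ℝ) (n : ℕ) : ℝ × ℝ := (Align.P a n, Align.P a (n + 1))

theorem isField_W (a : ℕ → ℝ) (u v : ℝ) : IsField (sh a) (W a u v) := by
  intro n
  rfl








/-- the (regularised) slope: `nu n ≈ - mu` -/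
noncomputable def nu (a : ℕ → ℝ) (n : ℕ) : ℝ := lam (Wq a n) (Wp a n)








/-- error of cutting one side at `n` -/
noncomputable def err (a : ℕ → ℝ) (n j : ℕ) : ℝ :=
  wt (sh a) (Wq a) n j + |Align.Q a n| / (|Align.Q a (n + 1)| * nn (Wq a n) ^ 2)




end Crest.Agent.R128.AlignLam
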