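import Mathlib

-- ▼ part R128/BVP1
section

set_option autoImplicit false

open scoped BigOperators

namespace Crest.Agent.R128.BVP

/-- **Weighted Newton–Kantorovich.** -/
theorem exists_fixed {ι : Type*} [Fintype ι]
    (G : ι → ι → ℝ) (b : ι → ℝ) (R : ι → ℝ → ℝ) (w : ι → ℝ) (M : ℝ)
    (hw : ∀ i, 0 < w i) (_hM : 0 ≤ M)
    (hb : ∀ i, |b i| ≤ w i / 2)
    (hR0 : ∀ i, R i 0 = 0)
    (hR : ∀ i u v, |u| ≤ w i → |v| ≤ w i → |R i u - R i v| ≤ M * w i * |u - v|)
    (hG : ∀ i, ∑ j, |G i j| * M * w j ^ 2 ≤ w i / 4) :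
    ∃ u : ι → ℝ, (∀ i, |u i| ≤ 3 / 4 * w i) ∧ (∀ i, u i = b i - ∑ j, G i j * R j (u j)) := by
  classical
  -- the rescaled map
  let Φ : (ι → ℝ) → (ι → ℝ) := fun s i => (b i - ∑ j, G i j * R j (w j * s j)) / w i
  let B : Set (ι → ℝ) := {s | ∀ i, |s i| ≤ 1}
  have hBc : IsClosed B := by
    have : B = ⋂ i, {s : ι → ℝ | |s i| ≤ 1} := by
      ext s; simp [B]
    rw [this]
    exact isClosed_iInter fun i => isClosed_le ((continuous_apply i).abs) continuous_const
  have key : ∀ s t : ι → ℝ, s ∈ B → t ∈ B → ∀ i, |Φ s i - Φ t i| ≤ 1 / 4 * dist s t := by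
    intro s t hs ht i
    have h1 : Φ s i - Φ t i = (∑ j, G i j * (R j (w j * t j) - R j (w j * s j))) / w i := by
      simp only [Φ]
      rw [← sub_div]
      congr 1
      simp only [mul_sub, Finset.sum_sub_distrib]
      ring
    rw [h1, abs_div, abs_of_pos (hw i), div_le_iff₀ (hw i)]
    calc |∑ j, G i j * (R j (w j * t j) - R j (w j * s j))|
        ≤ ∑ j, |G i j * (R j (w j * t j) - R j (w j * s j))| := Finset.abs_sum_le_sum_abs _ _
      _ ≤ ∑ j, (|G i j| * M * w j ^ 2) * dist s t := by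
          apply Finset.sum_le_sum
          intro j _
          rw [abs_mul]
          have hsj : |w j * s j| ≤ w j := by
            rw [abs_mul, abs_of_pos (hw j)]
            exact mul_le_of_le_one_right (hw j).le (hs j)
          have htj : |w j * t j| ≤ w j := by
            rw [abs_mul, abs_of_pos (hw j)]
            exact mul_le_of_le_one_right (hw j).le (ht j)
          have h2 := hR j (w j * t j) (w j * s j) htj hsj
          have h3 : |w j * t j - w j * s j| ≤ w j * dist s t := by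
            rw [← mul_sub, abs_mul, abs_of_pos (hw j), abs_sub_comm]
            apply mul_le_mul_of_nonneg_left _ (hw j).le
            rw [← Real.dist_eq]
            exact dist_le_pi_dist s t j
          calc |G i j| * |R j (w j * t j) - R j (w j * s j)|
              ≤ |G i j| * (M * w j * |w j * t j - w j * s j|) :=
                mul_le_mul_of_nonneg_left h2 (abs_nonneg _)
            _ ≤ |G i j| * (M * w j * (w j * dist s t)) := by
                apply mul_le_mul_of_nonneg_left _ (abs_nonneg _)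
                exact mul_le_mul_of_nonneg_left h3 (mul_nonneg _hM (hw j).le)
            _ = (|G i j| * M * w j ^ 2) * dist s t := by ring
      _ = (∑ j, |G i j| * M * w j ^ 2) * dist s t := by rw [Finset.sum_mul]
      _ ≤ (w i / 4) * dist s t := mul_le_mul_of_nonneg_right (hG i) dist_nonneg
      _ = 1 / 4 * dist s t * w i := by ring
  have h0 : (fun _ => 0 : ι → ℝ) ∈ B := by
    intro i; simp
  have hΦ0 : ∀ i, |Φ (fun _ => 0) i| ≤ 1 / 2 := by
    intro i
    simp only [Φ, mul_zero, hR0, Finset.sum_const_zero, sub_zero]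
    rw [abs_div, abs_of_pos (hw i), div_le_iff₀ (hw i)]
    linarith [hb i]
  have hmaps : ∀ s ∈ B, ∀ i, |Φ s i| ≤ 3 / 4 := by
    intro s hs i
    have h1 := key s (fun _ => 0) hs h0 i
    have h2 : dist s (fun _ => 0) ≤ 1 := by
      rw [dist_pi_le_iff zero_le_one]
      intro j
      rw [Real.dist_eq, sub_zero]
      exact hs j
    have h3 := hΦ0 i
    have h4 := abs_sub_abs_le_abs_sub (Φ s i) (Φ (fun _ => 0) i)
    linarith
  have hmapsTo : Set.MapsTo Φ B B := fun s hs i => (hmaps s hs i).trans (by norm_num)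
  have hcontr : ContractingWith (1/4) (hmapsTo.restrict Φ B B) := by
    refine ⟨by norm_num, LipschitzWith.of_dist_le_mul ?_⟩
    rintro ⟨s, hs⟩ ⟨t, ht⟩
    rw [Subtype.dist_eq, Subtype.dist_eq]
    simp only [Set.MapsTo.val_restrict_apply]
    rw [dist_pi_le_iff (by positivity)]
    intro i
    rw [Real.dist_eq]
    have := key s t hs ht i
    simpa using this
  obtain ⟨s, hs, hfix, -⟩ := ContractingWith.exists_fixedPoint' (f := Φ) hBc.isComplete hmapsTo hcontr
    h0 (edist_ne_top _ _)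
  refine ⟨fun i => w i * s i, fun i => ?_, fun i => ?_⟩
  · rw [abs_mul, abs_of_pos (hw i)]
    have h1 : s i = Φ s i := (congrFun hfix i).symm
    rw [h1]
    nlinarith [hmaps s hs i, hw i, abs_nonneg (Φ s i)]
  · have h1 : s i = Φ s i := (congrFun hfix i).symm
    have h2 : w i * s i = w i * Φ s i := by rw [← h1]
    show w i * s i = b i - ∑ j, G i j * R j (w j * s j)
    rw [h2]
    simp only [Φ]
    field_simp [(hw i).ne']

end Crest.Agent.R128.BVP
end

-- ▼ part R128/BVP2
section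

set_option autoImplicit false

open scoped BigOperators
open Finset

namespace Crest.Agent.R128.BVP

/-- Jacobi data on the positions `1..n` (boundary positions `0`, `n+1`): `p` is the left solution, `q` the right
solution of `a_m u_m = u_{m+1} + u_{m-1}`. -/
structure Jac (n : ℕ) (a p q : ℕ → ℝ) : Prop where
  p0 : p 0 = 0
  p1 : p 1 = 1
  hp : ∀ m < n, p (m + 2) = a (m + 1) * p (m + 1) - p m
  qn1 : q (n + 1) = 0
  qn : q n = 1
  hq : ∀ m < n, q m = a (m + 1) * q (m + 1) - q (m + 2)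
  W0 : p (n + 1) ≠ 0

/-- Green kernel -/
noncomputable def K (n : ℕ) (p q : ℕ → ℝ) (m j : ℕ) : ℝ :=
  if j ≤ m then q m * p j / p (n + 1) else p m * q j / p (n + 1)

variable {n : ℕ} {a p q : ℕ → ℝ}

theorem wronski (J : Jac n a p q) : ∀ m ≤ n, p (m + 1) * q m - p m * q (m + 1) = p (n + 1) := by
  intro m hm
  induction hk : n - m generalizing m with
  | zero =>
    have : m = n := by omega
    subst this
    rw [J.qn1, J.qn]; ring
  | succ k ih =>
    have h1 := ih (m + 1) (by omega) (by omega)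
    have h2 := J.hp m (by omega)
    have h3 := J.hq m (by omega)
    rw [h3, ← h1, h2]; ring

theorem q_zero (J : Jac n a p q) : q 0 = p (n + 1) := by
  have := wronski J 0 (Nat.zero_le _)
  rw [J.p0, J.p1] at this
  linarith

theorem K_eq (J : Jac n a p q) (m j : ℕ) (hm : m < n) (_hj : 1 ≤ j) (_hjn : j ≤ n) :
    a (m + 1) * K n p q (m + 1) j - K n p q (m + 2) j - K n p q m j = if j = m + 1 then 1 else 0 := by
  have hW := J.W0
  have h2 := J.hp m hm
  have h3 := J.hq m hm
  have h4 := wronski J m hm.le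
  unfold K
  rcases lt_trichotomy j (m + 1) with h | h | h
  · rw [if_pos (by omega), if_pos (by omega), if_pos (by omega), if_neg (by omega)]
    have e : a (m + 1) * (q (m + 1) * p j / p (n + 1)) - q (m + 2) * p j / p (n + 1) - q m * p j / p (n + 1)
      = (a (m + 1) * q (m + 1) - q (m + 2) - q m) * p j / p (n + 1) := by ring
    rw [e, h3]
    ring
  · subst h
    rw [if_pos le_rfl, if_pos (by omega), if_neg (by omega), if_pos rfl]
    rw [show a (m + 1) * (q (m + 1) * p (m + 1) / p (n + 1)) - q (m + 2) * p (m + 1) / p (n + 1) -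
      p m * q (m + 1) / p (n + 1) = ((a (m + 1) * q (m + 1) - q (m + 2)) * p (m + 1) - p m * q (m + 1)) / p (n + 1)
      by ring, ← h3, mul_comm (q m), h4, div_self hW]
  · rw [if_neg (by omega), if_neg (by omega : ¬ j = m + 1)]
    by_cases h5 : j = m + 2
    · subst h5
      rw [if_pos le_rfl, if_neg (by omega)]
      rw [show a (m + 1) * (p (m + 1) * q (m + 2) / p (n + 1)) - q (m + 2) * p (m + 2) / p (n + 1) -
        p m * q (m + 2) / p (n + 1) = (a (m + 1) * p (m + 1) - p m - p (m + 2)) * q (m + 2) / p (n + 1) by ring,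
        h2]
      ring
    · rw [if_neg (by omega), if_neg (by omega)]
      rw [show a (m + 1) * (p (m + 1) * q j / p (n + 1)) - p (m + 2) * q j / p (n + 1) -
        p m * q j / p (n + 1) = (a (m + 1) * p (m + 1) - p m - p (m + 2)) * q j / p (n + 1) by ring,
        h2]
      ring

/-- the solution with right hand side `r` and boundary values `dl`, `dr` -/
noncomputable def sol (n : ℕ) (p q : ℕ → ℝ) (dl dr : ℝ) (r : ℕ → ℝ) (m : ℕ) : ℝ :=
  (q m * dl + p m * dr) / p (n + 1) + ∑ j ∈ Icc 1 n, K n p q m j * r j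

theorem sol_zero (J : Jac n a p q) (dl dr : ℝ) (r : ℕ → ℝ) : sol n p q dl dr r 0 = dl := by
  unfold sol
  rw [q_zero J, J.p0]
  have h : ∑ j ∈ Icc 1 n, K n p q 0 j * r j = 0 := by
    apply Finset.sum_eq_zero
    intro j hj
    rw [Finset.mem_Icc] at hj
    unfold K
    rw [if_neg (by omega), J.p0]
    ring
  rw [h]
  have := J.W0
  field_simp
  ring

theorem sol_last (J : Jac n a p q) (dl dr : ℝ) (r : ℕ → ℝ) : sol n p q dl dr r (n + 1) = dr := by
  unfold sol
  rw [J.qn1]
  have h : ∑ j ∈ Icc 1 n, K n p q (n + 1) j * r j = 0 := by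
    apply Finset.sum_eq_zero
    intro j hj
    rw [Finset.mem_Icc] at hj
    unfold K
    rw [if_pos (by omega), J.qn1]
    ring
  rw [h]
  have := J.W0
  field_simp
  ring

theorem sol_eq (J : Jac n a p q) (dl dr : ℝ) (r : ℕ → ℝ) (m : ℕ) (hm : m < n) :
    a (m + 1) * sol n p q dl dr r (m + 1) - sol n p q dl dr r (m + 2) - sol n p q dl dr r m = r (m + 1) := by
  unfold sol
  have h2 := J.hp m hm
  have h3 := J.hq m hm
  have e1 : a (m + 1) * ((q (m + 1) * dl + p (m + 1) * dr) / p (n + 1)) -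
      (q (m + 2) * dl + p (m + 2) * dr) / p (n + 1) - (q m * dl + p m * dr) / p (n + 1) = 0 := by
    rw [h2, h3]; ring
  have e2 : a (m + 1) * (∑ j ∈ Icc 1 n, K n p q (m + 1) j * r j) -
      (∑ j ∈ Icc 1 n, K n p q (m + 2) j * r j) - (∑ j ∈ Icc 1 n, K n p q m j * r j) = r (m + 1) := by
    rw [Finset.mul_sum, ← Finset.sum_sub_distrib, ← Finset.sum_sub_distrib]
    have : ∀ j ∈ Icc 1 n, a (m + 1) * (K n p q (m + 1) j * r j) - K n p q (m + 2) j * r j - K n p q m j * r j
        = if j = m + 1 then r j else 0 := by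
      intro j hj
      rw [Finset.mem_Icc] at hj
      have := K_eq J m j hm hj.1 hj.2
      rw [show a (m + 1) * (K n p q (m + 1) j * r j) - K n p q (m + 2) j * r j - K n p q m j * r j =
        (a (m + 1) * K n p q (m + 1) j - K n p q (m + 2) j - K n p q m j) * r j by ring, this]
      split_ifs <;> simp
    rw [Finset.sum_congr rfl this, Finset.sum_ite_eq' (Icc 1 n) (m + 1) (fun j => r j),
      if_pos (by rw [Finset.mem_Icc]; omega)]
  linarith

/-- uniqueness for the homogeneous problem -/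
theorem homog (J : Jac n a p q) (h : ℕ → ℝ) (h0 : h 0 = 0) (hn : h (n + 1) = 0)
    (he : ∀ m < n, a (m + 1) * h (m + 1) - h (m + 2) - h m = 0) : ∀ m ≤ n + 1, h m = 0 := by
  have h1 : ∀ m ≤ n, h m = h 1 * p m ∧ h (m + 1) = h 1 * p (m + 1) := by
    intro m
    induction m with
    | zero =>
      intro _
      rw [J.p0, J.p1, h0]; simp
    | succ m ih =>
      intro hm
      obtain ⟨i1, i2⟩ := ih (by omega)
      refine ⟨i2, ?_⟩
      have e1 := he m (by omega)
      have e2 := J.hp m (by omega)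
      rw [e2]
      have e3 : h (m + 1 + 1) = a (m + 1) * h (m + 1) - h m := by
        have : h (m + 1 + 1) = h (m + 2) := rfl
        linarith
      rw [e3, i1, i2]; ring
  have h2 : h 1 = 0 := by
    have := (h1 n le_rfl).2
    rw [hn] at this
    rcases mul_eq_zero.mp this.symm with h | h
    · exact h
    · exact absurd h J.W0
  intro m hm
  rcases Nat.lt_or_ge n m with h3 | h3
  · have : m = n + 1 := by omega
    rw [this, hn]
  · rw [(h1 m h3).1, h2, zero_mul]

/-- representation of an arbitrary solution of the inhomogeneous problem -/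
theorem repr (J : Jac n a p q) (e r : ℕ → ℝ)
    (he : ∀ m < n, a (m + 1) * e (m + 1) - e (m + 2) - e m = r (m + 1)) :
    ∀ m ≤ n + 1, e m = sol n p q (e 0) (e (n + 1)) r m := by
  intro m hm
  have := homog J (fun m => e m - sol n p q (e 0) (e (n + 1)) r m)
    (by simp only [sol_zero J, sub_self]) (by simp only [sol_last J, sub_self])
    (by
      intro m hm
      have h1 := he m hm
      have h2 := sol_eq J (e 0) (e (n + 1)) r m hm
      linarith) m hm
  simpa [sub_eq_zero] using this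

end Crest.Agent.R128.BVP
end

-- ▼ part R128/BVP3

set_option autoImplicit false

open scoped BigOperators
open Finset

namespace Crest.Agent.R128.BVP

variable {n : ℕ} {a p q : ℕ → ℝ}

theorem sum_Icc_one (F : ℕ → ℝ) (n : ℕ) : ∑ j ∈ Icc 1 n, F j = ∑ i : Fin n, F (i + 1) := by
  rw [Fin.sum_univ_eq_sum_range (fun i => F (i + 1)) n]
  induction n with
  | zero => simp
  | succ n ih => rw [Finset.sum_Icc_succ_top (by omega), ih, Finset.sum_range_succ]

/-- Perturbed linear problem: bounds by the responses of the unperturbed one. -/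
theorem diff_bound (J : Jac n a p q) (w rho lam : ℕ → ℝ) (M ε : ℝ) (hε : ε ≤ 1 / 4)
    (hrho : ∀ m ∈ Icc 1 n, 0 < rho m)
    (hprho : ∀ m ∈ Icc 1 n, |p m / p (n + 1)| ≤ rho m)
    (hqlam : ∀ m ∈ Icc 1 n, |q m / p (n + 1)| ≤ lam m)
    (hsr : ∀ m ∈ Icc 1 n, ∑ j ∈ Icc 1 n, |K n p q m j| * (M * w j) * rho j ≤ ε * rho m)
    (hsl : ∀ m ∈ Icc 1 n, ∑ j ∈ Icc 1 n, |K n p q m j| * (M * w j) * lam j ≤ ε * lam m)
    (d e : ℕ → ℝ) (hd : ∀ m ∈ Icc 1 n, |d m| ≤ M * w m)
    (he : ∀ m < n, (a (m + 1) + d (m + 1)) * e (m + 1) = e (m + 2) + e m) :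
    ∀ m ∈ Icc 1 n, |e m| ≤ 2 * (rho m * |e (n + 1)| + lam m * |e 0|) ∧
      |e m - (q m * e 0 + p m * e (n + 1)) / p (n + 1)| ≤
        2 * ε * (rho m * |e (n + 1)| + lam m * |e 0|) := by
  set s : ℕ → ℝ := fun m => rho m * |e (n + 1)| + lam m * |e 0| with hs
  have hlam : ∀ m ∈ Icc 1 n, 0 ≤ lam m := fun m hm => (abs_nonneg _).trans (hqlam m hm)
  have hs0 : ∀ m ∈ Icc 1 n, 0 ≤ s m := fun m hm =>
    add_nonneg (mul_nonneg (hrho m hm).le (abs_nonneg _)) (mul_nonneg (hlam m hm) (abs_nonneg _))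
  have hMw : ∀ m ∈ Icc 1 n, 0 ≤ M * w m := fun m hm => (abs_nonneg _).trans (hd m hm)
  -- representation
  have hrep := repr J e (fun m => -(d m * e m)) (by
    intro m hm
    have := he m hm
    show a (m + 1) * e (m + 1) - e (m + 2) - e m = -(d (m + 1) * e (m + 1))
    linarith)
  have hlin : ∀ m ∈ Icc 1 n, |(q m * e 0 + p m * e (n + 1)) / p (n + 1)| ≤ s m := by
    intro m hm
    have e1 : (q m * e 0 + p m * e (n + 1)) / p (n + 1) =
      (q m / p (n + 1)) * e 0 + (p m / p (n + 1)) * e (n + 1) := by ring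
    rw [e1]
    refine (abs_add_le _ _).trans ?_
    rw [abs_mul, abs_mul]
    have := mul_le_mul_of_nonneg_right (hqlam m hm) (abs_nonneg (e 0))
    have := mul_le_mul_of_nonneg_right (hprho m hm) (abs_nonneg (e (n + 1)))
    simp only [hs]
    linarith
  have hdiff : ∀ m ∈ Icc 1 n, |e m - (q m * e 0 + p m * e (n + 1)) / p (n + 1)| ≤
      ∑ j ∈ Icc 1 n, |K n p q m j| * (M * w j) * |e j| := by
    intro m hm
    rw [Finset.mem_Icc] at hm
    have h1 := hrep m (by omega)
    have h2 : e m - (q m * e 0 + p m * e (n + 1)) / p (n + 1) =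
        ∑ j ∈ Icc 1 n, K n p q m j * (-(d j * e j)) := by
      conv_lhs => rw [h1]
      unfold sol
      ring
    rw [h2]
    refine (Finset.abs_sum_le_sum_abs _ _).trans (Finset.sum_le_sum fun j hj => ?_)
    rw [abs_mul, abs_neg, abs_mul, ← mul_assoc]
    apply mul_le_mul_of_nonneg_right _ (abs_nonneg _)
    exact mul_le_mul_of_nonneg_left (hd j hj) (abs_nonneg _)
  have hss : ∀ m ∈ Icc 1 n, ∑ j ∈ Icc 1 n, |K n p q m j| * (M * w j) * s j ≤ ε * s m := by
    intro m hm
    have e1 : ∑ j ∈ Icc 1 n, |K n p q m j| * (M * w j) * s j =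
        (∑ j ∈ Icc 1 n, |K n p q m j| * (M * w j) * rho j) * |e (n + 1)| +
        (∑ j ∈ Icc 1 n, |K n p q m j| * (M * w j) * lam j) * |e 0| := by
      rw [Finset.sum_mul, Finset.sum_mul, ← Finset.sum_add_distrib]
      refine Finset.sum_congr rfl fun j _ => ?_
      simp only [hs]
      ring
    rw [e1]
    have h1 := mul_le_mul_of_nonneg_right (hsr m hm) (abs_nonneg (e (n + 1)))
    have h2 := mul_le_mul_of_nonneg_right (hsl m hm) (abs_nonneg (e 0))
    simp only [hs]
    linarith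
  -- first bound
  have hfirst : ∀ m ∈ Icc 1 n, |e m| ≤ 2 * s m := by
    by_contra hcon
    push Not at hcon
    obtain ⟨m0, hm0, hlt⟩ := hcon
    obtain ⟨m1, hm1, hmax⟩ := Finset.exists_max_image (Icc 1 n) (fun m => (|e m| - 2 * s m) / rho m) ⟨m0, hm0⟩
    set Λ := (|e m1| - 2 * s m1) / rho m1 with hΛ
    have hΛpos : 0 < Λ := by
      have h1 := hmax m0 hm0
      have h2 : 0 < (|e m0| - 2 * s m0) / rho m0 := div_pos (by linarith) (hrho m0 hm0)
      exact lt_of_lt_of_le h2 h1
    have hej : ∀ j ∈ Icc 1 n, |e j| ≤ 2 * s j + Λ * rho j := by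
      intro j hj
      have h1 := hmax j hj
      rw [div_le_iff₀ (hrho j hj)] at h1
      linarith
    have h3 : |e m1| ≤ s m1 + (2 * (ε * s m1) + Λ * (ε * rho m1)) := by
      have h4 := hdiff m1 hm1
      have h5 : ∑ j ∈ Icc 1 n, |K n p q m1 j| * (M * w j) * |e j| ≤
          2 * (∑ j ∈ Icc 1 n, |K n p q m1 j| * (M * w j) * s j) +
          Λ * (∑ j ∈ Icc 1 n, |K n p q m1 j| * (M * w j) * rho j) := by
        rw [Finset.mul_sum, Finset.mul_sum, ← Finset.sum_add_distrib]
        refine Finset.sum_le_sum fun j hj => ?_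
        have h6 := mul_le_mul_of_nonneg_left (hej j hj) (mul_nonneg (abs_nonneg (K n p q m1 j)) (hMw j hj))
        linarith
      have h7 := hss m1 hm1
      have h8 := hsr m1 hm1
      have h9 := hlin m1 hm1
      have h10 : |e m1| ≤ |e m1 - (q m1 * e 0 + p m1 * e (n + 1)) / p (n + 1)| +
          |(q m1 * e 0 + p m1 * e (n + 1)) / p (n + 1)| := by
        have := abs_add_le (e m1 - (q m1 * e 0 + p m1 * e (n + 1)) / p (n + 1))
          ((q m1 * e 0 + p m1 * e (n + 1)) / p (n + 1))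
        rwa [sub_add_cancel] at this
      have h11 := mul_le_mul_of_nonneg_left h8 hΛpos.le
      linarith
    have h12 : Λ * rho m1 = |e m1| - 2 * s m1 := by
      rw [hΛ, div_mul_cancel₀ _ (hrho m1 hm1).ne']
    have h13 := hs0 m1 hm1
    have h14 := hrho m1 hm1
    have h15 : Λ * rho m1 ≤ ε * (Λ * rho m1) := by nlinarith
    have h16 : 0 < Λ * rho m1 := mul_pos hΛpos h14
    nlinarith
  intro m hm
  refine ⟨hfirst m hm, ?_⟩
  refine (hdiff m hm).trans ?_
  calc ∑ j ∈ Icc 1 n, |K n p q m j| * (M * w j) * |e j|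
      ≤ ∑ j ∈ Icc 1 n, 2 * (|K n p q m j| * (M * w j) * s j) := by
        refine Finset.sum_le_sum fun j hj => ?_
        have h6 := mul_le_mul_of_nonneg_left (hfirst j hj) (mul_nonneg (abs_nonneg (K n p q m j)) (hMw j hj))
        linarith
    _ = 2 * ∑ j ∈ Icc 1 n, |K n p q m j| * (M * w j) * s j := by rw [Finset.mul_sum]
    _ ≤ 2 * (ε * s m) := by linarith [hss m hm]
    _ = 2 * ε * s m := by ring

/-- an orbit segment on the positions `0..n+1` -/
def Orb (n : ℕ) (f : ℝ → ℝ) (x : ℕ → ℝ) : Prop := ∀ m < n, x (m + 2) + x m = f (x (m + 1))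

/-- control of the nonlinearity -/
def NL (f V : ℝ → ℝ) (M : ℝ) : Prop :=
  ∀ x u v, |f (x + u) - f (x + v) - V x * (u - v)| ≤ M * max |u| |v| * |u - v|

/-- **Existence** of an orbit with new boundary values in the box. -/
theorem orb_exists {f V : ℝ → ℝ} {M : ℝ} (hM : 0 ≤ M) (hNL : NL f V M) (x : ℕ → ℝ) (hx : Orb n f x)
    (J : Jac n (fun m => V (x m)) p q) (w : ℕ → ℝ) (hw : ∀ m ∈ Icc 1 n, 0 < w m)
    (hG : ∀ m ∈ Icc 1 n, ∑ j ∈ Icc 1 n, |K n p q m j| * M * w j ^ 2 ≤ w m / 4)
    (dl dr : ℝ) (hb : ∀ m ∈ Icc 1 n, |(q m * dl + p m * dr) / p (n + 1)| ≤ w m / 2) :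
    ∃ y : ℕ → ℝ, Orb n f y ∧ y 0 = x 0 + dl ∧ y (n + 1) = x (n + 1) + dr ∧
      ∀ m ∈ Icc 1 n, |y m - x m| ≤ 3 / 4 * w m := by
  have hmem : ∀ i : Fin n, (i : ℕ) + 1 ∈ Icc 1 n := fun i => by
    rw [Finset.mem_Icc]; omega
  obtain ⟨u, hu1, hu2⟩ := exists_fixed (ι := Fin n) (fun i j => K n p q (i + 1) (j + 1))
    (fun i => (q (i + 1) * dl + p (i + 1) * dr) / p (n + 1))
    (fun i t => f (x (i + 1) + t) - f (x (i + 1)) - V (x (i + 1)) * t)
    (fun i => w (i + 1)) M (fun i => hw _ (hmem i)) hM (fun i => hb _ (hmem i))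
    (fun i => by simp)
    (by
      intro i u v hu hv
      have h1 := hNL (x (i + 1)) u v
      rw [show f (x (i + 1) + u) - f (x (i + 1)) - V (x (i + 1)) * u -
        (f (x (i + 1) + v) - f (x (i + 1)) - V (x (i + 1)) * v) =
        f (x (i + 1) + u) - f (x (i + 1) + v) - V (x (i + 1)) * (u - v) by ring]
      refine h1.trans ?_
      apply mul_le_mul_of_nonneg_right _ (abs_nonneg _)
      exact mul_le_mul_of_nonneg_left (max_le hu hv) hM)
    (fun i => by
      have := hG _ (hmem i)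
      rw [sum_Icc_one] at this
      exact this)
  set r : ℕ → ℝ := fun m => if h : m - 1 < n then
    -(f (x m + u ⟨m - 1, h⟩) - f (x m) - V (x m) * u ⟨m - 1, h⟩) else 0 with hr
  set U := sol n p q dl dr r with hU
  have hUu : ∀ i : Fin n, U (i + 1) = u i := by
    intro i
    rw [hU]
    unfold sol
    rw [sum_Icc_one]
    have h2 := hu2 i
    rw [h2, sub_eq_add_neg, ← Finset.sum_neg_distrib]
    congr 1
    refine Finset.sum_congr rfl fun j _ => ?_
    have : r ((j : ℕ) + 1) = -(f (x (j + 1) + u j) - f (x (j + 1)) - V (x (j + 1)) * u j) := by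
      rw [hr]
      simp only [Nat.add_sub_cancel, Fin.is_lt, dif_pos, Fin.eta]
    rw [this]
    ring
  refine ⟨fun m => x m + U m, ?_, ?_, ?_, ?_⟩
  · intro m hm
    have h1 := sol_eq J dl dr r m hm
    have h2 := hx m hm
    have h3 := hUu ⟨m, hm⟩
    simp only at h3
    have h4 : r (m + 1) = -(f (x (m + 1) + U (m + 1)) - f (x (m + 1)) - V (x (m + 1)) * U (m + 1)) := by
      rw [h3, hr]
      simp only [Nat.add_sub_cancel, hm, dif_pos]
    rw [← hU] at h1
    show x (m + 2) + U (m + 2) + (x m + U m) = f (x (m + 1) + U (m + 1))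
    rw [h4] at h1
    linarith
  · show x 0 + U 0 = _
    rw [hU, sol_zero J]
  · show x (n + 1) + U (n + 1) = _
    rw [hU, sol_last J]
  · intro m hm
    rw [Finset.mem_Icc] at hm
    show |x m + U m - x m| ≤ _
    rw [add_sub_cancel_left]
    have h1 := hUu ⟨m - 1, by omega⟩
    simp only at h1
    rw [Nat.sub_add_cancel hm.1] at h1
    rw [h1]
    have h2 := hu1 ⟨m - 1, by omega⟩
    simp only at h2
    rw [Nat.sub_add_cancel hm.1] at h2
    exact h2

/-- difference of two orbits in the box of a reference orbit -/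
theorem orb_diff {f V : ℝ → ℝ} {M : ℝ} (hM : 0 ≤ M) (hNL : NL f V M) (x : ℕ → ℝ)
    (J : Jac n (fun m => V (x m)) p q) (w rho lam : ℕ → ℝ) (ε : ℝ) (hε : ε ≤ 1 / 4)
    (hrho : ∀ m ∈ Icc 1 n, 0 < rho m)
    (hprho : ∀ m ∈ Icc 1 n, |p m / p (n + 1)| ≤ rho m)
    (hqlam : ∀ m ∈ Icc 1 n, |q m / p (n + 1)| ≤ lam m)
    (hsr : ∀ m ∈ Icc 1 n, ∑ j ∈ Icc 1 n, |K n p q m j| * (M * w j) * rho j ≤ ε * rho m)
    (hsl : ∀ m ∈ Icc 1 n, ∑ j ∈ Icc 1 n, |K n p q m j| * (M * w j) * lam j ≤ ε * lam m)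
    (y z : ℕ → ℝ) (hy : Orb n f y) (hz : Orb n f z)
    (hyx : ∀ m ∈ Icc 1 n, |y m - x m| ≤ w m) (hzx : ∀ m ∈ Icc 1 n, |z m - x m| ≤ w m) :
    ∀ m ∈ Icc 1 n, |z m - y m| ≤ 2 * (rho m * |z (n + 1) - y (n + 1)| + lam m * |z 0 - y 0|) ∧
      |(z m - y m) - (q m * (z 0 - y 0) + p m * (z (n + 1) - y (n + 1))) / p (n + 1)| ≤
        2 * ε * (rho m * |z (n + 1) - y (n + 1)| + lam m * |z 0 - y 0|) := by
  classical
  set e : ℕ → ℝ := fun m => z m - y m with he
  set d : ℕ → ℝ := fun m => if e m = 0 then 0 else (f (z m) - f (y m)) / e m - V (x m) with hd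
  have hd1 : ∀ m, d m * e m = f (z m) - f (y m) - V (x m) * e m := by
    intro m
    simp only [hd]
    split_ifs with h
    · have : z m = y m := by
        have := h; simp only [he] at this; linarith
      rw [this]
      simp [he, this]
    · field_simp
  have hmw : ∀ m ∈ Icc 1 n, 0 ≤ w m := fun m hm => (abs_nonneg _).trans (hyx m hm)
  refine diff_bound J w rho lam M ε hε hrho hprho hqlam hsr hsl d e ?_ ?_
  · intro m hm
    simp only [hd]
    split_ifs with h
    · rw [abs_zero]; exact mul_nonneg hM (hmw m hm)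
    · have h1 := hNL (x m) (z m - x m) (y m - x m)
      rw [add_sub_cancel, add_sub_cancel, show z m - x m - (y m - x m) = e m by simp [he]] at h1
      have h2 : (f (z m) - f (y m)) / e m - V (x m) = (f (z m) - f (y m) - V (x m) * e m) / e m := by
        field_simp
      rw [h2, abs_div, div_le_iff₀ (abs_pos.mpr h)]
      refine h1.trans ?_
      apply mul_le_mul_of_nonneg_right _ (abs_nonneg _)
      exact mul_le_mul_of_nonneg_left (max_le (hzx m hm) (hyx m hm)) hM
  · intro m hm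
    have h1 := hd1 (m + 1)
    have h2 := hy m hm
    have h3 := hz m hm
    show (V (x (m + 1)) + d (m + 1)) * e (m + 1) = e (m + 2) + e m
    rw [add_mul, h1]
    simp only [he]
    linarith

end Crest.Agent.R128.BVP
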