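import Mathlib
import Crest.Agent.R128.BVP3
import Crest.Agent.R128.Torus

-- ▼ part R128/BVP5
section

set_option autoImplicit false

open scoped BigOperators NNReal ENNReal
open Finset MeasureTheory Topology Filter

namespace Crest.Agent.R128.BVP

/-- Numerical hypotheses on a reference orbit segment (positions `0..n+1`), `w` = box (left responses),
`rho` = right responses. -/
structure Good (n : ℕ) (f V : ℝ → ℝ) (M C ε : ℝ) (x p q w rho : ℕ → ℝ) : Prop where
  orb : Orb n f x
  jac : Jac n (fun m => V (x m)) p q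
  wpos : ∀ m ∈ Icc 1 n, 0 < w m
  hqw : ∀ m ∈ Icc 1 n, |q m / p (n + 1)| ≤ w m / 4
  hsw : ∀ m ∈ Icc 1 n, ∑ j ∈ Icc 1 n, |K n p q m j| * M * w j ^ 2 ≤ ε * w m
  rpos : ∀ m ∈ Icc 1 n, 0 < rho m
  hprho : ∀ m ∈ Icc 1 n, |p m / p (n + 1)| ≤ rho m
  hsr : ∀ m ∈ Icc 1 n, ∑ j ∈ Icc 1 n, |K n p q m j| * M * w j * rho j ≤ ε * rho m
  w1 : w 1 ≤ 1 / 2
  rho1 : rho 1 ≤ C * |1 / p (n + 1)|

theorem orb_ext {n : ℕ} {f : ℝ → ℝ} {y z : ℕ → ℝ} (hy : Orb n f y) (hz : Orb n f z)
    (h0 : y 0 = z 0) (h1 : y 1 = z 1) : ∀ m ≤ n + 1, y m = z m := by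
  have : ∀ m ≤ n, y m = z m ∧ y (m + 1) = z (m + 1) := by
    intro m
    induction m with
    | zero => intro _; exact ⟨h0, h1⟩
    | succ m ih =>
      intro hm
      obtain ⟨i1, i2⟩ := ih (by omega)
      refine ⟨i2, ?_⟩
      have a1 := hy m (by omega)
      have a2 := hz m (by omega)
      rw [i1, i2] at a1
      show y (m + 2) = z (m + 2)
      linarith
  intro m hm
  rcases Nat.lt_or_ge m (n + 1) with h | h
  · exact (this m (by omega)).1
  · have e : m = n + 1 := by omega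
    rw [e]; exact (this n le_rfl).2

variable {n : ℕ} {f V : ℝ → ℝ} {M C ε : ℝ}

theorem Good.diff {x p q w rho : ℕ → ℝ} (G : Good n f V M C ε x p q w rho) (hM : 0 ≤ M) (hNL : NL f V M)
    (hε : ε ≤ 1 / 4) (y z : ℕ → ℝ) (hy : Orb n f y) (hz : Orb n f z)
    (hyx : ∀ m ∈ Icc 1 n, |y m - x m| ≤ w m) (hzx : ∀ m ∈ Icc 1 n, |z m - x m| ≤ w m) :
    ∀ m ∈ Icc 1 n, |z m - y m| ≤ 2 * (rho m * |z (n + 1) - y (n + 1)| + w m / 4 * |z 0 - y 0|) ∧
      |(z m - y m) - (q m * (z 0 - y 0) + p m * (z (n + 1) - y (n + 1))) / p (n + 1)| ≤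
        2 * ε * (rho m * |z (n + 1) - y (n + 1)| + w m / 4 * |z 0 - y 0|) := by
  refine orb_diff hM hNL x G.jac w rho (fun m => w m / 4) ε hε G.rpos G.hprho G.hqw ?_ ?_ y z hy hz hyx hzx
  · intro m hm
    refine le_trans (le_of_eq ?_) (G.hsr m hm)
    refine Finset.sum_congr rfl fun j _ => by ring
  · intro m hm
    have := G.hsw m hm
    have e : ∑ j ∈ Icc 1 n, |K n p q m j| * (M * w j) * (w j / 4) =
      (∑ j ∈ Icc 1 n, |K n p q m j| * M * w j ^ 2) / 4 := by
      rw [Finset.sum_div]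
      refine Finset.sum_congr rfl fun j _ => by ring
    rw [e]
    linarith




end Crest.Agent.R128.BVP
end

-- ▼ part R128/BVP7

set_option autoImplicit false

open scoped BigOperators NNReal ENNReal
open Finset MeasureTheory Topology Filter

namespace Crest.Agent.R128.BVP

/-- `f(x) = 2x + k sin 2πx` -/
noncomputable def fk (k x : ℝ) : ℝ := 2 * x + k * Real.sin (2 * Real.pi * x)

/-- `V(x) = 2 + 2πk cos 2πx` -/
noncomputable def Vk (k x : ℝ) : ℝ := 2 + 2 * Real.pi * k * Real.cos (2 * Real.pi * x)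

theorem hasDerivAt_fk (k x : ℝ) : HasDerivAt (fk k) (Vk k x) x := by
  unfold fk Vk
  have h1 : HasDerivAt (fun y : ℝ => 2 * Real.pi * y) (2 * Real.pi) x := by
    simpa using (hasDerivAt_id x).const_mul (2 * Real.pi)
  have h2 := (h1.sin).const_mul k
  have h3 : HasDerivAt (fun y : ℝ => 2 * y) 2 x := by simpa using (hasDerivAt_id x).const_mul 2
  refine (h3.add h2).congr_deriv ?_
  ring


theorem Vk_lip {k : ℝ} (hk : 0 ≤ k) (x y : ℝ) : |Vk k x - Vk k y| ≤ 4 * Real.pi ^ 2 * k * |x - y| := by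
  unfold Vk
  have h1 : |Real.cos (2 * Real.pi * x) - Real.cos (2 * Real.pi * y)| ≤ |2 * Real.pi * x - 2 * Real.pi * y| := by
    have := Real.lipschitzWith_cos.dist_le_mul (2 * Real.pi * x) (2 * Real.pi * y)
    rw [Real.dist_eq, Real.dist_eq] at this
    simpa using this
  have e : 2 + 2 * Real.pi * k * Real.cos (2 * Real.pi * x) - (2 + 2 * Real.pi * k * Real.cos (2 * Real.pi * y))
    = (2 * Real.pi * k) * (Real.cos (2 * Real.pi * x) - Real.cos (2 * Real.pi * y)) := by ring
  rw [e, abs_mul, abs_of_nonneg (by positivity)]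
  have e2 : |2 * Real.pi * x - 2 * Real.pi * y| = 2 * Real.pi * |x - y| := by
    rw [← mul_sub, abs_mul, abs_of_pos (by positivity)]
  rw [e2] at h1
  calc _ ≤ (2 * Real.pi * k) * (2 * Real.pi * |x - y|) := mul_le_mul_of_nonneg_left h1 (by positivity)
    _ = _ := by ring

theorem NL_fk {k : ℝ} (hk : 0 ≤ k) : NL (fk k) (Vk k) (4 * Real.pi ^ 2 * k) := by
  intro x u v
  set φ : ℝ → ℝ := fun t => fk k (x + t) - Vk k x * t with hφ
  have hd : ∀ t, HasDerivAt φ (Vk k (x + t) - Vk k x) t := by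
    intro t
    have h1 : HasDerivAt (fun t => fk k (x + t)) (Vk k (x + t)) t := by
      have := (hasDerivAt_fk k (x + t)).comp_const_add x t
      exact this
    have h2 : HasDerivAt (fun t => Vk k x * t) (Vk k x) t := by
      simpa using (hasDerivAt_id t).const_mul (Vk k x)
    exact h1.sub h2
  have hb : ∀ t ∈ Set.uIcc v u, ‖Vk k (x + t) - Vk k x‖ ≤ 4 * Real.pi ^ 2 * k * max |u| |v| := by
    intro t ht
    rw [Real.norm_eq_abs]
    refine (Vk_lip hk _ _).trans ?_
    rw [add_sub_cancel_left]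
    apply mul_le_mul_of_nonneg_left _ (by positivity)
    rw [Set.mem_uIcc] at ht
    rw [abs_le]
    have h1 := neg_abs_le u
    have h2 := neg_abs_le v
    have h3 := le_abs_self u
    have h4 := le_abs_self v
    have h5 := le_max_left |u| |v|
    have h6 := le_max_right |u| |v|
    rcases ht with ht | ht <;> constructor <;> linarith [ht.1, ht.2]
  have h := (convex_uIcc v u).norm_image_sub_le_of_norm_hasDerivWithin_le
    (f := φ) (f' := fun t => Vk k (x + t) - Vk k x) (fun t _ => (hd t).hasDerivWithinAt) hb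
    Set.left_mem_uIcc Set.right_mem_uIcc
  have e : fk k (x + u) - fk k (x + v) - Vk k x * (u - v) = φ u - φ v := by
    simp only [hφ]; ring
  rw [e]
  simpa [Real.norm_eq_abs] using h

/-- the orbit of `(a, b) = (x_{-1}, x_0)` -/
noncomputable def xorb (k : ℝ) (a b : ℝ) : ℕ → ℝ
  | 0 => a
  | 1 => b
  | n + 2 => fk k (xorb k a b (n + 1)) - xorb k a b n

theorem xorb_orb (k a b : ℝ) (n : ℕ) : Orb n (fk k) (xorb k a b) := by
  intro m _
  show fk k (xorb k a b (m + 1)) - xorb k a b m + xorb k a b m = _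
  ring

/-- the orbit projects to the orbit of `T` -/
theorem xorb_T (k a b : ℝ) (n : ℕ) :
    (T k)^[n] ((a : UnitAddCircle), (b : UnitAddCircle)) =
      ((xorb k a b n : UnitAddCircle), (xorb k a b (n + 1) : UnitAddCircle)) := by
  induction n with
  | zero => rfl
  | succ n ih =>
    rw [Function.iterate_succ_apply', ih]
    unfold T
    simp only
    ext
    · rfl
    · show _ = ((fk k (xorb k a b (n + 1)) - xorb k a b n : ℝ) : UnitAddCircle)
      rw [sk_coe]
      have e : fk k (xorb k a b (n + 1)) - xorb k a b n = xorb k a b (n + 1) + xorb k a b (n + 1) +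
          k * Real.sin (2 * Real.pi * xorb k a b (n + 1)) - xorb k a b n := by
        unfold fk; ring
      rw [e, AddCircle.coe_sub, AddCircle.coe_add, AddCircle.coe_add]

theorem V_eq_Vk (k x : ℝ) : V k (x : UnitAddCircle) = Vk k x := V_coe k x




end Crest.Agent.R128.BVP
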