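import Crest.Agent.R128.Remez

/-!
# Distortion of nearly affine maps (row 128)
-/

set_option autoImplicit false

open Metric Set MeasureTheory
open scoped ComplexConjugate NNReal ENNReal

namespace Crest.Agent.R128.CellA

/-! ### Nearly affine real maps -/

/-- `φ` is nearly affine on `s` with slope `lam` and relative error `η`. -/
structure NearAff (φ φ' : ℝ → ℝ) (s : Set ℝ) (lam η : ℝ) : Prop where
  deriv : ∀ x ∈ s, HasDerivWithinAt φ (φ' x) s x
  close : ∀ x ∈ s, |φ' x - lam| ≤ η * |lam|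

variable {φ φ' : ℝ → ℝ} {a b lam η : ℝ}

theorem NearAff.dist_sub {s : Set ℝ} (hs : Convex ℝ s) (h : NearAff φ φ' s lam η) {x y : ℝ}
    (hx : x ∈ s) (hy : y ∈ s) : |φ y - φ x - lam * (y - x)| ≤ η * |lam| * |y - x| := by
  have hg : ∀ z ∈ s, HasDerivWithinAt (fun w => φ w - lam * w) (φ' z - lam) s z := by
    intro z hz
    have h1 := (h.deriv z hz).sub (((hasDerivAt_id z).const_mul lam).hasDerivWithinAt)
    rw [mul_one] at h1
    exact h1
  have := hs.norm_image_sub_le_of_norm_hasDerivWithin_le (f := fun w => φ w - lam * w)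
    (f' := fun z => φ' z - lam) (C := η * |lam|) hg (fun z hz => h.close z hz) hx hy
  have h2 : (φ y - lam * y) - (φ x - lam * x) = φ y - φ x - lam * (y - x) := by ring
  rw [← h2]; simpa using this

theorem NearAff.le_dist {s : Set ℝ} (hs : Convex ℝ s) (h : NearAff φ φ' s lam η) {x y : ℝ}
    (hx : x ∈ s) (hy : y ∈ s) : (1 - η) * |lam| * |y - x| ≤ |φ y - φ x| := by
  have h1 := h.dist_sub hs hx hy
  have h2 : |lam * (y - x)| ≤ |φ y - φ x| + |φ y - φ x - lam * (y - x)| := by
    have : lam * (y - x) = (φ y - φ x) - (φ y - φ x - lam * (y - x)) := by ring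
    calc |lam * (y - x)| = |(φ y - φ x) - (φ y - φ x - lam * (y - x))| := by rw [← this]
      _ ≤ _ := abs_sub _ _
  rw [abs_mul] at h2
  nlinarith

theorem NearAff.dist_le {s : Set ℝ} (hs : Convex ℝ s) (h : NearAff φ φ' s lam η) {x y : ℝ}
    (hx : x ∈ s) (hy : y ∈ s) : |φ y - φ x| ≤ (1 + η) * |lam| * |y - x| := by
  have h1 := h.dist_sub hs hx hy
  have h2 : |φ y - φ x| ≤ |lam * (y - x)| + |φ y - φ x - lam * (y - x)| := by
    have : φ y - φ x = lam * (y - x) + (φ y - φ x - lam * (y - x)) := by ring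
    calc |φ y - φ x| = |lam * (y - x) + (φ y - φ x - lam * (y - x))| := by rw [← this]
      _ ≤ _ := abs_add_le _ _
  rw [abs_mul] at h2
  nlinarith

theorem NearAff.injOn {s : Set ℝ} (hs : Convex ℝ s) (h : NearAff φ φ' s lam η) (hl : lam ≠ 0)
    (hη : η < 1) : InjOn φ s := by
  intro x hx y hy hxy
  have h1 := h.le_dist hs hx hy
  rw [hxy, sub_self, abs_zero] at h1
  have h2 : 0 < (1 - η) * |lam| := mul_pos (by linarith) (abs_pos.2 hl)
  have h3 : |y - x| ≤ 0 := by
    by_contra hcon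
    push Not at hcon
    have := mul_pos h2 hcon
    linarith
  have h4 : y - x = 0 := abs_eq_zero.1 (le_antisymm h3 (abs_nonneg _))
  linarith

/-- Measure distortion: lower bound for the image. -/
theorem NearAff.measure_preimage_le {s : Set ℝ} (hs : Convex ℝ s) (h : NearAff φ φ' s lam η)
    (hsm : MeasurableSet s) (hl : lam ≠ 0) (hη : η < 1) {A : Set ℝ} (hA : MeasurableSet A) :
    ENNReal.ofReal ((1 - η) * |lam|) * volume (s ∩ φ ⁻¹' A) ≤ volume (A ∩ φ '' s) := by
  have hinj := h.injOn hs hl hη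
  have hcont : ContinuousOn φ s := fun x hx => (h.deriv x hx).continuousWithinAt
  have hpm : MeasurableSet (s ∩ φ ⁻¹' A) := by
    have := (continuousOn_iff_continuous_domRestrict.1 hcont).measurable hA
    have h2 := MeasurableSet.subtype_image hsm this
    rwa [show Subtype.val '' (s.domRestrict φ ⁻¹' A) = s ∩ φ ⁻¹' A by
      ext x; simp [and_comm]] at h2
  have him : MeasurableSet (φ '' s) := by
    exact hsm.image_of_continuousOn_injOn hcont hinj
  have key := lintegral_image_eq_lintegral_abs_deriv_mul hsm h.deriv hinj (A.indicator 1)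
  rw [lintegral_indicator hA, Measure.restrict_restrict hA] at key
  simp only [Pi.one_apply, lintegral_const, one_mul, Measure.restrict_apply MeasurableSet.univ,
    univ_inter] at key
  rw [key]
  calc ENNReal.ofReal ((1 - η) * |lam|) * volume (s ∩ φ ⁻¹' A)
      = ∫⁻ x in s ∩ φ ⁻¹' A, ENNReal.ofReal ((1 - η) * |lam|) := by
        rw [setLIntegral_const]
    _ ≤ ∫⁻ x in s ∩ φ ⁻¹' A, ENNReal.ofReal |φ' x| * A.indicator 1 (φ x) := by
        refine setLIntegral_mono' hpm ?_
        intro x hx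
        rw [indicator_of_mem (by exact hx.2)]
        simp only [Pi.one_apply, mul_one]
        refine ENNReal.ofReal_le_ofReal ?_
        have h1 := h.close x hx.1
        have h2 : |lam| ≤ |φ' x| + |φ' x - lam| := by
          have : lam = φ' x - (φ' x - lam) := by ring
          calc |lam| = |φ' x - (φ' x - lam)| := by rw [← this]
            _ ≤ _ := abs_sub _ _
        linarith
    _ ≤ ∫⁻ x in s, ENNReal.ofReal |φ' x| * A.indicator 1 (φ x) :=
        lintegral_mono_set inter_subset_left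


/-- Image of an interval. -/
theorem NearAff.image_Icc (hab : a ≤ b) (h : NearAff φ φ' (Icc a b) lam η) (hl : lam ≠ 0)
    (hη : η < 1) : φ '' (Icc a b) = uIcc (φ a) (φ b) := by
  have hcont : ContinuousOn φ (Icc a b) := fun x hx => (h.deriv x hx).continuousWithinAt
  have hinj := h.injOn (convex_Icc a b) hl hη
  rcases hcont.strictMonoOn_of_injOn_Icc' hab hinj with hm | hm
  · rw [uIcc_of_le (hm.monotoneOn (left_mem_Icc.2 hab) (right_mem_Icc.2 hab) hab)]
    refine Subset.antisymm ?_ (intermediate_value_Icc hab hcont)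
    rintro _ ⟨x, hx, rfl⟩
    exact ⟨hm.monotoneOn (left_mem_Icc.2 hab) hx hx.1, hm.monotoneOn hx (right_mem_Icc.2 hab) hx.2⟩
  · rw [uIcc_of_ge (hm.antitoneOn (left_mem_Icc.2 hab) (right_mem_Icc.2 hab) hab)]
    refine Subset.antisymm ?_ (intermediate_value_Icc' hab hcont)
    rintro _ ⟨x, hx, rfl⟩
    exact ⟨hm.antitoneOn hx (right_mem_Icc.2 hab) hx.2, hm.antitoneOn (left_mem_Icc.2 hab) hx hx.1⟩

/-- A 1-periodic set meets an interval of length `L` in measure at most `(L + 1) |A ∩ [0,1)|`. -/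
theorem measure_periodic_inter_uIcc_le {A : Set ℝ} (hper : ∀ x, x ∈ A ↔ x + 1 ∈ A) (p q : ℝ) :
    volume (A ∩ uIcc p q) ≤ ENNReal.ofReal (|q - p| + 1) * volume (A ∩ Ico 0 1) := by
  -- translate of `A` by integers
  have hperZ : ∀ (n : ℤ) (x : ℝ), x ∈ A ↔ x + n ∈ A := by
    intro n
    induction n with
    | zero => intro x; simp
    | succ n ih =>
      intro x
      rw [ih x, hper (x + (n : ℤ))]
      push_cast
      rw [add_assoc]
    | pred n ih =>
      intro x
      have h1 := hper (x + ((-(n : ℤ) - 1 : ℤ) : ℝ))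
      have h2 : x + ((-(n : ℤ) - 1 : ℤ) : ℝ) + 1 = x + ((-(n : ℤ) : ℤ) : ℝ) := by push_cast; ring
      rw [h2] at h1
      rw [ih x, h1]
  have hone : ∀ c : ℝ, volume (A ∩ Ico c (c + 1)) ≤ volume (A ∩ Ico 0 1) := by
    intro c
    -- split at the integer `⌈c⌉`
    set n : ℤ := ⌈c⌉ with hn
    have hn1 : c ≤ n := Int.le_ceil c
    have hn2 : (n : ℝ) < c + 1 := Int.ceil_lt_add_one c
    have hsub : A ∩ Ico c (c + 1) ⊆ (A ∩ Ico c n) ∪ (A ∩ Ico (n : ℝ) (c + 1)) := by
      rintro x ⟨hxA, hx1, hx2⟩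
      rcases lt_or_ge x n with hxn | hxn
      · exact Or.inl ⟨hxA, hx1, hxn⟩
      · exact Or.inr ⟨hxA, hxn, hx2⟩
    have htr : ∀ (m : ℤ) (u v : ℝ), volume (A ∩ Ico u v) = volume (A ∩ Ico (u + m) (v + m)) := by
      intro m u v
      have : (fun x : ℝ => x + m) ⁻¹' (A ∩ Ico (u + m) (v + m)) = A ∩ Ico u v := by
        ext x
        simp only [mem_preimage, mem_inter_iff, mem_Ico, add_le_add_iff_right, add_lt_add_iff_right]
        rw [← hperZ m x]
      rw [← this]
      exact measure_preimage_add_right volume (m : ℝ) _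
    have h1 : volume (A ∩ Ico c n) = volume (A ∩ Ico (c - n + 1) 1) := by
      rw [htr (-n + 1) c n]
      congr 3
      · push_cast; ring
      · push_cast; ring
    have h2 : volume (A ∩ Ico (n : ℝ) (c + 1)) = volume (A ∩ Ico 0 (c - n + 1)) := by
      rw [htr (-n) n (c + 1)]
      congr 3
      · push_cast; ring
      · push_cast; ring
    have hdisj : volume (A ∩ Ico 0 (c - n + 1)) + volume (A ∩ Ico (c - n + 1) 1) ≤
        volume (A ∩ Ico 0 1) := by
      have hmem : MeasurableSet (Ico (0 : ℝ) (c - n + 1)) := measurableSet_Ico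
      rw [← measure_inter_add_sdiff (A ∩ Ico 0 1) hmem]
      refine add_le_add (measure_mono ?_) (measure_mono ?_)
      · rintro x ⟨hxA, hx1, hx2⟩
        exact ⟨⟨hxA, hx1, by linarith⟩, hx1, hx2⟩
      · rintro x ⟨hxA, hx1, hx2⟩
        exact ⟨⟨hxA, by linarith, hx2⟩, fun h => by linarith [h.2]⟩
    calc volume (A ∩ Ico c (c + 1)) ≤ volume ((A ∩ Ico c n) ∪ (A ∩ Ico (n : ℝ) (c + 1))) :=
          measure_mono hsub
      _ ≤ volume (A ∩ Ico c n) + volume (A ∩ Ico (n : ℝ) (c + 1)) := measure_union_le _ _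
      _ = volume (A ∩ Ico 0 (c - n + 1)) + volume (A ∩ Ico (c - n + 1) 1) := by
          rw [h1, h2, add_comm]
      _ ≤ _ := hdisj
  have hmain : ∀ c L : ℝ, 0 ≤ L → volume (A ∩ Icc c (c + L)) ≤
      ENNReal.ofReal (L + 1) * volume (A ∩ Ico 0 1) := by
    intro c L hL
    set N : ℕ := ⌊L⌋₊ + 1 with hN
    have hN1 : L < N := by rw [hN]; push_cast; exact Nat.lt_floor_add_one L
    have hN2 : (N : ℝ) ≤ L + 1 := by rw [hN]; push_cast; linarith [Nat.floor_le hL]
    have hsub : A ∩ Icc c (c + L) ⊆ ⋃ i ∈ Finset.range N, A ∩ Ico (c + i) (c + i + 1) := by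
      rintro x ⟨hxA, hx1, hx2⟩
      simp only [mem_iUnion, Finset.mem_range, exists_prop]
      refine ⟨⌊x - c⌋₊, ?_, hxA, ?_, ?_⟩
      · have h1 : (⌊x - c⌋₊ : ℝ) ≤ x - c := Nat.floor_le (by linarith)
        have h2 : (⌊x - c⌋₊ : ℝ) < N := by linarith
        exact_mod_cast h2
      · linarith [Nat.floor_le (show 0 ≤ x - c by linarith)]
      · linarith [Nat.lt_floor_add_one (x - c)]
    calc volume (A ∩ Icc c (c + L))
        ≤ volume (⋃ i ∈ Finset.range N, A ∩ Ico (c + i) (c + i + 1)) := measure_mono hsub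
      _ ≤ ∑ i ∈ Finset.range N, volume (A ∩ Ico (c + i) (c + i + 1)) :=
          measure_biUnion_finset_le _ _
      _ ≤ ∑ i ∈ Finset.range N, volume (A ∩ Ico 0 1) := Finset.sum_le_sum fun i _ => hone _
      _ = (N : ℝ≥0∞) * volume (A ∩ Ico 0 1) := by simp
      _ ≤ ENNReal.ofReal (L + 1) * volume (A ∩ Ico 0 1) := by
          gcongr
          rw [← ENNReal.ofReal_natCast]
          exact ENNReal.ofReal_le_ofReal hN2
  have := hmain (min p q) |q - p| (abs_nonneg _)
  have huIcc : uIcc p q = Icc (min p q) (min p q + |q - p|) := by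
    rw [uIcc]
    congr 1
    rcases le_total p q with h | h
    · rw [max_eq_right h, min_eq_left h, abs_of_nonneg (by linarith)]; ring
    · rw [max_eq_left h, min_eq_right h, abs_of_nonpos (by linarith)]; ring
  rw [huIcc]
  exact this

/-- **Equidistribution of a full unit curve**: if `φ` is nearly affine on `[a,b]` then the conditional
probability that `φ mod 1` lies in `A` is at most `(1+η + 1/(|lam|(b-a))) / (1-η)` times `|A|`. -/
theorem NearAff.equidistribution (hab : a < b) (h : NearAff φ φ' (Icc a b) lam η) (hl : lam ≠ 0)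
    (hη : η < 1) {A : Set ℝ} (hA : MeasurableSet A) (hper : ∀ x, x ∈ A ↔ x + 1 ∈ A) :
    volume (Icc a b ∩ φ ⁻¹' A) ≤
      ENNReal.ofReal (((1 + η) * |lam| * (b - a) + 1) / ((1 - η) * |lam|)) *
        volume (A ∩ Ico 0 1) := by
  have hpos : 0 < (1 - η) * |lam| := mul_pos (by linarith) (abs_pos.2 hl)
  have h1 := h.measure_preimage_le (convex_Icc a b) measurableSet_Icc hl hη hA
  rw [h.image_Icc hab.le hl hη] at h1
  have h2 := h1.trans (measure_periodic_inter_uIcc_le hper (φ a) (φ b))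
  have h3 : |φ b - φ a| ≤ (1 + η) * |lam| * (b - a) := by
    have := h.dist_le (convex_Icc a b) (left_mem_Icc.2 hab.le) (right_mem_Icc.2 hab.le)
    rwa [abs_of_pos (sub_pos.2 hab)] at this
  have h4 : ENNReal.ofReal ((1 - η) * |lam|) * volume (Icc a b ∩ φ ⁻¹' A) ≤
      ENNReal.ofReal ((1 + η) * |lam| * (b - a) + 1) * volume (A ∩ Ico 0 1) :=
    h2.trans (by gcongr)
  have hne : ENNReal.ofReal ((1 - η) * |lam|) ≠ 0 := by
    simpa using hpos
  rw [ENNReal.ofReal_div_of_pos hpos, ← ENNReal.mul_div_right_comm,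
    ENNReal.le_div_iff_mul_le (Or.inl hne) (Or.inl ENNReal.ofReal_ne_top), mul_comm]
  exact h4

end Crest.Agent.R128.CellA
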