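import Crest.Agent.R128.CellB
import Crest.Agent.R128.CellA2

/-!
# LocA, definitions (row 128, helper595)

One side of a two-sided orbit through `c`, as a holomorphic family of orbits: `Y n t`, derivative `D n t`
(instances: `y k c n t`, `yd k c n t`, and the same precomposed with `t ↦ F - t`).
-/

set_option autoImplicit false

open MeasureTheory Metric Set
open Crest.Agent.R128 Crest.Agent.R128.Cell Crest.Agent.R128.CellB

namespace Crest.Agent.R128.LocA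

/-- one side: a holomorphic family of orbits on `S` -/
structure CO (k : ℝ) (S : Set ℂ) (Y D : ℕ → ℂ → ℂ) : Prop where
  deriv : ∀ n, ∀ t ∈ S, HasDerivAt (Y n) (D n t) t
  step : ∀ n, ∀ t ∈ S, D (n + 2) t = cV k (Y (n + 1) t) * D (n + 1) t - D n t
  real : ∀ n (x : ℝ), (Y n (x : ℂ)).im = 0
  realD : ∀ n (x : ℝ), (D n (x : ℂ)).im = 0

theorem CO.mono {k : ℝ} {S S' : Set ℂ} {Y D : ℕ → ℂ → ℂ} (h : CO k S Y D) (hs : S' ⊆ S) :
    CO k S' Y D :=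
  ⟨fun n t ht => h.deriv n t (hs ht), fun n t ht => h.step n t (hs ht), h.real, h.realD⟩

/-- the curve `Y (n+1)` is nearly affine on the complex disc `ball t₁ r` -/
structure NA (Y D : ℕ → ℂ → ℂ) (n : ℕ) (t₁ r η : ℝ) : Prop where
  close : ∀ t ∈ ball (t₁ : ℂ) r, ‖D (n + 1) t - D (n + 1) t₁‖ ≤ η * ‖D (n + 1) t₁‖
  prev : ∀ t ∈ ball (t₁ : ℂ) r, ‖D n t‖ ≤ ‖D (n + 1) t₁‖

/-- size of the digit at the position `Y m t` -/
noncomputable def vv (k : ℝ) (Y : ℕ → ℂ → ℂ) (m : ℕ) (t : ℂ) : ℝ := ‖cV k (Y m t)‖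

/-- start data of one side at the real point `t₁`: the curve `Y (n0+1)` is nearly affine on
`ball t₁ r0` and its image is tiny, and the next `J` digits of `t₁` are at least `A`. -/
structure Start (k : ℝ) (Y D : ℕ → ℂ → ℂ) (n0 : ℕ) (t₁ r0 η A : ℝ) (J : ℕ) : Prop where
  co : CO k (ball (t₁ : ℂ) r0) Y D
  na : NA Y D n0 t₁ r0 η
  pos : 0 < r0
  ne : D (n0 + 1) t₁ ≠ 0
  small : 10 ^ 10 * k * (‖D (n0 + 1) t₁‖ * r0) ≤ A
  dig : ∀ j < J, A ≤ vv k Y (n0 + 1 + j) t₁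

/-- the radius on which the curve `Y (n0+1+j)` is nearly affine -/
noncomputable def rad (k : ℝ) (Y D : ℕ → ℂ → ℂ) (n0 : ℕ) (r0 t₁ : ℝ) : ℕ → ℝ
  | 0 => r0
  | j + 1 => min r0 (1 / 10 ^ 10 * vv k Y (n0 + 1 + j) t₁ / (k * ‖D (n0 + 1 + j) t₁‖))

/-- numerical parameters: `A0` digits at the base point, `A` digits everywhere, `δ` first size,
`κ k` macroscopic digits -/
structure Num (k A0 A δ : ℝ) : Prop where
  k_large : 10 ^ 100 ≤ k
  n1 : 10 ^ 8 * k * δ ≤ A0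
  n2 : 10 ^ 8 * A ≤ k * δ
  n3 : 10 ^ 30 ≤ A * δ
  n4 : 10 ^ 40 * k ≤ A ^ 2
  n5 : 2 * A ≤ A0
  n6 : δ ≤ 1
  n7 : 10 ^ 90 ≤ A


/-- exit index of one side at the base point `t₀` for a cell of length `ρ` -/
structure Exit (D : ℕ → ℂ → ℂ) (n0 jS : ℕ) (t₀ ρ δ : ℝ) : Prop where
  before : ∀ j < jS, ‖D (n0 + 1 + j) t₀‖ * ρ ≤ δ
  at_exit : δ ≤ ‖D (n0 + 1 + jS) t₀‖ * ρ

end Crest.Agent.R128.LocA
private theorem rz_0da6199be9 : type_of% @_root_.Crest.Agent.R128.LocA.rad.eq_1 := @_root_.Crest.Agent.R128.LocA.rad.eq_1 -- L48
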