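import Mathlib

/-!
# Remez / Cartan type estimates for bounded analytic functions (row 128 helper library)

All statements are about a function `f` on a complex disc `closedBall c R`, bounded by `M` there and of
modulus `≥ m` at the center, `M ≤ 2 ^ N * m`:

* `exists_factorization`: `f = h · ∏ (Blaschke factors)` with at most `N` factors and `h` zero free
  on the half disc;
* `card_zeros_le`: at most `N` zeros in the half disc;
* `remez`: the measure of `{x ∈ ℝ, |x - c| ≤ R/4, ‖f x‖ ≤ ε}` is at most `12 R (ε/m)^(1/(2N))`;
* `sublevel_eq_iUnion`: a sublevel set of a continuous real function with at most `n` zeros is a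
  union of at most `n + 1` intervals.
-/

set_option autoImplicit false

open Metric Set MeasureTheory
open scoped ComplexConjugate NNReal ENNReal

namespace Crest.Agent.R128.Remez









/-! ### Cartan's estimate on the real line -/


/-- The truncated kernel `|y|^(-1/2)` on `|y| ≤ t`. -/
noncomputable def ker (t y : ℝ) : ℝ := if |y| ≤ t then |y| ^ (-(1 / 2) : ℝ) else 0






/-! ### Consequences for bounded analytic functions on a disc with arbitrary center -/






/-! ### Components of sublevel sets -/





end Crest.Agent.R128.Remez
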