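import Mathlib
import Crest.Agent.R128.Coc
import Crest.Agent.R128.Remez

-- ▼ part R128/CellOrb
section

set_option autoImplicit false

open MeasureTheory Filter Topology
open Crest.Agent.R128

/-!
Complexified orbit of the standard map in the coordinates `(x_{n-1}, x_n)` (row 128; helper421).
-/

namespace Crest.Agent.R128.Cell

/-- the complexified map in the coordinates `(x_{n-1}, x_n)` -/
noncomputable def cstep (k : ℝ) (p : ℂ × ℂ) : ℂ × ℂ :=
  (p.2, 2 * p.2 + k * Complex.sin (2 * Real.pi * p.2) - p.1)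

noncomputable def corb (k : ℝ) (n : ℕ) (p : ℂ × ℂ) : ℂ × ℂ := (cstep k)^[n] p

/-- the position `x_n` as a function of `(x_{-1}, x_0)` -/
noncomputable def X (k : ℝ) (n : ℕ) (p : ℂ × ℂ) : ℂ := (corb k n p).2

noncomputable def cV (k : ℝ) (x : ℂ) : ℂ := 2 + 2 * Real.pi * k * Complex.cos (2 * Real.pi * x)

noncomputable def cAm (k : ℝ) (p : ℂ × ℂ) : Matrix (Fin 2) (Fin 2) ℂ := !![0, 1; -1, cV k p.2]

/-- the complex cocycle -/
noncomputable def Mc (k : ℝ) : ℕ → ℂ × ℂ → Matrix (Fin 2) (Fin 2) ℂ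
  | 0, _ => 1
  | n + 1, p => Mc k n (cstep k p) * cAm k p

@[simp] theorem corb_zero (k : ℝ) (p : ℂ × ℂ) : corb k 0 p = p := rfl

theorem corb_succ (k : ℝ) (n : ℕ) (p : ℂ × ℂ) : corb k (n + 1) p = corb k n (cstep k p) := rfl

theorem corb_succ' (k : ℝ) (n : ℕ) (p : ℂ × ℂ) : corb k (n + 1) p = cstep k (corb k n p) := by
  unfold corb
  rw [Function.iterate_succ_apply']


theorem corb_succ_fst (k : ℝ) (n : ℕ) (p : ℂ × ℂ) : (corb k (n + 1) p).1 = X k n p := by
  rw [corb_succ']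
  rfl

@[simp] theorem X_zero (k : ℝ) (p : ℂ × ℂ) : X k 0 p = p.2 := rfl


theorem X_rec (k : ℝ) (n : ℕ) (p : ℂ × ℂ) :
    X k (n + 2) p = 2 * X k (n + 1) p + k * Complex.sin (2 * Real.pi * X k (n + 1) p)
      - X k n p := by
  have h : X k (n + 2) p = (cstep k (corb k (n + 1) p)).2 := by
    unfold X
    rw [corb_succ']
  rw [h]
  unfold cstep
  rw [corb_succ_fst]
  rfl




/-- action of a matrix on a pair -/
def cact (M : Matrix (Fin 2) (Fin 2) ℂ) (v : ℂ × ℂ) : ℂ × ℂ :=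
  (M 0 0 * v.1 + M 0 1 * v.2, M 1 0 * v.1 + M 1 1 * v.2)

theorem cact_mul (M N : Matrix (Fin 2) (Fin 2) ℂ) (v : ℂ × ℂ) :
    cact (M * N) v = cact M (cact N v) := by
  unfold cact
  simp only [Matrix.mul_apply, Fin.sum_univ_two]
  ext <;> simp <;> ring

@[simp] theorem cact_one (v : ℂ × ℂ) : cact 1 v = v := by
  unfold cact
  ext <;> simp

@[simp] theorem Mc_zero (k : ℝ) (p : ℂ × ℂ) : Mc k 0 p = 1 := rfl

theorem Mc_succ (k : ℝ) (n : ℕ) (p : ℂ × ℂ) : Mc k (n + 1) p = Mc k n (cstep k p) * cAm k p := rfl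

theorem Mc_add (k : ℝ) (m n : ℕ) (p : ℂ × ℂ) :
    Mc k (m + n) p = Mc k m (corb k n p) * Mc k n p := by
  induction n generalizing p with
  | zero => simp
  | succ n ih =>
    rw [← Nat.add_assoc, Mc_succ, ih, Mc_succ, Matrix.mul_assoc, corb_succ]

theorem Mc_succ' (k : ℝ) (n : ℕ) (p : ℂ × ℂ) :
    Mc k (n + 1) p = cAm k (corb k n p) * Mc k n p := by
  rw [add_comm, Mc_add, Mc_succ, Mc_zero, one_mul]



theorem hasDerivAt_sin2pi (k : ℝ) (x : ℂ) :
    HasDerivAt (fun x : ℂ => 2 * x + k * Complex.sin (2 * Real.pi * x)) (cV k x) x := by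
  have h1 : HasDerivAt (fun x : ℂ => 2 * (Real.pi : ℂ) * x) (2 * Real.pi) x := by
    simpa using (hasDerivAt_id x).const_mul (2 * (Real.pi : ℂ))
  have h2 := (h1.csin).const_mul (k : ℂ)
  have h3 : HasDerivAt (fun x : ℂ => 2 * x) 2 x := by
    simpa using (hasDerivAt_id x).const_mul (2 : ℂ)
  refine (h3.add h2).congr_deriv ?_
  unfold cV
  ring




theorem cact_succ_fst (k : ℝ) (n : ℕ) (p v : ℂ × ℂ) :
    (cact (Mc k (n + 1) p) v).1 = (cact (Mc k n p) v).2 := by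
  rw [Mc_succ', cact_mul]
  unfold cAm
  simp [cact]

/-- the second components of the linearised orbit satisfy the second order recursion -/
theorem cact_rec (k : ℝ) (n : ℕ) (p v : ℂ × ℂ) :
    (cact (Mc k (n + 2) p) v).2 = cV k (X k (n + 1) p) * (cact (Mc k (n + 1) p) v).2
      - (cact (Mc k n p) v).2 := by
  have h : (cact (Mc k (n + 2) p) v) = cact (cAm k (corb k (n + 1) p)) (cact (Mc k (n + 1) p) v) := by
    rw [Mc_succ', cact_mul]
  have e : ∀ (q w : ℂ × ℂ), (cact (cAm k q) w).2 = cV k q.2 * w.2 - w.1 := by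
    intro q w
    unfold cact cAm
    simp
    ring
  rw [h, e, cact_succ_fst]
  rfl


theorem cact_one_snd (k : ℝ) (p v : ℂ × ℂ) :
    (cact (Mc k 1 p) v).2 = cV k p.2 * v.2 - v.1 := by
  rw [show (1 : ℕ) = 0 + 1 from rfl, Mc_succ']
  simp [cact, cAm]
  ring

/-! ### conjugation and real points -/

/-- complex conjugation on pairs -/
noncomputable def cj (p : ℂ × ℂ) : ℂ × ℂ := (starRingEnd ℂ p.1, starRingEnd ℂ p.2)

theorem cstep_cj (k : ℝ) (p : ℂ × ℂ) : cstep k (cj p) = cj (cstep k p) := by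
  unfold cstep cj
  have h2 : (starRingEnd ℂ) (2 : ℂ) = 2 := Complex.conj_ofReal 2
  simp [← Complex.sin_conj, h2]

theorem corb_cj (k : ℝ) (n : ℕ) (p : ℂ × ℂ) : corb k n (cj p) = cj (corb k n p) := by
  induction n generalizing p with
  | zero => rfl
  | succ n ih => rw [corb_succ, corb_succ, cstep_cj, ih]

theorem X_cj (k : ℝ) (n : ℕ) (p : ℂ × ℂ) : X k n (cj p) = starRingEnd ℂ (X k n p) := by
  unfold X
  rw [corb_cj]
  rfl

/-- the real map -/
noncomputable def rstep (k : ℝ) (p : ℝ × ℝ) : ℝ × ℝ :=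
  (p.2, 2 * p.2 + k * Real.sin (2 * Real.pi * p.2) - p.1)

noncomputable def rorb (k : ℝ) (n : ℕ) (p : ℝ × ℝ) : ℝ × ℝ := (rstep k)^[n] p

/-- a real point as a complex point -/
def toC (p : ℝ × ℝ) : ℂ × ℂ := ((p.1 : ℂ), (p.2 : ℂ))

theorem cstep_toC (k : ℝ) (p : ℝ × ℝ) : cstep k (toC p) = toC (rstep k p) := by
  unfold cstep toC rstep
  simp

theorem corb_toC (k : ℝ) (n : ℕ) (p : ℝ × ℝ) : corb k n (toC p) = toC (rorb k n p) := by
  induction n generalizing p with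
  | zero => rfl
  | succ n ih =>
    rw [corb_succ, cstep_toC, ih]
    rfl

theorem X_toC (k : ℝ) (n : ℕ) (p : ℝ × ℝ) : X k n (toC p) = ((rorb k n p).2 : ℂ) := by
  unfold X
  rw [corb_toC]
  rfl

theorem pr_rstep (k : ℝ) (p : ℝ × ℝ) : pr (rstep k p) = T k (pr p) := by
  unfold pr rstep T
  simp only [sk_coe]
  ext
  · simp
  · simp only [AddCircle.coe_add, AddCircle.coe_sub]
    rw [two_mul, AddCircle.coe_add]

theorem pr_rorb (k : ℝ) (n : ℕ) (p : ℝ × ℝ) : pr (rorb k n p) = (T k)^[n] (pr p) := by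
  induction n generalizing p with
  | zero => rfl
  | succ n ih =>
    have : rorb k (n + 1) p = rorb k n (rstep k p) := rfl
    rw [this, ih, pr_rstep, Function.iterate_succ_apply]

theorem cV_ofReal (k x : ℝ) : cV k (x : ℂ) = ((V k (x : UnitAddCircle) : ℝ) : ℂ) := by
  rw [V_coe]
  unfold cV
  simp

theorem cAm_toC (k : ℝ) (p : ℝ × ℝ) : cAm k (toC p) = (Am k (pr p)).map Complex.ofReal := by
  unfold cAm Am toC pr
  simp only [cV_ofReal]
  ext i j
  fin_cases i <;> fin_cases j <;> simp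

/-- at real points the complex cocycle is the real one -/
theorem Mc_toC (k : ℝ) (n : ℕ) (p : ℝ × ℝ) :
    Mc k n (toC p) = (Mn k n (pr p)).map Complex.ofReal := by
  induction n generalizing p with
  | zero =>
    simp [Matrix.map_one]
  | succ n ih =>
    rw [Mc_succ, Mn_succ, cstep_toC, ih, pr_rstep, cAm_toC]
    exact (Matrix.map_mul (f := Complex.ofRealHom)).symm

theorem Mc_toC_apply (k : ℝ) (n : ℕ) (p : ℝ × ℝ) (i j : Fin 2) :
    Mc k n (toC p) i j = ((Mn k n (pr p) i j : ℝ) : ℂ) := by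
  rw [Mc_toC]
  rfl

/-! ### reversibility -/



end Crest.Agent.R128.Cell
end

-- ▼ part R128/CellB

set_option autoImplicit false

open MeasureTheory Filter Topology Metric
open Crest.Agent.R128 Crest.Agent.R128.Cell

/-!
Un-stretched discs and polydiscs of the complexified standard map (row 128, node CELL; helper421).

`y k c n t` : orbit with `x_0 = c`, `x_1 = t` (so `y (n+1) t = X k n (c, t)`), `yd` its derivative
in `t`.
-/

namespace Crest.Agent.R128.CellB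

/-- the orbit of the curve `x_0 = c`, `x_1 = t` -/
noncomputable def y (k : ℝ) (c : ℂ) : ℕ → ℂ → ℂ
  | 0, _ => c
  | 1, t => t
  | n + 2, t => 2 * y k c (n + 1) t + k * Complex.sin (2 * Real.pi * y k c (n + 1) t) - y k c n t

/-- the derivative of `y` with respect to `t` -/
noncomputable def yd (k : ℝ) (c : ℂ) : ℕ → ℂ → ℂ
  | 0, _ => 0
  | 1, _ => 1
  | n + 2, t => cV k (y k c (n + 1) t) * yd k c (n + 1) t - yd k c n t

@[simp] theorem y_zero (k : ℝ) (c t : ℂ) : y k c 0 t = c := rfl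
@[simp] theorem y_one (k : ℝ) (c t : ℂ) : y k c 1 t = t := rfl
theorem y_add_two (k : ℝ) (c : ℂ) (n : ℕ) (t : ℂ) : y k c (n + 2) t =
    2 * y k c (n + 1) t + k * Complex.sin (2 * Real.pi * y k c (n + 1) t) - y k c n t := rfl
@[simp] theorem yd_zero (k : ℝ) (c t : ℂ) : yd k c 0 t = 0 := rfl
@[simp] theorem yd_one (k : ℝ) (c t : ℂ) : yd k c 1 t = 1 := rfl
theorem yd_add_two (k : ℝ) (c : ℂ) (n : ℕ) (t : ℂ) : yd k c (n + 2) t =
    cV k (y k c (n + 1) t) * yd k c (n + 1) t - yd k c n t := rfl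

theorem y_succ (k : ℝ) (c : ℂ) (n : ℕ) (t : ℂ) : y k c (n + 1) t = X k n (c, t) := by
  induction n using Nat.strong_induction_on with
  | _ n ih =>
    match n with
    | 0 => rfl
    | 1 => rfl
    | n + 2 => rw [X_rec, y_add_two, ih (n + 1) (by omega), ih n (by omega)]

theorem hasDerivAt_y (k : ℝ) (c : ℂ) (n : ℕ) (t : ℂ) : HasDerivAt (y k c n) (yd k c n t) t := by
  induction n using Nat.strong_induction_on with
  | _ n ih =>
    match n with
    | 0 => exact hasDerivAt_const t c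
    | 1 => exact hasDerivAt_id t
    | n + 2 =>
      have h1 := ih (n + 1) (by omega)
      have h2 := ih n (by omega)
      have h3 := (hasDerivAt_sin2pi k (y k c (n + 1) t)).comp t h1
      exact h3.sub h2


theorem differentiable_y (k : ℝ) (c : ℂ) (n : ℕ) : Differentiable ℂ (y k c n) :=
  fun t => (hasDerivAt_y k c n t).differentiableAt

/-- the derivative in `t` is the image of the vector `(0, 1)` -/
theorem yd_eq (k : ℝ) (c : ℂ) (n : ℕ) (t : ℂ) :
    yd k c (n + 1) t = (cact (Mc k n (c, t)) (0, 1)).2 := by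
  induction n using Nat.strong_induction_on with
  | _ n ih =>
    match n with
    | 0 => simp
    | 1 =>
      rw [cact_one_snd, yd_add_two]
      simp
    | n + 2 =>
      rw [cact_rec, yd_add_two, ih (n + 1) (by omega), ih n (by omega), y_succ]

theorem yd_eq_entry (k : ℝ) (c : ℂ) (n : ℕ) (t : ℂ) : yd k c (n + 1) t = Mc k n (c, t) 1 1 := by
  rw [yd_eq]
  simp [cact]

theorem yd_eq_entry' (k : ℝ) (c : ℂ) (n : ℕ) (t : ℂ) : yd k c n t = Mc k n (c, t) 0 1 := by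
  cases n with
  | zero => simp
  | succ n =>
    have h := cact_succ_fst k n (c, t) (0, 1)
    rw [yd_eq, ← h]
    simp [cact]

/-- real orbits -/
theorem y_ofReal (k c : ℝ) (n : ℕ) (t : ℝ) :
    y k c (n + 1) (t : ℂ) = ((rorb k n (c, t)).2 : ℂ) := by
  rw [y_succ, ← X_toC]
  rfl

theorem im_y_ofReal (k c : ℝ) (n : ℕ) (t : ℝ) : (y k c n (t : ℂ)).im = 0 := by
  cases n with
  | zero => simp
  | succ n => rw [y_ofReal]; simp

theorem yd_ofReal (k c : ℝ) (n : ℕ) (t : ℝ) :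
    yd k c n (t : ℂ) = ((Mn k n (pr (c, t)) 0 1 : ℝ) : ℂ) := by
  rw [yd_eq_entry', ← Mc_toC_apply]
  rfl

theorem yd_ofReal' (k c : ℝ) (n : ℕ) (t : ℝ) :
    yd k c (n + 1) (t : ℂ) = ((Mn k n (pr (c, t)) 1 1 : ℝ) : ℂ) := by
  rw [yd_eq_entry, ← Mc_toC_apply]
  rfl

/-- conjugation symmetry -/
theorem y_conj (k c : ℝ) (n : ℕ) (t : ℂ) :
    y k c n (starRingEnd ℂ t) = starRingEnd ℂ (y k c n t) := by
  cases n with
  | zero => simp
  | succ n =>
    rw [y_succ, y_succ, ← X_cj]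
    simp [cj]

/-! ### size of the coefficients in the strip -/

theorem norm_cos_le (z : ℂ) : ‖Complex.cos z‖ ≤ Real.exp |z.im| := by
  unfold Complex.cos
  rw [norm_div]
  have h1 : ‖Complex.exp (z * Complex.I)‖ ≤ Real.exp |z.im| := by
    rw [Complex.norm_exp]
    apply Real.exp_le_exp.mpr
    simp
    exact neg_le_abs _
  have h2 : ‖Complex.exp (-z * Complex.I)‖ ≤ Real.exp |z.im| := by
    rw [Complex.norm_exp]
    apply Real.exp_le_exp.mpr
    simp
    exact le_abs_self _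
  have h3 := norm_add_le (Complex.exp (z * Complex.I)) (Complex.exp (-z * Complex.I))
  have h4 : ‖(2 : ℂ)‖ = 2 := by simp
  rw [h4]
  linarith

theorem norm_sin_le (z : ℂ) : ‖Complex.sin z‖ ≤ Real.exp |z.im| := by
  have h := norm_cos_le (z - Real.pi / 2)
  rw [Complex.cos_sub_pi_div_two] at h
  have e : (z - (Real.pi : ℂ) / 2).im = z.im := by
    have : ((Real.pi : ℂ) / 2).im = 0 := by
      have : ((Real.pi : ℂ) / 2) = ((Real.pi / 2 : ℝ) : ℂ) := by push_cast; rfl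
      rw [this, Complex.ofReal_im]
    rw [Complex.sub_im, this, sub_zero]
  rwa [e] at h

/-- bound of `|V|` on the strip `|Im x| ≤ 1` -/
noncomputable def CV (k : ℝ) : ℝ := 2 + 2 * Real.pi * |k| * Real.exp (2 * Real.pi)

theorem CV_ge (k : ℝ) : 2 ≤ CV k := by
  unfold CV
  have : 0 ≤ 2 * Real.pi * |k| * Real.exp (2 * Real.pi) := by positivity
  linarith

theorem two_pi_im (z : ℂ) : (2 * (Real.pi : ℂ) * z).im = 2 * Real.pi * z.im := by
  have : (2 * (Real.pi : ℂ) * z) = ((2 * Real.pi : ℝ) : ℂ) * z := by push_cast; rfl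
  rw [this, Complex.im_ofReal_mul]

theorem norm_cV_le (k : ℝ) {z : ℂ} (hz : |z.im| ≤ 1) : ‖cV k z‖ ≤ CV k := by
  unfold cV CV
  have h1 := norm_cos_le (2 * Real.pi * z)
  rw [two_pi_im] at h1
  have h2 : |2 * Real.pi * z.im| ≤ 2 * Real.pi := by
    rw [abs_mul, abs_of_pos (by positivity : 0 < 2 * Real.pi)]
    have := Real.pi_pos
    nlinarith
  have h3 : ‖Complex.cos (2 * Real.pi * z)‖ ≤ Real.exp (2 * Real.pi) :=
    h1.trans (Real.exp_le_exp.mpr h2)
  have h4 : ‖(2 : ℂ) + 2 * Real.pi * k * Complex.cos (2 * Real.pi * z)‖ ≤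
      2 + ‖2 * (Real.pi : ℂ) * k * Complex.cos (2 * Real.pi * z)‖ := by
    refine (norm_add_le _ _).trans ?_
    simp
  refine h4.trans ?_
  rw [norm_mul]
  have h5 : ‖2 * (Real.pi : ℂ) * k‖ = 2 * Real.pi * |k| := by
    rw [norm_mul, norm_mul]
    simp [abs_of_pos Real.pi_pos]
  rw [h5]
  have h6 : 0 ≤ 2 * Real.pi * |k| := by positivity
  nlinarith [mul_le_mul_of_nonneg_left h3 h6]

theorem hasDerivAt_cV (k : ℝ) (z : ℂ) :
    HasDerivAt (cV k) (-(4 * Real.pi ^ 2 * k * Complex.sin (2 * Real.pi * z))) z := by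
  have h1 : HasDerivAt (fun x : ℂ => 2 * (Real.pi : ℂ) * x) (2 * Real.pi) z := by
    simpa using (hasDerivAt_id z).const_mul (2 * (Real.pi : ℂ))
  have h2 := (h1.ccos).const_mul (2 * (Real.pi : ℂ) * k)
  have h3 := h2.const_add 2
  refine h3.congr_deriv ?_
  ring

/-- Lipschitz constant of `V` on the strip -/
noncomputable def CL (k : ℝ) : ℝ := 4 * Real.pi ^ 2 * |k| * Real.exp (2 * Real.pi)

theorem CL_nonneg (k : ℝ) : 0 ≤ CL k := by
  unfold CL
  positivity

theorem norm_deriv_cV_le (k : ℝ) {z : ℂ} (hz : |z.im| ≤ 1) :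
    ‖-(4 * (Real.pi : ℂ) ^ 2 * k * Complex.sin (2 * Real.pi * z))‖ ≤ CL k := by
  unfold CL
  have h1 := norm_sin_le (2 * Real.pi * z)
  rw [two_pi_im] at h1
  have h2 : |2 * Real.pi * z.im| ≤ 2 * Real.pi := by
    rw [abs_mul, abs_of_pos (by positivity : 0 < 2 * Real.pi)]
    have := Real.pi_pos
    nlinarith
  have h3 : ‖Complex.sin (2 * Real.pi * z)‖ ≤ Real.exp (2 * Real.pi) :=
    h1.trans (Real.exp_le_exp.mpr h2)
  rw [norm_neg, norm_mul]
  have h5 : ‖4 * (Real.pi : ℂ) ^ 2 * k‖ = 4 * Real.pi ^ 2 * |k| := by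
    rw [norm_mul, norm_mul, norm_pow]
    simp [abs_of_pos Real.pi_pos]
  rw [h5]
  exact mul_le_mul_of_nonneg_left h3 (by positivity)

theorem convex_strip : Convex ℝ {z : ℂ | |z.im| ≤ 1} := by
  have : {z : ℂ | |z.im| ≤ 1} = Complex.imLm ⁻¹' (Set.Icc (-1) 1) := by
    ext z
    simp [abs_le]
  rw [this]
  exact (convex_Icc (-1 : ℝ) 1).linear_preimage _

theorem norm_cV_sub_le (k : ℝ) {z w : ℂ} (hz : |z.im| ≤ 1) (hw : |w.im| ≤ 1) :
    ‖cV k z - cV k w‖ ≤ CL k * ‖z - w‖ := by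
  have := convex_strip.norm_image_sub_le_of_norm_hasDerivWithin_le (f := cV k)
    (f' := fun z => -(4 * (Real.pi : ℂ) ^ 2 * k * Complex.sin (2 * Real.pi * z)))
    (fun x _ => (hasDerivAt_cV k x).hasDerivWithinAt) (fun x hx => norm_deriv_cV_le k hx)
    (show w ∈ {z : ℂ | |z.im| ≤ 1} from hw) (show z ∈ {z : ℂ | |z.im| ≤ 1} from hz)
  exact this

/-! ### un-stretched discs -/

/-- the orbit of the disc `ball t₀ R` of the curve `x_0 = c` stays in `|Im| ≤ 1` up to time `n` -/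
def unst (k : ℝ) (c : ℂ) (n : ℕ) (t₀ : ℂ) (R : ℝ) : Prop :=
  ∀ t ∈ ball t₀ R, ∀ m ≤ n, |(y k c m t).im| ≤ 1

theorem unst.mono {k : ℝ} {c : ℂ} {n m : ℕ} {t₀ : ℂ} {R : ℝ} (h : unst k c n t₀ R) (hm : m ≤ n) :
    unst k c m t₀ R := fun t ht j hj => h t ht j (hj.trans hm)

theorem unst.sub {k : ℝ} {c : ℂ} {n : ℕ} {t₀ t₁ : ℂ} {R R' : ℝ} (h : unst k c n t₀ R)
    (hs : ball t₁ R' ⊆ ball t₀ R) : unst k c n t₁ R' := fun t ht j hj => h t (hs ht) j hj







/-! ### un-stretched polydiscs -/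

/-- the orbit of the polydisc `ball p R` (sup norm of `ℂ × ℂ`) stays in `|Im| ≤ 1` up to time
`n` -/
def unst2 (k : ℝ) (n : ℕ) (p : ℂ × ℂ) (R : ℝ) : Prop :=
  ∀ q ∈ ball p R, |q.1.im| ≤ 1 ∧ ∀ m ≤ n, |(X k m q).im| ≤ 1

theorem unst2.mono {k : ℝ} {n m : ℕ} {p : ℂ × ℂ} {R : ℝ} (h : unst2 k n p R) (hm : m ≤ n) :
    unst2 k m p R := fun q hq => ⟨(h q hq).1, fun j hj => (h q hq).2 j (hj.trans hm)⟩

theorem unst2.sub {k : ℝ} {n : ℕ} {p q : ℂ × ℂ} {R R' : ℝ} (h : unst2 k n p R)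
    (hs : ball q R' ⊆ ball p R) : unst2 k n q R' := fun z hz => h z (hs hz)

/-- a polydisc contains its vertical disc -/
theorem unst2.unst {k : ℝ} {n : ℕ} {c t₀ : ℂ} {R : ℝ} (h : unst2 k n (c, t₀) R) (hR : 0 < R) :
    unst k c (n + 1) t₀ R := by
  intro t ht m hm
  have hq : (c, t) ∈ ball (c, t₀) R := by
    rw [mem_ball, dist_eq_norm] at ht ⊢
    simpa [Prod.norm_def, hR] using ht
  cases m with
  | zero => exact (h _ hq).1
  | succ m =>
    rw [y_succ]
    exact (h _ hq).2 m (by omega)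







end Crest.Agent.R128.CellB
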