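import Mathlib
import Crest.Agent.R128.CellB
import Crest.Agent.R128.CellA2
import Crest.Agent.R128.AlignLam

-- ▼ part R128/CellDy
section

/-!
# Dyadic cells (row 128, node CELL-DYADIC; helper425)

The point `p = (x_{-1}, x_0)` is complexified in both coordinates.  `unst2 k n p R` (CellB) says
that the orbit of the polydisc of centre `p` and radius `R` has imaginary part at most `1` up to
time `n`.  `nex k N p R` is the last such time (at most `N`).  For a dyadic interval
`I = Iv j a = [a 2^-j, (a+1) 2^-j)` of the `t`-axis (`x_{-1} = c` fixed, `x_0 = t`) the polydisc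
has centre the midpoint and radius `4 |I|`; right side `t`, left side `kap k c - t`.
-/

set_option autoImplicit false

open Metric Set MeasureTheory
open Crest.Agent.R128

namespace Crest.Agent.R128.CellDy

open Crest.Agent.R128.Cell Crest.Agent.R128.CellB

/-! ### exit times of polydiscs -/

open Classical in
/-- last time at most `N` up to which the polydisc is un-stretched -/
noncomputable def nex (k : ℝ) (N : ℕ) (p : ℂ × ℂ) (R : ℝ) : ℕ :=
  Nat.findGreatest (fun n => unst2 k n p R) N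


theorem unst2_nex {k : ℝ} {N : ℕ} {p : ℂ × ℂ} {R : ℝ} (h0 : unst2 k 0 p R) :
    unst2 k (nex k N p R) p R := by
  classical
  exact Nat.findGreatest_spec (P := fun n => unst2 k n p R) (Nat.zero_le N) h0


theorem not_unst2_of_nex_lt {k : ℝ} {N n : ℕ} {p : ℂ × ℂ} {R : ℝ} (h : nex k N p R < n)
    (hn : n ≤ N) : ¬ unst2 k n p R := by
  classical
  exact Nat.findGreatest_is_greatest h hn

/-- At the exit time the polydisc is stretched. -/
theorem exists_exit {k : ℝ} {N : ℕ} {p : ℂ × ℂ} {R : ℝ} (h0 : unst2 k 0 p R)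
    (h : nex k N p R < N) : ∃ q ∈ ball p R, 1 < |(X k (nex k N p R + 1) q).im| := by
  have h1 := not_unst2_of_nex_lt (Nat.lt_succ_self (nex k N p R)) h
  have h2 := unst2_nex (N := N) h0
  by_contra hcon
  push Not at hcon
  refine h1 fun q hq => ⟨(h2 q hq).1, fun m hm => ?_⟩
  rcases Nat.lt_or_ge m (nex k N p R + 1) with hm' | hm'
  · exact (h2 q hq).2 m (Nat.lt_succ_iff.1 hm')
  · have : m = nex k N p R + 1 := le_antisymm hm hm'
    rw [this]
    exact hcon q hq






/-! ### dyadic intervals -/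

/-- length of a dyadic interval of level `j` -/
noncomputable def len (j : ℕ) : ℝ := (1 / 2 : ℝ) ^ j




















/-! ### the two sides -/

/-- `x_{T-1} + x_{T+1}` as a function of `x_T = c` -/
noncomputable def kap (k c : ℝ) : ℝ := 2 * c + k * Real.sin (2 * Real.pi * c)

/-- side `true`: future (`x_{T+1} = t`); side `false`: past (`x_{T-1} = kap k c - t`) -/
noncomputable def sd (k c : ℝ) (s : Bool) (t : ℝ) : ℝ := if s then t else kap k c - t
















end Crest.Agent.R128.CellDy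
end

-- ▼ part R128/LocDef

/-!
# Row 128, node V5-LOC: common definitions (helper548)

`c = x_0` fixed, `t = x_1` (`s = true`, forward side) resp. `x_{-1} = kap k c - t`
(`s = false`, backward side).  Everything is written on the complexified orbit of `CellB`.
-/

set_option autoImplicit false

open Metric MeasureTheory
open Crest.Agent.R128 Crest.Agent.R128.Cell Crest.Agent.R128.CellB Crest.Agent.R128.CellDy

namespace Crest.Agent.R128.Loc

/-- starting point of the side `s` -/
noncomputable def sdC (k c : ℝ) (s : Bool) (z : ℂ) : ℂ := if s then z else (kap k c : ℂ) - z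

/-- orbit coordinate number `n` of the side `s` -/
noncomputable def Y (k c : ℝ) (s : Bool) (n : ℕ) (z : ℂ) : ℂ := y k c n (sdC k c s z)

/-- its derivative with respect to the starting coordinate of the side (`= ± d/dt`) -/
noncomputable def D (k c : ℝ) (s : Bool) (n : ℕ) (z : ℂ) : ℂ := yd k c n (sdC k c s z)

/-- digits of the side -/
noncomputable def dg (k c : ℝ) (s : Bool) (z : ℂ) (n : ℕ) : ℂ := cV k (Y k c s n z)

/-- the slope `-P_n/Q_n` of the side -/
noncomputable def mu (k c : ℝ) (s : Bool) (n : ℕ) (z : ℂ) : ℂ := Align.mu (dg k c s z) n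

/-- the content cut at the times `n` (side `s`) and `n'` (other side) -/
noncomputable def cont (k c : ℝ) (s : Bool) (n n' : ℕ) (z : ℂ) : ℂ :=
  cV k c - mu k c s n z - mu k c (!s) n' z

theorem Q_dg (k c : ℝ) (s : Bool) (z : ℂ) (n : ℕ) : Align.Q (dg k c s z) n = D k c s n z := by
  induction n using Nat.strong_induction_on with
  | _ n ih =>
    match n with
    | 0 => simp [D]
    | 1 => simp [D]
    | n + 2 =>
      rw [Align.Q_add_two, ih (n + 1) (by omega), ih n (by omega)]
      unfold D dg Y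
      rw [yd_add_two]

theorem hasDerivAt_Y_true (k c : ℝ) (n : ℕ) (z : ℂ) :
    HasDerivAt (Y k c true n) (D k c true n z) z := by
  unfold Y D sdC
  simpa using hasDerivAt_y k c n z

theorem hasDerivAt_Y_false (k c : ℝ) (n : ℕ) (z : ℂ) :
    HasDerivAt (Y k c false n) (-(D k c false n z)) z := by
  have h : HasDerivAt (fun w : ℂ => (kap k c : ℂ) - w) (-1) z := by
    simpa using (hasDerivAt_id z).const_sub (kap k c : ℂ)
  have h2 := (hasDerivAt_y k c n ((kap k c : ℂ) - z)).comp z h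
  have e : (fun w => Y k c false n w) = (y k c n) ∘ (fun w : ℂ => (kap k c : ℂ) - w) := by
    funext w; simp [Y, sdC]
  change HasDerivAt (fun w => Y k c false n w) _ z
  rw [e]
  simpa [D, sdC] using h2

/-- the cell of the slower side (4 laps, complex radius 4): centre `m`, slope `R` of the exit digit number `n+1` of the
side `s`; the exit digit number `n'+1` of the other side has slope `lam * R`; the old content (cut
at the two exits) is a real quadratic polynomial up to `1/16` in the units `1/(2 pi k R^2)`, on the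
complex disc. -/
structure Cell3 (k c : ℝ) (s : Bool) (n n' : ℕ) (m R lam C1 q0 q1 q2 : ℝ) : Prop where
  hR : 1 ≤ R
  hlam : 1 ≤ |lam|
  slow : ∃ σ : ℝ, (σ = 1 ∨ σ = -1) ∧
    ∀ z ∈ ball (m : ℂ) (4 / R), ‖D k c s (n + 1) z - (σ * R : ℝ)‖ ≤ C1 * R / k
  slow0 : ∀ z ∈ ball (m : ℂ) (4 / R), ‖D k c s n z‖ ≤ C1 * R / k
  fast : ∀ z ∈ ball (m : ℂ) (4 / R),
    ‖D k c (!s) (n' + 1) z - (lam * R : ℝ)‖ ≤ C1 * |lam| ^ 2 * R / k
  fast0 : ∀ z ∈ ball (m : ℂ) (4 / R), ‖D k c (!s) n' z‖ ≤ C1 * |lam| * R / k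
  quad : ∀ z ∈ ball (m : ℂ) (4 / R),
    ‖(2 * Real.pi * k * R ^ 2 : ℝ) * cont k c s (n + 1) (n' + 1) z -
      (q0 + q1 * ((R : ℂ) * (z - m)) + q2 * ((R : ℂ) * (z - m)) ^ 2)‖ ≤ 1 / 16

/-- the point `t` is aligned at the next two levels, with regular digits -/
structure Good3 (k c : ℝ) (s : Bool) (n n' : ℕ) (R t : ℝ) : Prop where
  reg : ∀ i < 3, k ^ (2 / 3 : ℝ) ≤ ‖dg k c s t (n + 1 + i)‖
  reg' : ∀ i < 3, k ^ (2 / 3 : ℝ) ≤ ‖dg k c (!s) t (n' + 1 + i)‖
  al1 : (2 * Real.pi * k * R ^ 2) * ‖cont k c s (n + 2) (n' + 2) t‖ ≤ 1 / 8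
  al2 : (2 * Real.pi * k * (min ‖D k c s (n + 2) t‖ ‖D k c (!s) (n' + 2) t‖) ^ 2) *
    ‖cont k c s (n + 3) (n' + 3) t‖ ≤ 1 / 8

/-- **RA** (abstract core: `RoughAsm`): one of the next two levels is misaligned on a positive
fraction of the cell. -/
def RA : Prop :=
  ∀ C1 : ℝ, ∃ c0 : ℝ, 0 < c0 ∧ ∃ k1 : ℝ, ∀ k : ℝ, k1 ≤ k →
    ∀ (c : ℝ) (s : Bool) (n n' : ℕ) (m R lam q0 q1 q2 : ℝ),
      |lam| ≤ C1 * Real.sqrt k → Cell3 k c s n n' m R lam C1 q0 q1 q2 →
      ENNReal.ofReal (c0 / R) ≤ volume {t : ℝ | |t - m| ≤ 2 / R ∧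
        (1 / 4 < (2 * Real.pi * k * R ^ 2) * ‖cont k c s (n + 2) (n' + 2) t‖ ∨
         1 / 4 < (2 * Real.pi * k * (min ‖D k c s (n + 2) t‖ ‖D k c (!s) (n' + 2) t‖) ^ 2) *
            ‖cont k c s (n + 3) (n' + 3) t‖)}

/-- **LocB** (owner 548, from `RA`): a positive fraction of the cell is far from all good
points. -/
def LocB : Prop :=
  ∀ C1 : ℝ, ∃ c0 : ℝ, 0 < c0 ∧ ∃ k1 : ℝ, ∀ k : ℝ, k1 ≤ k →
    ∀ (c : ℝ) (s : Bool) (n n' : ℕ) (m R lam q0 q1 q2 : ℝ),
      |lam| ≤ C1 * Real.sqrt k → Cell3 k c s n n' m R lam C1 q0 q1 q2 →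
      ENNReal.ofReal (c0 / R) ≤ volume {t : ℝ | |t - m| ≤ 2 / R ∧
        ∀ u : ℝ, |u - t| ≤ 1 / (k ^ 6 * R) → ¬ Good3 k c s n n' R u}

end Crest.Agent.R128.Loc
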