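import Mathlib
import Crest.Agent.R128.CleanCont
import Crest.Agent.R128.LocA0
import Crest.Agent.R128.LocDef

/-!
Row 128, node V5 (helper816): a clean side gives 595's `LocA.Start`, and two clean sides give the
quadratic content in the vocabulary of `LocDef`.
-/

set_option autoImplicit false

open Finset Metric Topology

namespace Crest.Agent.R128.CleanStart

open Crest.Agent.R128 Crest.Agent.R128.Cell Crest.Agent.R128.CellB Crest.Agent.R128.CellDy
open Crest.Agent.R128.TreeSum Crest.Agent.R128.Disp Crest.Agent.R128.CleanNum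
open Crest.Agent.R128.CleanDisc Crest.Agent.R128.CleanCont

/-! ### the cone condition in the regular zone before the foot -/

section cone

variable {a : ℕ → ℝ} {w z : ℕ → ℝ × ℝ} {n : ℕ} {δ K A c0 : ℝ}

theorem cone_step {b : ℝ} (_hb : 4 ≤ b) (hw : IsField a w) {m : ℕ} (ha : b ≤ |a m|)
    (hc : |(w m).1| ≤ |(w m).2|) : (b - 1) * |(w (m + 1)).1| ≤ |(w (m + 1)).2| := by
  rw [hw m]
  unfold stp
  simp only
  have h1 : |a m * (w m).2| ≤ |a m * (w m).2 - (w m).1| + |(w m).1| := by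
    have := abs_add_le (a m * (w m).2 - (w m).1) (w m).1
    rwa [sub_add_cancel] at this
  rw [abs_mul] at h1
  have h2 : b * |(w m).2| ≤ |a m| * |(w m).2| := mul_le_mul_of_nonneg_right ha (abs_nonneg _)
  linarith

/-- **Cone.** If the digits between `m0` and `n` are regular and `(b-1)^s0` beats the crude
constant then the field is in the expanding cone from time `m0 + s0` on. -/
theorem cone (h : Clean a w z n δ K A c0) {b : ℝ} (hb : 4 ≤ b) {m0 s0 : ℕ} (hs : m0 + s0 ≤ n)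
    (hdig : ∀ m, m0 ≤ m → m < n → b ≤ |a m|)
    (hbig : 2 * C1 A K c0 * nn (z (m0 + s0)) ^ (4 * δ) < (b - 1) ^ s0) :
    ∀ m, m0 + s0 ≤ m → m ≤ n → |(w m).1| ≤ |(w m).2| := by
  have hstep : ∀ m, m0 ≤ m → m < n → |(w m).1| ≤ |(w m).2| → |(w (m + 1)).1| ≤ |(w (m + 1)).2| := by
    intro m h1 h2 h3
    have := cone_step hb h.hw (hdig m h1 h2) h3
    have h4 := abs_nonneg (w (m + 1)).1
    nlinarith
  have hprop : ∀ m m', m0 ≤ m → m ≤ m' → m' ≤ n → |(w m).1| ≤ |(w m).2| →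
      |(w m').1| ≤ |(w m').2| := by
    intro m m' h1 h2
    induction m', h2 using Nat.le_induction with
    | base => intro _ h3; exact h3
    | succ m' hm' ih =>
      intro h3 h4
      exact hstep m' (by omega) (by omega) (ih (by omega) h4)
  by_cases hex : ∃ m, m0 ≤ m ∧ m ≤ m0 + s0 ∧ |(w m).1| ≤ |(w m).2|
  · obtain ⟨m1, h1, h2, h3⟩ := hex
    intro m hm hmn
    exact hprop m1 m h1 (by omega) hmn h3
  · exfalso
    push Not at hex
    -- decreasing
    have hdec : ∀ i, i ≤ s0 → (b - 1) ^ i * |(w (m0 + i)).1| ≤ |(w m0).1| := by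
      intro i
      induction i with
      | zero => intro _; simp
      | succ i ih =>
        intro hi
        have h1 := ih (by omega)
        have h2 := hex (m0 + i) (by omega) (by omega)
        have h3 := hex (m0 + (i + 1)) (by omega) (by omega)
        have e1 : (w (m0 + (i + 1))).1 = (w (m0 + i)).2 := by
          rw [← add_assoc, h.hw (m0 + i)]; rfl
        have e2 : (w (m0 + (i + 1))).2 = a (m0 + i) * (w (m0 + i)).2 - (w (m0 + i)).1 := by
          rw [← add_assoc, h.hw (m0 + i)]; rfl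
        have h4 := hdig (m0 + i) (by omega) (by omega)
        have h5 : (b - 1) * |(w (m0 + (i + 1))).1| ≤ |(w (m0 + i)).1| := by
          rw [e1]
          rw [e1, e2] at h3
          have h6 : |a (m0 + i) * (w (m0 + i)).2| ≤
              |a (m0 + i) * (w (m0 + i)).2 - (w (m0 + i)).1| + |(w (m0 + i)).1| := by
            have := abs_add_le (a (m0 + i) * (w (m0 + i)).2 - (w (m0 + i)).1) (w (m0 + i)).1
            rwa [sub_add_cancel] at this
          rw [abs_mul] at h6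
          have h7 : b * |(w (m0 + i)).2| ≤ |a (m0 + i)| * |(w (m0 + i)).2| :=
            mul_le_mul_of_nonneg_right h4 (abs_nonneg _)
          linarith
        have hb1 : 0 ≤ (b - 1) ^ i := pow_nonneg (by linarith) i
        calc (b - 1) ^ (i + 1) * |(w (m0 + (i + 1))).1| =
            (b - 1) ^ i * ((b - 1) * |(w (m0 + (i + 1))).1|) := by ring
          _ ≤ (b - 1) ^ i * |(w (m0 + i)).1| := mul_le_mul_of_nonneg_left h5 hb1
          _ ≤ |(w m0).1| := h1
    have hX := h.Xpos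
    set X := |wr (w 0) (z 0)| with hXdef
    have h1 := h.X_le (m0 + s0)
    rw [← hXdef] at h1
    have h2 := hex (m0 + s0) (by omega) le_rfl
    have h3 : nn (w (m0 + s0)) ≤ 2 * |(w (m0 + s0)).1| := by
      have := nn_le_add (w (m0 + s0))
      linarith
    have h4 := hdec s0 le_rfl
    have h5 : |(w m0).1| ≤ nn (w m0) := abs_fst_le _
    have h6 := h.R_le' (m := m0) (e := m0 + s0) (by omega) hs
    rw [← hXdef] at h6
    have hZ1 := h.one (m0 + s0) hs
    have hZ0 : 0 < nn (z (m0 + s0)) := by linarith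
    have hb1 : 0 < (b - 1) ^ s0 := pow_pos (by linarith) s0
    have h7 : X * (b - 1) ^ s0 ≤ 2 * (C1 A K c0 * X * nn (z (m0 + s0)) ^ (-(1 - 4 * δ))) *
        nn (z (m0 + s0)) := by
      calc X * (b - 1) ^ s0 ≤ nn (w (m0 + s0)) * nn (z (m0 + s0)) * (b - 1) ^ s0 :=
            mul_le_mul_of_nonneg_right h1 hb1.le
        _ ≤ (2 * |(w (m0 + s0)).1|) * nn (z (m0 + s0)) * (b - 1) ^ s0 := by gcongr
        _ = 2 * ((b - 1) ^ s0 * |(w (m0 + s0)).1|) * nn (z (m0 + s0)) := by ring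
        _ ≤ 2 * (C1 A K c0 * X * nn (z (m0 + s0)) ^ (-(1 - 4 * δ))) * nn (z (m0 + s0)) := by
            have := h4.trans (h5.trans h6)
            gcongr
    have h8 : nn (z (m0 + s0)) ^ (-(1 - 4 * δ)) * nn (z (m0 + s0)) =
        nn (z (m0 + s0)) ^ (4 * δ) := by
      have : nn (z (m0 + s0)) ^ (-(1 - 4 * δ)) * nn (z (m0 + s0)) =
          nn (z (m0 + s0)) ^ (-(1 - 4 * δ) + 1) := by
        rw [Real.rpow_add hZ0, Real.rpow_one]
      rw [this]
      congr 1
      ring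
    have h9 : X * (b - 1) ^ s0 ≤ X * (2 * C1 A K c0 * nn (z (m0 + s0)) ^ (4 * δ)) := by
      calc X * (b - 1) ^ s0 ≤ _ := h7
        _ = X * (2 * C1 A K c0 * (nn (z (m0 + s0)) ^ (-(1 - 4 * δ)) * nn (z (m0 + s0)))) := by ring
        _ = _ := by rw [h8]
    have h10 := le_of_mul_le_mul_left h9 hX
    linarith

/-- after one more regular step the cone is narrow -/
theorem cone' (h : Clean a w z n δ K A c0) {b : ℝ} (hb : 4 ≤ b) {m0 s0 : ℕ} (hs : m0 + s0 ≤ n)
    (hdig : ∀ m, m0 ≤ m → m < n → b ≤ |a m|)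
    (hbig : 2 * C1 A K c0 * nn (z (m0 + s0)) ^ (4 * δ) < (b - 1) ^ s0) :
    ∀ m, m0 + s0 < m → m ≤ n → (b - 1) * |(w m).1| ≤ |(w m).2| := by
  intro m hm hmn
  obtain ⟨j, rfl⟩ : ∃ j, m = j + 1 := ⟨m - 1, by omega⟩
  exact cone_step hb h.hw (hdig j (by omega) (by omega))
    (cone h hb hs hdig hbig j (by omega) (by omega))

theorem nn_le_of_cone {v : ℝ × ℝ} (hc : 2 * |v.1| ≤ |v.2|) : 1 / 2 * nn v ≤ |v.2| := by
  have := nn_le_add v
  have := abs_nonneg v.1
  linarith

end cone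

/-! ### `Start` -/

section start

variable {k c t0 : ℝ} {z : ℕ → ℝ × ℝ} {n : ℕ} {δ K A c0 : ℝ}




end start

/-! ### the content in the vocabulary of `LocDef` -/

theorem mu_true (k c : ℝ) (n : ℕ) (u : ℂ) :
    Loc.mu k c true n u = Align.mu (fun j => cV k (y k c j u)) n := by
  unfold Loc.mu
  congr 1

theorem mu_false (k c : ℝ) (n : ℕ) (u : ℂ) :
    Loc.mu k c false n u = Align.mu (fun j => cV k (y k c j (((kap k c : ℝ) : ℂ) - u))) n := by
  unfold Loc.mu
  congr 1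


/-- the error of the content of one side -/
noncomputable def err (k A K c0 δ r X Z : ℝ) : ℝ :=
  (4 * (CV k + 2) * A ^ 3 * K + 8) * (r * X / rho0 k A K c0) ^ 3 / X ^ 2 * Z ^ (-(1 - 47 * δ))

/-- **The content of two clean sides is a real quadratic polynomial on the complex disc.** -/
theorem cont_quad {k c t0 : ℝ} {z z' : ℕ → ℝ × ℝ} {n n' : ℕ} {δ K A c0 : ℝ}
    (h : Clean (ra k c t0) (wf k c t0) z n δ K A c0)
    (h' : Clean (ra k c (kap k c - t0)) (wf k c (kap k c - t0)) z' n' δ K A c0)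
    (hk : 1 ≤ k) {e e' : ℕ} (he : e ≤ n) (he' : e' ≤ n')
    (hq : 1 / 2 * nn (wf k c t0 e) ≤ |(wf k c t0 e).2|)
    (hq' : 1 / 2 * nn (wf k c (kap k c - t0) e') ≤ |(wf k c (kap k c - t0) e').2|)
    {r : ℝ} (hr0 : 0 ≤ r) (hr : 2 * r ≤ rho0 k A K c0 / XX (wf k c t0) z)
    (hr' : 2 * r ≤ rho0 k A K c0 / XX (wf k c (kap k c - t0)) z') (mc : ℝ) :
    ∃ q0 q1 q2 : ℝ, ∀ u ∈ closedBall (t0 : ℂ) r,
      ‖Loc.cont k c true (e + 1) (e' + 1) u - (q0 + q1 * (u - mc) + q2 * (u - mc) ^ 2)‖ ≤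
        err k A K c0 δ r (XX (wf k c t0) z) (nn (z e)) +
        err k A K c0 δ r (XX (wf k c (kap k c - t0)) z') (nn (z' e')) := by
  obtain ⟨a0, a1, a2, ha⟩ := content_quad h hk he hq hr0 hr mc
  obtain ⟨b0, b1, b2, hb⟩ := content_quad h' hk he' hq' hr0 hr' (kap k c - mc)
  refine ⟨V k (c : UnitAddCircle) - a0 - b0, -a1 + b1, -a2 - b2, fun u hu => ?_⟩
  have hu' : ((kap k c : ℝ) : ℂ) - u ∈ closedBall ((kap k c - t0 : ℝ) : ℂ) r := by
    rw [mem_closedBall, dist_eq_norm] at hu ⊢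
    rw [show ((kap k c : ℝ) : ℂ) - u - ((kap k c - t0 : ℝ) : ℂ) = -(u - t0) by push_cast; ring,
      norm_neg]
    exact hu
  have h1 := ha u hu
  have h2 := hb _ hu'
  rw [← mu_true] at h1
  rw [← mu_false] at h2
  have e1 : Loc.cont k c true (e + 1) (e' + 1) u -
      (((V k (c : UnitAddCircle) - a0 - b0 : ℝ) : ℂ) + ((-a1 + b1 : ℝ) : ℂ) * (u - mc) +
        ((-a2 - b2 : ℝ) : ℂ) * (u - mc) ^ 2) =
      -(Loc.mu k c true (e + 1) u - (a0 + a1 * (u - mc) + a2 * (u - mc) ^ 2)) -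
      (Loc.mu k c false (e' + 1) u - (b0 + b1 * (((kap k c : ℝ) : ℂ) - u - ((kap k c - mc : ℝ) : ℂ)) +
        b2 * (((kap k c : ℝ) : ℂ) - u - ((kap k c - mc : ℝ) : ℂ)) ^ 2)) := by
    unfold Loc.cont
    rw [cV_ofReal]
    simp only [Bool.not_true]
    push_cast
    ring
  rw [e1]
  refine (norm_sub_le _ _).trans ?_
  rw [norm_neg]
  exact add_le_add h1 h2

end Crest.Agent.R128.CleanStart
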