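import Mathlib

/-! Row 128: abstract bootstrap and mass transport. Written by helper415. Sorry free. -/

namespace Crest.Agent.R128.Boot

open MeasureTheory Finset
open scoped ENNReal




section Transport

variable {Ω : Type*} [MeasurableSpace Ω] {μ : Measure Ω}



/-- Kac/packing inequality: `J n` (`n < N`) are sets, `e` a measure preserving map; if for every
point the number of `n < N` with `e^n z ∈ B` is at most `b`, then `N * μ B ≤ b * μ univ`. -/
theorem packing {e : Ω → Ω} (he : MeasurePreserving e μ μ) {B : Set Ω} (hB : MeasurableSet B)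
    (N : ℕ) {b : ℝ≥0∞}
    (hb : ∀ z, ∑ n ∈ range N, B.indicator (fun _ => (1 : ℝ≥0∞)) (e^[n] z) ≤ b) :
    N * μ B ≤ b * μ Set.univ := by
  have h1 : ∀ n ∈ range N, ∫⁻ z, B.indicator (fun _ => (1 : ℝ≥0∞)) (e^[n] z) ∂μ = μ B := by
    intro n _
    have := (he.iterate n).lintegral_comp
      (measurable_const.indicator hB : Measurable (B.indicator fun _ => (1 : ℝ≥0∞)))
    rw [this, lintegral_indicator_const hB, one_mul]
  calc N * μ B = ∑ n ∈ range N, ∫⁻ z, B.indicator (fun _ => (1 : ℝ≥0∞)) (e^[n] z) ∂μ := by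
        rw [Finset.sum_congr rfl h1, Finset.sum_const, card_range, nsmul_eq_mul]
    _ = ∫⁻ z, ∑ n ∈ range N, B.indicator (fun _ => (1 : ℝ≥0∞)) (e^[n] z) ∂μ := by
        rw [lintegral_finsetSum]
        intro n _
        exact (measurable_const.indicator hB).comp (he.iterate n).measurable
    _ ≤ ∫⁻ _, b ∂μ := lintegral_mono hb
    _ = b * μ Set.univ := by rw [lintegral_const]

end Transport

end Crest.Agent.R128.Boot
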