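import Mathlib
import Crest.Agent.R128.Hyp

-- ▼ part R128/Tele
section

set_option autoImplicit false

open Finset

namespace Crest.Agent.R128.Tele

variable {E : Type*} [NormedRing E]

/-- ordered product `B (j+n-1) * ... * B (j+1) * B j` -/
def seg (B : ℕ → E) (j : ℕ) : ℕ → E
  | 0 => 1
  | (n + 1) => B (j + n) * seg B j n

@[simp] theorem seg_zero (B : ℕ → E) (j : ℕ) : seg B j 0 = 1 := rfl








end Crest.Agent.R128.Tele
end

-- ▼ part R128/Chain

set_option autoImplicit false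

/-!
# The weighted chain inequality and last exits

`(CH)`: for a sequence `g` of matrices of determinant one, with `ρ j = ‖g j‖` and
`β j = ‖g (j+1) (g j)⁻¹‖`,
`‖g n (g m)⁻¹‖ ≤ ρ m ρ n Σ_{m ≤ j < n} β j / (ρ j ρ (j+1))`.
This is the exact replacement of the "last exit geodesic" lemma.
-/

open scoped Matrix.Norms.L2Operator
open Matrix Finset

namespace Crest.Agent.R128.Chain

open Crest.Agent.R128.Hyp

/-- the Cayley (chordal) distance, which satisfies the triangle inequality -/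
noncomputable def ch (x y : M2) : ℝ := ‖y * x⁻¹‖ / (‖x‖ * ‖y‖)

theorem norm_pos' {x : M2} (hx : x.det = 1) : 0 < ‖x‖ := lt_of_lt_of_le one_pos (one_le_norm hx)

theorem ch_nonneg (x y : M2) : 0 ≤ ch x y := by
  unfold ch
  positivity

theorem norm_symm {x y : M2} (hx : x.det = 1) (hy : y.det = 1) : ‖x * y⁻¹‖ = ‖y * x⁻¹‖ := by
  have h1 : (y * x⁻¹)⁻¹ = x * y⁻¹ := by
    rw [Matrix.mul_inv_rev, Matrix.nonsing_inv_nonsing_inv _ (by rw [hx]; exact isUnit_one)]
  rw [← h1, ninv (det_mul_inv hy hx)]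


/-- triangle inequality for `ch` (Ptolemy) -/
theorem ch_triangle {x y z : M2} (hx : x.det = 1) (hy : y.det = 1) (hz : z.det = 1) :
    ch x z ≤ ch x y + ch y z := by
  have hp := ptolemy (x := x) (y := y) (z := z) hx hy
  have px := norm_pos' hx
  have py := norm_pos' hy
  have pz := norm_pos' hz
  unfold ch
  rw [norm_symm hx hy] at hp
  rw [div_add_div _ _ (by positivity) (by positivity), div_le_div_iff₀ (by positivity)
    (by positivity)]
  have e1 : ‖z * x⁻¹‖ * (‖x‖ * ‖y‖ * (‖y‖ * ‖z‖)) =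
      (‖z * x⁻¹‖ * ‖y‖) * (‖x‖ * ‖y‖ * ‖z‖) := by ring
  have e2 : (‖y * x⁻¹‖ * (‖y‖ * ‖z‖) + ‖x‖ * ‖y‖ * ‖z * y⁻¹‖) * (‖x‖ * ‖z‖) =
      (‖z * y⁻¹‖ * ‖x‖ + ‖z‖ * ‖y * x⁻¹‖) * (‖x‖ * ‖y‖ * ‖z‖) := by ring
  rw [e1, e2]
  exact mul_le_mul_of_nonneg_right hp (by positivity)

/-- the weights of the chain inequality -/
noncomputable def wt (g : ℕ → M2) (j : ℕ) : ℝ := ch (g j) (g (j + 1))

theorem wt_nonneg (g : ℕ → M2) (j : ℕ) : 0 ≤ wt g j := ch_nonneg _ _

theorem ch_chain {g : ℕ → M2} (hg : ∀ i, (g i).det = 1) {m n : ℕ} (hmn : m < n) :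
    ch (g m) (g n) ≤ ∑ j ∈ Ico m n, wt g j := by
  induction n with
  | zero => exact absurd hmn (Nat.not_lt_zero _)
  | succ n ih =>
    rw [Finset.sum_Ico_succ_top (Nat.lt_succ_iff.mp hmn)]
    rcases Nat.lt_succ_iff_lt_or_eq.mp hmn with h | h
    · exact (ch_triangle (hg m) (hg n) (hg (n + 1))).trans (add_le_add (ih h) le_rfl)
    · subst h
      simp [wt]

/-- **(CH)** the weighted chain inequality -/
theorem chain {g : ℕ → M2} (hg : ∀ i, (g i).det = 1) {m n : ℕ} (hmn : m < n) :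
    ‖g n * (g m)⁻¹‖ ≤ ‖g m‖ * ‖g n‖ * ∑ j ∈ Ico m n, wt g j := by
  have h1 := ch_chain hg hmn
  have pm := norm_pos' (hg m)
  have pn := norm_pos' (hg n)
  unfold ch at h1
  rw [div_le_iff₀ (by positivity)] at h1
  linarith

/-- lower bound -/
theorem le_transfer {g : ℕ → M2} (hg : ∀ i, (g i).det = 1) (m n : ℕ) :
    ‖g n‖ ≤ ‖g n * (g m)⁻¹‖ * ‖g m‖ := by
  have h : g n = (g n * (g m)⁻¹) * g m := by
    rw [Matrix.mul_assoc, Matrix.nonsing_inv_mul _ (by rw [hg m]; exact isUnit_one),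
      Matrix.mul_one]
  conv_lhs => rw [h]
  exact Matrix.l2_opNorm_mul _ _

/-- weighted duration after the last exit `e` of a sphere of radius `R` -/
noncomputable def dur (g : ℕ → M2) (R : ℝ) (e n : ℕ) : ℝ := R ^ 2 * ∑ j ∈ Ico e n, wt g j






open Tele




end Crest.Agent.R128.Chain
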