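import Mathlib
import Crest.Agent.R128.Acc
import Crest.Agent.R128.TreeVal
import Crest.Agent.R128.Boot

/-!
# Row 128, node LAM0 (helper379): the area side

`fld k z m` is the Jacobi field of the vertical vector `(0,1)` started at `z`.
`RV k L z n` = relaxed validity of the start `z` up to time `n`.
-/

set_option autoImplicit false
open MeasureTheory Filter Topology Finset
open scoped ENNReal

namespace Crest.Agent.R128.Lam0

open Crest.Agent.R128.TreeSum Crest.Agent.R128.Acc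

/-- field of the vertical vector -/
noncomputable def fld (k : ℝ) (z : Tor) (m : ℕ) : ℝ × ℝ := act (Mn k m z) (0, 1)

theorem fld_zero (k : ℝ) (z : Tor) : fld k z 0 = (0, 1) := by
  unfold fld act
  simp

theorem act_Am (k : ℝ) (z : Tor) (v : ℝ × ℝ) : act (Am k z) v = stp (V k z.2) v := by
  unfold act Am stp
  ext
  · simp
  · simp
    ring

theorem fld_succ (k : ℝ) (z : Tor) (m : ℕ) :
    fld k z (m + 1) = stp (V k ((T k)^[m] z).2) (fld k z m) := by
  unfold fld
  rw [Mn_succ', act_mul, act_Am]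

theorem isField_fld (k : ℝ) (z : Tor) : IsField (fun m => V k ((T k)^[m] z).2) (fld k z) :=
  fun n => fld_succ k z n

theorem isField_shift (k : ℝ) (z : Tor) (m : ℕ) :
    IsField (fun j => V k ((T k)^[m + j] z).2) (fun j => fld k z (m + j)) :=
  fun n => fld_succ k z (m + n)

theorem isField_later (k : ℝ) (z : Tor) (m : ℕ) :
    IsField (fun j => V k ((T k)^[m + j] z).2) (fun j => fld k ((T k)^[m] z) j) := by
  intro n
  have := fld_succ k ((T k)^[m] z) n
  rw [← Function.iterate_add_apply, add_comm n m] at this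
  exact this

theorem norm_le_nn (v : ℝ × ℝ) : ‖v‖ ≤ nn v := by
  rw [Prod.norm_def]
  exact max_le (abs_fst_le v) (abs_snd_le v)

theorem nn_le_norm (v : ℝ × ℝ) : nn v ≤ 2 * ‖v‖ := by
  have h1 : |v.1| ≤ ‖v‖ := by simpa using norm_fst_le v
  have h2 : |v.2| ≤ ‖v‖ := by simpa using norm_snd_le v
  linarith [nn_le_add v]

theorem abs_V_le {k : ℝ} (hk : 4 ≤ k) (z : Tor) : |V k z.2| + 2 ≤ 8 * k := by
  have h := dg_le k (by linarith) z 0
  unfold dg at h
  simp only [Function.iterate_zero, id_eq] at h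
  have hpi := Real.pi_lt_d2
  nlinarith

/-- relaxed validity (`L = 1000` in the application) -/
structure RV (k : ℝ) (L : ℕ) (z : Tor) (n : ℕ) : Prop where
  big : k ^ 500 ≤ ‖fld k z L‖
  v2 : ∀ i j, L ≤ i → i ≤ j → j ≤ n → ‖fld k z i‖ ^ 89 ≤ ‖fld k z j‖ ^ 90
  v3 : ∀ j, L ≤ j → j ≤ n → ∃ i, L ≤ i ∧ i ≤ j ∧ (j : ℝ) ^ 400 ≤ 2 * ‖fld k z i‖

theorem RV.big' {k : ℝ} {L : ℕ} {z : Tor} {n : ℕ} (hk : 100 ≤ k) (h : RV k L z n) {j : ℕ}
    (hj : L ≤ j) (hjn : j ≤ n) : k ^ 494 ≤ ‖fld k z j‖ := by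
  have h1 := h.v2 L j le_rfl hj hjn
  have h2 : (k ^ 500) ^ 89 ≤ ‖fld k z L‖ ^ 89 := pow_le_pow_left₀ (by positivity) h.big 89
  have h3 : (k ^ 494) ^ 90 ≤ ‖fld k z j‖ ^ 90 := by
    refine le_trans ?_ (h2.trans h1)
    rw [← pow_mul, ← pow_mul]
    exact pow_le_pow_right₀ (by linarith) (by norm_num)
  exact le_of_pow_le_pow_left₀ (by norm_num) (norm_nonneg _) h3

theorem rpow_helper {B C : ℝ} (hB : 1 ≤ B) (hC : 0 ≤ C) (h : B ^ 89 ≤ C ^ 90) (hbig : (2:ℝ) ^ 800 ≤ B) :
    (2 * B) ^ (1 - (1/80 : ℝ)) ≤ C := by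
  have hB0 : 0 < B := lt_of_lt_of_le one_pos hB
  have h1 : B ^ ((89:ℝ) / 90) ≤ C := by
    have h2 : (B ^ 89) ^ ((1:ℝ) / 90) ≤ (C ^ 90) ^ ((1:ℝ) / 90) :=
      Real.rpow_le_rpow (by positivity) h (by norm_num)
    have e1 : (B ^ 89) ^ ((1:ℝ) / 90) = B ^ ((89:ℝ) / 90) := by
      rw [← Real.rpow_natCast B 89, ← Real.rpow_mul hB0.le]
      norm_num
    have e2 : (C ^ 90) ^ ((1:ℝ) / 90) = C := by
      rw [← Real.rpow_natCast C 90, ← Real.rpow_mul hC]
      norm_num
    rwa [e1, e2] at h2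
  refine le_trans ?_ h1
  have e : B ^ ((89:ℝ) / 90) = B ^ (1 - (1/80 : ℝ)) * B ^ ((1:ℝ) / 720) := by
    rw [← Real.rpow_add hB0]
    norm_num
  rw [e, Real.mul_rpow (by norm_num) hB0.le, mul_comm]
  apply mul_le_mul_of_nonneg_left _ (Real.rpow_nonneg hB0.le _)
  calc (2:ℝ) ^ (1 - (1/80 : ℝ)) ≤ 2 ^ (1:ℝ) := Real.rpow_le_rpow_of_exponent_le (by norm_num) (by norm_num)
    _ ≤ (2:ℝ) ^ ((800:ℝ) / 720) := Real.rpow_le_rpow_of_exponent_le (by norm_num) (by norm_num)
    _ = ((2:ℝ) ^ 800) ^ ((1:ℝ) / 720) := by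
        rw [← Real.rpow_natCast 2 800, ← Real.rpow_mul (by norm_num)]
        norm_num
    _ ≤ B ^ ((1:ℝ) / 720) := Real.rpow_le_rpow (by positivity) hbig (by norm_num)

/-- the terms of the duration sum -/
theorem term_le {B C : ℝ} {j : ℕ} (hj : 1 ≤ j) (hB : 1 ≤ B) (h : B ^ 89 ≤ C ^ 90) (hC : 0 ≤ C)
    (h3 : (j : ℝ) ^ 400 ≤ 2 * B) (hbig : (2:ℝ) ^ 800 ≤ B) : C ^ (-(1/80 : ℝ)) ≤ 1 / (j : ℝ) ^ 2 := by
  have h1 := rpow_helper hB hC h hbig
  have hj0 : (0:ℝ) < j := by exact_mod_cast hj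
  have h2 : (j : ℝ) ^ 395 ≤ C := by
    refine le_trans ?_ h1
    calc (j : ℝ) ^ 395 = ((j : ℝ) ^ 400) ^ (1 - (1/80 : ℝ)) := by
          rw [← Real.rpow_natCast (j:ℝ) 400, ← Real.rpow_mul hj0.le, ← Real.rpow_natCast]
          norm_num
      _ ≤ _ := Real.rpow_le_rpow (by positivity) h3 (by norm_num)
  have hC0 : 0 < C := lt_of_lt_of_le (by positivity) h2
  rw [Real.rpow_neg hC, one_div ((j:ℝ)^2)]
  apply inv_anti₀ (by positivity)
  have hj1 : (1:ℝ) ≤ j := by exact_mod_cast hj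
  calc (j : ℝ) ^ 2 ≤ (j : ℝ) ^ ((395:ℝ) / 80) := by
        rw [← Real.rpow_natCast (j:ℝ) 2]
        exact Real.rpow_le_rpow_of_exponent_le hj1 (by norm_num)
    _ = ((j : ℝ) ^ 395) ^ (1/80 : ℝ) := by
        rw [← Real.rpow_natCast (j:ℝ) 395, ← Real.rpow_mul hj0.le]
        norm_num
    _ ≤ C ^ (1/80 : ℝ) := Real.rpow_le_rpow (by positivity) h2 (by norm_num)

theorem sum_inv_sq (m n : ℕ) (hm : 2 ≤ m) :
    ∑ j ∈ Ico 0 n, 1 / ((m + j : ℕ) : ℝ) ^ 2 ≤ 1 / ((m:ℝ) - 1) := by
  have hm1 : (1:ℝ) < m := by exact_mod_cast hm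
  have key : ∑ j ∈ Ico 0 n, 1 / ((m + j : ℕ) : ℝ) ^ 2 ≤ 1 / ((m:ℝ) - 1) - 1 / ((m:ℝ) + n - 1) := by
    induction n with
    | zero => simp
    | succ n ih =>
      rw [Finset.sum_Ico_succ_top (Nat.zero_le _)]
      have h : 1 / ((m + n : ℕ) : ℝ) ^ 2 ≤ 1 / ((m:ℝ) + n - 1) - 1 / ((m:ℝ) + (n + 1 : ℕ) - 1) := by
        have hp : (0:ℝ) < (m:ℝ) + n - 1 := by
          have : (0:ℝ) ≤ n := Nat.cast_nonneg n
          linarith
        have hq : (0:ℝ) < (m:ℝ) + n := by linarith
        have e : (m:ℝ) + ((n + 1 : ℕ) : ℝ) - 1 = (m:ℝ) + n := by push_cast; ring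
        rw [e, div_sub_div _ _ hp.ne' hq.ne']
        push_cast
        rw [div_le_div_iff₀ (by positivity) (by positivity)]
        nlinarith
      linarith
  have h2 : (0:ℝ) ≤ 1 / ((m:ℝ) + n - 1) := by
    have : (0:ℝ) ≤ n := Nat.cast_nonneg n
    apply div_nonneg zero_le_one
    linarith
  linarith

/-- **Separation of starts**: a later start `T^m z` (`m ≥ L`) sees a much smaller field. -/
theorem sep {k : ℝ} {L : ℕ} {z : Tor} {m n : ℕ} (hk : 100 ≤ k) (hL : 3 ≤ L) (hm : L ≤ m)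
    (h : RV k L z (m + n)) {κ : ℝ} (hκ : 0 ≤ κ) (hκ' : κ ≤ k ^ 400) :
    κ * ‖fld k ((T k)^[m] z) n‖ ≤ 2 * ‖fld k z (m + n)‖ := by
  have hk0 : (0:ℝ) < k := by linarith
  have hA : ∀ j, |V k ((T k)^[m + j] z).2| + 2 ≤ 8 * k := fun j => abs_V_le (by linarith) _
  have hbig0 : k ^ 494 ≤ ‖fld k z m‖ := h.big' hk hm (by omega)
  have h2k : (2:ℝ) ^ 800 ≤ k ^ 494 := by
    calc (2:ℝ) ^ 800 ≤ (2:ℝ) ^ (2 * 494) := pow_le_pow_right₀ (by norm_num) (by norm_num)
      _ = ((2:ℝ) ^ 2) ^ 494 := pow_mul _ _ _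
      _ ≤ k ^ 494 := pow_le_pow_left₀ (by norm_num) (by linarith) _
  have one_le : (1:ℝ) ≤ k ^ 494 := one_le_pow₀ (by linarith)
  have c := count_valid (isField_shift k z m) (isField_later k z m) (A := 8 * k) (δ := 1/80)
    (K := 1) (κ := κ) hA (by norm_num) (by norm_num) (m := 0) (n := n) (Nat.zero_le _)
    (by
      have := norm_le_nn (fld k z (m + 0))
      simp only [add_zero] at this ⊢
      exact (one_le.trans hbig0).trans this)
    (by
      intro j hj
      rw [Finset.mem_Icc] at hj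
      simp only [add_zero]
      have h1 := h.v2 m (m + j) hm (by omega) (by omega)
      have h3 := rpow_helper (one_le.trans hbig0) (norm_nonneg _) h1 (h2k.trans hbig0)
      have h4 := nn_le_norm (fld k z m)
      calc nn (fld k z m) ^ (1 - (1/80:ℝ)) ≤ (2 * ‖fld k z m‖) ^ (1 - (1/80:ℝ)) :=
            Real.rpow_le_rpow (nn_nonneg _) h4 (by norm_num)
        _ ≤ ‖fld k z (m + j)‖ := h3
        _ ≤ _ := norm_le_nn _)
    (by
      calc ∑ j ∈ Ico 0 n, nn (fld k z (m + j)) ^ (-(1/80:ℝ))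
          ≤ ∑ j ∈ Ico 0 n, 1 / ((m + j : ℕ) : ℝ) ^ 2 := by
            apply Finset.sum_le_sum
            intro j hj
            rw [Finset.mem_Ico] at hj
            obtain ⟨i, hi1, hi2, hi3⟩ := h.v3 (m + j) (by omega) (by omega)
            have hbi := h.big' hk hi1 (by omega)
            have hbj := h.big' hk (j := m + j) (by omega) (by omega)
            have h1 := h.v2 i (m + j) hi1 hi2 (by omega)
            have h4 := term_le (by omega) (one_le.trans hbi) h1 (norm_nonneg _) hi3 (h2k.trans hbi)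
            refine le_trans ?_ h4
            apply Real.rpow_le_rpow_of_nonpos (lt_of_lt_of_le (by positivity) hbj) (norm_le_nn _)
              (by norm_num)
        _ ≤ 1 / ((m:ℝ) - 1) := sum_inv_sq m n (by omega)
        _ ≤ 1 := by
            have : (2:ℝ) ≤ (m:ℝ) - 1 := by
              have : ((3:ℕ):ℝ) ≤ m := by exact_mod_cast (hL.trans hm)
              push_cast at this
              linarith
            rw [div_le_one (by linarith)]
            linarith)
    hκ
    (by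
      simp only [add_zero]
      have e0 : nn (fld k ((T k)^[m] z) 0) = 1 := by
        rw [fld_zero]
        unfold nn
        simp
      rw [e0, mul_one, mul_one]
      have h5 : (2:ℝ) + (8 * k) ^ 2 ≤ k ^ 3 := by nlinarith [sq_nonneg k]
      have h6 : κ * (2 + (8 * k) ^ 2) ≤ k ^ 400 * k ^ 3 := by
        apply mul_le_mul hκ' h5 (by positivity) (by positivity)
      refine h6.trans ?_
      have h7 : (k ^ 494) ^ (1 - 3 * (1/80:ℝ)) ≤ nn (fld k z m) ^ (1 - 3 * (1/80:ℝ)) :=
        Real.rpow_le_rpow (by positivity) (hbig0.trans (norm_le_nn _)) (by norm_num)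
      refine le_trans ?_ h7
      rw [← pow_add, ← Real.rpow_natCast k 494, ← Real.rpow_mul hk0.le, ← Real.rpow_natCast]
      apply Real.rpow_le_rpow_of_exponent_le (by linarith)
      norm_num)
  calc κ * ‖fld k ((T k)^[m] z) n‖ ≤ κ * nn (fld k ((T k)^[m] z) n) :=
        mul_le_mul_of_nonneg_left (norm_le_nn _) hκ
    _ ≤ nn (fld k z (m + n)) := c
    _ ≤ _ := nn_le_norm _

/-- relaxed drawdown event with tip at time `n`, completed at time `n'`, class `X` -/
structure DDn (k : ℝ) (L N : ℕ) (X : ℝ) (z : Tor) (n n' : ℕ) : Prop where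
  hLn : L ≤ n
  lt : n < n'
  le : n' ≤ N
  first : ∀ j, j < n → ‖fld k z j‖ < ‖fld k z n‖
  max : ∀ j, j ≤ n' → ‖fld k z j‖ ≤ ‖fld k z n‖
  drop : ‖fld k z n'‖ ^ 102 ≤ ‖fld k z n‖ ^ 101
  lo : X ≤ ‖fld k z n‖
  hi : ‖fld k z n‖ ≤ k ^ 2 * X
  val : RV k L z n

theorem continuous_fld (k : ℝ) (m : ℕ) : Continuous (fun z => fld k z m) := by
  unfold fld act
  have h := continuous_Mn k m
  have e : ∀ i j, Continuous (fun z => Mn k m z i j) := fun i j =>
    (continuous_apply j).comp ((continuous_apply i).comp h)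
  exact (((e 0 0).mul continuous_const).add ((e 0 1).mul continuous_const)).prodMk
    (((e 1 0).mul continuous_const).add ((e 1 1).mul continuous_const))

theorem measurable_nf (k : ℝ) (m : ℕ) : Measurable (fun z => ‖fld k z m‖) :=
  (continuous_fld k m).norm.measurable

theorem measurable_RV (k : ℝ) (L n : ℕ) : MeasurableSet {z | RV k L z n} := by
  have e : {z | RV k L z n} = {z | k ^ 500 ≤ ‖fld k z L‖} ∩
      (⋂ (i : ℕ) (j : ℕ) (_ : L ≤ i) (_ : i ≤ j) (_ : j ≤ n), {z | ‖fld k z i‖ ^ 89 ≤ ‖fld k z j‖ ^ 90}) ∩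
      (⋂ (j : ℕ) (_ : L ≤ j) (_ : j ≤ n), ⋃ (i : ℕ) (_ : L ≤ i) (_ : i ≤ j),
        {z | (j : ℝ) ^ 400 ≤ 2 * ‖fld k z i‖}) := by
    ext z
    simp only [Set.mem_inter_iff, Set.mem_ofPred_eq, Set.mem_iInter, Set.mem_iUnion, exists_prop]
    constructor
    · rintro ⟨a, b, c⟩
      exact ⟨⟨a, b⟩, c⟩
    · rintro ⟨⟨a, b⟩, c⟩
      exact ⟨a, b, c⟩
  rw [e]
  refine ((measurableSet_le measurable_const (measurable_nf k L)).inter ?_).inter ?_
  · refine MeasurableSet.iInter fun i => MeasurableSet.iInter fun j => MeasurableSet.iInter fun _ =>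
      MeasurableSet.iInter fun _ => MeasurableSet.iInter fun _ => ?_
    exact measurableSet_le ((measurable_nf k i).pow_const 89) ((measurable_nf k j).pow_const 90)
  · refine MeasurableSet.iInter fun j => MeasurableSet.iInter fun _ => MeasurableSet.iInter fun _ =>
      MeasurableSet.iUnion fun i => MeasurableSet.iUnion fun _ => MeasurableSet.iUnion fun _ => ?_
    exact measurableSet_le measurable_const ((measurable_nf k i).const_mul 2)


/-- the tip of a drawdown event -/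
theorem DDn.tip {k : ℝ} {L N : ℕ} {X : ℝ} {z : Tor} {n n' : ℕ} (h : DDn k L N X z n n') (hL : 0 < L)
    (hX : 1 ≤ X) : TIP k (Real.log X / 102) N ((T k)^[n] z) := by
  have hX0 : 0 < X := by linarith
  have hp : 0 < ‖fld k z n‖ := lt_of_lt_of_le hX0 h.lo
  have hlogX : 0 ≤ Real.log X := Real.log_nonneg hX
  have hexp : Real.exp (Real.log X / 102) ^ 102 = X := by
    rw [← Real.exp_nat_mul]
    push_cast
    rw [mul_div_cancel₀ _ (by norm_num : (102:ℝ) ≠ 0), Real.exp_log hX0]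
  set E := Real.exp (Real.log X / 102) with hE
  have hE0 : 0 < E := Real.exp_pos _
  have hE1 : 1 ≤ E := Real.one_le_exp (by positivity)
  have hEX : E ≤ X := by
    calc E = E ^ 1 := (pow_one _).symm
      _ ≤ E ^ 102 := pow_le_pow_right₀ hE1 (by norm_num)
      _ = X := hexp
  refine ⟨n, n' - n, by have := h.hLn; omega, by have := h.lt; have := h.le; omega,
    by have := h.lt; omega, by have := h.le; omega, z, (‖fld k z n‖)⁻¹ • ((0, 1) : ℝ × ℝ), rfl,
    ?_, ?_, ?_, ?_, ?_⟩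
  · rw [norm_smul, norm_inv, norm_norm]
    have e1 : ‖((0, 1) : ℝ × ℝ)‖ = 1 := by simp [Prod.norm_def]
    rw [e1, mul_one, Real.exp_neg]
    exact inv_anti₀ (by positivity) (hEX.trans h.lo)
  · rw [act_smul, norm_smul, norm_inv, norm_norm]
    exact inv_mul_cancel₀ hp.ne'
  · rw [act_smul, norm_smul, norm_inv, norm_norm]
    have := h.first (n - 1) (by have := h.hLn; omega)
    rw [inv_mul_lt_iff₀ hp, mul_one]
    exact this
  · intro m hm
    rw [act_smul, norm_smul, norm_inv, norm_norm]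
    have := h.max m (by have := h.lt; omega)
    rw [inv_mul_le_iff₀ hp, mul_one]
    exact this
  · rw [act_smul, norm_smul, norm_inv, norm_norm, Real.exp_neg]
    have e : n + (n' - n) = n' := by have := h.lt; omega
    rw [e]
    show (‖fld k z n‖)⁻¹ * ‖fld k z n'‖ ≤ E⁻¹
    rw [inv_mul_le_iff₀ hp]
    have h1 : (‖fld k z n'‖ * E) ^ 102 ≤ ‖fld k z n‖ ^ 102 := by
      rw [mul_pow, hexp]
      calc ‖fld k z n'‖ ^ 102 * X ≤ ‖fld k z n‖ ^ 101 * ‖fld k z n‖ :=
            mul_le_mul h.drop h.lo hX0.le (by positivity)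
        _ = _ := by ring
    have h2 := le_of_pow_le_pow_left₀ (by norm_num) (norm_nonneg _) h1
    rw [← div_eq_mul_inv, le_div_iff₀ hE0]
    exact h2





/-- relaxed long-duration event: valid up to time `m - 1`, but the field has not reached the size
`~ m ^ 400` -/
structure LGn (k : ℝ) (L M : ℕ) (z : Tor) (m : ℕ) : Prop where
  lo : M ≤ m
  hi : m ≤ 2 * M
  small : ∀ i, L ≤ i → i < m → ‖fld k z i‖ ≤ 2 * (m : ℝ) ^ 400
  val : RV k L z (m - 1)

theorem measurable_LGn (k : ℝ) (L M : ℕ) : MeasurableSet {z | ∃ m, LGn k L M z m} := by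
  have e : {z | ∃ m, LGn k L M z m} = ⋃ (m : ℕ) (_ : M ≤ m) (_ : m ≤ 2 * M),
      ((⋂ (i : ℕ) (_ : L ≤ i) (_ : i < m), {z | ‖fld k z i‖ ≤ 2 * (m : ℝ) ^ 400}) ∩
      {z | RV k L z (m - 1)}) := by
    ext z
    simp only [Set.mem_inter_iff, Set.mem_ofPred_eq, Set.mem_iInter, Set.mem_iUnion, exists_prop]
    constructor
    · rintro ⟨m, a, b, c, d⟩
      exact ⟨m, a, b, c, d⟩
    · rintro ⟨m, a, b, c, d⟩
      exact ⟨m, a, b, c, d⟩
  rw [e]
  refine MeasurableSet.iUnion fun m => MeasurableSet.iUnion fun _ => MeasurableSet.iUnion fun _ => ?_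
  refine MeasurableSet.inter ?_ (measurable_RV k L (m - 1))
  exact MeasurableSet.iInter fun i => MeasurableSet.iInter fun _ => MeasurableSet.iInter fun _ =>
      measurableSet_le (measurable_nf k i) measurable_const

/-- two starts of long-duration events at distance `< M / 2` are at distance `< L` -/
theorem LG_sep {k : ℝ} (hk : (10:ℝ) ^ 4 ≤ k) {L M : ℕ} (hL : 3 ≤ L) (hM : 8 * L ≤ M) {z : Tor} {q : ℕ}
    (hq : L ≤ q) (hq2 : 2 * q ≤ M) (h1 : ∃ m, LGn k L M z m) (h2 : ∃ m, LGn k L M ((T k)^[q] z) m) :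
    False := by
  obtain ⟨m1, d1⟩ := h1
  obtain ⟨m2, d2⟩ := h2
  have hk1 : (100:ℝ) ≤ k := le_trans (by norm_num) hk
  have hM1 := d1.lo
  have hM2 := d2.lo
  have hM3 := d1.hi
  set j := M / 4 with hj
  have hj4 : 4 * j ≤ M := by omega
  have hj4' : M ≤ 4 * j + 3 := by omega
  obtain ⟨i, hi1, hi2, hi3⟩ := d2.val.v3 j (by omega) (by omega)
  have hv : RV k L z (q + i) := by
    refine ⟨d1.val.big, ?_, ?_⟩
    · intro a b ha hab hb
      exact d1.val.v2 a b ha hab (by omega)
    · intro b hb hb2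
      exact d1.val.v3 b hb (by omega)
  have hs := sep hk1 hL hq hv (κ := (10:ℝ) ^ 1600) (by positivity) (by
    calc (10:ℝ) ^ 1600 = ((10:ℝ) ^ 4) ^ 400 := by rw [← pow_mul]
      _ ≤ k ^ 400 := pow_le_pow_left₀ (by positivity) hk _)
  have hsm := d1.small (q + i) (by omega) (by omega)
  -- `m1 ≤ 10 j`
  have hmj : (m1 : ℝ) ≤ 10 * (j : ℝ) := by
    have : m1 ≤ 10 * j := by omega
    exact_mod_cast this
  have hj0 : (0:ℝ) < (j:ℝ) ^ 400 := by
    have : 0 < j := by omega
    positivity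
  have e1 : (m1 : ℝ) ^ 400 ≤ (10:ℝ) ^ 400 * (j:ℝ) ^ 400 := by
    rw [← mul_pow]
    exact pow_le_pow_left₀ (Nat.cast_nonneg _) hmj _
  have e3 : (10:ℝ) ^ 1600 = (10:ℝ) ^ 400 * (10:ℝ) ^ 1200 := by rw [← pow_add]
  have e4 : (10:ℝ) ≤ (10:ℝ) ^ 1200 := by
    calc (10:ℝ) = (10:ℝ) ^ 1 := (pow_one _).symm
      _ ≤ _ := pow_le_pow_right₀ (by norm_num) (by norm_num)
  have hA0 : (0:ℝ) < (10:ℝ) ^ 400 := by positivity
  rw [e3] at hs
  generalize (10:ℝ) ^ 400 = A at *
  generalize (10:ℝ) ^ 1200 = B at *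
  generalize (j:ℝ) ^ 400 = J at *
  generalize (m1:ℝ) ^ 400 = M1 at *
  generalize ‖fld k ((T k)^[q] z) i‖ = u at *
  generalize ‖fld k z (q + i)‖ = w at *
  have hAJ : 0 < A * J := mul_pos hA0 hj0
  have e5 : A * B * (J / 2) ≤ A * B * u := by
    apply mul_le_mul_of_nonneg_left (by linarith)
    exact mul_nonneg hA0.le (by linarith)
  have h9 : A * J * 10 ≤ A * J * B := mul_le_mul_of_nonneg_left e4 hAJ.le
  nlinarith

/-- **(U2)** area of the relaxed long-duration event -/
theorem area_LG {k : ℝ} (hk : (10:ℝ) ^ 4 ≤ k) {L M : ℕ} (hL : 3 ≤ L) (hM : 8 * L ≤ M) :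
    ((M / 2 : ℕ) : ℝ≥0∞) * volume {z : Tor | ∃ m, LGn k L M z m} ≤ (L : ℝ≥0∞) := by
  set B : Set Tor := {z : Tor | ∃ m, LGn k L M z m} with hB
  have hBm : MeasurableSet B := measurable_LGn k L M
  have key := Boot.packing (μ := (volume : Measure Tor)) (e := T k) (mp_T k) hBm (M / 2)
    (b := (L : ℝ≥0∞)) (by
      intro z
      by_cases hne : ∃ n, n < M / 2 ∧ (T k)^[n] z ∈ B
      · classical
        set a := Nat.find hne with ha
        obtain ⟨ha1, ha2⟩ := Nat.find_spec hne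
        have hsub : ∀ n ∈ Finset.range (M / 2), n ∉ Finset.Ico a (a + L) →
            B.indicator (fun _ => (1 : ℝ≥0∞)) ((T k)^[n] z) = 0 := by
          intro n hn hn2
          apply Set.indicator_of_notMem
          intro hmem
          rw [Finset.mem_range] at hn
          have h1 : a ≤ n := Nat.find_min' hne ⟨hn, hmem⟩
          rw [Finset.mem_Ico] at hn2
          have h3 : a + L ≤ n := by
            by_contra hc
            exact hn2 ⟨h1, by omega⟩
          have e : (T k)^[n - a] ((T k)^[a] z) = (T k)^[n] z := by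
            rw [← Function.iterate_add_apply, Nat.sub_add_cancel h1]
          rw [← e] at hmem
          exact LG_sep hk hL hM (q := n - a) (by omega) (by omega) ha2 hmem
        calc ∑ n ∈ Finset.range (M / 2), B.indicator (fun _ => (1 : ℝ≥0∞)) ((T k)^[n] z)
            ≤ ∑ n ∈ Finset.range (M / 2), (Finset.Ico a (a + L) : Set ℕ).indicator
                (fun _ => (1 : ℝ≥0∞)) n := by
              apply Finset.sum_le_sum
              intro n hn
              by_cases hc : n ∈ Finset.Ico a (a + L)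
              · rw [Set.indicator_of_mem (s := (Finset.Ico a (a + L) : Set ℕ)) (by exact_mod_cast hc)]
                exact Set.indicator_le_self' (fun _ _ => bot_le) _
              · rw [hsub n hn hc]
                exact bot_le
          _ ≤ ∑ n ∈ Finset.Ico a (a + L), (1 : ℝ≥0∞) := by
              classical
              rw [← Finset.sum_filter_add_sum_filter_not (Finset.range (M / 2))
                (fun n => n ∈ Finset.Ico a (a + L))]
              have z0 : ∑ n ∈ (Finset.range (M / 2)).filter (fun n => ¬ n ∈ Finset.Ico a (a + L)),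
                  (Finset.Ico a (a + L) : Set ℕ).indicator (fun _ => (1 : ℝ≥0∞)) n = 0 := by
                apply Finset.sum_eq_zero
                intro n hn
                rw [Finset.mem_filter] at hn
                apply Set.indicator_of_notMem
                exact_mod_cast hn.2
              rw [z0, add_zero]
              calc ∑ n ∈ (Finset.range (M / 2)).filter (fun n => n ∈ Finset.Ico a (a + L)),
                    (Finset.Ico a (a + L) : Set ℕ).indicator (fun _ => (1 : ℝ≥0∞)) n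
                  ≤ ∑ n ∈ (Finset.range (M / 2)).filter (fun n => n ∈ Finset.Ico a (a + L)), 1 := by
                    apply Finset.sum_le_sum
                    intro n _
                    exact Set.indicator_le_self' (fun _ _ => bot_le) _
                _ ≤ ∑ n ∈ Finset.Ico a (a + L), 1 := by
                    apply Finset.sum_le_sum_of_subset
                    intro n hn
                    exact (Finset.mem_filter.1 hn).2
          _ = (L : ℝ≥0∞) := by simp
      · push Not at hne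
        have : ∀ n ∈ Finset.range (M / 2),
            B.indicator (fun _ => (1 : ℝ≥0∞)) ((T k)^[n] z) = 0 := fun n hn =>
          Set.indicator_of_notMem (hne n (Finset.mem_range.1 hn)) _
        rw [Finset.sum_congr rfl this]
        simp)
  simpa using key

end Crest.Agent.R128.Lam0
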