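import Crest.Agent.R128.AlignLam
import Crest.Agent.R128.CellB
import Crest.Agent.R128.Lam0U
import Crest.Agent.R128.LocDef

-- ▼ part R128/DictY
section

/-!
# Row 128: dictionary between the tip language (`Align`, `AlignMn`, `AlignLam`) and the
complexified curve `x_0 = c`, `x_1 = t` (`CellB.y`, `CellB.yd`)  (helper220)

* `zt k c t` : the torus point `(x_{-1}, x_0)` with `x_0 = c`, `x_1 = t`;
* `tb k c t = x_{-1}`; `Rev k` : the reversor `(x_{-1}, x_0) ↦ (x_1, x_0)`;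
* `ap_eq`, `am_eq` : digits; `Qp_eq`, `Qm_eq`, `Pp_eq`, `Pm_eq`, `mup_eq`, `mum_eq`;
* `pc` : derivative of the orbit in `c`; `cmu = - pc / yd` holomorphic slope.
-/

set_option autoImplicit false
open Crest.Agent.R128 Crest.Agent.R128.Two Crest.Agent.R128.Acc Crest.Agent.R128.AlignMn
open Crest.Agent.R128.TreeSum Crest.Agent.R128.AlignLam Crest.Agent.R128.Cell
open Crest.Agent.R128.CellB

namespace Crest.Agent.R128.DictY

/-- `x_{-1}` as a function of `x_0 = c`, `x_1 = t` -/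
noncomputable def tb (k c t : ℝ) : ℝ := 2 * c + k * Real.sin (2 * Real.pi * c) - t

theorem tb_tb (k c t : ℝ) : tb k c (tb k c t) = t := by
  unfold tb
  ring

/-- the torus point `(x_{-1}, x_0)` -/
noncomputable def zt (k c t : ℝ) : Tor := pr (tb k c t, c)

/-- the reversor -/
noncomputable def Rev (k : ℝ) (z : Tor) : Tor := (z.2 + z.2 + sk k z.2 - z.1, z.2)

@[simp] theorem Rev_snd (k : ℝ) (z : Tor) : (Rev k z).2 = z.2 := rfl


theorem T_Rev (k : ℝ) (z : Tor) : T k (Rev k z) = Rev k (Tinv k z) := by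
  unfold T Rev Tinv
  ext <;> simp

theorem Tz_Rev_nat (k : ℝ) (n : ℕ) (z : Tor) :
    Tz k n (Rev k z) = Rev k (Tz k (-(n : ℤ)) z) := by
  induction n with
  | zero => simp [Tz_zero]
  | succ n ih =>
    have e1 : ((n + 1 : ℕ) : ℤ) = 1 + (n : ℤ) := by push_cast; ring
    have e2 : -((n + 1 : ℕ) : ℤ) = -1 + -(n : ℤ) := by push_cast; ring
    rw [e2, e1, Tz_add, ih, Tz_one, T_Rev, Tz_add, Tz_neg_one]

theorem am_eq_ap (k : ℝ) (z : Tor) (n : ℕ) : am k z n = ap k (Rev k z) n := by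
  unfold am ap dz
  rw [Tz_Rev_nat]
  rfl

theorem zt_snd (k c t : ℝ) : (zt k c t).2 = (c : UnitAddCircle) := rfl

theorem Rev_zt (k c t : ℝ) : Rev k (zt k c t) = zt k c (tb k c t) := by
  unfold Rev zt pr
  ext
  · simp only [sk_coe]
    rw [← AddCircle.coe_add, ← AddCircle.coe_add, ← AddCircle.coe_sub, tb_tb]
    congr 1
    unfold tb
    ring
  · rfl

theorem T_zt (k c t : ℝ) : T k (zt k c t) = pr (c, t) := by
  unfold T zt pr
  ext
  · rfl
  · simp only [sk_coe]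
    rw [← AddCircle.coe_add, ← AddCircle.coe_add, ← AddCircle.coe_sub]
    congr 1
    unfold tb
    ring

theorem ap_eq (k c t : ℝ) (n : ℕ) : ((ap k (zt k c t) n : ℝ) : ℂ) = cV k (y k c n t) := by
  unfold ap dz
  cases n with
  | zero =>
    rw [Nat.cast_zero, Tz_zero, zt_snd, y_zero, cV_ofReal]
  | succ n =>
    rw [Tz_natCast, Function.iterate_succ_apply, T_zt, ← pr_rorb, y_ofReal, cV_ofReal]
    rfl

theorem am_eq (k c t : ℝ) (n : ℕ) :
    ((am k (zt k c t) n : ℝ) : ℂ) = cV k (y k c n (tb k c t : ℝ)) := by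
  rw [am_eq_ap, Rev_zt, ap_eq]

/-- a real potential and a complex one -/
theorem sol_cast {a : ℕ → ℝ} {A : ℕ → ℂ} (h : ∀ n, ((a n : ℝ) : ℂ) = A n) (u v : ℝ) (n : ℕ) :
    ((Align.sol a u v n : ℝ) : ℂ) = Align.sol A (u : ℂ) (v : ℂ) n := by
  induction n using Nat.strong_induction_on with
  | _ n ih =>
    match n with
    | 0 => rfl
    | 1 => rfl
    | n + 2 =>
      have h1 := ih (n + 1) (by omega)
      have h2 := ih n (by omega)
      change (((a (n + 1) * Align.sol a u v (n + 1) - Align.sol a u v n : ℝ)) : ℂ) =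
        A (n + 1) * Align.sol A (u : ℂ) (v : ℂ) (n + 1) - Align.sol A (u : ℂ) (v : ℂ) n
      push_cast
      rw [h1, h2, h]

/-- the complex digits along the curve -/
noncomputable def dc (k : ℝ) (c t : ℂ) (n : ℕ) : ℂ := cV k (y k c n t)

theorem yd_eq_Q (k : ℝ) (c t : ℂ) (n : ℕ) : yd k c n t = Align.Q (dc k c t) n := by
  induction n using Nat.strong_induction_on with
  | _ n ih =>
    match n with
    | 0 => rfl
    | 1 => rfl
    | n + 2 =>
      rw [yd_add_two, ih (n + 1) (by omega), ih n (by omega)]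
      rfl


theorem Qp_eq (k c t : ℝ) (n : ℕ) :
    ((Align.Q (ap k (zt k c t)) n : ℝ) : ℂ) = yd k c n t := by
  rw [yd_eq_Q]
  have := sol_cast (A := dc k c t) (fun n => ap_eq k c t n) 0 1 n
  rw [Complex.ofReal_zero, Complex.ofReal_one] at this
  exact this














end Crest.Agent.R128.DictY
end

-- ▼ part R128/Good

/-!
# Row 128, node V5: definition of a (doubly) very fresh level (helper398)

`y = (x_{-1}, x_0)` is the tip, `x : ℕ → ℝ` a real solution of the linearised recurrence on one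
side (`ap k y` = digits `V (x_n)`, other side = `Rev k y`).  `w` = foot, `ρ` = depth (nats), the
reversed start at the foot is `((T k)^[w] y).swap`.
-/

set_option autoImplicit false
open Crest.Agent.R128 Crest.Agent.R128.AlignMn Crest.Agent.R128.DictY Crest.Agent.R128.Lam0

namespace Crest.Agent.R128.Good

/-- clean start (same exponents as `Skel.Val`; `Skel.Val k L z n → CVal k L z n` is immediate) -/
structure CVal (k : ℝ) (L : ℕ) (z : Tor) (n : ℕ) : Prop where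
  cl : ∀ m, m < L → m < n → k ^ ((2 : ℝ) / 3) ≤ |V k ((T k)^[m] z).2|
  v2 : ∀ i j, L ≤ i → i ≤ j → j ≤ n → ‖fld k z i‖ ^ 99 ≤ ‖fld k z j‖ ^ 100
  v3 : ∀ j, L ≤ j → j ≤ n → ∃ i, L ≤ i ∧ i ≤ j ∧ (j : ℝ) ^ 400 ≤ ‖fld k z i‖

/-- one side of a very fresh level of depth `ρ` (nats): `x` is the tip field on this side,
foot `w`, then a run of `M + 1` regular digits which contracts `x` by 80 more levels -/
structure Side (k : ℝ) (L : ℕ) (ρ : ℝ) (y : Tor) (x : ℕ → ℝ) (w M : ℕ) : Prop where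
  hw : L < w
  val : CVal k L (((T k)^[w] y).swap) (w - 1)
  xrec : ∀ n, x (n + 2) = ap k y (n + 1) * x (n + 1) - x n
  x0 : |x 0| = 1
  x1 : |x 1| ≤ 1
  lo : Real.exp (-ρ - 3 * Real.log k) ≤ max |x (w - 1)| |x w|
  hi : max |x (w - 1)| |x w| ≤ Real.exp (-ρ)
  hM : M ≤ 200
  run : ∀ n, w ≤ n → n ≤ w + M → k ^ ((2 : ℝ) / 3) ≤ |ap k y n|
  fin : max |x (w + M - 1)| |x (w + M)| ≤ Real.exp (-ρ - 80 * Real.log k)

/-- doubly very fresh level of depth `ρ` at the tip `y` -/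
def VF (k : ℝ) (L : ℕ) (ρ : ℝ) (y : Tor) : Prop :=
  ∃ (xp xm : ℕ → ℝ) (w M w' M' : ℕ), Side k L ρ y xp w M ∧ Side k L ρ (Rev k y) xm w' M' ∧
    xp 0 = xm 0 ∧ xp 1 + xm 1 = V k y.2 * xp 0

/-- the good event of the dyadic level `n` -/
def G (k : ℝ) (L n : ℕ) : Set Tor :=
  {y | |V k y.2| < 2 ∧ ∃ ρ : ℝ, n * Real.log 2 ≤ ρ ∧ ρ ≤ n * Real.log 2 + 2 * Real.log k ∧
    VF k L ρ y}

/-- **LocA** (owner 595; assembly here) -/
def LocA (L : ℕ) : Prop :=
  ∃ C1 : ℝ, 1 ≤ C1 ∧ ∃ k1 : ℝ, ∀ k : ℝ, k1 ≤ k → ∀ (c t0 : ℝ) (n : ℕ), zt k c t0 ∈ G k L n →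
    ∃ N : Set ℝ, N ⊆ Set.Icc (t0 - 1 / (k ^ 60 * 2 ^ n)) (t0 + 1 / (k ^ 60 * 2 ^ n)) ∧
      ENNReal.ofReal (1 / (k ^ 60 * 2 ^ n)) ≤ MeasureTheory.volume N ∧
      ∀ m ∈ N, ∃ (s : Bool) (n1 n1' : ℕ) (R lam q0 q1 q2 : ℝ),
        k ^ 60 * 2 ^ n ≤ R / 4 ∧ R ≤ k ^ 74 * 2 ^ n ∧ |lam| ≤ C1 * Real.sqrt k ∧
        Loc.Cell3 k c s n1 n1' m R lam C1 q0 q1 q2 ∧
        ∀ u : ℝ, |u - m| ≤ 3 / R → zt k c u ∈ G k L n → Loc.Good3 k c s n1 n1' R u

end Crest.Agent.R128.Good
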