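import Mathlib
import Crest.Agent.R128.LocDef
import Crest.Agent.R128.Near
import Crest.Agent.R128.Good

-- ▼ part R128/Iter
section

/-! Row 128, P4-ITER (helper415): iteration of attempts on dyadic cells. Sorry free.

`cell n m = [m / 2^n, (m+1) / 2^n)`. `E` is an arbitrary set of points, `G t n` says that the dyadic
level `n` is good (an attempt) for `t`. If at every attempt at least a proportion `1 - q` of the cell
is covered by cells of level `n + g` without points of `E`, and every point of `E` has at least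
`M * g` good levels, then `volume E ≤ q ^ M * volume (cell)`. -/

set_option autoImplicit false
open MeasureTheory Set
open scoped ENNReal

namespace Crest.Agent.R128.Iter

/-- dyadic cell of level `n` -/
def cell (n : ℕ) (m : ℤ) : Set ℝ := Ico ((m : ℝ) / 2 ^ n) (((m : ℝ) + 1) / 2 ^ n)

theorem measurableSet_cell (n : ℕ) (m : ℤ) : MeasurableSet (cell n m) := measurableSet_Ico

theorem volume_cell (n : ℕ) (m : ℤ) : volume (cell n m) = ENNReal.ofReal (1 / 2 ^ n) := by
  unfold cell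
  rw [Real.volume_Ico]
  congr 1
  ring


/-- index of the cell of level `n` containing `t` -/
noncomputable def idx (n : ℕ) (t : ℝ) : ℤ := ⌊t * 2 ^ n⌋

theorem mem_cell_iff (n : ℕ) (m : ℤ) (t : ℝ) : t ∈ cell n m ↔ idx n t = m := by
  have h2 : (0:ℝ) < 2 ^ n := by positivity
  unfold cell idx
  rw [mem_Ico, Int.floor_eq_iff, div_le_iff₀ h2, lt_div_iff₀ h2]

theorem mem_cell_idx (n : ℕ) (t : ℝ) : t ∈ cell n (idx n t) := (mem_cell_iff n _ t).2 rfl

theorem cell_disjoint (n : ℕ) {m m' : ℤ} (h : m ≠ m') : Disjoint (cell n m) (cell n m') := by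
  rw [Set.disjoint_left]
  intro t ht ht'
  exact h (((mem_cell_iff n m t).1 ht).symm.trans ((mem_cell_iff n m' t).1 ht'))

/-- cells of level `n + g` inside a cell of level `n` -/
theorem cell_subset {n g : ℕ} {m : ℤ} {m' : ℤ} (h1 : m * 2 ^ g ≤ m') (h2 : m' < (m + 1) * 2 ^ g) :
    cell (n + g) m' ⊆ cell n m := by
  have hn : (0:ℝ) < 2 ^ n := by positivity
  have hg : (0:ℝ) < 2 ^ g := by positivity
  have h1' : (m : ℝ) * 2 ^ g ≤ m' := by exact_mod_cast h1
  have h2' : (m' : ℝ) + 1 ≤ ((m : ℝ) + 1) * 2 ^ g := by exact_mod_cast h2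
  rintro t ⟨ht1, ht2⟩
  rw [div_le_iff₀ (by positivity)] at ht1
  rw [lt_div_iff₀ (by positivity)] at ht2
  rw [pow_add] at ht1 ht2
  constructor
  · rw [div_le_iff₀ hn]
    have : (m : ℝ) * 2 ^ g ≤ t * 2 ^ n * 2 ^ g := by linarith [mul_assoc t ((2:ℝ) ^ n) (2 ^ g)]
    exact le_of_mul_le_mul_right this hg
  · rw [lt_div_iff₀ hn]
    have : t * 2 ^ n * 2 ^ g < ((m : ℝ) + 1) * 2 ^ g := by
      linarith [mul_assoc t ((2:ℝ) ^ n) (2 ^ g)]
    exact lt_of_mul_lt_mul_right this hg.le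

theorem idx_bounds {n g : ℕ} {m : ℤ} {t : ℝ} (ht : t ∈ cell n m) :
    m * 2 ^ g ≤ idx (n + g) t ∧ idx (n + g) t < (m + 1) * 2 ^ g := by
  have hg : (0:ℝ) < 2 ^ g := by positivity
  have hn : (0:ℝ) < 2 ^ n := by positivity
  obtain ⟨h1, h2⟩ := ht
  rw [div_le_iff₀ hn] at h1
  rw [lt_div_iff₀ hn] at h2
  unfold idx
  constructor
  · rw [Int.le_floor]
    push_cast
    rw [pow_add, ← mul_assoc]
    exact mul_le_mul_of_nonneg_right h1 hg.le
  · rw [Int.floor_lt]
    push_cast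
    rw [pow_add, ← mul_assoc]
    exact mul_lt_mul_of_pos_right h2 hg

/-- indices of the cells of level `n + g` inside the cell `(n, m)` which meet `E` -/
noncomputable def kids (E : Set ℝ) (n g : ℕ) (m : ℤ) : Finset ℤ := by
  classical
  exact (Finset.Ico (m * 2 ^ g) ((m + 1) * 2 ^ g)).filter fun m' => (cell (n + g) m' ∩ E).Nonempty

theorem mem_kids {E : Set ℝ} {n g : ℕ} {m m' : ℤ} : m' ∈ kids E n g m ↔
    (m * 2 ^ g ≤ m' ∧ m' < (m + 1) * 2 ^ g) ∧ (cell (n + g) m' ∩ E).Nonempty := by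
  classical
  unfold kids
  rw [Finset.mem_filter, Finset.mem_Ico]

/-- union of the cells of level `n` meeting `E` -/
def hull (n : ℕ) (E : Set ℝ) : Set ℝ := {t | (cell n (idx n t) ∩ E).Nonempty}


theorem hull_inter_cell (E : Set ℝ) (n g : ℕ) (m : ℤ) :
    hull (n + g) E ∩ cell n m = ⋃ m' ∈ kids E n g m, cell (n + g) m' := by
  ext t
  constructor
  · rintro ⟨h1, h2⟩
    rw [mem_iUnion₂]
    exact ⟨idx (n + g) t, mem_kids.2 ⟨idx_bounds h2, h1⟩, mem_cell_idx _ _⟩
  · intro h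
    obtain ⟨m', hm', ht⟩ := mem_iUnion₂.1 h
    obtain ⟨⟨h1, h2⟩, h3⟩ := mem_kids.1 hm'
    refine ⟨?_, cell_subset h1 h2 ht⟩
    have := (mem_cell_iff (n + g) m' t).1 ht
    unfold hull
    rw [mem_ofPred_eq, this]
    exact h3

theorem volume_hull_inter_cell (E : Set ℝ) (n g : ℕ) (m : ℤ) :
    volume (hull (n + g) E ∩ cell n m) =
      (kids E n g m).card * ENNReal.ofReal (1 / 2 ^ (n + g)) := by
  rw [hull_inter_cell, measure_biUnion_finset (fun a _ b _ hab => cell_disjoint _ hab)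
    (fun m' _ => measurableSet_cell _ _)]
  simp only [volume_cell]
  rw [Finset.sum_const, nsmul_eq_mul]




end Crest.Agent.R128.Iter
end

-- ▼ part R128/Vit
section

/-! Row 128 (helper284): V5-VITALI. Local cells `J(t)` around the good points of a dyadic cell, each
of which has a definite proportion free of the hull of the good points, give the attempt hypothesis
of `Iter.attempts` / `Pattern` on the dyadic cell. Sorry free. -/

set_option autoImplicit false
open MeasureTheory Set Metric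
open scoped ENNReal

namespace Crest.Agent.R128.Vit

open Crest.Agent.R128.Iter

/-- cells have diameter `2^-n` -/
theorem dist_of_cell {n : ℕ} {m : ℤ} {s t : ℝ} (hs : s ∈ cell n m) (ht : t ∈ cell n m) :
    |s - t| ≤ 1 / 2 ^ n := by
  obtain ⟨h1, h2⟩ := hs
  obtain ⟨h3, h4⟩ := ht
  have e : ((m : ℝ) + 1) / 2 ^ n = (m : ℝ) / 2 ^ n + 1 / 2 ^ n := by ring
  rw [e] at h2 h4
  rw [abs_le]
  constructor <;> linarith

theorem measurableSet_hull_inter (A : Set ℝ) (n g : ℕ) (m : ℤ) :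
    MeasurableSet (hull (n + g) A ∩ cell n m) := by
  rw [hull_inter_cell]
  exact Finset.measurableSet_biUnion _ fun _ _ => measurableSet_cell _ _

theorem measurableSet_hull (A : Set ℝ) (n : ℕ) : MeasurableSet (hull n A) := by
  have : hull n A = ⋃ m : ℤ, (hull (n + 0) A ∩ cell n m) := by
    ext t
    constructor
    · intro h
      exact mem_iUnion.2 ⟨idx n t, h, mem_cell_idx n t⟩
    · intro h
      obtain ⟨m, h1, _⟩ := mem_iUnion.1 h
      exact h1
  rw [this]
  exact MeasurableSet.iUnion fun m => measurableSet_hull_inter A n 0 m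


/-- **Vitali.** -/
theorem vitali {A : Set ℝ} {n g : ℕ} {m : ℤ} {c₀ ε : ℝ} (hc₀ : 0 < c₀) (hε : 0 ≤ ε)
    (hJ : ∀ t ∈ A, t ∈ cell n m → ∃ a b : ℝ, a ≤ t ∧ t ≤ b ∧
      (m : ℝ) / 2 ^ n - ε / 2 ^ n ≤ a ∧ b ≤ ((m : ℝ) + 1) / 2 ^ n + ε / 2 ^ n ∧
      2 / 2 ^ (n + g) ≤ b - a ∧
      ENNReal.ofReal (c₀ * (b - a)) ≤ volume (Icc a b \ hull (n + g) A)) :
    volume (hull (n + g) A ∩ cell n m) ≤
      ENNReal.ofReal ((1 + 2 * ε) / (1 + c₀ / 5)) * volume (cell n m) := by
  classical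
  have h2n : (0:ℝ) < 2 ^ n := by positivity
  have h2g : (0:ℝ) < 2 ^ (n + g) := by positivity
  -- choose the points
  have hch : ∀ m' ∈ kids A n g m, ∃ t a b : ℝ, t ∈ cell (n + g) m' ∧ a ≤ t ∧ t ≤ b ∧
      (m : ℝ) / 2 ^ n - ε / 2 ^ n ≤ a ∧ b ≤ ((m : ℝ) + 1) / 2 ^ n + ε / 2 ^ n ∧
      2 / 2 ^ (n + g) ≤ b - a ∧
      ENNReal.ofReal (c₀ * (b - a)) ≤ volume (Icc a b \ hull (n + g) A) := by
    intro m' hm'
    obtain ⟨⟨h1, h2⟩, t, ht, htA⟩ := mem_kids.1 hm'
    obtain ⟨a, b, h⟩ := hJ t htA (cell_subset h1 h2 ht)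
    exact ⟨t, a, b, ht, h⟩
  choose! T a b hT hat htb hal hbr hlen hvol using hch
  obtain ⟨u, hu, hdisj, hcov⟩ := Vitali.exists_disjoint_subfamily_covering_enlargement_closedBall
    (↑(kids A n g m) : Set ℤ) (fun i => (a i + b i) / 2) (fun i => (b i - a i) / 2)
    ((1 + 2 * ε) / 2 ^ n) (by
      intro i hi
      have h1 := hal i hi
      have h2 := hbr i hi
      have e : ((m : ℝ) + 1) / 2 ^ n = (m : ℝ) / 2 ^ n + 1 / 2 ^ n := by ring
      have e2 : (1 + 2 * ε) / 2 ^ n = 1 / 2 ^ n + 2 * (ε / 2 ^ n) := by ring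
      have e3 : (0:ℝ) ≤ ε / 2 ^ n := by positivity
      have e4 : (0:ℝ) ≤ 1 / 2 ^ n := by positivity
      rw [e] at h2
      rw [e2]
      linarith) 4 (by norm_num)
  have hIcc : ∀ i, closedBall ((a i + b i) / 2) ((b i - a i) / 2) = Icc (a i) (b i) := by
    intro i
    rw [Real.closedBall_eq_Icc]
    congr 1 <;> ring
  have hufin : u.Finite := (kids A n g m).finite_toSet.subset hu
  set U : Finset ℤ := hufin.toFinset with hU
  have hmemU : ∀ i, i ∈ U ↔ i ∈ u := by
    intro i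
    rw [hU, Set.Finite.mem_toFinset]
  set S : ℝ := ∑ i ∈ U, (b i - a i) with hS
  have hlen' : ∀ i ∈ U, 0 ≤ b i - a i := by
    intro i hi
    have h1 := hlen i (hu ((hmemU i).1 hi))
    have : (0:ℝ) ≤ 2 / 2 ^ (n + g) := by positivity
    linarith
  have hS0 : 0 ≤ S := Finset.sum_nonneg hlen'
  -- cover
  have hcover : hull (n + g) A ∩ cell n m ⊆
      ⋃ i ∈ U, closedBall ((a i + b i) / 2) (4 * ((b i - a i) / 2) + 1 / 2 ^ (n + g)) := by
    rw [hull_inter_cell]
    intro s hs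
    obtain ⟨m', hm', hs'⟩ := mem_iUnion₂.1 hs
    obtain ⟨i, hi, hsub⟩ := hcov m' hm'
    refine mem_iUnion₂.2 ⟨i, (hmemU i).2 hi, ?_⟩
    have ht : T m' ∈ closedBall ((a i + b i) / 2) (4 * ((b i - a i) / 2)) := by
      apply hsub
      simp only [hIcc]
      exact ⟨hat m' hm', htb m' hm'⟩
    rw [mem_closedBall, Real.dist_eq] at ht ⊢
    have h3 := dist_of_cell hs' (hT m' hm')
    calc |s - (a i + b i) / 2| = |(s - T m') + (T m' - (a i + b i) / 2)| := by ring_nf
      _ ≤ |s - T m'| + |T m' - (a i + b i) / 2| := abs_add_le _ _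
      _ ≤ _ := by linarith
  have hub : volume (hull (n + g) A ∩ cell n m) ≤ ENNReal.ofReal (5 * S) := by
    calc volume (hull (n + g) A ∩ cell n m)
        ≤ volume (⋃ i ∈ U, closedBall ((a i + b i) / 2)
            (4 * ((b i - a i) / 2) + 1 / 2 ^ (n + g))) := measure_mono hcover
      _ ≤ ∑ i ∈ U, volume (closedBall ((a i + b i) / 2)
            (4 * ((b i - a i) / 2) + 1 / 2 ^ (n + g))) := measure_biUnion_finset_le _ _
      _ ≤ ∑ i ∈ U, ENNReal.ofReal (5 * (b i - a i)) := by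
          refine Finset.sum_le_sum fun i hi => ?_
          rw [Real.volume_closedBall]
          refine ENNReal.ofReal_le_ofReal ?_
          have h1 := hlen i (hu ((hmemU i).1 hi))
          have e : (2:ℝ) / 2 ^ (n + g) = 2 * (1 / 2 ^ (n + g)) := by ring
          rw [e] at h1
          linarith
      _ = ENNReal.ofReal (5 * S) := by
          rw [← ENNReal.ofReal_sum_of_nonneg (fun i hi => by have := hlen' i hi; linarith),
            ← Finset.mul_sum]
  -- dead parts
  have hdead : ENNReal.ofReal (c₀ * S) + volume (hull (n + g) A ∩ cell n m) ≤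
      ENNReal.ofReal ((1 + 2 * ε) / 2 ^ n) := by
    have hd : Disjoint (⋃ i ∈ U, (Icc (a i) (b i) \ hull (n + g) A))
        (hull (n + g) A ∩ cell n m) := by
      rw [Set.disjoint_left]
      intro s hs hs2
      obtain ⟨i, _, hs'⟩ := mem_iUnion₂.1 hs
      exact hs'.2 hs2.1
    have hsum : ENNReal.ofReal (c₀ * S) ≤ volume (⋃ i ∈ U, (Icc (a i) (b i) \ hull (n + g) A)) := by
      rw [measure_biUnion_finset]
      · calc ENNReal.ofReal (c₀ * S) = ∑ i ∈ U, ENNReal.ofReal (c₀ * (b i - a i)) := by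
              rw [← ENNReal.ofReal_sum_of_nonneg
                (fun i hi => mul_nonneg hc₀.le (hlen' i hi)), ← Finset.mul_sum]
          _ ≤ _ := Finset.sum_le_sum fun i hi => hvol i (hu ((hmemU i).1 hi))
      · intro i hi j hj hij
        have := hdisj ((hmemU i).1 hi) ((hmemU j).1 hj) hij
        simp only [Function.onFun, hIcc] at this
        exact this.mono sdiff_subset sdiff_subset
      · intro i _
        exact measurableSet_Icc.diff (measurableSet_hull A _)
    calc ENNReal.ofReal (c₀ * S) + volume (hull (n + g) A ∩ cell n m)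
        ≤ volume (⋃ i ∈ U, (Icc (a i) (b i) \ hull (n + g) A))
          + volume (hull (n + g) A ∩ cell n m) := add_le_add_left hsum _
      _ = volume ((⋃ i ∈ U, (Icc (a i) (b i) \ hull (n + g) A)) ∪
            (hull (n + g) A ∩ cell n m)) :=
          (measure_union hd (measurableSet_hull_inter A n g m)).symm
      _ ≤ volume (Icc ((m : ℝ) / 2 ^ n - ε / 2 ^ n) (((m : ℝ) + 1) / 2 ^ n + ε / 2 ^ n)) := by
          refine measure_mono (union_subset ?_ ?_)
          · refine iUnion₂_subset fun i hi => ?_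
            have hk := hu ((hmemU i).1 hi)
            intro s hs
            exact ⟨(hal i hk).trans hs.1.1, hs.1.2.trans (hbr i hk)⟩
          · intro s hs
            obtain ⟨h1, h2⟩ := hs.2
            have e3 : (0:ℝ) ≤ ε / 2 ^ n := by positivity
            exact ⟨by linarith, by linarith⟩
      _ = ENNReal.ofReal ((1 + 2 * ε) / 2 ^ n) := by
          rw [Real.volume_Icc]
          congr 1
          ring
  -- conclusion
  have hfin : volume (hull (n + g) A ∩ cell n m) ≠ ∞ :=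
    (lt_of_le_of_lt hub ENNReal.ofReal_lt_top).ne
  obtain ⟨x, hx⟩ : ∃ x : ℝ, x = (volume (hull (n + g) A ∩ cell n m)).toReal := ⟨_, rfl⟩
  have hx0 : 0 ≤ x := by rw [hx]; exact ENNReal.toReal_nonneg
  have hxe : volume (hull (n + g) A ∩ cell n m) = ENNReal.ofReal x := by
    rw [hx, ENNReal.ofReal_toReal hfin]
  rw [hxe] at hub hdead ⊢
  rw [ENNReal.ofReal_le_ofReal_iff (by positivity)] at hub
  rw [← ENNReal.ofReal_add (by positivity) hx0, ENNReal.ofReal_le_ofReal_iff (by positivity)]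
    at hdead
  rw [volume_cell, ← ENNReal.ofReal_mul (by positivity)]
  refine ENNReal.ofReal_le_ofReal ?_
  have h5 : 0 < 1 + c₀ / 5 := by positivity
  have e : (1 + 2 * ε) / (1 + c₀ / 5) * (1 / 2 ^ n) = ((1 + 2 * ε) / 2 ^ n) / (1 + c₀ / 5) := by
    field_simp
  rw [e, le_div_iff₀ h5]
  nlinarith [mul_le_mul_of_nonneg_left hub (by positivity : (0:ℝ) ≤ c₀ / 5)]



end Crest.Agent.R128.Vit
end

-- ▼ part R128/LocC
section

/-! Row 128 (helper284): LocC. From the 3-lap cells (`Cell3`, `Good3`, `LocB` of `LocDef`) to the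
attempt hypothesis on dyadic cells. Sorry free. -/

set_option autoImplicit false
open MeasureTheory Set Metric
open scoped ENNReal

namespace Crest.Agent.R128.LocC

open Crest.Agent.R128.Iter Crest.Agent.R128.Vit

/-- dead part of an interval: Vitali inside -/
theorem dead_of_cells {A N : Set ℝ} {t₀ r c₀ : ℝ} {n : ℕ} (hc₀ : 0 < c₀) (hr : 0 < r)
    (hN : N ⊆ Icc (t₀ - r) (t₀ + r)) (hvN : ENNReal.ofReal r ≤ volume N)
    (h : ∀ x ∈ N, ∃ R : ℝ, 0 < R ∧ 2 / R ≤ r ∧
      ENNReal.ofReal (c₀ / R) ≤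
        volume {t : ℝ | |t - x| ≤ 2 / R ∧ ∀ u ∈ A, ¬ |u - t| ≤ 1 / 2 ^ n}) :
    ENNReal.ofReal (c₀ / 64 * (4 * r)) ≤
      volume (Icc (t₀ - 2 * r) (t₀ + 2 * r) \ hull n A) := by
  choose! R hR hRr hvol using h
  obtain ⟨u, hu, hdisj, hcov⟩ := Vitali.exists_disjoint_subfamily_covering_enlargement_closedBall
    N (fun x => x) (fun x => 2 / R x) r hRr 4 (by norm_num)
  have hcount : u.Countable := by
    have hd' : u.PairwiseDisjoint fun x => ball x (2 / R x) := by
      intro x hx y hy hxy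
      exact (hdisj hx hy hxy).mono ball_subset_closedBall ball_subset_closedBall
    refine hd'.countable_of_isOpen (fun x _ => isOpen_ball) ?_
    intro x hx
    exact ⟨x, mem_ball_self (div_pos two_pos (hR x (hu hx)))⟩
  have hcover : N ⊆ ⋃ x ∈ u, closedBall x (4 * (2 / R x)) := by
    intro x hx
    obtain ⟨y, hy, hsub⟩ := hcov x hx
    exact mem_iUnion₂.2 ⟨y, hy, hsub (mem_closedBall_self (div_pos two_pos (hR x hx)).le)⟩
  have h1 : volume N ≤ ∑' x : u, ENNReal.ofReal (16 / R x) := by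
    calc volume N ≤ volume (⋃ x ∈ u, closedBall x (4 * (2 / R x))) := measure_mono hcover
      _ ≤ ∑' x : u, volume (closedBall (x : ℝ) (4 * (2 / R x))) := by
          exact measure_biUnion_le volume hcount _
      _ = _ := by
          congr 1
          funext x
          rw [Real.volume_closedBall]
          congr 1
          ring
  have hdead : ∀ x ∈ u, ENNReal.ofReal (c₀ / R x) ≤
      volume (closedBall x (2 / R x) \ hull n A) := by
    intro x hx
    refine (hvol x (hu hx)).trans (measure_mono ?_)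
    rintro t ⟨ht1, ht2⟩
    refine ⟨by rw [mem_closedBall, Real.dist_eq]; exact ht1, ?_⟩
    intro hth
    obtain ⟨v, hv, hvA⟩ := hth
    exact ht2 v hvA (dist_of_cell hv (mem_cell_idx n t))
  have h2 : volume (⋃ x ∈ u, (closedBall x (2 / R x) \ hull n A)) =
      ∑' x : u, volume (closedBall (x : ℝ) (2 / R x) \ hull n A) := by
    refine measure_biUnion hcount ?_ ?_
    · intro x hx y hy hxy
      exact (hdisj hx hy hxy).mono sdiff_subset sdiff_subset
    · intro x _
      exact measurableSet_closedBall.diff (measurableSet_hull A n)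
  have h3 : (⋃ x ∈ u, (closedBall x (2 / R x) \ hull n A)) ⊆
      Icc (t₀ - 2 * r) (t₀ + 2 * r) \ hull n A := by
    refine iUnion₂_subset fun x hx => ?_
    rintro t ⟨ht1, ht2⟩
    refine ⟨?_, ht2⟩
    rw [mem_closedBall, Real.dist_eq, abs_le] at ht1
    obtain ⟨h4, h5⟩ := hN (hu hx)
    have h6 := hRr x (hu hx)
    exact ⟨by linarith [ht1.1], by linarith [ht1.2]⟩
  calc ENNReal.ofReal (c₀ / 64 * (4 * r)) = ENNReal.ofReal (c₀ / 16) * ENNReal.ofReal r := by
        rw [← ENNReal.ofReal_mul (by positivity)]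
        congr 1
        ring
    _ ≤ ENNReal.ofReal (c₀ / 16) * ∑' x : u, ENNReal.ofReal (16 / R x) := by
        gcongr
        exact hvN.trans h1
    _ = ∑' x : u, ENNReal.ofReal (c₀ / R x) := by
        rw [← ENNReal.tsum_mul_left]
        congr 1
        funext x
        rw [← ENNReal.ofReal_mul (by positivity)]
        congr 1
        ring
    _ ≤ ∑' x : u, volume (closedBall (x : ℝ) (2 / R x) \ hull n A) :=
        ENNReal.tsum_le_tsum fun x => hdead x x.2
    _ = volume (⋃ x ∈ u, (closedBall x (2 / R x) \ hull n A)) := h2.symm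
    _ ≤ _ := measure_mono h3

/-- **abstract LocC** -/
theorem loc_of_cells {A : Set ℝ} {n g : ℕ} {m : ℤ} {c₀ ε r : ℝ} (hc₀ : 0 < c₀) (hr : 0 < r)
    (hrε : 2 * r ≤ ε / 2 ^ n) (hgr : 1 / 2 ^ (n + g) ≤ r)
    (h : ∀ t₀ ∈ A, t₀ ∈ cell n m → ∃ N : Set ℝ, N ⊆ Icc (t₀ - r) (t₀ + r) ∧
      ENNReal.ofReal r ≤ volume N ∧ ∀ x ∈ N, ∃ R : ℝ, 0 < R ∧ 2 / R ≤ r ∧
      ENNReal.ofReal (c₀ / R) ≤
        volume {t : ℝ | |t - x| ≤ 2 / R ∧ ∀ u ∈ A, ¬ |u - t| ≤ 1 / 2 ^ (n + g)}) :
    volume (hull (n + g) A ∩ cell n m) ≤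
      ENNReal.ofReal ((1 + 2 * ε) / (1 + c₀ / 320)) * volume (cell n m) := by
  have h2n : (0:ℝ) < 2 ^ n := by positivity
  have hε : 0 ≤ ε := by
    by_contra hcon
    have : ε / 2 ^ n < 0 := div_neg_of_neg_of_pos (not_le.1 hcon) h2n
    linarith
  have e : c₀ / 320 = (c₀ / 64) / 5 := by ring
  rw [e]
  refine vitali (by positivity) hε fun t₀ ht₀ htc => ?_
  obtain ⟨N, hN, hvN, hx⟩ := h t₀ ht₀ htc
  have hd := dead_of_cells hc₀ hr hN hvN hx
  obtain ⟨h1, h2⟩ := htc
  refine ⟨t₀ - 2 * r, t₀ + 2 * r, by linarith, by linarith, by linarith, by linarith, ?_, ?_⟩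
  · have e2 : (2:ℝ) / 2 ^ (n + g) = 2 * (1 / 2 ^ (n + g)) := by ring
    rw [e2]
    linarith
  · have e3 : t₀ + 2 * r - (t₀ - 2 * r) = 4 * r := by ring
    rw [e3]
    exact hd


open Crest.Agent.R128.Loc





end Crest.Agent.R128.LocC
end

-- ▼ part R128/IterG
section

/-! Row 128 (helper555): counting of good levels. Only the GOOD points of a cell have to be covered
by a proportion `q` of the sub-cells (`hatt`), the other points of the cell are not looked at.
For a fixed finite `g`-separated set `S` of levels, `volume {t ∈ cell | all levels of S good} ≤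
q ^ |S| volume (cell)`; union bound over the subsets of a set `P` of levels; numeric corollary. -/

set_option autoImplicit false
open MeasureTheory Set
open scoped ENNReal

namespace Crest.Agent.R128.IterG

open Crest.Agent.R128.Iter

/-- a cell of level `n` is the union of its sub-cells of level `n + d` -/
theorem cell_subset_biUnion (n d : ℕ) (m : ℤ) :
    cell n m ⊆ ⋃ m' ∈ Finset.Ico (m * 2 ^ d) ((m + 1) * 2 ^ d), cell (n + d) m' := by
  intro t ht
  rw [mem_iUnion₂]
  have hb := idx_bounds (g := d) ht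
  exact ⟨idx (n + d) t, Finset.mem_Ico.2 hb, mem_cell_idx _ _⟩

theorem sum_volume_cell (n d : ℕ) (m : ℤ) :
    ∑ m' ∈ Finset.Ico (m * 2 ^ d) ((m + 1) * 2 ^ d), volume (cell (n + d) m') =
      volume (cell n m) := by
  simp only [volume_cell]
  rw [Finset.sum_const, Int.card_Ico, nsmul_eq_mul]
  have h1 : (m + 1) * 2 ^ d - m * 2 ^ d = ((2 ^ d : ℕ) : ℤ) := by push_cast; ring
  rw [h1, Int.toNat_natCast]
  have h2 : (((2 ^ d : ℕ) : ℕ) : ℝ≥0∞) = ENNReal.ofReal ((2:ℝ) ^ d) := by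
    rw [ENNReal.ofReal_pow (by norm_num)]
    norm_num
  rw [h2, ← ENNReal.ofReal_mul (by positivity)]
  congr 1
  rw [pow_add]
  field_simp

/-- For a fixed `g`-separated set `S` of levels. -/
theorem fixed {G : ℝ → ℕ → Prop} {g : ℕ} {q : ℝ≥0∞} {n₀ n₁ : ℕ}
    (hatt : ∀ n m, n₀ ≤ n → n ≤ n₁ →
      volume (hull (n + g) {t | t ∈ cell n m ∧ G t n} ∩ cell n m) ≤ q * volume (cell n m)) :
    ∀ (M : ℕ) (S : Finset ℕ), S.card = M → (∀ i ∈ S, n₀ ≤ i ∧ i ≤ n₁) →
      (∀ i ∈ S, ∀ j ∈ S, i < j → i + g ≤ j) → ∀ (n : ℕ) (m : ℤ), (∀ i ∈ S, n ≤ i) →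
      volume {t | t ∈ cell n m ∧ ∀ i ∈ S, G t i} ≤ q ^ M * volume (cell n m) := by
  intro M
  induction M with
  | zero =>
    intro S hS _ _ n m _
    rw [pow_zero, one_mul]
    exact measure_mono fun t ht => ht.1
  | succ M ih =>
    intro S hS hb hsep n m hn
    have hne : S.Nonempty := by
      rw [← Finset.card_pos, hS]
      exact Nat.succ_pos _
    set s := S.min' hne with hs
    have hsS : s ∈ S := Finset.min'_mem _ _
    have hmin : ∀ i ∈ S, s ≤ i := fun i hi => Finset.min'_le _ _ hi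
    obtain ⟨d, hd⟩ : ∃ d, s = n + d := ⟨s - n, by have := hn s hsS; omega⟩
    -- one cell of level `s`
    have hcell : ∀ m' : ℤ, volume {t | t ∈ cell s m' ∧ ∀ i ∈ S, G t i} ≤
        q ^ (M + 1) * volume (cell s m') := by
      intro m'
      have hh := hatt s m' (hb s hsS).1 (hb s hsS).2
      set A : Set ℝ := {t | t ∈ cell s m' ∧ G t s} with hA
      have hcov : {t | t ∈ cell s m' ∧ ∀ i ∈ S, G t i} ⊆
          ⋃ k ∈ kids A s g m', {t | t ∈ cell (s + g) k ∧ ∀ i ∈ S.erase s, G t i} := by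
        rintro t ⟨ht, htG⟩
        rw [mem_iUnion₂]
        refine ⟨idx (s + g) t, mem_kids.2 ⟨idx_bounds ht, ⟨t, mem_cell_idx _ _, ht, htG s hsS⟩⟩,
          mem_cell_idx _ _, fun i hi => htG i (Finset.mem_of_mem_erase hi)⟩
      have hkid : ∀ k ∈ kids A s g m',
          volume {t | t ∈ cell (s + g) k ∧ ∀ i ∈ S.erase s, G t i} ≤
            q ^ M * ENNReal.ofReal (1 / 2 ^ (s + g)) := by
        intro k _
        rw [← volume_cell (s + g) k]
        refine ih (S.erase s) ?_ ?_ ?_ (s + g) k ?_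
        · rw [Finset.card_erase_of_mem hsS, hS]
          rfl
        · intro i hi
          exact hb i (Finset.mem_of_mem_erase hi)
        · intro i hi j hj hij
          exact hsep i (Finset.mem_of_mem_erase hi) j (Finset.mem_of_mem_erase hj) hij
        · intro i hi
          have hi' := Finset.mem_of_mem_erase hi
          have hne' := Finset.ne_of_mem_erase hi
          exact hsep s hsS i hi' (lt_of_le_of_ne (hmin i hi') (Ne.symm hne'))
      calc volume {t | t ∈ cell s m' ∧ ∀ i ∈ S, G t i}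
          ≤ volume (⋃ k ∈ kids A s g m', {t | t ∈ cell (s + g) k ∧ ∀ i ∈ S.erase s, G t i}) :=
            measure_mono hcov
        _ ≤ ∑ k ∈ kids A s g m', volume {t | t ∈ cell (s + g) k ∧ ∀ i ∈ S.erase s, G t i} :=
            measure_biUnion_finset_le _ _
        _ ≤ ∑ _k ∈ kids A s g m', q ^ M * ENNReal.ofReal (1 / 2 ^ (s + g)) :=
            Finset.sum_le_sum hkid
        _ = q ^ M * volume (hull (s + g) A ∩ cell s m') := by
            rw [Finset.sum_const, nsmul_eq_mul, volume_hull_inter_cell]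
            ring
        _ ≤ q ^ M * (q * volume (cell s m')) := by gcongr
        _ = q ^ (M + 1) * volume (cell s m') := by rw [pow_succ]; ring
    have hcov : {t | t ∈ cell n m ∧ ∀ i ∈ S, G t i} ⊆
        ⋃ m' ∈ Finset.Ico (m * 2 ^ d) ((m + 1) * 2 ^ d),
          {t | t ∈ cell s m' ∧ ∀ i ∈ S, G t i} := by
      rintro t ⟨ht, htG⟩
      obtain ⟨m', hm', ht'⟩ := mem_iUnion₂.1 (cell_subset_biUnion n d m ht)
      rw [mem_iUnion₂]
      exact ⟨m', hm', hd ▸ ht', htG⟩
    calc volume {t | t ∈ cell n m ∧ ∀ i ∈ S, G t i}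
        ≤ volume (⋃ m' ∈ Finset.Ico (m * 2 ^ d) ((m + 1) * 2 ^ d),
            {t | t ∈ cell s m' ∧ ∀ i ∈ S, G t i}) := measure_mono hcov
      _ ≤ ∑ m' ∈ Finset.Ico (m * 2 ^ d) ((m + 1) * 2 ^ d),
            volume {t | t ∈ cell s m' ∧ ∀ i ∈ S, G t i} := measure_biUnion_finset_le _ _
      _ ≤ ∑ m' ∈ Finset.Ico (m * 2 ^ d) ((m + 1) * 2 ^ d), q ^ (M + 1) * volume (cell s m') :=
            Finset.sum_le_sum fun m' _ => hcell m'
      _ = q ^ (M + 1) * volume (cell n m) := by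
            rw [← Finset.mul_sum, hd, sum_volume_cell]

/-- Union bound over the subsets of a `g`-separated set `P` of levels: the set of the points of the
cell with at least `M` good levels in `P`. -/
theorem card_ge {G : ℝ → ℕ → Prop} {g : ℕ} {q : ℝ≥0∞} {n₀ n₁ : ℕ}
    (hatt : ∀ n m, n₀ ≤ n → n ≤ n₁ →
      volume (hull (n + g) {t | t ∈ cell n m ∧ G t n} ∩ cell n m) ≤ q * volume (cell n m))
    (P : Finset ℕ) (hP : ∀ i ∈ P, n₀ ≤ i ∧ i ≤ n₁)
    (hsep : ∀ i ∈ P, ∀ j ∈ P, i < j → i + g ≤ j) (n : ℕ) (m : ℤ) (hn : ∀ i ∈ P, n ≤ i) (M : ℕ) :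
    volume {t | t ∈ cell n m ∧ ∃ s ⊆ P, M ≤ s.card ∧ ∀ i ∈ s, G t i} ≤
      (P.card.choose M : ℝ≥0∞) * q ^ M * volume (cell n m) := by
  have hcov : {t | t ∈ cell n m ∧ ∃ s ⊆ P, M ≤ s.card ∧ ∀ i ∈ s, G t i} ⊆
      ⋃ S ∈ P.powersetCard M, {t | t ∈ cell n m ∧ ∀ i ∈ S, G t i} := by
    rintro t ⟨ht, s, hs, hM, hG⟩
    obtain ⟨S, hS, hcard⟩ := Finset.exists_subset_card_eq hM
    rw [mem_iUnion₂]
    exact ⟨S, Finset.mem_powersetCard.2 ⟨hS.trans hs, hcard⟩, ht, fun i hi => hG i (hS hi)⟩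
  calc volume {t | t ∈ cell n m ∧ ∃ s ⊆ P, M ≤ s.card ∧ ∀ i ∈ s, G t i}
      ≤ volume (⋃ S ∈ P.powersetCard M, {t | t ∈ cell n m ∧ ∀ i ∈ S, G t i}) := measure_mono hcov
    _ ≤ ∑ S ∈ P.powersetCard M, volume {t | t ∈ cell n m ∧ ∀ i ∈ S, G t i} :=
        measure_biUnion_finset_le _ _
    _ ≤ ∑ _S ∈ P.powersetCard M, q ^ M * volume (cell n m) := by
        refine Finset.sum_le_sum fun S hS => ?_
        obtain ⟨h1, h2⟩ := Finset.mem_powersetCard.1 hS
        exact fixed hatt M S h2 (fun i hi => hP i (h1 hi))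
          (fun i hi j hj => hsep i (h1 hi) j (h1 hj)) n m (fun i hi => hn i (h1 hi))
    _ = (P.card.choose M : ℝ≥0∞) * q ^ M * volume (cell n m) := by
        rw [Finset.sum_const, Finset.card_powersetCard, nsmul_eq_mul, mul_assoc]

/-- Numeric part: for `q < 1` there is `η > 0` such that `binom (R, M) q ^ M ≤ (q ^ (1/4)) ^ R` as
soon as `(1 - η) R ≤ M ≤ R`. -/
theorem exists_eta {q : ℝ} (hq0 : 0 < q) (hq1 : q < 1) :
    ∃ η : ℝ, 0 < η ∧ η ≤ 1 / 4 ∧ ∀ R M : ℕ, M ≤ R → (1 - η) * R ≤ M →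
      (R.choose M : ℝ) * q ^ M ≤ (q ^ (1 / 4 : ℝ)) ^ R := by
  -- `r = q ^ (1/4)`
  set r : ℝ := q ^ (1 / 4 : ℝ) with hr
  have hr0 : 0 < r := Real.rpow_pos_of_pos hq0 _
  have hr1 : r < 1 := Real.rpow_lt_one hq0.le hq1 (by norm_num)
  have hr4 : r ^ 4 = q := by
    rw [hr, ← Real.rpow_natCast, ← Real.rpow_mul hq0.le]
    norm_num
  -- `x` with `(1 + x) r ≤ 1`, `x < 1`
  obtain ⟨x, hx0, hx1, hx⟩ : ∃ x : ℝ, 0 < x ∧ x < 1 ∧ (1 + x) * r ≤ 1 := by
    refine ⟨(1 - r) / 2, by linarith, by linarith, ?_⟩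
    nlinarith
  -- `η` with `x ^ (-η) r ≤ 1`
  have hlx : Real.log x < 0 := Real.log_neg hx0 hx1
  have hlr : Real.log r < 0 := Real.log_neg hr0 hr1
  set η : ℝ := min (1 / 4) (Real.log r / Real.log x) with hη
  have hη0 : 0 < η := lt_min (by norm_num) (div_pos_of_neg_of_neg hlr hlx)
  have hη4 : η ≤ 1 / 4 := min_le_left _ _
  have hηr : η ≤ Real.log r / Real.log x := min_le_right _ _
  refine ⟨η, hη0, hη4, ?_⟩
  intro R M hMR hM
  set j := R - M with hj
  have hjM : (j : ℝ) = R - M := by rw [hj, Nat.cast_sub hMR]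
  have hjη : (j : ℝ) ≤ η * R := by rw [hjM]; linarith
  -- binomial bound
  have h1 : (R.choose M : ℝ) * x ^ j ≤ (1 + x) ^ R := by
    have h := add_pow (1:ℝ) x R
    rw [h]
    have hmem : M ∈ Finset.range (R + 1) := Finset.mem_range.2 (by omega)
    have hle := Finset.single_le_sum (f := fun m => (1:ℝ) ^ m * x ^ (R - m) * (R.choose m : ℝ))
      (fun i _ => by positivity) hmem
    simpa [hj, mul_comm] using hle
  -- `r ^ R ≤ x ^ j`
  have h2 : r ^ R ≤ x ^ j := by
    have hlog : (R : ℝ) * Real.log r ≤ j * Real.log x := by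
      have e1 : (j : ℝ) * Real.log x ≥ (η * R) * Real.log x :=
        mul_le_mul_of_nonpos_right hjη hlx.le
      have e2 : η * Real.log x ≥ Real.log r := by
        have := mul_le_mul_of_nonpos_right hηr hlx.le
        rwa [div_mul_cancel₀ _ hlx.ne] at this
      have hR : (0:ℝ) ≤ R := Nat.cast_nonneg R
      nlinarith
    have := Real.exp_le_exp.2 hlog
    rwa [mul_comm (R:ℝ), mul_comm (j:ℝ), Real.exp_mul, Real.exp_mul, Real.exp_log hr0,
      Real.exp_log hx0, Real.rpow_natCast, Real.rpow_natCast] at this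
  -- `q ^ M ≤ r ^ (3 R)`
  have h3 : q ^ M ≤ r ^ (3 * R) := by
    rw [← hr4, ← pow_mul]
    refine pow_le_pow_of_le_one hr0.le hr1.le ?_
    have : (3 / 4 : ℝ) * R ≤ M := by
      have hR : (0:ℝ) ≤ R := Nat.cast_nonneg R
      nlinarith
    have h' : (3 * R : ℝ) ≤ 4 * M := by linarith
    exact_mod_cast h'
  have hxj : 0 < x ^ j := pow_pos hx0 _
  have h4 : (R.choose M : ℝ) * q ^ M * x ^ j ≤ r ^ R * x ^ j := by
    calc (R.choose M : ℝ) * q ^ M * x ^ j = ((R.choose M : ℝ) * x ^ j) * q ^ M := by ring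
      _ ≤ (1 + x) ^ R * r ^ (3 * R) := mul_le_mul h1 h3 (by positivity) (by positivity)
      _ = ((1 + x) * r) ^ R * (r ^ R * r ^ R) := by rw [mul_pow]; ring
      _ ≤ 1 * (r ^ R * r ^ R) := by
          refine mul_le_mul_of_nonneg_right (pow_le_one₀ (by positivity) hx) (by positivity)
      _ ≤ 1 * (r ^ R * x ^ j) := by gcongr
      _ = r ^ R * x ^ j := one_mul _
  exact le_of_mul_le_mul_right h4 hxj

/-- Final form: at least `(1 - η) |P|` levels of `P` good. -/
theorem good_le {q : ℝ} (hq0 : 0 < q) (hq1 : q < 1) :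
    ∃ η : ℝ, 0 < η ∧ η ≤ 1 / 4 ∧ ∀ {G : ℝ → ℕ → Prop} {g n₀ n₁ : ℕ}
      (_ : ∀ n m, n₀ ≤ n → n ≤ n₁ →
        volume (hull (n + g) {t | t ∈ cell n m ∧ G t n} ∩ cell n m) ≤
          ENNReal.ofReal q * volume (cell n m))
      (P : Finset ℕ) (_ : ∀ i ∈ P, n₀ ≤ i ∧ i ≤ n₁)
      (_ : ∀ i ∈ P, ∀ j ∈ P, i < j → i + g ≤ j) (n : ℕ) (m : ℤ) (_ : ∀ i ∈ P, n ≤ i),
      volume {t | t ∈ cell n m ∧ ∃ s ⊆ P, (1 - η) * P.card ≤ s.card ∧ ∀ i ∈ s, G t i} ≤
        ENNReal.ofReal ((q ^ (1 / 4 : ℝ)) ^ P.card) * volume (cell n m) := by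
  obtain ⟨η, hη0, hη4, hη⟩ := exists_eta hq0 hq1
  refine ⟨η, hη0, hη4, ?_⟩
  intro G g n₀ n₁ hatt P hP hsep n m hn
  set R := P.card with hR
  set M := ⌈(1 - η) * R⌉₊ with hM
  have hRn : (0:ℝ) ≤ R := Nat.cast_nonneg R
  have hMR : M ≤ R := by
    rw [hM, Nat.ceil_le]
    nlinarith
  have hMge : (1 - η) * R ≤ M := Nat.le_ceil _
  have hsub : {t | t ∈ cell n m ∧ ∃ s ⊆ P, (1 - η) * (R:ℝ) ≤ s.card ∧ ∀ i ∈ s, G t i} ⊆
      {t | t ∈ cell n m ∧ ∃ s ⊆ P, M ≤ s.card ∧ ∀ i ∈ s, G t i} := by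
    rintro t ⟨ht, s, hs, hc, hG⟩
    exact ⟨ht, s, hs, Nat.ceil_le.2 hc, hG⟩
  calc volume {t | t ∈ cell n m ∧ ∃ s ⊆ P, (1 - η) * (R:ℝ) ≤ s.card ∧ ∀ i ∈ s, G t i}
      ≤ volume {t | t ∈ cell n m ∧ ∃ s ⊆ P, M ≤ s.card ∧ ∀ i ∈ s, G t i} := measure_mono hsub
    _ ≤ (R.choose M : ℝ≥0∞) * ENNReal.ofReal q ^ M * volume (cell n m) :=
        card_ge hatt P hP hsep n m hn M
    _ = ENNReal.ofReal ((R.choose M : ℝ) * q ^ M) * volume (cell n m) := by
        rw [ENNReal.ofReal_mul (by positivity), ENNReal.ofReal_pow hq0.le, ENNReal.ofReal_natCast]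
    _ ≤ ENNReal.ofReal ((q ^ (1 / 4 : ℝ)) ^ R) * volume (cell n m) := by
        gcongr
        exact hη R M hMR hMge

end Crest.Agent.R128.IterG
end

-- ▼ part R128/PayArea
section

/-! Row 128, V5-AREA (helper675): from the local statement on the dyadic cells of the fibres
`x_{-1} = t`, `x_0 = c` to the area of the set of points with many good levels; measurability of sets
of the form `{z | ∃ v, P z v}` for Boolean combinations `P` of continuous inequalities. -/

set_option autoImplicit false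
open MeasureTheory Set
open scoped ENNReal

namespace Crest.Agent.R128.PayArea

open Crest.Agent.R128 Crest.Agent.R128.Iter

/-! ## Fibres -/

theorem volume_circle {S : Set UnitAddCircle} (hS : MeasurableSet S) :
    volume S = volume {t : ℝ | t ∈ cell 0 0 ∧ (t : UnitAddCircle) ∈ S} := by
  have h := UnitAddCircle.measurePreserving_mk 0
  rw [← h.measure_preimage hS.nullMeasurableSet, zero_add, ← restrict_Ico_eq_restrict_Ioc,
    Measure.restrict_apply (h.measurable hS)]
  congr 1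
  ext t
  unfold cell
  simp only [mem_inter_iff, mem_preimage, mem_ofPred_eq, pow_zero, div_one, Int.cast_zero, zero_add,
    mem_Ico]
  tauto

/-- fibrewise bound on the `t`-circle over every `c` -/
theorem area_le_of_fibre {A : Set Tor} (hA : MeasurableSet A) {B : Set UnitAddCircle}
    (hB : MeasurableSet B) {e : ℝ≥0∞} (hsub : ∀ z ∈ A, z.2 ∈ B)
    (h : ∀ c ∈ B, volume {t : ℝ | t ∈ cell 0 0 ∧ ((t : UnitAddCircle), c) ∈ A} ≤ e) :
    volume A ≤ e * volume B := by
  rw [Measure.volume_eq_prod, Measure.prod_apply_symm hA]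
  calc ∫⁻ c, volume ((fun x : UnitAddCircle => (x, c)) ⁻¹' A)
      ≤ ∫⁻ c, B.indicator (fun _ => e) c := by
        refine lintegral_mono fun c => ?_
        by_cases hc : c ∈ B
        · rw [indicator_of_mem hc, volume_circle (measurable_prodMk_right hA)]
          exact h c hc
        · rw [indicator_of_notMem hc]
          have : (fun x : UnitAddCircle => (x, c)) ⁻¹' A = ∅ := by
            rw [eq_empty_iff_forall_notMem]
            intro x hx
            exact hc (hsub _ hx)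
          rw [this, measure_empty]
    _ = e * volume B := by
        rw [lintegral_indicator_const hB]

/-- `B` the near critical digits -/
theorem area_le_V {k r : ℝ} (hk : 1 ≤ k) (hr : 0 ≤ r) {A : Set Tor} (hA : MeasurableSet A) {e : ℝ}
    (he : 0 ≤ e) (hsub : ∀ z ∈ A, |V k z.2| ≤ r)
    (h : ∀ c : UnitAddCircle, |V k c| ≤ r →
      volume {t : ℝ | t ∈ cell 0 0 ∧ ((t : UnitAddCircle), c) ∈ A} ≤ ENNReal.ofReal e) :
    volume A ≤ ENNReal.ofReal (r / k * e) := by
  have hBm : MeasurableSet {c : UnitAddCircle | |V k c| ≤ r} :=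
    (isClosed_le (continuous_V k).abs continuous_const).measurableSet
  have h1 := area_le_of_fibre hA hBm hsub h
  refine h1.trans ?_
  have h2 : volume {c : UnitAddCircle | |V k c| ≤ r} ≤ ENNReal.ofReal (r / k) := by
    rw [← volume_Tor_snd]
    have h3 := volumeReal_V_le hk hr
    rw [measureReal_def] at h3
    rw [ENNReal.le_ofReal_iff_toReal_le (measure_ne_top _ _) (by positivity)]
    exact h3
  calc ENNReal.ofReal e * volume {c : UnitAddCircle | |V k c| ≤ r}
      ≤ ENNReal.ofReal e * ENNReal.ofReal (r / k) := by gcongr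
    _ = ENNReal.ofReal (r / k * e) := by
        rw [← ENNReal.ofReal_mul he, mul_comm]

/-! ## Many good levels -/

/-- at least a proportion `1 - η` of the levels of `P` is good -/
def Many (η : ℝ) (G : ℕ → Set Tor) (P : Finset ℕ) : Set Tor :=
  {z | ∃ s ⊆ P, (1 - η) * P.card ≤ s.card ∧ ∀ i ∈ s, z ∈ G i}

theorem measurableSet_Many (η : ℝ) {G : ℕ → Set Tor} (hG : ∀ n, MeasurableSet (G n)) (P : Finset ℕ) :
    MeasurableSet (Many η G P) := by
  classical
  have e : Many η G P = ⋃ s ∈ P.powerset.filter (fun s => (1 - η) * P.card ≤ (s.card : ℝ)),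
      ⋂ i ∈ s, G i := by
    ext z
    unfold Many
    simp only [mem_ofPred_eq, mem_iUnion, Finset.mem_filter, Finset.mem_powerset, mem_iInter,
      exists_prop]
    constructor
    · rintro ⟨s, h1, h2, h3⟩
      exact ⟨s, ⟨h1, h2⟩, h3⟩
    · rintro ⟨s, ⟨h1, h2⟩, h3⟩
      exact ⟨s, h1, h2, h3⟩
  rw [e]
  exact Finset.measurableSet_biUnion _ fun s _ => Finset.measurableSet_biInter _ fun i _ => hG i


/-- **V5, area form.** -/
theorem area_good {q : ℝ} (hq0 : 0 < q) (hq1 : q < 1) :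
    ∃ η : ℝ, 0 < η ∧ η ≤ 1 / 4 ∧ ∀ {k r : ℝ} (_ : 1 ≤ k) (_ : 0 ≤ r) {G : ℕ → Set Tor}
      (_ : ∀ n, MeasurableSet (G n)) {g n₀ n₁ : ℕ}
      (_ : ∀ c : UnitAddCircle, |V k c| ≤ r → ∀ n m, n₀ ≤ n → n ≤ n₁ →
        volume (hull (n + g) {t | t ∈ cell n m ∧ ((t : UnitAddCircle), c) ∈ G n} ∩ cell n m) ≤
          ENNReal.ofReal q * volume (cell n m))
      (P : Finset ℕ) (_ : ∀ i ∈ P, n₀ ≤ i ∧ i ≤ n₁)
      (_ : ∀ i ∈ P, ∀ j ∈ P, i < j → i + g ≤ j),
      volume ({z : Tor | |V k z.2| ≤ r} ∩ Many η G P) ≤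
        ENNReal.ofReal (r / k * (q ^ (1 / 4 : ℝ)) ^ P.card) := by
  obtain ⟨η, h0, h4, H⟩ := IterG.good_le hq0 hq1
  refine ⟨η, h0, h4, ?_⟩
  intro k r hk hr G hG g n₀ n₁ hloc P hP hsep
  have hVm : MeasurableSet {z : Tor | |V k z.2| ≤ r} :=
    (isClosed_le ((continuous_V k).comp continuous_snd).abs continuous_const).measurableSet
  refine area_le_V hk hr (hVm.inter (measurableSet_Many η hG P)) (by positivity)
    (fun z hz => hz.1) ?_
  intro c hc
  have h1 := H (G := fun t n => ((t : UnitAddCircle), c) ∈ G n) (hloc c hc) P hP hsep 0 0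
    (fun i _ => Nat.zero_le i)
  have h2 : volume (cell 0 0) = 1 := by
    rw [volume_cell]
    simp
  rw [h2, mul_one] at h1
  refine (measure_mono ?_).trans h1
  rintro t ⟨ht, -, s, hs, hc', hG'⟩
  exact ⟨ht, s, hs, hc', hG'⟩

/-! ## Measurability of `∃ v, P z v` -/

section Meas

variable {X : Type*} [TopologicalSpace X]

/-- the set and its complement are `σ`-compact -/
def D2 (S : Set X) : Prop := IsSigmaCompact S ∧ IsSigmaCompact Sᶜ

theorem sc_union {S S' : Set X} (h : IsSigmaCompact S) (h' : IsSigmaCompact S') :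
    IsSigmaCompact (S ∪ S') := by
  have e : S ∪ S' = ⋃ b : Bool, cond b S S' := by
    rw [union_eq_iUnion]
  rw [e]
  exact isSigmaCompact_iUnion _ fun b => by cases b <;> assumption

theorem sc_inter [T2Space X] {S S' : Set X} (h : IsSigmaCompact S) (h' : IsSigmaCompact S') :
    IsSigmaCompact (S ∩ S') := by
  obtain ⟨K, hK, rfl⟩ := h
  obtain ⟨K', hK', rfl⟩ := h'
  rw [iUnion_inter_iUnion]
  refine isSigmaCompact_iUnion _ fun i => isSigmaCompact_iUnion _ fun j => ?_
  exact ((hK i).inter (hK' j)).isSigmaCompact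

theorem D2.compl {S : Set X} (h : D2 S) : D2 Sᶜ := ⟨h.2, by rw [compl_compl]; exact h.1⟩

theorem D2.union [T2Space X] {S S' : Set X} (h : D2 S) (h' : D2 S') : D2 (S ∪ S') :=
  ⟨sc_union h.1 h'.1, by rw [compl_union]; exact sc_inter h.2 h'.2⟩

theorem D2.inter [T2Space X] {S S' : Set X} (h : D2 S) (h' : D2 S') : D2 (S ∩ S') :=
  ⟨sc_inter h.1 h'.1, by rw [compl_inter]; exact sc_union h.2 h'.2⟩

theorem D2.of_isClosed {X : Type*} [PseudoEMetricSpace X] [SigmaCompactSpace X] {S : Set X}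
    (h : IsClosed S) : D2 S := by
  constructor
  · exact isSigmaCompact_univ.of_isClosed_subset h (subset_univ _)
  · obtain ⟨F, hF, -, hU, -⟩ := h.isOpen_compl.exists_iUnion_isClosed
    rw [← hU]
    exact isSigmaCompact_iUnion _ fun n =>
      isSigmaCompact_univ.of_isClosed_subset (hF n) (subset_univ _)

theorem D2.and [T2Space X] {p q : X → Prop} (h : D2 {x | p x}) (h' : D2 {x | q x}) :
    D2 {x | p x ∧ q x} := h.inter h'

theorem D2.or [T2Space X] {p q : X → Prop} (h : D2 {x | p x}) (h' : D2 {x | q x}) :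
    D2 {x | p x ∨ q x} := h.union h'

theorem D2.not {p : X → Prop} (h : D2 {x | p x}) : D2 {x | ¬ p x} := h.compl

theorem D2.imp [T2Space X] {p q : X → Prop} (h : D2 {x | p x}) (h' : D2 {x | q x}) :
    D2 {x | p x → q x} := by
  have e : {x | p x → q x} = {x | ¬ p x ∨ q x} := by
    ext x
    exact imp_iff_not_or
  rw [e]
  exact h.not.or h'

theorem D2.const [SigmaCompactSpace X] (p : Prop) : D2 {_x : X | p} := by
  by_cases hp : p
  · have e : {_x : X | p} = univ := by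
      ext x
      simp [hp]
    rw [e]
    exact ⟨isSigmaCompact_univ, by rw [compl_univ]; exact isSigmaCompact_empty⟩
  · have e : {_x : X | p} = ∅ := by
      ext x
      simp [hp]
    rw [e]
    exact ⟨isSigmaCompact_empty, by rw [compl_empty]; exact isSigmaCompact_univ⟩

theorem D2.forall_mem [T2Space X] [SigmaCompactSpace X] {ι : Type*} (s : Finset ι)
    {p : ι → X → Prop} (h : ∀ i ∈ s, D2 {x | p i x}) : D2 {x | ∀ i ∈ s, p i x} := by
  classical
  induction s using Finset.induction_on with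
  | empty =>
    have e : {x : X | ∀ i ∈ (∅ : Finset ι), p i x} = {_x : X | True} := by
      ext x
      simp
    rw [e]
    exact D2.const True
  | insert a s ha ih =>
    have e : {x | ∀ i ∈ insert a s, p i x} = {x | p a x ∧ ∀ i ∈ s, p i x} := by
      ext x
      simp
    rw [e]
    exact (h a (Finset.mem_insert_self _ _)).and
      (ih fun i hi => h i (Finset.mem_insert_of_mem hi))

theorem D2.exists_mem [T2Space X] [SigmaCompactSpace X] {ι : Type*} (s : Finset ι)
    {p : ι → X → Prop} (h : ∀ i ∈ s, D2 {x | p i x}) : D2 {x | ∃ i ∈ s, p i x} := by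
  have e : {x | ∃ i ∈ s, p i x} = {x | ¬ ∀ i ∈ s, ¬ p i x} := by
    ext x
    simp
  rw [e]
  exact (D2.forall_mem s fun i hi => (h i hi).not).not




end Meas

section Ineq

variable {X : Type*} [PseudoEMetricSpace X] [SigmaCompactSpace X] {f g : X → ℝ}

theorem D2.le (hf : Continuous f) (hg : Continuous g) : D2 {x | f x ≤ g x} :=
  D2.of_isClosed (isClosed_le hf hg)

theorem D2.eq (hf : Continuous f) (hg : Continuous g) : D2 {x | f x = g x} :=
  D2.of_isClosed (isClosed_eq hf hg)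

theorem D2.lt (hf : Continuous f) (hg : Continuous g) : D2 {x | f x < g x} := by
  have e : {x | f x < g x} = {x | g x ≤ f x}ᶜ := by
    ext x
    simp
  rw [e]
  exact (D2.le hg hf).compl

end Ineq





end Crest.Agent.R128.PayArea
end

-- ▼ part R128/LocG

/-! Row 128 (helper284): `LocA` + `LocB` give the attempt hypothesis on the dyadic cells of the
coordinate `x_{-1}` for the good events `Good.G`, and the area bound of `PayArea`. Sorry free. -/

set_option autoImplicit false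
open MeasureTheory Set Metric
open scoped ENNReal

namespace Crest.Agent.R128.LocG

open Crest.Agent.R128 Crest.Agent.R128.Iter Crest.Agent.R128.Vit Crest.Agent.R128.LocC
open Crest.Agent.R128.Loc Crest.Agent.R128.DictY Crest.Agent.R128.Good

/-- `Good.LocA` with the constant `C1` outside -/
def LocAC (C1 : ℝ) (L : ℕ) : Prop :=
  ∃ k1 : ℝ, ∀ k : ℝ, k1 ≤ k → ∀ (c t0 : ℝ) (n : ℕ), zt k c t0 ∈ G k L n →
    ∃ N : Set ℝ, N ⊆ Set.Icc (t0 - 1 / (k ^ 60 * 2 ^ n)) (t0 + 1 / (k ^ 60 * 2 ^ n)) ∧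
      ENNReal.ofReal (1 / (k ^ 60 * 2 ^ n)) ≤ MeasureTheory.volume N ∧
      ∀ m ∈ N, ∃ (s : Bool) (n1 n1' : ℕ) (R lam q0 q1 q2 : ℝ),
        k ^ 60 * 2 ^ n ≤ R / 4 ∧ R ≤ k ^ 74 * 2 ^ n ∧ |lam| ≤ C1 * Real.sqrt k ∧
        Loc.Cell3 k c s n1 n1' m R lam C1 q0 q1 q2 ∧
        ∀ u : ℝ, |u - m| ≤ 3 / R → zt k c u ∈ G k L n → Loc.Good3 k c s n1 n1' R u


/-- reflection preserves the measure of every set -/
theorem volume_refl (κ : ℝ) (s : Set ℝ) : volume ((fun t : ℝ => κ - t) ⁻¹' s) = volume s := by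
  have h : MeasurePreserving (MeasurableEquiv.subLeft κ) (volume : Measure ℝ) volume :=
    Measure.measurePreserving_sub_left volume κ
  exact h.measure_preimage_equiv s

/-- **LOC** on the fibre `x_0 = c`, coordinate `x_{-1}`. -/
theorem hloc {C1 : ℝ} (hB : LocB) : ∃ c₀ : ℝ, 0 < c₀ ∧ c₀ < 1 ∧ ∀ L : ℕ, LocAC C1 L →
    ∃ k1 : ℝ, ∀ k : ℝ, k1 ≤ k → ∀ (n g : ℕ), k ^ 80 ≤ 2 ^ g → ∀ (c : UnitAddCircle) (m : ℤ),
      volume (hull (n + g) {t | t ∈ cell n m ∧ ((t : UnitAddCircle), c) ∈ G k L n} ∩ cell n m) ≤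
        ENNReal.ofReal (1 - c₀) * volume (cell n m) := by
  obtain ⟨c₀', hc₀', kb, hB⟩ := hB C1
  obtain ⟨c₀, hc₀, hc1, hcc⟩ : ∃ c₀ : ℝ, 0 < c₀ ∧ c₀ ≤ 1 ∧ c₀ ≤ c₀' :=
    ⟨min c₀' 1, lt_min hc₀' one_pos, min_le_right _ _, min_le_left _ _⟩
  refine ⟨c₀ / 1000, by positivity, by linarith, fun L hA => ?_⟩
  obtain ⟨ka, hA⟩ := hA
  refine ⟨max (max ka kb) (max 4 (8000 / c₀)), ?_⟩
  intro k hk n g hg c m
  obtain ⟨c', rfl⟩ := QuotientAddGroup.mk_surjective c
  have hka : ka ≤ k := (le_max_left _ _).trans ((le_max_left _ _).trans hk)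
  have hkb : kb ≤ k := (le_max_right _ _).trans ((le_max_left _ _).trans hk)
  have hk4 : 4 ≤ k := (le_max_left _ _).trans ((le_max_right _ _).trans hk)
  have hkc : 8000 / c₀ ≤ k := (le_max_right _ _).trans ((le_max_right _ _).trans hk)
  have hk1 : 1 ≤ k := by linarith
  have hk0 : 0 < k := by linarith
  have h2n : (0:ℝ) < 2 ^ n := by positivity
  have h2g : (0:ℝ) < 2 ^ g := by positivity
  set κ : ℝ := 2 * c' + k * Real.sin (2 * Real.pi * c') with hκ
  set A : Set ℝ := {t | t ∈ cell n m ∧ ((t : UnitAddCircle), (c' : UnitAddCircle)) ∈ G k L n}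
    with hAdef
  have hzt : ∀ t : ℝ, zt k c' (κ - t) = ((t : UnitAddCircle), (c' : UnitAddCircle)) := by
    intro t
    unfold zt tb pr
    have : 2 * c' + k * Real.sin (2 * Real.pi * c') - (κ - t) = t := by rw [hκ]; ring
    rw [this]
  have key := loc_of_cells (A := A) (n := n) (g := g) (m := m) (c₀ := c₀)
    (ε := 2 / k ^ 60) (r := 1 / (k ^ 60 * 2 ^ n)) hc₀ (by positivity)
    (by apply le_of_eq; field_simp) (by
      rw [pow_add, mul_comm (k ^ 60)]
      apply one_div_le_one_div_of_le (by positivity)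
      have : k ^ 60 ≤ 2 ^ g := (pow_le_pow_right₀ hk1 (by norm_num : 60 ≤ 80)).trans hg
      exact mul_le_mul_of_nonneg_left this h2n.le) (by
      intro t₀ ht₀ _
      have ht₀' : zt k c' (κ - t₀) ∈ G k L n := by
        rw [hzt]
        exact ht₀.2
      obtain ⟨N, hN, hvN, hx⟩ := hA k hka c' (κ - t₀) n ht₀'
      refine ⟨(fun t : ℝ => κ - t) ⁻¹' N, ?_, ?_, fun x hxN => ?_⟩
      · intro x hxN
        obtain ⟨h7, h8⟩ := hN hxN
        constructor <;> linarith
      · rw [volume_refl]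
        exact hvN
      · obtain ⟨s, n1, n1', R, lam, q0, q1, q2, hR1, hR2, hlam, hcell, hgood⟩ := hx (κ - x) hxN
        have hR0 : 0 < R := by
          have : 0 < k ^ 60 * 2 ^ n := by positivity
          linarith
        have hRr : 4 / R ≤ 1 / (k ^ 60 * 2 ^ n) := by
          rw [div_le_div_iff₀ hR0 (by positivity)]
          linarith
        refine ⟨R, hR0, ?_, ?_⟩
        · refine le_trans ?_ hRr
          exact div_le_div_of_nonneg_right (by norm_num) hR0.le
        · have hv := hB k hkb c' s n1 n1' (κ - x) R lam q0 q1 q2 hlam hcell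
          rw [← volume_refl κ] at hv
          refine le_trans ?_ (hv.trans (measure_mono ?_))
          · exact ENNReal.ofReal_le_ofReal (div_le_div_of_nonneg_right hcc hR0.le)
          · rintro t ⟨ht1, ht2⟩
            have ht1' : |t - x| ≤ 2 / R := by
              have e : κ - t - (κ - x) = -(t - x) := by ring
              rwa [e, abs_neg] at ht1
            refine ⟨ht1', fun u hu hut => ?_⟩
            have hsmall : 1 / 2 ^ (n + g) ≤ 1 / (k ^ 6 * R) := by
              apply one_div_le_one_div_of_le (by positivity)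
              calc k ^ 6 * R ≤ k ^ 6 * (k ^ 74 * 2 ^ n) :=
                    mul_le_mul_of_nonneg_left hR2 (by positivity)
                _ = 2 ^ n * k ^ 80 := by ring
                _ ≤ 2 ^ n * 2 ^ g := mul_le_mul_of_nonneg_left hg h2n.le
                _ = 2 ^ (n + g) := (pow_add _ _ _).symm
            have h6 : 1 / (k ^ 6 * R) ≤ 1 / R := by
              apply one_div_le_one_div_of_le hR0
              have : 1 ≤ k ^ 6 := one_le_pow₀ hk1
              nlinarith
            have hux : |u - x| ≤ 3 / R := by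
              calc |u - x| = |(u - t) + (t - x)| := by ring_nf
                _ ≤ |u - t| + |t - x| := abs_add_le _ _
                _ ≤ 1 / R + 2 / R := by linarith
                _ = 3 / R := by ring
            have e1 : κ - u - (κ - t) = -(u - t) := by ring
            have e2 : κ - u - (κ - x) = -(u - x) := by ring
            refine ht2 (κ - u) ?_ (hgood (κ - u) ?_ ?_)
            · rw [e1, abs_neg]
              exact hut.trans hsmall
            · rw [e2, abs_neg]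
              exact hux
            · rw [hzt]
              exact hu.2)
  refine key.trans ?_
  gcongr
  -- numeric
  have hk8 : k ≤ k ^ 60 := le_self_pow₀ hk1 (by norm_num)
  have h10 : 2 / k ^ 60 ≤ c₀ / 4000 := by
    rw [div_le_div_iff₀ (by positivity) (by norm_num)]
    rw [div_le_iff₀ hc₀] at hkc
    nlinarith
  rw [div_le_iff₀ (by positivity)]
  nlinarith

/-- **V5, area form, for the good events `Good.G`.** The constants `η, θ` depend only on `C1`. -/
theorem area (C1 : ℝ) (hB : LocB) : ∃ η θ : ℝ, 0 < η ∧ η ≤ 1 / 4 ∧ 0 < θ ∧ θ < 1 ∧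
    ∀ L : ℕ, LocAC C1 L → ∃ k1 : ℝ, ∀ k : ℝ, k1 ≤ k → (∀ n, MeasurableSet (G k L n)) →
      ∀ g : ℕ, k ^ 80 ≤ 2 ^ g → ∀ P : Finset ℕ, (∀ i ∈ P, ∀ j ∈ P, i < j → i + g ≤ j) →
        volume ({z : Tor | |V k z.2| ≤ 2} ∩ PayArea.Many η (G k L) P) ≤
          ENNReal.ofReal (2 / k * θ ^ P.card) := by
  obtain ⟨c₀, h0, h1, H⟩ := hloc (C1 := C1) hB
  obtain ⟨η, hη0, hη1, HA⟩ := PayArea.area_good (q := 1 - c₀) (by linarith) (by linarith)
  refine ⟨η, (1 - c₀) ^ (1 / 4 : ℝ), hη0, hη1, Real.rpow_pos_of_pos (by linarith) _,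
    Real.rpow_lt_one (by linarith) (by linarith) (by norm_num), fun L hA => ?_⟩
  obtain ⟨k1, H⟩ := H L hA
  refine ⟨max k1 1, fun k hk hGm g hg P hP => ?_⟩
  exact HA (le_of_max_le_right hk) (by norm_num) hGm (n₀ := 0) (n₁ := P.sup id)
    (fun c _ n m _ _ => H k (le_of_max_le_left hk) n g hg c m) P
    (fun i hi => ⟨Nat.zero_le _, Finset.le_sup (f := id) hi⟩) hP

end Crest.Agent.R128.LocG
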