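import Mathlib
import Crest.Agent.R128.Hyp
import Crest.Agent.R128.Two
import Crest.Agent.R128.Acc
import Crest.Agent.R128.Charge

-- ▼ part R128/Contour
section

set_option autoImplicit false
set_option linter.unusedVariables false

/-! Row 128: contour combinatorics for a `δ`-hyperbolic `d` on `ℤ` (279's note 15512 (4)).
Written by helper550. Sorry free. -/

namespace Crest.Agent.R128.Contour

/-- Gromov product `(i|j)_w` -/
noncomputable def gp {ι : Type*} (d : ι → ι → ℝ) (i j w : ι) : ℝ := (d i w + d j w - d i j) / 2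

/-- a `δ`-hyperbolic pseudo-metric on any index type -/
structure HypG {ι : Type*} (d : ι → ι → ℝ) (δ : ℝ) : Prop where
  symm : ∀ i j, d i j = d j i
  self : ∀ i, d i i = 0
  nonneg : ∀ i j, 0 ≤ d i j
  tri : ∀ i j l, d i l ≤ d i j + d j l
  hyp : ∀ i j l w, min (gp d i j w) (gp d j l w) - δ ≤ gp d i l w
  δ_nonneg : 0 ≤ δ

section gen

variable {ι : Type*} {d : ι → ι → ℝ} {δ : ℝ}




end gen

variable {d : ℤ → ℤ → ℝ} {δ B : ℝ}





/-- reversal of time -/
theorem HypG.neg (h : HypG d δ) : HypG (fun i j => d (-i) (-j)) δ where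
  symm i j := h.symm _ _
  self i := h.self _
  nonneg i j := h.nonneg _ _
  tri i j l := h.tri _ _ _
  hyp i j l w := h.hyp (-i) (-j) (-l) (-w)
  δ_nonneg := h.δ_nonneg

theorem step_neg (h : HypG d δ) (hB : ∀ m, d m (m + 1) ≤ B) (m : ℤ) :
    (fun i j => d (-i) (-j)) m (m + 1) ≤ B := by
  have h1 := hB (-(m + 1))
  have e : -(m + 1) + 1 = -m := by ring
  rw [e, h.symm] at h1
  exact h1


end Crest.Agent.R128.Contour
end

-- ▼ part R128/Nested
section

set_option autoImplicit false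
set_option linter.unusedVariables false

/-! Row 128, MASTER v2 (279's note 15512 (4)), deterministic part: the feet of a nested component
of the root contour are neither forward nor backward clean.  Written by helper550. Sorry free. -/

namespace Crest.Agent.R128.Nested

open Crest.Agent.R128.Contour

/-- one-sided cleanness of a distance profile `D` (`D m` = distance to the starting point after `m`
steps, `irr m` = the digit of the step number `m` is irregular) up to step `n` -/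
def Clean (D : ℕ → ℝ) (irr : ℕ → Prop) (h0 : ℕ) (b b' : ℝ) (n : ℕ) : Prop :=
  (∀ m, m < 2 * h0 → m < n → ¬ irr m) ∧
  (∀ m, m ≤ n → ∀ m', m' ≤ m → (1 - b) * D m' ≤ D m) ∧
  (∀ m, m ≤ n → (m : ℝ) ≤ Real.exp (b' * D m))

theorem Clean.mono {D : ℕ → ℝ} {irr : ℕ → Prop} {h0 : ℕ} {b b' : ℝ} {n n' : ℕ} (hn : n' ≤ n)
    (h : Clean D irr h0 b b' n) : Clean D irr h0 b b' n' :=
  ⟨fun m h1 h2 => h.1 m h1 (by omega), fun m h1 => h.2.1 m (by omega),
    fun m h1 => h.2.2 m (by omega)⟩


variable {d : ℤ → ℤ → ℝ} {δ B c0 : ℝ}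

/-- the standing data: `d` hyperbolic on `ℤ`, bounded steps, contour `f` at bounded distance of
`d r ·` on the window `[lo, hi]` -/
structure Dat (d : ℤ → ℤ → ℝ) (f : ℤ → ℝ) (r lo hi : ℤ) (irr : ℤ → Prop) (B c0 κ : ℝ) (h0 : ℕ) :
    Prop where
  hyp : HypG d (Real.log 2 / 2)
  step : ∀ m, d m (m + 1) ≤ B
  f_near : ∀ m, lo ≤ m → m ≤ hi → |f m - d r m| ≤ c0
  B_pos : 1 ≤ B
  c0_nonneg : 0 ≤ c0
  c0_le : c0 ≤ B
  grow : ∀ (v : ℤ) (n : ℕ), n ≤ 2 * h0 → lo ≤ v → v + n ≤ hi →
    (∀ m : ℕ, m < n → ¬ irr (v + m)) → (n : ℝ) * κ / 2 - B ≤ d v (v + n)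
  big : 50 * B ≤ h0 * κ

variable {f : ℤ → ℝ} {r lo hi : ℤ} {irr : ℤ → Prop} {κ : ℝ} {h0 : ℕ}





/-- time reversal of the standing data -/
theorem Dat.neg (D : Dat d f r lo hi irr B c0 κ h0) :
    Dat (fun i j => d (-i) (-j)) (fun m => f (-m)) (-r) (-hi) (-lo) (fun x => irr (-x - 1)) B c0 κ h0
    where
  hyp := D.hyp.neg
  step m := step_neg D.hyp D.step m
  f_near m h1 h2 := by
    have h := D.f_near (-m) (by omega) (by omega)
    show |f (-m) - d (- -r) (-m)| ≤ c0
    rw [neg_neg]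
    exact h
  B_pos := D.B_pos
  c0_nonneg := D.c0_nonneg
  c0_le := D.c0_le
  grow v n hn h1 h2 h3 := by
    have h4 := D.grow (-v - n) n hn (by omega) (by omega) (by
      intro m hm
      have h5 := h3 (n - 1 - m) (by omega)
      have e : -(v + ((n - 1 - m : ℕ) : ℤ)) - 1 = -v - n + m := by
        rw [Nat.cast_sub (by omega), Nat.cast_sub (by omega)]
        push_cast
        ring
      rw [e] at h5
      exact h5)
    have e1 : -v - (n:ℤ) + n = -v := by ring
    rw [e1, D.hyp.symm] at h4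
    have e2 : -(v + (n:ℤ)) = -v - n := by ring
    show (n:ℝ) * κ / 2 - B ≤ d (-v) (-(v + (n:ℤ)))
    rw [e2]
    exact h4
  big := D.big

/-- not forward clean, the violation being visible within distance `H` and before time `hi` -/
def NF (d : ℤ → ℤ → ℝ) (irr : ℤ → Prop) (h0 : ℕ) (b b' H : ℝ) (hi v : ℤ) : Prop :=
  ∃ n : ℕ, v + n ≤ hi ∧ ¬ Clean (fun m => d v (v + m)) (fun m => irr (v + m)) h0 b b' n ∧
    ∀ m : ℕ, m ≤ n → d v (v + m) ≤ H





theorem Clean.zero {D : ℕ → ℝ} {irr : ℕ → Prop} {h0 : ℕ} {b b' : ℝ} (hD : 0 ≤ D 0) (hb : 0 ≤ b) :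
    Clean D irr h0 b b' 0 := by
  refine ⟨fun m _ h => absurd h (by omega), ?_, ?_⟩
  · intro m hm m' hm'
    have h1 : m = 0 := by omega
    have h2 : m' = 0 := by omega
    subst h1 h2
    nlinarith
  · intro m hm
    have h1 : m = 0 := by omega
    subst h1
    simp only [Nat.cast_zero]
    exact (Real.exp_pos _).le








end Crest.Agent.R128.Nested
end

-- ▼ part R128/NestedInst

set_option autoImplicit false
set_option linter.unusedVariables false

/-! Row 128, MASTER v2, V1-4: the concrete instance of `Nested.Dat` for the standard map, and the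
hypotheses `h4L`, `h4R` of `Charge.charge`.  Written by helper550. Sorry free. -/

open Crest.AnalysisR.StandardFamily
open scoped Matrix.Norms.L2Operator

namespace Crest.Agent.R128.NestedInst

open Crest.Agent.R128.Contour Crest.Agent.R128.Hyp Crest.Agent.R128.Acc Crest.Agent.R128.Nested
  Crest.Agent.R128.Two Crest.Agent.R128.Charge

/-- distance of two times of a sequence of matrices, any index type -/
noncomputable def dist {ι : Type*} (g : ι → M2) (i j : ι) : ℝ := Real.log ‖g j * (g i)⁻¹‖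


/-! ### l2 norm versus rows -/

theorem norm_le_rn (M : M2) : ‖M‖ ≤ 2 * max (rn M 0) (rn M 1) := by
  set X := max (rn M 0) (rn M 1) with hX
  have h0 : rn M 0 ≤ X := le_max_left _ _
  have h1 : rn M 1 ≤ X := le_max_right _ _
  have hX0 : 0 ≤ X := by
    refine le_trans ?_ h0
    unfold rn
    positivity
  apply norm_le_of_ap (by positivity)
  intro v
  have hv0 : |v 0| ≤ ‖v‖ := by
    apply abs_le_of_sq_le_sq _ (norm_nonneg _)
    rw [norm_sq]
    nlinarith [sq_nonneg (v 1)]
  have hv1 : |v 1| ≤ ‖v‖ := by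
    apply abs_le_of_sq_le_sq _ (norm_nonneg _)
    rw [norm_sq]
    nlinarith [sq_nonneg (v 0)]
  have key : ∀ i, |ap M v i| ≤ rn M i * ‖v‖ := by
    intro i
    rw [ap_apply]
    unfold rn
    calc |M i 0 * v 0 + M i 1 * v 1| ≤ |M i 0| * |v 0| + |M i 1| * |v 1| := by
          refine (abs_add_le _ _).trans ?_
          rw [abs_mul, abs_mul]
      _ ≤ |M i 0| * ‖v‖ + |M i 1| * ‖v‖ := by gcongr
      _ = (|M i 0| + |M i 1|) * ‖v‖ := by ring
  have k0 := (key 0).trans (mul_le_mul_of_nonneg_right h0 (norm_nonneg v))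
  have k1 := (key 1).trans (mul_le_mul_of_nonneg_right h1 (norm_nonneg v))
  have hn := norm_nonneg v
  have hsq : ‖ap M v‖ ^ 2 ≤ (2 * X * ‖v‖) ^ 2 := by
    rw [norm_sq]
    have a0 : (ap M v 0) ^ 2 ≤ (X * ‖v‖) ^ 2 := sq_le_sq' (by linarith [neg_abs_le (ap M v 0)]) (by linarith [le_abs_self (ap M v 0)])
    have a1 : (ap M v 1) ^ 2 ≤ (X * ‖v‖) ^ 2 := sq_le_sq' (by linarith [neg_abs_le (ap M v 1)]) (by linarith [le_abs_self (ap M v 1)])
    nlinarith [sq_nonneg (X * ‖v‖)]
  exact abs_le_of_sq_le_sq' hsq (by positivity) |>.2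

theorem entry_le (M : M2) (i j : Fin 2) : |M i j| ≤ ‖M‖ := by
  have h0 : ∀ v : E2, ∀ i, |v i| ≤ ‖v‖ := by
    intro v i
    apply abs_le_of_sq_le_sq _ (norm_nonneg _)
    rw [norm_sq]
    fin_cases i
    · simp only [Fin.zero_eta]; nlinarith [sq_nonneg (v 1)]
    · simp only [Fin.mk_one]; nlinarith [sq_nonneg (v 0)]
  fin_cases j
  · have h1 := h0 (ap M !₂[1, 0]) i
    have h2 := norm_ap_le M !₂[1, 0]
    rw [norm_e0, mul_one] at h2
    rw [ap_apply] at h1
    simp at h1
    exact h1.trans h2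
  · have h1 := h0 (ap M !₂[0, 1]) i
    have h2 := norm_ap_le M !₂[0, 1]
    have h3 : ‖(!₂[0, 1] : E2)‖ = 1 := by
      have := norm_sq (!₂[0, 1] : E2)
      simp at this
      have h4 := norm_nonneg (!₂[0, 1] : E2)
      rcases this with h5 | h5
      · exact h5
      · linarith
    rw [h3, mul_one] at h2
    rw [ap_apply] at h1
    simp at h1
    exact h1.trans h2

theorem rn_le_norm (M : M2) (i : Fin 2) : rn M i ≤ 2 * ‖M‖ := by
  unfold rn
  have h0 := entry_le M i 0
  have h1 := entry_le M i 1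
  linarith

/-! ### the standard map -/

/-- the distance of the times `i`, `j` of the orbit of `z` -/
noncomputable def dd (k : ℝ) (z : Tor) (i j : ℤ) : ℝ := Real.log ‖Aij k i j z‖




theorem one_le_norm_Mn (k : ℝ) (n : ℕ) (z : Tor) : 1 ≤ ‖Mn k n z‖ := by
  have := one_le_norm (det_Az k n z)
  rwa [Az_natCast] at this

theorem exp_bt' (k : ℝ) (n : ℕ) (z : Tor) : Real.exp (bt (rr k z) n) =
    max (rn (Mn k n z) 0) (rn (Mn k n z) 1) := by
  rw [exp_bt]
  unfold nm
  rw [rr_succ]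
  rfl

theorem near_bt (k : ℝ) (n : ℕ) (z : Tor) : |bt (rr k z) n - Real.log ‖Mn k n z‖| ≤ Real.log 2 := by
  have h1 := norm_le_rn (Mn k n z)
  have h2 : max (rn (Mn k n z) 0) (rn (Mn k n z) 1) ≤ 2 * ‖Mn k n z‖ :=
    max_le (rn_le_norm _ _) (rn_le_norm _ _)
  rw [← exp_bt'] at h1 h2
  have hp := one_le_norm_Mn k n z
  have h3 := Real.log_le_log (by linarith) h1
  have h4 := Real.log_le_log (Real.exp_pos _) h2
  rw [Real.log_mul two_ne_zero (Real.exp_pos _).ne', Real.log_exp] at h3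
  rw [Real.log_mul two_ne_zero (by linarith), Real.log_exp] at h4
  rw [abs_le]
  constructor <;> linarith



/-- the bound for one step -/
noncomputable def Bk (k : ℝ) : ℝ := Real.log (2 * (3 + 2 * Real.pi * k))

theorem norm_Am_le {k : ℝ} (hk : 0 ≤ k) (y : Tor) : ‖Am k y‖ ≤ 2 * (3 + 2 * Real.pi * k) := by
  refine (norm_le_rn _).trans ?_
  have h1 := dg_le k hk y 0
  unfold dg at h1
  simp only [Function.iterate_zero, id_eq] at h1
  have hp : 0 ≤ 2 * Real.pi * k := by positivity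
  have : max (rn (Am k y) 0) (rn (Am k y) 1) ≤ 3 + 2 * Real.pi * k := by
    unfold rn Am
    simp
    linarith
  linarith





theorem log_two_le_Bk {k : ℝ} (hk : 0 ≤ k) : 1 ≤ Bk k ∧ Real.log 2 ≤ Bk k := by
  have hp : 0 ≤ 2 * Real.pi * k := by positivity
  have h2 : Real.log 2 ≤ Bk k := Real.log_le_log (by norm_num) (by linarith)
  refine ⟨?_, h2⟩
  unfold Bk
  rw [Real.le_log_iff_exp_le (by positivity)]
  have := Real.exp_one_lt_d9
  linarith







variable {k X : ℝ} {h0 : ℕ} {b b' κ H : ℝ} {z : Tor} {N : ℕ}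





end Crest.Agent.R128.NestedInst
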