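import Crest.Agent.R128.Remez
import Mathlib

-- ▼ part R128/TaylorTwo

/-!
Row 128 (helper79): quadratic Taylor approximation of holomorphic functions with cubic remainder, on discs and
on real intervals, and the version "off a small set of real points a holomorphic function with few zeros is
quadratic up to a small relative error" on top of `CellA.local_const_real`.
-/

set_option autoImplicit false
open Metric Set MeasureTheory
open scoped ENNReal

namespace Crest.Agent.R128.TaylorTwo

/-- Quadratic Taylor approximation with cubic remainder on the half disc. -/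
theorem taylor_two {f : ℂ → ℂ} {x : ℂ} {ρ B : ℝ} (hρ : 0 < ρ)
    (hf : DifferentiableOn ℂ f (ball x ρ)) (hB : ∀ w ∈ ball x ρ, ‖f w - f x‖ ≤ B) :
    ∃ a b : ℂ, a = deriv f x ∧ b = iteratedDeriv 2 f x / 2 ∧ ‖a‖ ≤ B / ρ ∧ ‖b‖ ≤ B / ρ ^ 2 ∧
      ∀ w : ℂ, ‖w - x‖ ≤ ρ / 2 →
        ‖f w - (f x + a * (w - x) + b * (w - x) ^ 2)‖ ≤ 2 * B * (‖w - x‖ / ρ) ^ 3 := by
  have hB0 : 0 ≤ B := (norm_nonneg _).trans (hB x (mem_ball_self hρ))
  set g : ℂ → ℂ := fun w => f w - f x with hg
  have hgd : DifferentiableOn ℂ g (ball x ρ) := hf.sub_const _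
  -- coefficient bounds by letting the radius tend to `ρ`
  have hcoef : ∀ n : ℕ, ‖iteratedDeriv n g x‖ ≤ n.factorial * B / ρ ^ n := by
    intro n
    have hr : ∀ r : ℝ, 0 < r → r < ρ → ‖iteratedDeriv n g x‖ ≤ n.factorial * B / r ^ n := by
      intro r hr hrρ
      refine Complex.norm_iteratedDeriv_le_of_forall_mem_sphere_norm_le n hr ?_ ?_
      · apply DifferentiableOn.diffContOnCl
        rw [closure_ball x hr.ne']
        exact hgd.mono (closedBall_subset_ball hrρ)
      · intro z hz
        exact hB z (sphere_subset_ball hrρ hz)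
    have hlim : Filter.Tendsto (fun r : ℝ => n.factorial * B / r ^ n) (nhdsWithin ρ (Iio ρ))
        (nhds (n.factorial * B / ρ ^ n)) := by
      have : ContinuousAt (fun r : ℝ => n.factorial * B / r ^ n) ρ := by
        exact ContinuousAt.div₀ (f := fun _ : ℝ => (n.factorial : ℝ) * B) (g := fun r : ℝ => r ^ n)
          continuousAt_const (continuous_pow n).continuousAt (pow_ne_zero n hρ.ne')
      exact this.tendsto.mono_left nhdsWithin_le_nhds
    refine ge_of_tendsto hlim ?_
    have h1 : ∀ᶠ r in nhdsWithin ρ (Iio ρ), 0 < r :=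
      nhdsWithin_le_nhds (lt_mem_nhds hρ)
    filter_upwards [h1, self_mem_nhdsWithin] with r h2 h3
    exact hr r h2 h3
  set c : ℕ → ℂ := fun n => (n.factorial : ℂ)⁻¹ * iteratedDeriv n g x with hc
  have hcn : ∀ n, ‖c n‖ ≤ B / ρ ^ n := by
    intro n
    simp only [hc]
    rw [norm_mul, norm_inv, Complex.norm_natCast]
    have hfac : (0 : ℝ) < n.factorial := by exact_mod_cast n.factorial_pos
    calc (n.factorial : ℝ)⁻¹ * ‖iteratedDeriv n g x‖
        ≤ (n.factorial : ℝ)⁻¹ * (n.factorial * B / ρ ^ n) := by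
          have := hcoef n
          gcongr
      _ = B / ρ ^ n := by field_simp
  have hc0 : c 0 = 0 := by simp [hc, hg]
  have hg1 : ∀ n, 1 ≤ n → iteratedDeriv n g x = iteratedDeriv n f x := by
    intro n hn
    obtain ⟨m, rfl⟩ := Nat.exists_eq_succ_of_ne_zero (by omega : n ≠ 0)
    have hd : deriv g = deriv f := by
      funext w
      simp only [hg]
      exact deriv_sub_const _
    rw [iteratedDeriv_succ', iteratedDeriv_succ', hd]
  refine ⟨deriv f x, iteratedDeriv 2 f x / 2, rfl, rfl, ?_, ?_, ?_⟩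
  · have := hcn 1
    simp only [hc] at this
    rw [hg1 1 le_rfl, iteratedDeriv_one] at this
    simpa using this
  · have := hcn 2
    simp only [hc] at this
    rw [hg1 2 (by norm_num)] at this
    have e : ((Nat.factorial 2 : ℕ) : ℂ)⁻¹ * iteratedDeriv 2 f x = iteratedDeriv 2 f x / 2 := by
      simp [Nat.factorial]; ring
    rwa [e] at this
  · intro w hw
    have hwball : w ∈ ball x ρ := by
      rw [mem_ball, dist_eq_norm]; linarith
    have hs : HasSum (fun n : ℕ => c n * (w - x) ^ n) (g w) := by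
      have h0 := Complex.hasSum_taylorSeries_on_ball (r := ρ) (c := x) (z := w) hgd hwball
      have he : (fun n : ℕ => c n * (w - x) ^ n) =
          (fun n : ℕ => (n.factorial : ℂ)⁻¹ • (w - x) ^ n • iteratedDeriv n g x) := by
        funext n
        rw [smul_eq_mul, smul_eq_mul]
        show (n.factorial : ℂ)⁻¹ * iteratedDeriv n g x * (w - x) ^ n = _
        ring
      rw [he]
      exact h0
    set s : ℝ := ‖w - x‖ / ρ with hsdef
    have hs0 : 0 ≤ s := by positivity
    have hs1 : s ≤ 1 / 2 := by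
      rw [hsdef, div_le_iff₀ hρ]; linarith
    have hterm : ∀ n, ‖c n * (w - x) ^ n‖ ≤ B * s ^ n := by
      intro n
      rw [norm_mul, norm_pow, hsdef, div_pow]
      calc ‖c n‖ * ‖w - x‖ ^ n ≤ B / ρ ^ n * ‖w - x‖ ^ n := by
            have := hcn n
            gcongr
        _ = B * (‖w - x‖ ^ n / ρ ^ n) := by ring
    have hsplit := hs.summable.sum_add_tsum_nat_add 3
    rw [hs.tsum_eq] at hsplit
    have h3 : ∑ i ∈ Finset.range 3, c i * (w - x) ^ i =
        deriv f x * (w - x) + iteratedDeriv 2 f x / 2 * (w - x) ^ 2 := by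
      rw [Finset.sum_range_succ, Finset.sum_range_succ, Finset.sum_range_succ,
        Finset.sum_range_zero, hc0]
      have e1 : c 1 = deriv f x := by
        simp only [hc]
        rw [hg1 1 le_rfl, iteratedDeriv_one]
        simp
      have e2 : c 2 = iteratedDeriv 2 f x / 2 := by
        simp only [hc]
        rw [hg1 2 (by norm_num)]
        simp [Nat.factorial]; ring
      rw [e1, e2]; ring
    rw [h3] at hsplit
    have hfw : f w - (f x + deriv f x * (w - x) + iteratedDeriv 2 f x / 2 * (w - x) ^ 2) =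
        ∑' i, c (i + 3) * (w - x) ^ (i + 3) := by
      have : g w = f w - f x := rfl
      rw [this] at hsplit
      linear_combination -hsplit
    rw [hfw]
    have hgeo : HasSum (fun n : ℕ => B * s ^ 3 * (1 / 2) ^ n) (B * s ^ 3 * 2) :=
      hasSum_geometric_two.mul_left (B * s ^ 3)
    have hb : ∀ n : ℕ, ‖c (n + 3) * (w - x) ^ (n + 3)‖ ≤ B * s ^ 3 * (1 / 2) ^ n := by
      intro n
      refine (hterm (n + 3)).trans ?_
      rw [pow_add]
      have : s ^ n ≤ (1 / 2) ^ n := by gcongr
      calc B * (s ^ n * s ^ 3) = B * s ^ 3 * s ^ n := by ring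
        _ ≤ B * s ^ 3 * (1 / 2) ^ n := by gcongr
    refine (tsum_of_norm_bounded hgeo hb).trans (le_of_eq ?_)
    ring



end Crest.Agent.R128.TaylorTwo
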