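import Crest.Agent.R128.LocDef
import Crest.Agent.R128.TaylorTwo

-- ▼ part R128/RALem
section

/-!
Row 128 (helper189): elementary lemmas on the objects of `LocDef`: recursion, conjugation symmetry,
real values, differentiability of `Y`, `D`, `mu`, `cont`.
-/

set_option autoImplicit false

open Metric MeasureTheory
open Crest.Agent.R128 Crest.Agent.R128.Cell Crest.Agent.R128.CellB Crest.Agent.R128.CellDy
open Crest.Agent.R128.Loc

namespace Crest.Agent.R128.RALem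

/-! ### recursion and conjugation -/

theorem D_add_two (k c : ℝ) (s : Bool) (n : ℕ) (z : ℂ) :
    D k c s (n + 2) z = dg k c s z (n + 1) * D k c s (n + 1) z - D k c s n z := by
  unfold D dg Y
  rw [yd_add_two]

theorem cont_swap (k c : ℝ) (s : Bool) (n n' : ℕ) (z : ℂ) :
    cont k c (!s) n' n z = cont k c s n n' z := by
  unfold cont
  rw [Bool.not_not]
  ring

theorem cont_succ {k c : ℝ} {s : Bool} {n n' : ℕ} {z : ℂ}
    (h1 : D k c s n z ≠ 0) (h2 : D k c s (n + 1) z ≠ 0)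
    (h3 : D k c (!s) n' z ≠ 0) (h4 : D k c (!s) (n' + 1) z ≠ 0) :
    cont k c s (n + 1) (n' + 1) z = cont k c s n n' z - 1 / (D k c s n z * D k c s (n + 1) z)
      - 1 / (D k c (!s) n' z * D k c (!s) (n' + 1) z) := by
  have e1 := Align.mu_succ_sub (a := dg k c s z) (n := n) (by rwa [Q_dg]) (by rwa [Q_dg])
  have e2 := Align.mu_succ_sub (a := dg k c (!s) z) (n := n') (by rwa [Q_dg]) (by rwa [Q_dg])
  rw [Q_dg, Q_dg] at e1 e2
  unfold cont mu
  rw [← e1, ← e2]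
  ring

theorem sol_conj (a : ℕ → ℂ) (u v : ℂ) (n : ℕ) :
    Align.sol (fun i => (starRingEnd ℂ) (a i)) ((starRingEnd ℂ) u) ((starRingEnd ℂ) v) n =
      (starRingEnd ℂ) (Align.sol a u v n) := by
  induction n using Nat.strong_induction_on with
  | _ n ih =>
    match n with
    | 0 => rfl
    | 1 => rfl
    | n + 2 =>
      rw [Align.sol_add_two, Align.sol_add_two, ih (n + 1) (by omega), ih n (by omega), map_sub,
        map_mul]

theorem amu_conj (a : ℕ → ℂ) (n : ℕ) :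
    Align.mu (fun i => (starRingEnd ℂ) (a i)) n = (starRingEnd ℂ) (Align.mu a n) := by
  unfold Align.mu Align.P Align.Q
  have h1 := sol_conj a 1 0 n
  have h2 := sol_conj a 0 1 n
  rw [map_one, map_zero] at h1 h2
  rw [h1, h2, map_div₀, map_neg]

theorem cV_conj (k : ℝ) (w : ℂ) : cV k ((starRingEnd ℂ) w) = (starRingEnd ℂ) (cV k w) := by
  have h2 : (starRingEnd ℂ) (2 : ℂ) = 2 := map_ofNat _ 2
  unfold cV
  have e : (2 * (Real.pi : ℂ) * (starRingEnd ℂ) w) = (starRingEnd ℂ) (2 * Real.pi * w) := by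
    rw [map_mul, map_mul, h2, Complex.conj_ofReal]
  rw [e, Complex.cos_conj, map_add, map_mul, map_mul, map_mul, h2, Complex.conj_ofReal,
    Complex.conj_ofReal]

theorem sdC_conj (k c : ℝ) (s : Bool) (z : ℂ) :
    sdC k c s ((starRingEnd ℂ) z) = (starRingEnd ℂ) (sdC k c s z) := by
  unfold sdC
  cases s <;> simp

theorem Y_conj (k c : ℝ) (s : Bool) (n : ℕ) (z : ℂ) :
    Y k c s n ((starRingEnd ℂ) z) = (starRingEnd ℂ) (Y k c s n z) := by
  unfold Y
  rw [sdC_conj, y_conj]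

theorem dg_conj (k c : ℝ) (s : Bool) (z : ℂ) :
    dg k c s ((starRingEnd ℂ) z) = fun i => (starRingEnd ℂ) (dg k c s z i) := by
  funext i
  unfold dg
  rw [Y_conj, cV_conj]

theorem mu_conj (k c : ℝ) (s : Bool) (n : ℕ) (z : ℂ) :
    mu k c s n ((starRingEnd ℂ) z) = (starRingEnd ℂ) (mu k c s n z) := by
  unfold mu
  rw [dg_conj, amu_conj]

theorem cont_conj (k c : ℝ) (s : Bool) (n n' : ℕ) (z : ℂ) :
    cont k c s n n' ((starRingEnd ℂ) z) = (starRingEnd ℂ) (cont k c s n n' z) := by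
  unfold cont
  rw [mu_conj, mu_conj, map_sub, map_sub, ← cV_conj]
  simp

/-! ### differentiability -/

theorem differentiable_Y (k c : ℝ) (s : Bool) (n : ℕ) : Differentiable ℂ (Y k c s n) := by
  cases s
  · exact fun z => (hasDerivAt_Y_false k c n z).differentiableAt
  · exact fun z => (hasDerivAt_Y_true k c n z).differentiableAt

theorem differentiable_dg (k c : ℝ) (s : Bool) (n : ℕ) :
    Differentiable ℂ (fun z => dg k c s z n) := by
  intro z
  unfold dg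
  exact (hasDerivAt_cV k (Y k c s n z)).differentiableAt.comp z (differentiable_Y k c s n z)

theorem differentiable_sol (k c : ℝ) (s : Bool) (u v : ℂ) (n : ℕ) :
    Differentiable ℂ (fun z => Align.sol (dg k c s z) u v n) := by
  induction n using Nat.strong_induction_on with
  | _ n ih =>
    match n with
    | 0 => exact differentiable_const u
    | 1 => exact differentiable_const v
    | n + 2 =>
      have h : (fun z => Align.sol (dg k c s z) u v (n + 2)) = fun z =>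
          dg k c s z (n + 1) * Align.sol (dg k c s z) u v (n + 1) -
            Align.sol (dg k c s z) u v n := by
        funext z
        rw [Align.sol_add_two]
      rw [h]
      exact ((differentiable_dg k c s (n + 1)).mul (ih (n + 1) (by omega))).sub
        (ih n (by omega))

theorem differentiableAt_mu {k c : ℝ} {s : Bool} {n : ℕ} {z : ℂ} (h : D k c s n z ≠ 0) :
    DifferentiableAt ℂ (mu k c s n) z := by
  unfold mu Align.mu Align.P Align.Q
  refine DifferentiableAt.div ?_ ?_ ?_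
  · exact (differentiable_sol k c s 1 0 n z).neg
  · exact differentiable_sol k c s 0 1 n z
  · have := Q_dg k c s z n
    unfold Align.Q at this
    rwa [this]

theorem differentiableAt_cont {k c : ℝ} {s : Bool} {n n' : ℕ} {z : ℂ} (h : D k c s n z ≠ 0)
    (h' : D k c (!s) n' z ≠ 0) : DifferentiableAt ℂ (cont k c s n n') z := by
  unfold cont
  exact ((differentiableAt_const _).sub (differentiableAt_mu h)).sub (differentiableAt_mu h')

/-- real values -/
theorem D_real (k c : ℝ) (s : Bool) (n : ℕ) (t : ℝ) :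
    D k c s n (t : ℂ) = (((D k c s n (t : ℂ)).re : ℝ) : ℂ) := by
  have h : ∃ u : ℝ, sdC k c s (t : ℂ) = (u : ℂ) := by
    cases s
    · exact ⟨kap k c - t, by simp [sdC]⟩
    · exact ⟨t, by simp [sdC]⟩
  obtain ⟨u, hu⟩ := h
  unfold D
  rw [hu, yd_ofReal]
  simp

theorem hasDerivAt_Y (k c : ℝ) (s : Bool) (n : ℕ) (z : ℂ) :
    ∃ d : ℂ, ‖d‖ = ‖D k c s n z‖ ∧ HasDerivAt (Y k c s n) d z := by
  cases s
  · exact ⟨-(D k c false n z), by rw [norm_neg], hasDerivAt_Y_false k c n z⟩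
  · exact ⟨D k c true n z, rfl, hasDerivAt_Y_true k c n z⟩

theorem im_Y (k c : ℝ) (s : Bool) (n : ℕ) (t : ℝ) : (Y k c s n (t : ℂ)).im = 0 := by
  have h : ∃ u : ℝ, sdC k c s (t : ℂ) = (u : ℂ) := by
    cases s
    · exact ⟨kap k c - t, by simp [sdC]⟩
    · exact ⟨t, by simp [sdC]⟩
  obtain ⟨u, hu⟩ := h
  unfold Y
  rw [hu, im_y_ofReal]





end Crest.Agent.R128.RALem
end

-- ▼ part R128/RAStep

/-!
Row 128, node RA-STEP (helper189): the second level of `Cell3` is again a `Cell3`.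
-/

set_option autoImplicit false

open Metric MeasureTheory
open Crest.Agent.R128 Crest.Agent.R128.Cell Crest.Agent.R128.CellB Crest.Agent.R128.CellDy
open Crest.Agent.R128.Loc Crest.Agent.R128.RALem

namespace Crest.Agent.R128.RAStep

/-! ### one side -/

/-- a constant with `CL k ≤ Lam k` and `CV k ≤ Lam k` for `k ≥ 1` -/
noncomputable def Lam : ℝ := 2 + 2 * Real.pi * Real.exp (2 * Real.pi) +
  4 * Real.pi ^ 2 * Real.exp (2 * Real.pi)

theorem Lam_ge : 2 ≤ Lam := by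
  unfold Lam
  have h1 : 0 ≤ 2 * Real.pi * Real.exp (2 * Real.pi) := by positivity
  have h2 : 0 ≤ 4 * Real.pi ^ 2 * Real.exp (2 * Real.pi) := by positivity
  linarith

theorem CL_le {k : ℝ} (hk : 1 ≤ k) : CL k ≤ Lam * k := by
  unfold CL Lam
  rw [abs_of_pos (by linarith)]
  have h1 : 0 ≤ 2 * Real.pi * Real.exp (2 * Real.pi) * k := by positivity
  nlinarith

theorem CV_le {k : ℝ} (hk : 1 ≤ k) : CV k ≤ Lam * k := by
  unfold CV Lam
  rw [abs_of_pos (by linarith)]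
  have h1 : 0 ≤ 4 * Real.pi ^ 2 * Real.exp (2 * Real.pi) * k := by positivity
  nlinarith

structure Sd (k c : ℝ) (s : Bool) (n : ℕ) (m' rad E e0 e1 : ℝ) : Prop where
  h1 : ∀ z ∈ ball (m' : ℂ) rad, ‖D k c s (n + 1) z - (E : ℂ)‖ ≤ e1
  h0 : ∀ z ∈ ball (m' : ℂ) rad, ‖D k c s n z‖ ≤ e0
  he1 : e1 ≤ |E| / 2
  he0 : e0 ≤ |E|
  hE : 0 < |E|
  hrad : 0 < rad

variable {k c : ℝ} {s : Bool} {n : ℕ} {m' rad E e0 e1 : ℝ}

theorem Sd.D_le (h : Sd k c s n m' rad E e0 e1) {z : ℂ} (hz : z ∈ ball (m' : ℂ) rad) :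
    ‖D k c s (n + 1) z‖ ≤ 3 / 2 * |E| := by
  have h1 := h.h1 z hz
  have h2 := norm_sub_norm_le (D k c s (n + 1) z) (E : ℂ)
  rw [Complex.norm_real, Real.norm_eq_abs] at h2
  have := h.he1
  linarith

theorem Sd.le_D (h : Sd k c s n m' rad E e0 e1) {z : ℂ} (hz : z ∈ ball (m' : ℂ) rad) :
    |E| / 2 ≤ ‖D k c s (n + 1) z‖ := by
  have h1 := h.h1 z hz
  have h2 := norm_sub_norm_le (E : ℂ) (D k c s (n + 1) z)
  rw [Complex.norm_real, Real.norm_eq_abs, norm_sub_rev] at h2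
  have := h.he1
  linarith

theorem Sd.Y_sub (h : Sd k c s n m' rad E e0 e1) {z : ℂ} (hz : z ∈ ball (m' : ℂ) rad) :
    ‖Y k c s (n + 1) z - Y k c s (n + 1) m'‖ ≤ 3 / 2 * |E| * ‖z - m'‖ := by
  choose d hd1 hd2 using fun w => hasDerivAt_Y k c s (n + 1) w
  exact (convex_ball (m' : ℂ) rad).norm_image_sub_le_of_norm_hasDerivWithin_le (f' := d)
    (fun x _ => (hd2 x).hasDerivWithinAt) (fun x hx => by rw [hd1]; exact h.D_le hx)
    (mem_ball_self h.hrad) hz

theorem Sd.V_sub (h : Sd k c s n m' rad E e0 e1) (hk : 1 ≤ k) {z : ℂ}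
    (hz : z ∈ ball (m' : ℂ) rad) (hz1 : 3 / 2 * |E| * ‖z - m'‖ ≤ 1) :
    ‖dg k c s z (n + 1) - dg k c s m' (n + 1)‖ ≤ Lam * k * (3 / 2 * |E| * ‖z - m'‖) := by
  have h1 := h.Y_sub hz
  have him : (Y k c s (n + 1) (m' : ℂ)).im = 0 := im_Y k c s (n + 1) m'
  have h2 : |(Y k c s (n + 1) z).im| ≤ 1 := by
    have h3 := Complex.abs_im_le_norm (Y k c s (n + 1) z - Y k c s (n + 1) m')
    rw [Complex.sub_im, him, sub_zero] at h3
    linarith
  have h4 := norm_cV_sub_le k h2 (w := Y k c s (n + 1) m') (by rw [him]; simp)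
  unfold dg
  refine h4.trans (mul_le_mul (CL_le hk) h1 (norm_nonneg _) ?_)
  have := Lam_ge
  positivity

theorem V_le (hk : 1 ≤ k) :
    ‖dg k c s m' (n + 1)‖ ≤ Lam * k := by
  unfold dg
  refine (norm_cV_le k ?_).trans (CV_le hk)
  rw [im_Y]
  simp

theorem le_V {kap : ℝ} (hk : 1 ≤ k)
    (hc : kap ≤ ‖Complex.cos (2 * Real.pi * Y k c s (n + 1) m')‖) :
    2 * Real.pi * k * kap - 2 ≤ ‖dg k c s m' (n + 1)‖ := by
  unfold dg cV
  have h1 := norm_sub_norm_le (2 * Real.pi * k * Complex.cos (2 * Real.pi * Y k c s (n + 1) m'))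
    (-2 : ℂ)
  rw [sub_neg_eq_add, add_comm _ (2 : ℂ)] at h1
  have h2 : ‖2 * (Real.pi : ℂ) * k * Complex.cos (2 * Real.pi * Y k c s (n + 1) m')‖ =
      2 * Real.pi * k * ‖Complex.cos (2 * Real.pi * Y k c s (n + 1) m')‖ := by
    rw [norm_mul]
    congr 1
    rw [norm_mul, norm_mul]
    simp [abs_of_pos Real.pi_pos, abs_of_pos (by linarith : 0 < k)]
  rw [h2] at h1
  have h3 : ‖(-2 : ℂ)‖ = 2 := by simp
  rw [h3] at h1
  have h4 : 2 * Real.pi * k * kap ≤
      2 * Real.pi * k * ‖Complex.cos (2 * Real.pi * Y k c s (n + 1) m')‖ :=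
    mul_le_mul_of_nonneg_left hc (by positivity)
  linarith

/-- lower bound of the next slope near `m'` -/
theorem Sd.lower (h : Sd k c s n m' rad E e0 e1) {kap : ℝ} (hkap : 0 < kap) (hkap1 : kap ≤ 1)
    (hk : 1 ≤ k) (hk2 : 2 ≤ kap * k)
    (hc : kap ≤ ‖Complex.cos (2 * Real.pi * Y k c s (n + 1) m')‖) {z : ℂ}
    (hz : z ∈ ball (m' : ℂ) rad) (hz1 : |E| * ‖z - m'‖ ≤ kap / (2 * Lam)) :
    4 * kap * k ≤ ‖dg k c s z (n + 1)‖ ∧ kap * k * |E| ≤ ‖D k c s (n + 2) z‖ := by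
  have hL := Lam_ge
  have hL0 : 0 < Lam := by linarith
  have h1 : Lam * (|E| * ‖z - m'‖) ≤ kap / 2 := by
    have := mul_le_mul_of_nonneg_left hz1 hL0.le
    rw [show Lam * (kap / (2 * Lam)) = kap / 2 by field_simp] at this
    exact this
  have h2 : |E| * ‖z - m'‖ ≤ 1 / 4 := by
    have : 2 * (|E| * ‖z - m'‖) ≤ Lam * (|E| * ‖z - m'‖) :=
      mul_le_mul_of_nonneg_right hL (by positivity)
    linarith
  have hV := h.V_sub hk hz (by nlinarith)
  have hV2 := le_V (c := c) (s := s) (n := n) (m' := m') hk hc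
  have hV3 := norm_sub_norm_le (dg k c s m' (n + 1)) (dg k c s z (n + 1))
  rw [norm_sub_rev] at hV3
  have hpi := Real.pi_gt_three
  have h3 : Lam * k * (3 / 2 * |E| * ‖z - m'‖) ≤ 3 / 4 * kap * k := by
    have : Lam * k * (3 / 2 * |E| * ‖z - m'‖) = 3 / 2 * k * (Lam * (|E| * ‖z - m'‖)) := by ring
    rw [this]
    have := mul_le_mul_of_nonneg_left h1 (by positivity : (0 : ℝ) ≤ 3 / 2 * k)
    linarith
  have h4 : 6 * kap * k ≤ 2 * Real.pi * k * kap := by
    have : 0 < k * kap := by positivity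
    nlinarith
  have h5 : 4 * kap * k ≤ ‖dg k c s z (n + 1)‖ := by linarith
  refine ⟨h5, ?_⟩
  rw [D_add_two]
  have h6 := norm_sub_norm_le (dg k c s z (n + 1) * D k c s (n + 1) z) (D k c s n z)
  rw [norm_mul] at h6
  have h7 := mul_le_mul h5 (h.le_D hz) (by have := h.hE; positivity) (norm_nonneg _)
  have h8 := h.h0 z hz
  have h9 := h.he0
  have h10 := h.hE
  have h11 : |E| ≤ kap * k * |E| := by nlinarith
  nlinarith

/-- variation of the next slope near `m'` -/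
theorem Sd.var (h : Sd k c s n m' rad E e0 e1) (hk : 1 ≤ k) {z : ℂ}
    (hz : z ∈ ball (m' : ℂ) rad) (hz1 : 3 / 2 * |E| * ‖z - m'‖ ≤ 1) :
    ‖D k c s (n + 2) z - D k c s (n + 2) m'‖ ≤
      Lam * k * (9 / 4 * |E| ^ 2 * ‖z - m'‖) + Lam * k * (2 * e1) + 2 * e0 := by
  have hL := Lam_ge
  have hV := h.V_sub hk hz hz1
  have hm : (m' : ℂ) ∈ ball (m' : ℂ) rad := mem_ball_self h.hrad
  rw [D_add_two, D_add_two]
  have e : dg k c s z (n + 1) * D k c s (n + 1) z - D k c s n z -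
      (dg k c s m' (n + 1) * D k c s (n + 1) m' - D k c s n m') =
      (dg k c s z (n + 1) - dg k c s m' (n + 1)) * D k c s (n + 1) z +
      dg k c s m' (n + 1) * ((D k c s (n + 1) z - E) - (D k c s (n + 1) m' - E)) -
      (D k c s n z - D k c s n m') := by ring
  rw [e]
  have a1 : ‖(dg k c s z (n + 1) - dg k c s m' (n + 1)) * D k c s (n + 1) z‖ ≤
      Lam * k * (3 / 2 * |E| * ‖z - m'‖) * (3 / 2 * |E|) := by
    rw [norm_mul]
    exact mul_le_mul hV (h.D_le hz) (norm_nonneg _) (by positivity)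
  have a2 : ‖dg k c s m' (n + 1) * ((D k c s (n + 1) z - E) - (D k c s (n + 1) m' - E))‖ ≤
      Lam * k * (2 * e1) := by
    rw [norm_mul]
    refine mul_le_mul (V_le hk) ?_ (norm_nonneg _) (by positivity)
    refine (norm_sub_le _ _).trans ?_
    linarith [h.h1 z hz, h.h1 m' hm]
  have a3 : ‖D k c s n z - D k c s n m'‖ ≤ 2 * e0 := by
    refine (norm_sub_le _ _).trans ?_
    linarith [h.h0 z hz, h.h0 m' hm]
  refine (norm_sub_le _ _).trans ?_
  refine (add_le_add (norm_add_le _ _) le_rfl).trans ?_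
  nlinarith

/-- real-coefficient quadratic Taylor approximation of a function commuting with conjugation -/
theorem taylor_sym {G : ℂ → ℂ} {x ρ B : ℝ} (hρ : 0 < ρ)
    (hG : DifferentiableOn ℂ G (ball (x : ℂ) ρ)) (hB : ∀ w ∈ ball (x : ℂ) ρ, ‖G w‖ ≤ B)
    (hc : ∀ w, G ((starRingEnd ℂ) w) = (starRingEnd ℂ) (G w)) :
    ∃ g0 g1 g2 : ℝ, ∀ w : ℂ, ‖w - x‖ ≤ ρ / 2 →
      ‖G w - (g0 + g1 * (w - x) + g2 * (w - x) ^ 2)‖ ≤ 4 * B * (‖w - x‖ / ρ) ^ 3 := by
  have hB2 : ∀ w ∈ ball (x : ℂ) ρ, ‖G w - G x‖ ≤ 2 * B := by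
    intro w hw
    refine (norm_sub_le _ _).trans ?_
    linarith [hB w hw, hB x (mem_ball_self hρ)]
  obtain ⟨a, b, -, -, -, -, h⟩ := TaylorTwo.taylor_two hρ hG hB2
  refine ⟨(G x).re, a.re, b.re, fun w hw => ?_⟩
  have h1 := h w hw
  have hw' : ‖(starRingEnd ℂ) w - (x : ℂ)‖ = ‖w - x‖ := by
    rw [← Complex.conj_ofReal x, ← map_sub, Complex.norm_conj]
    simp
  have h2 := h ((starRingEnd ℂ) w) (by rw [hw']; exact hw)
  rw [hw'] at h2
  have h3 : ‖G w - ((starRingEnd ℂ) (G x) + (starRingEnd ℂ) a * (w - x) +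
      (starRingEnd ℂ) b * (w - x) ^ 2)‖ ≤ 2 * (2 * B) * (‖w - x‖ / ρ) ^ 3 := by
    have e : G w - ((starRingEnd ℂ) (G x) + (starRingEnd ℂ) a * (w - x) +
        (starRingEnd ℂ) b * (w - x) ^ 2) = (starRingEnd ℂ) (G ((starRingEnd ℂ) w) -
          (G x + a * ((starRingEnd ℂ) w - x) + b * ((starRingEnd ℂ) w - x) ^ 2)) := by
      rw [hc w]
      simp [map_sub, map_add, map_mul, map_pow]
    rw [e, Complex.norm_conj]
    exact h2
  have e2 : G w - (((G x).re : ℂ) + (a.re : ℂ) * (w - x) + (b.re : ℂ) * (w - x) ^ 2) =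
      ((G w - (G x + a * (w - x) + b * (w - x) ^ 2)) +
      (G w - ((starRingEnd ℂ) (G x) + (starRingEnd ℂ) a * (w - x) +
        (starRingEnd ℂ) b * (w - x) ^ 2))) / 2 := by
    rw [Complex.re_eq_add_conj, Complex.re_eq_add_conj, Complex.re_eq_add_conj]
    ring
  rw [e2, norm_div]
  have h4 := norm_add_le (G w - (G x + a * (w - x) + b * (w - x) ^ 2))
    (G w - ((starRingEnd ℂ) (G x) + (starRingEnd ℂ) a * (w - x) +
        (starRingEnd ℂ) b * (w - x) ^ 2))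
  have h5 : ‖(2 : ℂ)‖ = 2 := by simp
  rw [h5, div_le_iff₀ (by norm_num)]
  linarith

noncomputable def K0 (C1 kap L : ℝ) : ℝ :=
  18 * Lam * L ^ 2 / kap + 2 * Lam * C1 * L ^ 2 + 2 * C1 * L ^ 2

theorem K0_nonneg {C1 kap L : ℝ} (hC1 : 0 ≤ C1) (hkap : 0 < kap) : 0 ≤ K0 C1 kap L := by
  unfold K0
  have := Lam_ge
  positivity

theorem Sd.var' {C1 kap L R : ℝ} (h : Sd k c s n m' (2 / R) E e0 e1) (hk : 1 ≤ k)
    (hR : 1 ≤ R) (hkap : 0 < kap) (hL : 1 ≤ L) (hC1 : 0 ≤ C1)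
    (hEL : |E| ≤ L * R) (he1 : e1 ≤ C1 * L ^ 2 * R / k) (he0 : e0 ≤ C1 * L * R / k)
    (hk4 : 16 * L * Lam ≤ kap ^ 2 * k) (hkap1 : kap ≤ 1) {z : ℂ}
    (hz : ‖z - m'‖ ≤ 8 / (kap * k * R)) (hzb : z ∈ ball (m' : ℂ) (2 / R)) :
    |E| * ‖z - m'‖ ≤ kap / (2 * Lam) ∧
      ‖D k c s (n + 2) z - D k c s (n + 2) m'‖ ≤ K0 C1 kap L * R := by
  have hLam := Lam_ge
  have hk0 : 0 < k := by linarith
  have hR0 : 0 < R := by linarith
  have h1 : |E| * ‖z - m'‖ ≤ 8 * L / (kap * k) := by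
    calc |E| * ‖z - m'‖ ≤ (L * R) * (8 / (kap * k * R)) :=
          mul_le_mul hEL hz (norm_nonneg _) (by positivity)
      _ = 8 * L / (kap * k) := by field_simp
  have h2 : 8 * L / (kap * k) ≤ kap / (2 * Lam) := by
    rw [div_le_div_iff₀ (by positivity) (by positivity)]
    nlinarith
  refine ⟨h1.trans h2, ?_⟩
  have h3 : kap / (2 * Lam) ≤ 1 / 4 := by
    rw [div_le_div_iff₀ (by positivity) (by norm_num)]
    linarith
  have hv := h.var hk hzb (by nlinarith)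
  refine hv.trans ?_
  have h4 : Lam * k * (9 / 4 * |E| ^ 2 * ‖z - m'‖) ≤ 18 * Lam * L ^ 2 / kap * R := by
    have e : Lam * k * (9 / 4 * |E| ^ 2 * ‖z - m'‖) =
        Lam * k * 9 / 4 * (|E| * (|E| * ‖z - m'‖)) := by ring
    rw [e]
    have h5 : |E| * (|E| * ‖z - m'‖) ≤ (L * R) * (8 * L / (kap * k)) :=
      mul_le_mul hEL h1 (by positivity) (by positivity)
    refine (mul_le_mul_of_nonneg_left h5 (by positivity)).trans (le_of_eq ?_)
    field_simp
    ring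
  have h6 : Lam * k * (2 * e1) ≤ 2 * Lam * C1 * L ^ 2 * R := by
    refine (mul_le_mul_of_nonneg_left (mul_le_mul_of_nonneg_left he1 (by norm_num : (0:ℝ) ≤ 2))
      (by positivity)).trans (le_of_eq ?_)
    field_simp
  have h7 : 2 * e0 ≤ 2 * C1 * L ^ 2 * R := by
    have h8 : C1 * L * R / k ≤ C1 * L ^ 2 * R := by
      rw [div_le_iff₀ hk0]
      have h9 : C1 * L * R ≤ C1 * L * R * (L * k) := by
        apply le_mul_of_one_le_right (by positivity)
        nlinarith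
      nlinarith
    linarith
  unfold K0
  nlinarith

/-- the content of the next level is again quadratic -/
theorem quad_step {kap L R e0' e1' E' m q0 q1 q2 rho M : ℝ} {n' : ℕ}
    (h : Sd k c s n m' (2 / R) E e0 e1) (h' : Sd k c (!s) n' m' (2 / R) E' e0' e1')
    (hk : 1 ≤ k) (hR : 1 ≤ R) (hkap : 0 < kap) (hkap1 : kap ≤ 1) (hL : 1 ≤ L)
    (hE : R ≤ |E|) (hE' : R ≤ |E'|) (hEL : |E| ≤ L * R) (hEL' : |E'| ≤ L * R)
    (hc : kap ≤ ‖Complex.cos (2 * Real.pi * Y k c s (n + 1) m')‖)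
    (hc' : kap ≤ ‖Complex.cos (2 * Real.pi * Y k c (!s) (n' + 1) m')‖)
    (hq : ∀ z ∈ ball (m' : ℂ) (2 / R),
      ‖(2 * Real.pi * k * R ^ 2 : ℝ) * cont k c s (n + 1) (n' + 1) z -
      (q0 + q1 * ((R : ℂ) * (z - m)) + q2 * ((R : ℂ) * (z - m)) ^ 2)‖ ≤ 1 / 16)
    (hrho : rho = kap / (2 * Lam * L)) (hM : M = 1 + 32 / kap) (hk2 : 2 ≤ kap * k) :
    ∃ g0 g1 g2 : ℝ, ∀ z : ℂ, ‖z - m'‖ ≤ rho / R / 2 →
      ‖(2 * Real.pi * k * R ^ 2 : ℝ) * cont k c s (n + 2) (n' + 2) z -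
      (q0 + q1 * ((R : ℂ) * (z - m)) + q2 * ((R : ℂ) * (z - m)) ^ 2) -
      (g0 + g1 * (z - m') + g2 * (z - m') ^ 2)‖ ≤ 4 * M * (‖z - m'‖ / (rho / R)) ^ 3 := by
  have hLam := Lam_ge
  have hk0 : 0 < k := by linarith
  have hR0 : 0 < R := by linarith
  have hrho0 : 0 < rho := by rw [hrho]; positivity
  have hrho1 : rho ≤ 1 := by
    rw [hrho, div_le_one (by positivity)]
    nlinarith
  set G : ℂ → ℂ := fun z => (2 * Real.pi * k * R ^ 2 : ℝ) * cont k c s (n + 2) (n' + 2) z -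
      (q0 + q1 * ((R : ℂ) * (z - m)) + q2 * ((R : ℂ) * (z - m)) ^ 2) with hG
  have hsub : ∀ z ∈ ball (m' : ℂ) (rho / R), z ∈ ball (m' : ℂ) (2 / R) ∧
      |E| * ‖z - m'‖ ≤ kap / (2 * Lam) ∧ |E'| * ‖z - m'‖ ≤ kap / (2 * Lam) := by
    intro z hz
    have hz' : ‖z - m'‖ < rho / R := by simpa [dist_eq_norm] using hz
    have h2 : rho / R ≤ 2 / R := by
      apply div_le_div_of_nonneg_right _ hR0.le
      linarith
    have h3 : (L * R) * (rho / R) = kap / (2 * Lam) := by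
      rw [hrho]
      field_simp
    refine ⟨?_, ?_, ?_⟩
    · rw [mem_ball, dist_eq_norm]
      linarith
    · rw [← h3]
      exact mul_le_mul hEL hz'.le (norm_nonneg _) (by positivity)
    · rw [← h3]
      exact mul_le_mul hEL' hz'.le (norm_nonneg _) (by positivity)
  have hlow : ∀ z ∈ ball (m' : ℂ) (rho / R), R / 2 ≤ ‖D k c s (n + 1) z‖ ∧
      kap * k * R ≤ ‖D k c s (n + 2) z‖ ∧ R / 2 ≤ ‖D k c (!s) (n' + 1) z‖ ∧
      kap * k * R ≤ ‖D k c (!s) (n' + 2) z‖ := by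
    intro z hz
    obtain ⟨a1, a2, a3⟩ := hsub z hz
    have b1 := h.le_D a1
    have b2 := (h.lower hkap hkap1 hk hk2 hc a1 a2).2
    have b3 := h'.le_D a1
    have b4 := (h'.lower hkap hkap1 hk hk2 hc' a1 a3).2
    have b5 : kap * k * R ≤ kap * k * |E| := mul_le_mul_of_nonneg_left hE (by positivity)
    have b6 : kap * k * R ≤ kap * k * |E'| := mul_le_mul_of_nonneg_left hE' (by positivity)
    exact ⟨by linarith, by linarith, by linarith, by linarith⟩
  have hne : ∀ z ∈ ball (m' : ℂ) (rho / R), D k c s (n + 1) z ≠ 0 ∧ D k c s (n + 2) z ≠ 0 ∧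
      D k c (!s) (n' + 1) z ≠ 0 ∧ D k c (!s) (n' + 2) z ≠ 0 := by
    intro z hz
    obtain ⟨b1, b2, b3, b4⟩ := hlow z hz
    have c1 : 0 < R / 2 := by positivity
    have c2 : 0 < kap * k * R := by positivity
    exact ⟨norm_pos_iff.mp (by linarith), norm_pos_iff.mp (by linarith),
      norm_pos_iff.mp (by linarith), norm_pos_iff.mp (by linarith)⟩
  have hGd : DifferentiableOn ℂ G (ball (m' : ℂ) (rho / R)) := by
    intro z hz
    obtain ⟨-, d2, -, d4⟩ := hne z hz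
    apply DifferentiableAt.differentiableWithinAt
    have e1 := differentiableAt_cont (k := k) (c := c) (s := s) (n := n + 2) (n' := n' + 2) d2 d4
    rw [hG]
    fun_prop
  have hGB : ∀ z ∈ ball (m' : ℂ) (rho / R), ‖G z‖ ≤ M := by
    intro z hz
    obtain ⟨b1, b2, b3, b4⟩ := hlow z hz
    obtain ⟨d1, d2, d3, d4⟩ := hne z hz
    have e1 := hq z (hsub z hz).1
    have e : G z = ((2 * Real.pi * k * R ^ 2 : ℝ) * cont k c s (n + 1) (n' + 1) z -
        (q0 + q1 * ((R : ℂ) * (z - m)) + q2 * ((R : ℂ) * (z - m)) ^ 2)) -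
        (2 * Real.pi * k * R ^ 2 : ℝ) * (1 / (D k c s (n + 1) z * D k c s (n + 2) z)) -
        (2 * Real.pi * k * R ^ 2 : ℝ) * (1 / (D k c (!s) (n' + 1) z * D k c (!s) (n' + 2) z)) := by
      rw [hG]
      simp only
      rw [show n + 2 = (n + 1) + 1 from rfl, show n' + 2 = (n' + 1) + 1 from rfl,
        cont_succ d1 d2 d3 d4]
      ring
    have key : ∀ u v : ℂ, R / 2 ≤ ‖u‖ → kap * k * R ≤ ‖v‖ →
        ‖((2 * Real.pi * k * R ^ 2 : ℝ) : ℂ) * (1 / (u * v))‖ ≤ 15 / kap := by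
      intro u v hu hv
      rw [norm_mul, Complex.norm_real, Real.norm_eq_abs, abs_of_pos (by positivity), norm_div,
        norm_one, norm_mul]
      have hpos : 0 < R / 2 * (kap * k * R) := by positivity
      have huv : R / 2 * (kap * k * R) ≤ ‖u‖ * ‖v‖ :=
        mul_le_mul hu hv (by positivity) (norm_nonneg _)
      have h5 : 1 / (‖u‖ * ‖v‖) ≤ 1 / (R / 2 * (kap * k * R)) :=
        one_div_le_one_div_of_le hpos huv
      refine (mul_le_mul_of_nonneg_left h5 (by positivity)).trans ?_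
      have h6 : 2 * Real.pi * k * R ^ 2 * (1 / (R / 2 * (kap * k * R))) = 4 * Real.pi / kap := by
        field_simp
        ring
      rw [h6]
      apply div_le_div_of_nonneg_right _ hkap.le
      have := Real.pi_lt_d2
      linarith
    rw [e]
    refine (norm_sub_le _ _).trans ?_
    have k1 := key _ _ b1 b2
    have k2 := key _ _ b3 b4
    have k3 := norm_sub_le (((2 * Real.pi * k * R ^ 2 : ℝ) : ℂ) * cont k c s (n + 1) (n' + 1) z -
        (q0 + q1 * ((R : ℂ) * (z - m)) + q2 * ((R : ℂ) * (z - m)) ^ 2))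
        (((2 * Real.pi * k * R ^ 2 : ℝ) : ℂ) * (1 / (D k c s (n + 1) z * D k c s (n + 2) z)))
    rw [hM]
    have h7 : (32 : ℝ) / kap = 15 / kap + 15 / kap + 2 / kap := by ring
    have h8 : 0 < 2 / kap := by positivity
    linarith
  have hGc : ∀ w, G ((starRingEnd ℂ) w) = (starRingEnd ℂ) (G w) := by
    intro w
    rw [hG]
    simp only
    rw [cont_conj]
    simp only [map_sub, map_add, map_mul, map_pow, Complex.conj_ofReal]
  obtain ⟨g0, g1, g2, hg⟩ := taylor_sym (by positivity : 0 < rho / R) hGd hGB hGc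
  exact ⟨g0, g1, g2, fun z hz => hg z hz⟩

set_option maxHeartbeats 2000000 in
theorem core {C1 kap L R e0' e1' E' m q0 q1 q2 rho M C2 : ℝ} {n' : ℕ}
    (h : Sd k c s n m' (2 / R) E e0 e1) (h' : Sd k c (!s) n' m' (2 / R) E' e0' e1')
    (hk : 1 ≤ k) (hR : 1 ≤ R) (hkap : 0 < kap) (hkap1 : kap ≤ 1) (hL : 1 ≤ L) (hC1 : 0 ≤ C1)
    (hE : R ≤ |E|) (hE' : R ≤ |E'|) (hEL : |E| ≤ L * R) (hEL' : |E'| ≤ L * R)
    (he1 : e1 ≤ C1 * L ^ 2 * R / k) (he0 : e0 ≤ C1 * L * R / k)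
    (he1' : e1' ≤ C1 * L ^ 2 * R / k) (he0' : e0' ≤ C1 * L * R / k)
    (hc : kap ≤ ‖Complex.cos (2 * Real.pi * Y k c s (n + 1) m')‖)
    (hc' : kap ≤ ‖Complex.cos (2 * Real.pi * Y k c (!s) (n' + 1) m')‖)
    (hq : ∀ z ∈ ball (m' : ℂ) (2 / R),
      ‖(2 * Real.pi * k * R ^ 2 : ℝ) * cont k c s (n + 1) (n' + 1) z -
      (q0 + q1 * ((R : ℂ) * (z - m)) + q2 * ((R : ℂ) * (z - m)) ^ 2)‖ ≤ 1 / 16)
    (hrho : rho = kap / (2 * Lam * L)) (hM : M = 1 + 32 / kap) (hk2 : 4 ≤ kap * k)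
    (hk3 : 2 * K0 C1 kap L ≤ kap * k) (hk4 : 16 * L * Lam ≤ kap ^ 2 * k)
    (hk5 : 16 ≤ kap * rho * k) (hk6 : 8192 * M ≤ rho ^ 3 * kap * k)
    (hC2 : 4 * K0 C1 kap L ≤ kap * C2) (hC2' : 3 * L ≤ kap * C2) (hC20 : 6 * L * Lam ≤ kap * C2)
    (hAA : ‖D k c s (n + 2) m'‖ ≤ ‖D k c (!s) (n' + 2) m'‖) :
    ∃ R' lam' q0' q1' q2' : ℝ, kap * k * R / 2 ≤ R' ∧ |lam'| ≤ C2 ∧
      Cell3 k c s (n + 1) (n' + 1) m' R' lam' C2 q0' q1' q2' ∧
      ∀ z ∈ ball (m' : ℂ) (4 / R'), R' ≤ ‖D k c s (n + 2) z‖ ∧ R' ≤ ‖D k c (!s) (n' + 2) z‖ := by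
  have hLam := Lam_ge
  have hk0 : 0 < k := by linarith
  have hR0 : 0 < R := by linarith
  obtain ⟨K, hK⟩ : ∃ K, K = K0 C1 kap L := ⟨_, rfl⟩
  have hK0 : 0 ≤ K := by rw [hK]; exact K0_nonneg hC1 hkap
  rw [← hK] at hk3 hC2
  have hm : (m' : ℂ) ∈ ball (m' : ℂ) (2 / R) := mem_ball_self (by positivity)
  obtain ⟨A, hA⟩ : ∃ A : ℝ, D k c s (n + 2) (m' : ℂ) = (A : ℂ) := ⟨_, D_real k c s (n + 2) m'⟩
  obtain ⟨A', hA'⟩ : ∃ A' : ℝ, D k c (!s) (n' + 2) (m' : ℂ) = (A' : ℂ) :=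
    ⟨_, D_real k c (!s) (n' + 2) m'⟩
  rw [hA, hA', Complex.norm_real, Complex.norm_real, Real.norm_eq_abs, Real.norm_eq_abs] at hAA
  have hlowA : kap * k * R ≤ |A| := by
    have h1 := (h.lower hkap hkap1 hk (by linarith) hc hm (by simp; positivity)).2
    rw [hA, Complex.norm_real, Real.norm_eq_abs] at h1
    exact (mul_le_mul_of_nonneg_left hE (by positivity)).trans h1
  obtain ⟨R', hR'⟩ : ∃ R', R' = |A| - K * R := ⟨_, rfl⟩
  have hkR : 4 * R ≤ kap * k * R := mul_le_mul_of_nonneg_right hk2 hR0.le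
  have hKR : K * R ≤ kap * k * R / 2 := by
    have := mul_le_mul_of_nonneg_right hk3 (by positivity : 0 ≤ R / 2)
    linarith
  have hR'1 : kap * k * R / 2 ≤ R' := by rw [hR']; linarith
  have hR'2 : 2 ≤ R' := by linarith
  have hR'0 : 0 < R' := by linarith
  have hbase : kap * R / 2 ≤ R' / k := by
    rw [le_div_iff₀ hk0]
    linarith
  have hC20' : 0 ≤ C2 := by
    have : 0 < kap * C2 := by linarith
    exact (pos_of_mul_pos_right this hkap.le).le
  have hbase2 : kap * C2 * R / 2 ≤ C2 * R' / k := by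
    have := mul_le_mul_of_nonneg_left hbase hC20'
    calc kap * C2 * R / 2 = C2 * (kap * R / 2) := by ring
      _ ≤ C2 * (R' / k) := this
      _ = C2 * R' / k := by ring
  have hball : ∀ z ∈ ball (m' : ℂ) (4 / R'), ‖z - m'‖ < 4 / R' ∧
      ‖z - m'‖ ≤ 8 / (kap * k * R) ∧ z ∈ ball (m' : ℂ) (2 / R) := by
    intro z hz
    have hz' : ‖z - m'‖ < 4 / R' := by simpa [dist_eq_norm] using hz
    have h1 : 4 / R' ≤ 8 / (kap * k * R) := by
      rw [div_le_div_iff₀ hR'0 (by positivity)]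
      linarith
    have h2 : 8 / (kap * k * R) ≤ 2 / R := by
      rw [div_le_div_iff₀ (by positivity) hR0]
      linarith
    refine ⟨hz', by linarith, ?_⟩
    rw [mem_ball, dist_eq_norm]
    linarith
  have hv : ∀ z ∈ ball (m' : ℂ) (4 / R'), ‖D k c s (n + 2) z - (A : ℂ)‖ ≤ K * R ∧
      ‖D k c (!s) (n' + 2) z - (A' : ℂ)‖ ≤ K * R := by
    intro z hz
    obtain ⟨-, b1, b2⟩ := hball z hz
    have a1 := (h.var' hk hR hkap hL hC1 hEL he1 he0 hk4 hkap1 b1 b2).2
    have a2 := (h'.var' hk hR hkap hL hC1 hEL' he1' he0' hk4 hkap1 b1 b2).2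
    rw [hA, ← hK] at a1
    rw [hA', ← hK] at a2
    exact ⟨a1, a2⟩
  have hlowz : ∀ z ∈ ball (m' : ℂ) (4 / R'), R' ≤ ‖D k c s (n + 2) z‖ ∧
      R' ≤ ‖D k c (!s) (n' + 2) z‖ := by
    intro z hz
    obtain ⟨a1, a2⟩ := hv z hz
    have b1 := norm_sub_norm_le (A : ℂ) (D k c s (n + 2) z)
    have b2 := norm_sub_norm_le (A' : ℂ) (D k c (!s) (n' + 2) z)
    rw [norm_sub_rev, Complex.norm_real, Real.norm_eq_abs] at b1 b2
    exact ⟨by linarith, by linarith⟩
  have hupA' : |A'| ≤ 2 * Lam * k * L * R := by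
    have h1 : ‖D k c (!s) (n' + 2) (m' : ℂ)‖ ≤ ‖dg k c (!s) m' (n' + 1)‖ *
        ‖D k c (!s) (n' + 1) m'‖ + ‖D k c (!s) n' m'‖ := by
      rw [D_add_two, ← norm_mul]
      exact norm_sub_le _ _
    rw [hA', Complex.norm_real, Real.norm_eq_abs] at h1
    have h2 : ‖dg k c (!s) m' (n' + 1)‖ * ‖D k c (!s) (n' + 1) m'‖ ≤
        (Lam * k) * (3 / 2 * |E'|) :=
      mul_le_mul (V_le hk) (h'.D_le hm) (norm_nonneg _) (by positivity)
    have h3 := h'.h0 m' hm
    have h4 := h'.he0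
    have h5 : (Lam * k) * (3 / 2 * |E'|) ≤ (Lam * k) * (3 / 2 * (L * R)) :=
      mul_le_mul_of_nonneg_left (by linarith) (by positivity)
    have h6 : L * R ≤ (Lam * k) * (1 / 2 * (L * R)) := by
      have h7 : 2 * 1 ≤ Lam * k := mul_le_mul hLam hk (by norm_num) (by linarith)
      have h8 : 0 ≤ 1 / 2 * (L * R) := by positivity
      have h9 := mul_le_mul_of_nonneg_right h7 h8
      linarith
    linarith
  have hlam1 : 1 ≤ |A' / R'| := by
    rw [abs_div, abs_of_pos hR'0, le_div_iff₀ hR'0]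
    have : 0 ≤ K * R := by positivity
    linarith
  have hKC : 2 * (K * R) ≤ C2 * R' / k := by
    have := mul_le_mul_of_nonneg_right hC2 (by positivity : 0 ≤ R / 2)
    linarith
  have hLC : 3 / 2 * (L * R) ≤ C2 * R' / k := by
    have := mul_le_mul_of_nonneg_right hC2' (by positivity : 0 ≤ R / 2)
    linarith
  have hrho0 : 0 < rho := by rw [hrho]; positivity
  have hM0 : 0 < M := by rw [hM]; positivity
  obtain ⟨g0, g1, g2, hg⟩ := quad_step h h' hk hR hkap hkap1 hL hE hE' hEL hEL' hc hc' hq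
    hrho hM (by linarith)
  obtain ⟨δ, hδ⟩ : ∃ δ, δ = R * (m' - m) := ⟨_, rfl⟩
  refine ⟨R', A' / R', (R' / R) ^ 2 * (q0 + q1 * δ + q2 * δ ^ 2 + g0),
    (R' / R) ^ 2 * ((q1 + 2 * q2 * δ) * R + g1) / R', (R' / R) ^ 2 * (q2 * R ^ 2 + g2) / R' ^ 2,
    hR'1, ?_, ?_, hlowz⟩
  · rw [abs_div, abs_of_pos hR'0, div_le_iff₀ hR'0]
    have h1 : C2 * (kap * k * R / 2) ≤ C2 * R' := mul_le_mul_of_nonneg_left hR'1 hC20'
    have h2 : 6 * L * Lam * (k * R / 2) ≤ kap * C2 * (k * R / 2) :=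
      mul_le_mul_of_nonneg_right hC20 (by positivity)
    have h3 : 0 ≤ Lam * k * L * R := by positivity
    linarith
  · constructor
    · linarith
    · exact hlam1
    · rcases le_or_gt 0 A with hs | hs
      · refine ⟨1, Or.inl rfl, fun z hz => ?_⟩
        have a1 := (hv z hz).1
        have e : D k c s (n + 2) z - ((1 * R' : ℝ) : ℂ) =
            (D k c s (n + 2) z - (A : ℂ)) + ((A - R' : ℝ) : ℂ) := by push_cast; ring
        rw [show n + 1 + 1 = n + 2 from rfl, e]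
        refine (norm_add_le _ _).trans ?_
        rw [Complex.norm_real, Real.norm_eq_abs]
        have h1 : A - R' = K * R := by rw [hR', abs_of_nonneg hs]; ring
        rw [h1, abs_of_nonneg (by positivity)]
        linarith
      · refine ⟨-1, Or.inr rfl, fun z hz => ?_⟩
        have a1 := (hv z hz).1
        have e : D k c s (n + 2) z - ((-1 * R' : ℝ) : ℂ) =
            (D k c s (n + 2) z - (A : ℂ)) + ((A + R' : ℝ) : ℂ) := by push_cast; ring
        rw [show n + 1 + 1 = n + 2 from rfl, e]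
        refine (norm_add_le _ _).trans ?_
        rw [Complex.norm_real, Real.norm_eq_abs]
        have h1 : A + R' = -(K * R) := by rw [hR', abs_of_neg hs]; ring
        rw [h1, abs_neg, abs_of_nonneg (by positivity)]
        linarith
    · intro z hz
      have a1 := h.D_le (hball z hz).2.2
      linarith
    · intro z hz
      have a1 := (hv z hz).2
      have e : ((A' / R' * R' : ℝ) : ℂ) = (A' : ℂ) := by
        rw [div_mul_cancel₀ _ hR'0.ne']
      rw [show n' + 1 + 1 = n' + 2 from rfl, e]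
      refine a1.trans ?_
      have h1 : C2 * R' / k ≤ C2 * |A' / R'| ^ 2 * R' / k := by
        apply div_le_div_of_nonneg_right _ hk0.le
        apply mul_le_mul_of_nonneg_right _ hR'0.le
        exact le_mul_of_one_le_right hC20' (one_le_pow₀ hlam1)
      have : 0 ≤ K * R := by positivity
      linarith
    · intro z hz
      have a1 := h'.D_le (hball z hz).2.2
      have h1 : C2 * R' / k ≤ C2 * |A' / R'| * R' / k := by
        apply div_le_div_of_nonneg_right _ hk0.le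
        apply mul_le_mul_of_nonneg_right _ hR'0.le
        exact le_mul_of_one_le_right hC20' hlam1
      linarith
    · intro z hz
      obtain ⟨b1, b2, b3⟩ := hball z hz
      have hRC : (R : ℂ) ≠ 0 := by exact_mod_cast hR0.ne'
      have hRC' : (R' : ℂ) ≠ 0 := by exact_mod_cast hR'0.ne'
      have hsm : ‖z - m'‖ ≤ rho / R / 2 := by
        refine b2.trans ?_
        rw [div_div, div_le_div_iff₀ (by positivity) (by positivity)]
        have := mul_le_mul_of_nonneg_right hk5 hR0.le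
        linarith
      have hgz := hg z hsm
      have e : ((2 * Real.pi * k * R' ^ 2 : ℝ) : ℂ) * cont k c s (n + 1 + 1) (n' + 1 + 1) z -
          (((R' / R) ^ 2 * (q0 + q1 * δ + q2 * δ ^ 2 + g0) : ℝ) +
          ((R' / R) ^ 2 * ((q1 + 2 * q2 * δ) * R + g1) / R' : ℝ) * ((R' : ℂ) * (z - m')) +
          ((R' / R) ^ 2 * (q2 * R ^ 2 + g2) / R' ^ 2 : ℝ) * ((R' : ℂ) * (z - m')) ^ 2) =
          (((R' / R) ^ 2 : ℝ) : ℂ) * (((2 * Real.pi * k * R ^ 2 : ℝ) : ℂ) *
            cont k c s (n + 2) (n' + 2) z -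
            (q0 + q1 * ((R : ℂ) * (z - m)) + q2 * ((R : ℂ) * (z - m)) ^ 2) -
            (g0 + g1 * (z - m') + g2 * (z - m') ^ 2)) := by
        rw [hδ]
        push_cast
        field_simp
        ring
      rw [e, norm_mul, Complex.norm_real, Real.norm_eq_abs, abs_of_nonneg (by positivity)]
      refine (mul_le_mul_of_nonneg_left hgz (by positivity)).trans ?_
      have e2 : (R' / R) ^ 2 * (4 * M * (‖z - m'‖ / (rho / R)) ^ 3) =
          4 * M / rho ^ 3 * ((R' * ‖z - m'‖) ^ 2 * (R * ‖z - m'‖)) := by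
        field_simp
      rw [e2]
      have c1 : R' * ‖z - m'‖ ≤ 4 := by
        have := mul_le_mul_of_nonneg_left b1.le hR'0.le
        rwa [mul_div_cancel₀ _ hR'0.ne'] at this
      have c2 : R * ‖z - m'‖ ≤ 8 / (kap * k) := by
        have := mul_le_mul_of_nonneg_left b2 hR0.le
        refine this.trans (le_of_eq ?_)
        field_simp
      have c3 : (R' * ‖z - m'‖) ^ 2 * (R * ‖z - m'‖) ≤ 4 ^ 2 * (8 / (kap * k)) :=
        mul_le_mul (pow_le_pow_left₀ (by positivity) c1 2) c2 (by positivity) (by norm_num)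
      refine (mul_le_mul_of_nonneg_left c3 (by positivity)).trans ?_
      have e3 : 4 * M / rho ^ 3 * (4 ^ 2 * (8 / (kap * k))) = 512 * M / (rho ^ 3 * kap * k) := by
        field_simp
        ring
      rw [e3, div_le_div_iff₀ (by positivity) (by norm_num)]
      linarith

/-- **RA-STEP.**  At a real point `m'` of a `Cell3` with `|λ| ≤ L` where both exit digits are not
near critical (`|cos| ≥ kap`), the next level is again a `Cell3`, centred at `m'`. -/
theorem step {C1 kap L : ℝ} (hC1 : 0 ≤ C1) (hkap : 0 < kap) (hkap1 : kap ≤ 1) (hL : 1 ≤ L) :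
    ∃ C2 : ℝ, 1 ≤ C2 ∧ ∃ k1 : ℝ, ∀ k : ℝ, k1 ≤ k →
    ∀ (c : ℝ) (s : Bool) (n n' : ℕ) (m R lam q0 q1 q2 : ℝ),
      Cell3 k c s n n' m R lam C1 q0 q1 q2 → |lam| ≤ L →
      ∀ m' : ℝ, |m' - m| ≤ 2 / R →
      kap ≤ ‖Complex.cos (2 * Real.pi * Y k c s (n + 1) m')‖ →
      kap ≤ ‖Complex.cos (2 * Real.pi * Y k c (!s) (n' + 1) m')‖ →
      ∃ (s' : Bool) (a a' : ℕ) (R' lam' q0' q1' q2' : ℝ),
        ((s' = s ∧ a = n + 1 ∧ a' = n' + 1) ∨ (s' = !s ∧ a = n' + 1 ∧ a' = n + 1)) ∧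
        kap * k * R / 2 ≤ R' ∧ |lam'| ≤ C2 ∧ Cell3 k c s' a a' m' R' lam' C2 q0' q1' q2' ∧
        ∀ z ∈ ball (m' : ℂ) (4 / R'),
          R' ≤ ‖D k c s (n + 2) z‖ ∧ R' ≤ ‖D k c (!s) (n' + 2) z‖ := by
  have hLam := Lam_ge
  obtain ⟨K, hK⟩ : ∃ K, K = K0 C1 kap L := ⟨_, rfl⟩
  have hK0 : 0 ≤ K := by rw [hK]; exact K0_nonneg hC1 hkap
  obtain ⟨rho, hrho⟩ : ∃ rho, rho = kap / (2 * Lam * L) := ⟨_, rfl⟩
  obtain ⟨M, hM⟩ : ∃ M, M = 1 + 32 / kap := ⟨_, rfl⟩
  have hrho0 : 0 < rho := by rw [hrho]; positivity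
  have hM0 : 0 < M := by rw [hM]; positivity
  refine ⟨1 + (4 * K + 3 * L + 6 * L * Lam) / kap, by
    have : 0 ≤ (4 * K + 3 * L + 6 * L * Lam) / kap := by positivity
    linarith, 1 + 4 / kap + 2 * K / kap + 16 * L * Lam / kap ^ 2 + 16 / (kap * rho) +
      8192 * M / (rho ^ 3 * kap) + 2 * C1 * L, ?_⟩
  intro k hk c s n n' m R lam q0 q1 q2 hcell hlamL m' hm' hc hc'
  have p1 : 0 ≤ 4 / kap := by positivity
  have p2 : 0 ≤ 2 * K / kap := by positivity
  have p3 : 0 ≤ 16 * L * Lam / kap ^ 2 := by positivity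
  have p4 : 0 ≤ 16 / (kap * rho) := by positivity
  have p5 : 0 ≤ 8192 * M / (rho ^ 3 * kap) := by positivity
  have p6 : 0 ≤ 2 * C1 * L := by positivity
  have hk1 : 1 ≤ k := by linarith
  have hk0 : 0 < k := by linarith
  have hk2 : 4 ≤ kap * k := by
    have : 4 / kap ≤ k := by linarith
    rw [div_le_iff₀ hkap] at this
    linarith
  have hk3 : 2 * K ≤ kap * k := by
    have : 2 * K / kap ≤ k := by linarith
    rw [div_le_iff₀ hkap] at this
    linarith
  have hk4 : 16 * L * Lam ≤ kap ^ 2 * k := by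
    have : 16 * L * Lam / kap ^ 2 ≤ k := by linarith
    rw [div_le_iff₀ (by positivity)] at this
    linarith
  have hk5 : 16 ≤ kap * rho * k := by
    have : 16 / (kap * rho) ≤ k := by linarith
    rw [div_le_iff₀ (by positivity)] at this
    linarith
  have hk6 : 8192 * M ≤ rho ^ 3 * kap * k := by
    have : 8192 * M / (rho ^ 3 * kap) ≤ k := by linarith
    rw [div_le_iff₀ (by positivity)] at this
    linarith
  have hk7 : 2 * C1 * L ≤ k := by linarith
  have hR := hcell.hR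
  have hR0 : 0 < R := by linarith
  obtain ⟨C2, hC2e⟩ : ∃ C2, C2 = 1 + (4 * K + 3 * L + 6 * L * Lam) / kap := ⟨_, rfl⟩
  rw [← hC2e]
  have hkC : kap * C2 = kap + 4 * K + 3 * L + 6 * L * Lam := by
    rw [hC2e]
    field_simp
    ring
  have q1' : 0 ≤ 3 * L := by positivity
  have q2' : 0 ≤ 6 * L * Lam := by positivity
  have hC2a : 4 * K ≤ kap * C2 := by linarith
  have hC2b : 3 * L ≤ kap * C2 := by linarith
  have hC2c : 6 * L * Lam ≤ kap * C2 := by linarith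
  have hsub : ∀ z ∈ ball (m' : ℂ) (2 / R), z ∈ ball (m : ℂ) (4 / R) := by
    intro z hz
    rw [mem_ball] at hz ⊢
    have h1 : dist (m' : ℂ) (m : ℂ) ≤ 2 / R := by
      rw [dist_eq_norm, ← Complex.ofReal_sub, Complex.norm_real, Real.norm_eq_abs]
      exact hm'
    have h2 := dist_triangle z (m' : ℂ) (m : ℂ)
    have h3 : 2 / R + 2 / R = 4 / R := by ring
    linarith
  obtain ⟨σ, hσ, hslow⟩ := hcell.slow
  have hσ1 : |σ| = 1 := by rcases hσ with h | h <;> rw [h] <;> norm_num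
  have hE : |σ * R| = R := by rw [abs_mul, hσ1, abs_of_pos hR0, one_mul]
  have hE' : |lam * R| = |lam| * R := by rw [abs_mul, abs_of_pos hR0]
  have hlam := hcell.hlam
  have hlam0 : 0 < |lam| := by linarith
  have hCL : C1 ≤ k / 2 := by
    have : C1 * 1 ≤ C1 * L := mul_le_mul_of_nonneg_left hL hC1
    linarith
  have hS : Sd k c s n m' (2 / R) (σ * R) (C1 * R / k) (C1 * R / k) := by
    refine ⟨fun z hz => hslow z (hsub z hz), fun z hz => hcell.slow0 z (hsub z hz), ?_, ?_, ?_,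
      by positivity⟩
    · rw [hE, div_le_iff₀ hk0]
      have := mul_le_mul_of_nonneg_right hCL hR0.le
      linarith
    · rw [hE, div_le_iff₀ hk0]
      have := mul_le_mul_of_nonneg_right hCL hR0.le
      have h2 : 0 ≤ k * R := by positivity
      linarith
    · rw [hE]; exact hR0
  have hC1l : C1 * |lam| ≤ k / 2 := by
    have := mul_le_mul_of_nonneg_left hlamL hC1
    linarith
  have hS' : Sd k c (!s) n' m' (2 / R) (lam * R) (C1 * |lam| * R / k)
      (C1 * |lam| ^ 2 * R / k) := by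
    refine ⟨fun z hz => hcell.fast z (hsub z hz), fun z hz => hcell.fast0 z (hsub z hz), ?_, ?_,
      ?_, by positivity⟩
    · rw [hE', div_le_iff₀ hk0]
      have := mul_le_mul_of_nonneg_right hC1l (by positivity : 0 ≤ |lam| * R)
      nlinarith
    · rw [hE', div_le_iff₀ hk0]
      have := mul_le_mul_of_nonneg_right hCL (by positivity : 0 ≤ |lam| * R)
      have h2 : 0 ≤ k * (|lam| * R) := by positivity
      nlinarith
    · rw [hE']; positivity
  have hEL : |σ * R| ≤ L * R := by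
    rw [hE]
    exact le_mul_of_one_le_left hR0.le hL
  have hEL' : |lam * R| ≤ L * R := by
    rw [hE']
    exact mul_le_mul_of_nonneg_right hlamL hR0.le
  have hER : R ≤ |σ * R| := by rw [hE]
  have hER' : R ≤ |lam * R| := by
    rw [hE']
    exact le_mul_of_one_le_left hR0.le hlam
  have b1 : C1 * R / k ≤ C1 * L ^ 2 * R / k := by
    apply div_le_div_of_nonneg_right _ hk0.le
    apply mul_le_mul_of_nonneg_right _ hR0.le
    exact le_mul_of_one_le_right hC1 (one_le_pow₀ hL)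
  have b2 : C1 * R / k ≤ C1 * L * R / k := by
    apply div_le_div_of_nonneg_right _ hk0.le
    apply mul_le_mul_of_nonneg_right _ hR0.le
    exact le_mul_of_one_le_right hC1 hL
  have b3 : C1 * |lam| ^ 2 * R / k ≤ C1 * L ^ 2 * R / k := by
    apply div_le_div_of_nonneg_right _ hk0.le
    apply mul_le_mul_of_nonneg_right _ hR0.le
    exact mul_le_mul_of_nonneg_left (pow_le_pow_left₀ (by positivity) hlamL 2) hC1
  have b4 : C1 * |lam| * R / k ≤ C1 * L * R / k := by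
    apply div_le_div_of_nonneg_right _ hk0.le
    apply mul_le_mul_of_nonneg_right _ hR0.le
    exact mul_le_mul_of_nonneg_left hlamL hC1
  have hq : ∀ z ∈ ball (m' : ℂ) (2 / R),
      ‖(2 * Real.pi * k * R ^ 2 : ℝ) * cont k c s (n + 1) (n' + 1) z -
      (q0 + q1 * ((R : ℂ) * (z - m)) + q2 * ((R : ℂ) * (z - m)) ^ 2)‖ ≤ 1 / 16 :=
    fun z hz => hcell.quad z (hsub z hz)
  rcases le_total ‖D k c s (n + 2) m'‖ ‖D k c (!s) (n' + 2) m'‖ with hAA | hAA
  · obtain ⟨R', lam', q0', q1', q2', r1, r2, r3, r4⟩ := core hS hS' hk1 hR hkap hkap1 hL hC1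
      hER hER' hEL hEL' b1 b2 b3 b4 hc hc' hq hrho hM hk2 (hK ▸ hk3) hk4 hk5 hk6 (hK ▸ hC2a)
      hC2b hC2c hAA
    exact ⟨s, n + 1, n' + 1, R', lam', q0', q1', q2', Or.inl ⟨rfl, rfl, rfl⟩, r1, r2, r3, r4⟩
  · have hS2 : Sd k c (!(!s)) n m' (2 / R) (σ * R) (C1 * R / k) (C1 * R / k) := by
      rw [Bool.not_not]; exact hS
    have hq2 : ∀ z ∈ ball (m' : ℂ) (2 / R),
        ‖(2 * Real.pi * k * R ^ 2 : ℝ) * cont k c (!s) (n' + 1) (n + 1) z -
        (q0 + q1 * ((R : ℂ) * (z - m)) + q2 * ((R : ℂ) * (z - m)) ^ 2)‖ ≤ 1 / 16 := by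
      intro z hz
      rw [cont_swap]
      exact hq z hz
    obtain ⟨R', lam', q0', q1', q2', r1, r2, r3, r4⟩ := core hS' hS2 hk1 hR hkap hkap1 hL hC1
      hER' hER hEL' hEL b3 b4 b1 b2 hc' (by rw [Bool.not_not]; exact hc) hq2 hrho hM hk2
      (hK ▸ hk3) hk4 hk5 hk6 (hK ▸ hC2a) hC2b hC2c (by rw [Bool.not_not]; exact hAA)
    refine ⟨!s, n' + 1, n + 1, R', lam', q0', q1', q2', Or.inr ⟨rfl, rfl, rfl⟩, r1, r2, r3, ?_⟩
    intro z hz
    have := r4 z hz
    rw [Bool.not_not] at this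
    exact ⟨this.2, this.1⟩

end Crest.Agent.R128.RAStep
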