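import Mathlib
import Crest.Agent.R128.Hyp
import Crest.Agent.R128.Two
import Crest.Agent.R128.TreeSum

/-!
# Reversibility of the standard map and of its cocycle (row 128; helper425)

`z.swap = (x_0, x_{-1})` conjugates `T` with `Tinv`; `J = !![0,1;1,0]` conjugates the cocycle with
its inverse.
-/

set_option autoImplicit false

open MeasureTheory
open Crest.Agent.R128

namespace Crest.Agent.R128.Rev


theorem T_swap (k : ℝ) (z : Tor) : T k z.swap = (Tinv k z).swap := by
  unfold T Tinv
  ext <;> simp

theorem T_swap_T (k : ℝ) (z : Tor) : T k ((T k z).swap) = z.swap := by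
  rw [T_swap, Tinv_T]

theorem iter_swap_iter (k : ℝ) (n : ℕ) (z : Tor) :
    (T k)^[n] (((T k)^[n] z).swap) = z.swap := by
  induction n generalizing z with
  | zero => rfl
  | succ n ih =>
    rw [Function.iterate_succ_apply' (T k) n z, Function.iterate_succ_apply, T_swap_T, ih]


theorem iter_swap (k : ℝ) (n : ℕ) (z : Tor) :
    (T k)^[n] z.swap = ((Tinv k)^[n] z).swap := by
  induction n with
  | zero => rfl
  | succ n ih => rw [Function.iterate_succ_apply', ih, T_swap, Function.iterate_succ_apply']

/-- the swap matrix -/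
def J : Matrix (Fin 2) (Fin 2) ℝ := !![0, 1; 1, 0]













/-! ### norms -/




/-! ### action on vectors -/


theorem nn_swap (v : ℝ × ℝ) : TreeSum.nn v.swap = TreeSum.nn v := by
  unfold TreeSum.nn
  congr 1
  simp
  ring





/-- the digit seen backwards: the `j`-th digit of the reversed orbit of `T^n z` -/
theorem iter_swap_sub (k : ℝ) {j n : ℕ} (h : j ≤ n) (z : Tor) :
    (T k)^[j] (((T k)^[n] z).swap) = ((T k)^[n - j] z).swap := by
  obtain ⟨d, rfl⟩ := Nat.exists_eq_add_of_le h
  rw [show j + d - j = d by omega, show j + d = j + d from rfl, Function.iterate_add_apply (T k) j d,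
    iter_swap_iter]

theorem digit_rev (k : ℝ) {j n : ℕ} (h : j ≤ n) (z : Tor) :
    V k ((T k)^[j] (((T k)^[n] z).swap)).2 = V k ((T k)^[n - j] z).1 := by
  rw [iter_swap_sub k h]
  rfl

/-- `(T^(n+1) z).1 = (T^n z).2` -/
theorem fst_iter_succ (k : ℝ) (n : ℕ) (z : Tor) : ((T k)^[n + 1] z).1 = ((T k)^[n] z).2 := by
  rw [Function.iterate_succ_apply']
  rfl

end Crest.Agent.R128.Rev
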