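import Crest.Agent.R128.LocDef
import Mathlib
import Crest.Agent.R128.RABroken0
import Crest.Agent.R128.RoughX
import Crest.Agent.R128.Mirror
import Crest.Agent.R128.TaylorTwo
import Crest.Agent.R128.RALevel
import Crest.Agent.R128.RAStep
import Crest.Agent.R128.Chain
import Crest.Agent.R128.Charge
import Crest.Agent.R128.NestedInst
import Crest.Agent.R128.AlignLam
import Crest.Agent.R128.AccRoot
import Crest.Agent.R128.ValClean
import Crest.Agent.R128.Skel
import Crest.Agent.R128.Good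
import Crest.Agent.R128.Rev
import Crest.Agent.R128.LocG

-- ▼ part R128/RealL
section

/-!
# Row 128, V5-RA: reality and one-step formulas of the objects of `LocDef` (helper686)
-/

set_option autoImplicit false

open MeasureTheory Metric Set
open Crest.Agent.R128 Crest.Agent.R128.Cell Crest.Agent.R128.CellB Crest.Agent.R128.CellDy
open Crest.Agent.R128.Loc

namespace Crest.Agent.R128.RealL

/-- sign of the side -/
noncomputable def es (s : Bool) : ℝ := if s then 1 else -1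

theorem abs_es (s : Bool) : |es s| = 1 := by cases s <;> simp [es]


theorem es_sq (s : Bool) : es s * es s = 1 := by cases s <;> simp [es]

theorem hasDerivAt_Y (k c : ℝ) (s : Bool) (n : ℕ) (z : ℂ) :
    HasDerivAt (Y k c s n) ((es s : ℂ) * D k c s n z) z := by
  cases s
  · have := hasDerivAt_Y_false k c n z
    simpa [es] using this
  · have := hasDerivAt_Y_true k c n z
    simpa [es] using this

theorem Y_im (k c : ℝ) (s : Bool) (n : ℕ) (t : ℝ) : (Y k c s n (t : ℂ)).im = 0 := by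
  unfold Y sdC
  cases s
  · have := im_y_ofReal k c n (kap k c - t)
    simpa using this
  · have := im_y_ofReal k c n t
    simpa using this

theorem real_of_im {w : ℂ} (h : w.im = 0) : w = ((w.re : ℝ) : ℂ) := by
  apply Complex.ext
  · simp
  · simp [h]

theorem Y_real (k c : ℝ) (s : Bool) (n : ℕ) (t : ℝ) :
    Y k c s n (t : ℂ) = (((Y k c s n (t : ℂ)).re : ℝ) : ℂ) := real_of_im (Y_im k c s n t)

theorem dg_real (k c : ℝ) (s : Bool) (n : ℕ) (t : ℝ) :
    dg k c s (t : ℂ) n =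
      ((2 + 2 * Real.pi * k * Real.cos (2 * Real.pi * (Y k c s n (t : ℂ)).re) : ℝ) : ℂ) := by
  unfold dg cV
  rw [Y_real]
  push_cast
  simp


theorem D_add_two (k c : ℝ) (s : Bool) (n : ℕ) (z : ℂ) :
    D k c s (n + 2) z = dg k c s z (n + 1) * D k c s (n + 1) z - D k c s n z := by
  rw [← Q_dg, ← Q_dg, ← Q_dg, Align.Q_add_two]














/-- real derivative of the real orbit coordinate -/
theorem hasDerivAt_Y_re (k c : ℝ) (s : Bool) (n : ℕ) (t : ℝ) :
    HasDerivAt (fun t : ℝ => (Y k c s n (t : ℂ)).re) (es s * (D k c s n (t : ℂ)).re) t := by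
  have h := (hasDerivAt_Y k c s n (t : ℂ)).real_of_complex
  have e : ((es s : ℂ) * D k c s n (t : ℂ)).re = es s * (D k c s n (t : ℂ)).re := by
    simp [Complex.mul_re]
  rwa [e] at h

end Crest.Agent.R128.RealL
end

-- ▼ part R128/RABroken
section

/-!
Row 128, node RA-BROKEN (helper123): `Cell3` + first level mirrored => on a set of measure
`≥ c0 / R` the digits are not critical and the second level is not mirrored.
-/

set_option autoImplicit false

namespace Crest.Agent.R128.RABroken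

open MeasureTheory Real Set Metric Filter Topology
open Crest.Agent.R128 Crest.Agent.R128.Cell Crest.Agent.R128.CellB Crest.Agent.R128.CellDy
open Crest.Agent.R128.Loc Crest.Agent.R128.RealL

theorem differentiable_D (k c : ℝ) (s : Bool) (n : ℕ) : Differentiable ℂ (D k c s n) := by
  have hY : Differentiable ℂ (Y k c s n) := fun z => (hasDerivAt_Y k c s n z).differentiableAt
  have h1 : DifferentiableOn ℂ (deriv (Y k c s n)) univ := hY.differentiableOn.deriv isOpen_univ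
  have h2 : Differentiable ℂ (deriv (Y k c s n)) := differentiableOn_univ.1 h1
  have e : D k c s n = fun z => (es s : ℂ) * deriv (Y k c s n) z := by
    funext z
    rw [(hasDerivAt_Y k c s n z).deriv, ← mul_assoc, ← Complex.ofReal_mul, es_sq]
    simp
  rw [e]
  exact h2.const_mul _

theorem derivD_bound {k c m R B : ℝ} {s : Bool} {n : ℕ} {μ : ℂ} (hR : 0 < R)
    (h : ∀ z ∈ ball (m : ℂ) (4 / R), ‖D k c s n z - μ‖ ≤ B) {t : ℝ} (ht : |t - m| ≤ 2 / R) :
    ‖deriv (D k c s n) (t : ℂ)‖ ≤ B * R := by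
  have e : deriv (D k c s n) (t : ℂ) = deriv (fun z => D k c s n z - μ) (t : ℂ) := by
    rw [deriv_sub_const]
  rw [e]
  have := Complex.norm_deriv_le_of_forall_mem_sphere_norm_le (c := (t : ℂ)) (R := 1 / R)
    (C := B) (f := fun z => D k c s n z - μ) (by positivity)
    (((differentiable_D k c s n).sub_const μ).diffContOnCl)
    (by
      intro z hz
      apply h
      rw [mem_sphere, dist_eq_norm] at hz
      rw [mem_ball, dist_eq_norm]
      have h1 : ‖(t : ℂ) - (m : ℂ)‖ ≤ 2 / R := by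
        rw [← Complex.ofReal_sub, Complex.norm_real, Real.norm_eq_abs]; exact ht
      calc ‖z - (m : ℂ)‖ = ‖(z - t) + (t - m)‖ := by ring_nf
        _ ≤ ‖z - t‖ + ‖(t : ℂ) - m‖ := norm_add_le _ _
        _ ≤ 1 / R + 2 / R := add_le_add hz.le h1
        _ < 4 / R := by
            rw [← add_div]; exact div_lt_div_of_pos_right (by norm_num) hR)
  refine this.trans (le_of_eq ?_)
  field_simp

theorem Y_add_two_re (k c : ℝ) (s : Bool) (n : ℕ) (t : ℝ) :
    (Y k c s (n + 2) (t : ℂ)).re = 2 * (Y k c s (n + 1) (t : ℂ)).re +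
      k * Real.sin (2 * π * (Y k c s (n + 1) (t : ℂ)).re) - (Y k c s n (t : ℂ)).re := by
  have e : Y k c s (n + 2) (t : ℂ) = 2 * Y k c s (n + 1) (t : ℂ) +
      k * Complex.sin (2 * Real.pi * Y k c s (n + 1) (t : ℂ)) - Y k c s n (t : ℂ) := by
    unfold Y; rw [y_add_two]
  have e2 : Y k c s (n + 2) (t : ℂ) = ((2 * (Y k c s (n + 1) (t : ℂ)).re +
      k * Real.sin (2 * π * (Y k c s (n + 1) (t : ℂ)).re) - (Y k c s n (t : ℂ)).re : ℝ) : ℂ) := by
    rw [e]
    push_cast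
    rw [← Y_real k c s (n + 1) t, ← Y_real k c s n t]
  rw [e2, Complex.ofReal_re]

theorem lip_aux {f f' : ℝ → ℝ} {b : ℝ} (hf : ∀ u, |u| < 2 → HasDerivAt f (f' u) u)
    (hb : ∀ u, |u| < 2 → |f' u| ≤ b) :
    ∀ u v, |u| < 2 → |v| < 2 → |f u - f v| ≤ b * |u - v| := by
  intro u v hu hv
  have := (convex_Ioo (-2 : ℝ) 2).norm_image_sub_le_of_norm_hasDerivWithin_le (f := f) (f' := f')
    (C := b) (x := v) (y := u)
    (fun x hx => (hf x (abs_lt.mpr hx)).hasDerivWithinAt)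
    (fun x hx => by rw [Real.norm_eq_abs]; exact hb x (abs_lt.mpr hx))
    (abs_lt.mp hv) (abs_lt.mp hu)
  simpa [Real.norm_eq_abs] using this

/-- all smaller `del` allowed -/
theorem broken' {C1 : ℝ} (hC1 : 1 ≤ C1) : ∃ del r kap' c0 : ℝ, 0 < del ∧ del ≤ 1 / 10 ^ 4 ∧ 0 < r ∧
    0 < kap' ∧ kap' ≤ 1 ∧ 0 < c0 ∧ ∃ k1 : ℝ, ∀ k : ℝ, k1 ≤ k →
    ∀ (c : ℝ) (s : Bool) (n n' : ℕ) (m R lam q0 q1 q2 : ℝ), |lam| ≤ 4 →
      Cell3 k c s n n' m R lam C1 q0 q1 q2 →
      ∀ (ε : ℝ) (M : ℤ), (ε = 1 ∨ ε = -1) → ∀ del' : ℝ, del' ≤ 3 * del →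
      (∀ t : ℝ, |t - m| ≤ 2 / R →
        |(Y k c (!s) (n' + 1) (t : ℂ)).re - ε * (Y k c s (n + 1) (t : ℂ)).re - 1 / 2 - M| ≤ del') →
      ENNReal.ofReal (c0 / R) ≤ volume {t : ℝ | |t - m| ≤ 3 / 2 / R ∧
        kap' ≤ |Real.cos (2 * π * (Y k c s (n + 1) (t : ℂ)).re)| ∧
        kap' ≤ |Real.cos (2 * π * (Y k c (!s) (n' + 1) (t : ℂ)).re)| ∧
        ∀ j : ℤ, r < |(Y k c (!s) (n' + 2) (t : ℂ)).re + (Y k c s (n + 2) (t : ℂ)).re - j / 2| ∧
          r < |(Y k c (!s) (n' + 2) (t : ℂ)).re - (Y k c s (n + 2) (t : ℂ)).re - j / 2|} := by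
  obtain ⟨E, hE⟩ : ∃ E : ℝ, E = 16 * C1 := ⟨_, rfl⟩
  obtain ⟨r, hr⟩ : ∃ r : ℝ, r = 1 / (16000 * (7 * E)) := ⟨_, rfl⟩
  have hE1 : 16 ≤ E := by rw [hE]; linarith
  have hr0 : 0 < r := by rw [hr]; positivity
  have hr1 : r ≤ 1 / 1000000 := by
    rw [hr]
    apply one_div_le_one_div_of_le (by norm_num)
    nlinarith
  refine ⟨r / 3000, r / 200, r / 64, r / 10, by positivity, by norm_num; linarith, by positivity,
    by positivity, by linarith, by positivity, 10 ^ 11 * (7 * E) ^ 2, ?_⟩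
  intro k hk c s n n' m R lam q0 q1 q2 hlam hC ε M hε del' hdel' hmir
  have hR : 0 < R := lt_of_lt_of_le one_pos hC.hR
  have hk0 : 0 < k := lt_of_lt_of_le (by positivity) hk
  have hEk : E / k ≤ 1 / 100 := by
    rw [div_le_div_iff₀ hk0 (by norm_num)]
    nlinarith
  have hC1k : C1 / k ≤ E / k := by
    apply div_le_div_of_nonneg_right _ hk0.le
    rw [hE]; linarith
  obtain ⟨σ, hσ, hslow⟩ := hC.slow
  have hσ2 : σ * σ = 1 := by rcases hσ with h | h <;> rw [h] <;> norm_num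
  have hσa : |σ| = 1 := by rcases hσ with h | h <;> rw [h] <;> norm_num
  obtain ⟨τ, hτ⟩ : ∃ τ : ℝ, τ = es s * σ := ⟨_, rfl⟩
  have hτa : |τ| = 1 := by rw [hτ, abs_mul, abs_es, hσa, one_mul]
  have hlam2 : |lam| ^ 2 ≤ 16 := by nlinarith [abs_nonneg lam]
  -- the affine change of variable
  obtain ⟨tt, htt⟩ : ∃ tt : ℝ → ℝ, tt = fun u => m + τ / R * u := ⟨_, rfl⟩
  have htd : ∀ u, HasDerivAt tt (τ / R) u := by
    intro u
    rw [htt]
    simpa using ((hasDerivAt_id u).const_mul (τ / R)).const_add m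
  have htm : ∀ u, |tt u - m| = |u| / R := by
    intro u
    rw [htt]
    have e : m + τ / R * u - m = τ * u / R := by ring
    simp only
    rw [e, abs_div, abs_mul, hτa, one_mul, abs_of_pos hR]
  have htm2 : ∀ u, |u| < 2 → |tt u - m| ≤ 2 / R := by
    intro u hu
    rw [htm]
    exact div_le_div_of_nonneg_right hu.le hR.le
  have hmem : ∀ u, |u| < 2 → ((tt u : ℝ) : ℂ) ∈ ball (m : ℂ) (4 / R) := by
    intro u hu
    rw [mem_ball, dist_eq_norm, ← Complex.ofReal_sub, Complex.norm_real, Real.norm_eq_abs]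
    exact (htm2 u hu).trans_lt (div_lt_div_of_pos_right (by norm_num) hR)
  -- derivatives
  have dY : ∀ (b : Bool) (i : ℕ) (u : ℝ), HasDerivAt (fun u => (Y k c b i ((tt u : ℝ) : ℂ)).re)
      (es b * (D k c b i ((tt u : ℝ) : ℂ)).re * (τ / R)) u := by
    intro b i u
    exact (hasDerivAt_Y_re k c b i (tt u)).comp u (htd u)
  have dD : ∀ (b : Bool) (i : ℕ) (u : ℝ), HasDerivAt
      (fun u => es b * (D k c b i ((tt u : ℝ) : ℂ)).re * (τ / R))
      (es b * ((deriv (D k c b i) ((tt u : ℝ) : ℂ)).re * (τ / R)) * (τ / R)) u := by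
    intro b i u
    have h1 : HasDerivAt (fun x : ℝ => (D k c b i (x : ℂ)).re)
        (deriv (D k c b i) ((tt u : ℝ) : ℂ)).re (tt u) :=
      ((differentiable_D k c b i) _).hasDerivAt.real_of_complex
    exact ((h1.comp u (htd u)).const_mul (es b)).mul_const (τ / R)
  have hτR : |τ / R| = 1 / R := by rw [abs_div, hτa, abs_of_pos hR]
  have key := abstract_broken (k := k) (E := E) (ε := ε) (δ := del') (r := r) (M := M)
    (P := fun u => (Y k c s (n + 1) ((tt u : ℝ) : ℂ)).re)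
    (P1 := fun u => es s * (D k c s (n + 1) ((tt u : ℝ) : ℂ)).re * (τ / R))
    (P2 := fun u => es s * ((deriv (D k c s (n + 1)) ((tt u : ℝ) : ℂ)).re * (τ / R)) * (τ / R))
    (Q := fun u => (Y k c (!s) (n' + 1) ((tt u : ℝ) : ℂ)).re)
    (Q1 := fun u => es (!s) * (D k c (!s) (n' + 1) ((tt u : ℝ) : ℂ)).re * (τ / R))
    (Q2 := fun u => es (!s) * ((deriv (D k c (!s) (n' + 1)) ((tt u : ℝ) : ℂ)).re * (τ / R)) *
      (τ / R))
    (P0 := fun u => (Y k c s n ((tt u : ℝ) : ℂ)).re)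
    (Q0 := fun u => (Y k c (!s) n' ((tt u : ℝ) : ℂ)).re)
    (by linarith) hr hk hε (by linarith)
    (fun u _ => dY s (n + 1) u) (fun u _ => dD s (n + 1) u)
    (fun u _ => dY (!s) (n' + 1) u) (fun u _ => dD (!s) (n' + 1) u)
    (by
      intro u hu
      have h1 := hslow _ (hmem u hu)
      have h2 := (Complex.abs_re_le_norm _).trans h1
      rw [Complex.sub_re, Complex.ofReal_re] at h2
      have e : es s * (D k c s (n + 1) ((tt u : ℝ) : ℂ)).re * (τ / R) - 1 =
          σ * ((D k c s (n + 1) ((tt u : ℝ) : ℂ)).re - σ * R) / R := by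
        have e1 : es s * (D k c s (n + 1) ((tt u : ℝ) : ℂ)).re * (τ / R) =
            (es s * es s) * σ * (D k c s (n + 1) ((tt u : ℝ) : ℂ)).re / R := by
          rw [hτ]; ring
        rw [e1, es_sq]
        have e2 : σ * ((D k c s (n + 1) ((tt u : ℝ) : ℂ)).re - σ * R) =
            σ * (D k c s (n + 1) ((tt u : ℝ) : ℂ)).re - (σ * σ) * R := by ring
        rw [e2, hσ2]
        field_simp
      rw [e, abs_div, abs_mul, hσa, one_mul, abs_of_pos hR, div_le_iff₀ hR]
      refine h2.trans ?_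
      have : C1 * R / k = C1 / k * R := by ring
      rw [this]
      exact mul_le_mul_of_nonneg_right hC1k hR.le)
    (by
      intro u hu
      have h1 := derivD_bound hR hslow (htm2 u hu)
      have h2 := (Complex.abs_re_le_norm _).trans h1
      rw [abs_mul, abs_mul, abs_mul, abs_es, one_mul, hτR]
      have h3 : |(deriv (D k c s (n + 1)) ((tt u : ℝ) : ℂ)).re| * (1 / R) * (1 / R) ≤
          C1 * R / k * R * (1 / R) * (1 / R) := by
        gcongr
      refine h3.trans ?_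
      have : C1 * R / k * R * (1 / R) * (1 / R) = C1 / k := by field_simp
      rw [this]
      exact hC1k)
    (by
      intro u hu
      have h1 := hC.fast _ (hmem u hu)
      have h2 := (Complex.abs_re_le_norm _).trans h1
      rw [Complex.sub_re, Complex.ofReal_re] at h2
      rw [abs_mul, abs_mul, abs_es, one_mul, hτR]
      have h3 : |(D k c (!s) (n' + 1) ((tt u : ℝ) : ℂ)).re| ≤ |lam * R| + C1 * |lam| ^ 2 * R / k := by
        have := abs_sub_abs_le_abs_sub (D k c (!s) (n' + 1) ((tt u : ℝ) : ℂ)).re (lam * R)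
        linarith
      rw [abs_mul, abs_of_pos hR] at h3
      have h4 : C1 * |lam| ^ 2 * R / k ≤ R := by
        have e : C1 * |lam| ^ 2 * R / k = (C1 * |lam| ^ 2 / k) * R := by ring
        rw [e]
        have h5 : C1 * |lam| ^ 2 / k ≤ 1 := by
          have : C1 * |lam| ^ 2 ≤ E := by rw [hE]; nlinarith
          have h6 : C1 * |lam| ^ 2 / k ≤ E / k := div_le_div_of_nonneg_right this hk0.le
          linarith
        nlinarith
      calc |(D k c (!s) (n' + 1) ((tt u : ℝ) : ℂ)).re| * (1 / R) ≤ (|lam| * R + R) * (1 / R) := by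
            apply mul_le_mul_of_nonneg_right _ (by positivity)
            linarith
        _ = |lam| + 1 := by field_simp
        _ ≤ 5 := by linarith)
    (by
      intro u hu
      have h1 := derivD_bound hR hC.fast (htm2 u hu)
      have h2 := (Complex.abs_re_le_norm _).trans h1
      rw [abs_mul, abs_mul, abs_mul, abs_es, one_mul, hτR]
      have h3 : |(deriv (D k c (!s) (n' + 1)) ((tt u : ℝ) : ℂ)).re| * (1 / R) * (1 / R) ≤
          C1 * |lam| ^ 2 * R / k * R * (1 / R) * (1 / R) := by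
        gcongr
      refine h3.trans ?_
      have : C1 * |lam| ^ 2 * R / k * R * (1 / R) * (1 / R) = C1 * |lam| ^ 2 / k := by field_simp
      rw [this]
      apply div_le_div_of_nonneg_right _ hk0.le
      rw [hE]; nlinarith)
    (by
      apply lip_aux (fun u _ => dY s n u)
      intro u hu
      have h1 := (Complex.abs_re_le_norm _).trans (hC.slow0 _ (hmem u hu))
      rw [abs_mul, abs_mul, abs_es, one_mul, hτR]
      calc |(D k c s n ((tt u : ℝ) : ℂ)).re| * (1 / R) ≤ C1 * R / k * (1 / R) := by gcongr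
        _ = C1 / k := by field_simp
        _ ≤ 1 / 8 := by linarith)
    (by
      apply lip_aux (fun u _ => dY (!s) n' u)
      intro u hu
      have h1 := (Complex.abs_re_le_norm _).trans (hC.fast0 _ (hmem u hu))
      rw [abs_mul, abs_mul, abs_es, one_mul, hτR]
      calc |(D k c (!s) n' ((tt u : ℝ) : ℂ)).re| * (1 / R) ≤ C1 * |lam| * R / k * (1 / R) := by
            gcongr
        _ = C1 * |lam| / k := by field_simp
        _ ≤ E / k := by
            apply div_le_div_of_nonneg_right _ hk0.le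
            rw [hE]; nlinarith
        _ ≤ 1 / 8 := by linarith)
    (by
      intro u hu
      exact hmir _ (htm2 u hu))
  set S : Set ℝ := {t : ℝ | |t - m| ≤ 3 / 2 / R ∧
        r / 64 ≤ |Real.cos (2 * π * (Y k c s (n + 1) (t : ℂ)).re)| ∧
        r / 64 ≤ |Real.cos (2 * π * (Y k c (!s) (n' + 1) (t : ℂ)).re)| ∧
        ∀ j : ℤ, r / 200 < |(Y k c (!s) (n' + 2) (t : ℂ)).re + (Y k c s (n + 2) (t : ℂ)).re - j / 2| ∧
          r / 200 < |(Y k c (!s) (n' + 2) (t : ℂ)).re - (Y k c s (n + 2) (t : ℂ)).re - j / 2|}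
    with hS
  have hτ0 : τ / R ≠ 0 := by
    intro h
    rw [h, abs_zero] at hτR
    have : 0 < 1 / R := by positivity
    linarith
  have hpre : volume (tt ⁻¹' S) = ENNReal.ofReal R * volume S := by
    have e : tt ⁻¹' S = (fun u => τ / R * u) ⁻¹' ((fun v => m + v) ⁻¹' S) := by
      rw [htt]; rfl
    rw [e, Real.volume_preimage_mul_left hτ0, measure_preimage_add]
    congr 2
    rw [abs_inv, hτR]; field_simp
  have hsub : volume {u : ℝ | |u| ≤ 3 / 2 ∧
      r / 64 ≤ |Real.cos (2 * π * (Y k c s (n + 1) ((tt u : ℝ) : ℂ)).re)| ∧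
      r / 64 ≤ |Real.cos (2 * π * (Y k c (!s) (n' + 1) ((tt u : ℝ) : ℂ)).re)| ∧
      ∀ j : ℤ,
        r / 200 < |(2 * (Y k c (!s) (n' + 1) ((tt u : ℝ) : ℂ)).re +
            k * Real.sin (2 * π * (Y k c (!s) (n' + 1) ((tt u : ℝ) : ℂ)).re) -
            (Y k c (!s) n' ((tt u : ℝ) : ℂ)).re) +
          (2 * (Y k c s (n + 1) ((tt u : ℝ) : ℂ)).re +
            k * Real.sin (2 * π * (Y k c s (n + 1) ((tt u : ℝ) : ℂ)).re) -
            (Y k c s n ((tt u : ℝ) : ℂ)).re) - j / 2| ∧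
        r / 200 < |(2 * (Y k c (!s) (n' + 1) ((tt u : ℝ) : ℂ)).re +
            k * Real.sin (2 * π * (Y k c (!s) (n' + 1) ((tt u : ℝ) : ℂ)).re) -
            (Y k c (!s) n' ((tt u : ℝ) : ℂ)).re) -
          (2 * (Y k c s (n + 1) ((tt u : ℝ) : ℂ)).re +
            k * Real.sin (2 * π * (Y k c s (n + 1) ((tt u : ℝ) : ℂ)).re) -
            (Y k c s n ((tt u : ℝ) : ℂ)).re) - j / 2|} ≤ volume (tt ⁻¹' S) := by
    apply measure_mono
    rintro u ⟨h1, h2, h3, h4⟩
    refine ⟨?_, h2, h3, ?_⟩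
    · rw [htm]; exact div_le_div_of_nonneg_right h1 hR.le
    · intro j
      rw [Y_add_two_re, Y_add_two_re]
      exact h4 j
  have h5 := key.trans hsub
  rw [hpre] at h5
  have e6 : ENNReal.ofReal (r / 10) = ENNReal.ofReal R * ENNReal.ofReal (r / 10 / R) := by
    rw [← ENNReal.ofReal_mul hR.le]; congr 1; field_simp
  rw [e6] at h5
  have hR0 : ENNReal.ofReal R ≠ 0 := by
    rw [Ne, ENNReal.ofReal_eq_zero]; push Not; exact hR
  exact (ENNReal.mul_le_mul_iff_right hR0 ENNReal.ofReal_ne_top).1 h5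

theorem broken {C1 : ℝ} (hC1 : 1 ≤ C1) : ∃ del r kap' c0 : ℝ, 0 < del ∧ del ≤ 1 / 10 ^ 4 ∧ 0 < r ∧
    0 < kap' ∧ kap' ≤ 1 ∧ 0 < c0 ∧ ∃ k1 : ℝ, ∀ k : ℝ, k1 ≤ k →
    ∀ (c : ℝ) (s : Bool) (n n' : ℕ) (m R lam q0 q1 q2 : ℝ), |lam| ≤ 4 →
      Cell3 k c s n n' m R lam C1 q0 q1 q2 →
      ∀ (ε : ℝ) (M : ℤ), (ε = 1 ∨ ε = -1) →
      (∀ t : ℝ, |t - m| ≤ 2 / R →
        |(Y k c (!s) (n' + 1) (t : ℂ)).re - ε * (Y k c s (n + 1) (t : ℂ)).re - 1 / 2 - M| ≤
          3 * del) →
      ENNReal.ofReal (c0 / R) ≤ volume {t : ℝ | |t - m| ≤ 3 / 2 / R ∧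
        kap' ≤ |Real.cos (2 * π * (Y k c s (n + 1) (t : ℂ)).re)| ∧
        kap' ≤ |Real.cos (2 * π * (Y k c (!s) (n' + 1) (t : ℂ)).re)| ∧
        ∀ j : ℤ, r < |(Y k c (!s) (n' + 2) (t : ℂ)).re + (Y k c s (n + 2) (t : ℂ)).re - j / 2| ∧
          r < |(Y k c (!s) (n' + 2) (t : ℂ)).re - (Y k c s (n + 2) (t : ℂ)).re - j / 2|} := by
  obtain ⟨del, r, kap', c0, h1, h2, h3, h4, h5, h6, k1, H⟩ := broken' hC1
  exact ⟨del, r, kap', c0, h1, h2, h3, h4, h5, h6, k1,
    fun k hk c s n n' m R lam q0 q1 q2 hl hC ε M hε hm =>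
      H k hk c s n n' m R lam q0 q1 q2 hl hC ε M hε (3 * del) le_rfl hm⟩

end Crest.Agent.R128.RABroken
end

-- ▼ part R128/RoughAsmX
section

/-!
Row 128, node ROUGH assembly (second implementation), helper123.
-/

set_option autoImplicit false

namespace Crest.Agent.R128.RoughAsmX

open MeasureTheory Real Set Metric
open Crest.Agent.R128.Rough Crest.Agent.R128.RoughX

/-- the digit -/
noncomputable def Vd (k x : ℝ) : ℝ := 2 + 2 * π * k * Real.cos (2 * π * x)

/-- normalised fresh term `2πk/(P' P2')`, `P2' = V(P) P' - P0'` -/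
noncomputable def dig (k x p1 p0 : ℝ) : ℝ := 2 * π * k / (p1 * (Vd k x * p1 - p0))

theorem dig_sec {k x p1 p0 μ ε κ : ℝ} (hk : 0 < k) (hμ : μ ≠ 0) (hε0 : 0 ≤ ε) (hε : ε ≤ 1 / 10)
    (h1 : |p1 - μ| ≤ ε * |μ|) (h0 : |p0| ≤ ε * |μ|) (hκ : 0 < κ)
    (hκ1 : κ ≤ |Real.cos (2 * π * x)|) (hτ : 3 * ε + 1 / k ≤ κ ^ 2 / 64) :
    |dig k x p1 p0 - 1 / μ ^ 2 * sec x| ≤ 1 / μ ^ 2 * (1 / 16) := by
  have hpi := Real.pi_gt_three
  set c := Real.cos (2 * π * x) with hc
  have hc1 : |c| ≤ 1 := Real.abs_cos_le_one _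
  have hκ2 : κ ≤ 1 := hκ1.trans hc1
  have hk' : 0 < 1 / k := by positivity
  obtain ⟨α, hα⟩ : ∃ α, α = p1 / μ := ⟨_, rfl⟩
  obtain ⟨β, hβ⟩ : ∃ β, β = p0 / μ := ⟨_, rfl⟩
  have hp1 : p1 = μ * α := by rw [hα]; field_simp
  have hp0 : p0 = μ * β := by rw [hβ]; field_simp
  have hμ' : 0 < |μ| := abs_pos.mpr hμ
  have hα1 : |α - 1| ≤ ε := by
    have : |μ| * |α - 1| ≤ ε * |μ| := by
      rw [← abs_mul]
      have e : μ * (α - 1) = p1 - μ := by rw [hp1]; ring
      rw [e]; exact h1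
    have := le_of_mul_le_mul_left (by linarith : |μ| * |α - 1| ≤ |μ| * ε) hμ'
    exact this
  have hβ1 : |β| ≤ ε := by
    have : |μ| * |β| ≤ ε * |μ| := by
      rw [← abs_mul, ← hp0]; exact h0
    exact le_of_mul_le_mul_left (by linarith : |μ| * |β| ≤ |μ| * ε) hμ'
  have hα2 := abs_le.mp hα1
  obtain ⟨D, hD⟩ : ∃ D, D = α ^ 2 * (c + 1 / (π * k)) - α * β / (2 * π * k) := ⟨_, rfl⟩
  have hDc : |D - c| ≤ 3 * ε + 1 / k := by
    have e : D - c = (α ^ 2 - 1) * c + α ^ 2 * (1 / (π * k)) - α * β / (2 * π * k) := by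
      rw [hD]; ring
    rw [e]
    have a1 : |(α ^ 2 - 1) * c| ≤ 3 * ε := by
      rw [abs_mul]
      have : |α ^ 2 - 1| ≤ 3 * ε := by
        have e2 : α ^ 2 - 1 = (α - 1) * (α + 1) := by ring
        rw [e2, abs_mul]
        have h3 : |α + 1| ≤ 3 := by
          rw [abs_le]; constructor <;> linarith [hα2.1, hα2.2]
        nlinarith [abs_nonneg (α - 1), abs_nonneg (α + 1)]
      nlinarith [abs_nonneg c, abs_nonneg (α ^ 2 - 1)]
    have a2 : |α ^ 2 * (1 / (π * k))| ≤ 1 / 2 * (1 / k) := by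
      rw [abs_mul, abs_of_nonneg (sq_nonneg α), abs_of_nonneg (by positivity)]
      have e3 : 1 / (π * k) = 1 / π * (1 / k) := by field_simp
      rw [e3]
      have h4 : 1 / π ≤ 1 / 3 := by
        apply one_div_le_one_div_of_le (by norm_num); linarith
      have h5 : α ^ 2 ≤ 3 / 2 := by nlinarith [hα2.1, hα2.2]
      have h6 : α ^ 2 * (1 / π) ≤ 1 / 2 := by
        have := mul_le_mul h5 h4 (by positivity) (by norm_num)
        linarith
      calc α ^ 2 * (1 / π * (1 / k)) = (α ^ 2 * (1 / π)) * (1 / k) := by ring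
        _ ≤ 1 / 2 * (1 / k) := mul_le_mul_of_nonneg_right h6 hk'.le
    have a3 : |α * β / (2 * π * k)| ≤ 1 / 2 * (1 / k) := by
      rw [abs_div, abs_of_pos (by positivity : 0 < 2 * π * k), abs_mul]
      have h7 : |α| * |β| ≤ 1 := by
        have h8 : |α| ≤ 2 := by
          rw [abs_le]; constructor <;> linarith [hα2.1, hα2.2]
        nlinarith [abs_nonneg α, abs_nonneg β]
      rw [div_le_iff₀ (by positivity)]
      have : 1 / 2 * (1 / k) * (2 * π * k) = π := by field_simp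
      rw [this]; linarith
    calc _ ≤ |(α ^ 2 - 1) * c| + |α ^ 2 * (1 / (π * k))| + |α * β / (2 * π * k)| := by
          refine (abs_sub _ _).trans ?_
          gcongr
          exact abs_add_le _ _
      _ ≤ _ := by linarith
  have hτκ : 3 * ε + 1 / k ≤ κ / 2 := by nlinarith
  have hDlow : κ / 2 ≤ |D| := by
    have h8 : |c| - |D| ≤ |c - D| := abs_sub_abs_le_abs_sub c D
    rw [abs_sub_comm] at h8
    linarith
  have hD0 : D ≠ 0 := by
    intro h; rw [h, abs_zero] at hDlow; linarith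
  have hc0 : c ≠ 0 := by
    intro h; rw [h, abs_zero] at hκ1; linarith
  have hdig : dig k x p1 p0 = 1 / μ ^ 2 * (1 / D) := by
    unfold dig Vd
    rw [← hc, hp1, hp0]
    have e : μ * α * ((2 + 2 * π * k * c) * (μ * α) - μ * β) = 2 * π * k * (μ ^ 2 * D) := by
      rw [hD]; field_simp; ring
    rw [e]
    field_simp
  rw [hdig, sec, ← hc, ← mul_sub, abs_mul, abs_of_pos (by positivity : (0:ℝ) < 1 / μ ^ 2)]
  apply mul_le_mul_of_nonneg_left _ (by positivity)
  have e : 1 / D - 1 / c = (c - D) / (D * c) := by field_simp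
  rw [e, abs_div, abs_mul, abs_sub_comm, div_le_iff₀ (by positivity)]
  have h9 : κ / 2 * κ ≤ |D| * |c| := mul_le_mul hDlow hκ1 hκ.le (abs_nonneg _)
  nlinarith

/-- **Level lemma**: at most `del/800` of bad points forces the mirror relation. -/
theorem level {del ε k lam x0 q0 q1 q2 : ℝ} {P P' P0' Q Q' Q0' f0 : ℝ → ℝ} (hd0 : 0 < del)
    (hd : del ≤ 1 / 10000) (hk : 10 ^ 12 / del ^ 2 ≤ k) (hε0 : 0 ≤ ε) (hε : ε ≤ del ^ 2 / 10 ^ 12)
    (hlam : 1 ≤ |lam|)
    (hP : ∀ y ∈ Icc (0 : ℝ) 3, |P y - y| ≤ del ^ 2 / 10 ^ 10)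
    (hP' : ∀ y ∈ Icc (0 : ℝ) 3, |P' y - 1| ≤ ε) (hP0' : ∀ y ∈ Icc (0 : ℝ) 3, |P0' y| ≤ ε)
    (hQ : ∀ y ∈ Icc (0 : ℝ) 3, |Q y - (x0 + lam * y)| ≤ del ^ 2 / 10 ^ 10)
    (hQ' : ∀ y ∈ Icc (0 : ℝ) 3, |Q' y - lam| ≤ ε * |lam|)
    (hQ0' : ∀ y ∈ Icc (0 : ℝ) 3, |Q0' y| ≤ ε * |lam|)
    (hf : ∀ y ∈ Icc (0 : ℝ) 3, |f0 y - (q0 + q1 * y + q2 * y ^ 2)| ≤ 1 / 8)
    (hbad : volume {y | y ∈ Icc (0 : ℝ) 3 ∧
      1 / 2 < |f0 y + (dig k (P y) (P' y) (P0' y) + dig k (Q y) (Q' y) (Q0' y))|} ≤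
        ENNReal.ofReal (del / 800)) :
    ∃ m : ℤ, (0 < lam ∧ ∀ y ∈ Icc (0 : ℝ) 3, |x0 + lam * y - y - 1 / 2 - m| ≤ del) ∨
      (lam < 0 ∧ ∀ y ∈ Icc (0 : ℝ) 3, |x0 + lam * y + y - 1 / 2 - m| ≤ del) := by
  have hk0 : 0 < k := lt_of_lt_of_le (by positivity) hk
  have hlam0 : lam ≠ 0 := by
    rintro rfl; norm_num at hlam
  have hl2 : 1 ≤ lam ^ 2 := by
    rw [← sq_abs]; nlinarith
  have hk1 : 1 / k ≤ del ^ 2 / 10 ^ 12 := by
    rw [div_le_iff₀ hk0]
    have := mul_le_mul_of_nonneg_left hk (by positivity : 0 ≤ del ^ 2 / 10 ^ 12)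
    have e : del ^ 2 / 10 ^ 12 * (10 ^ 12 / del ^ 2) = 1 := by field_simp
    linarith
  have hε1 : ε ≤ 1 / 10 := by
    refine hε.trans ?_
    have : del ^ 2 ≤ 1 := by nlinarith
    linarith
  have hτ : 3 * ε + 1 / k ≤ (del / 12800) ^ 2 / 64 := by
    have : (del / 12800) ^ 2 / 64 = del ^ 2 / (12800 ^ 2 * 64) := by ring
    rw [this]
    have h2 : 4 * (del ^ 2 / 10 ^ 12) ≤ del ^ 2 / (12800 ^ 2 * 64) := by
      rw [← mul_div_assoc, div_le_div_iff₀ (by norm_num) (by norm_num)]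
      nlinarith [sq_nonneg del]
    linarith
  refine rough1_of_near (q0 := q0) (q1 := q1) (q2 := q2) (a := 1 / lam ^ 2)
    (e := del ^ 2 / 10 ^ 10) (P := P) (Q := Q)
    (g := fun y => f0 y + (dig k (P y) (P' y) (P0' y) + dig k (Q y) (Q' y) (Q0' y)))
    hd0 hd hlam ?_ le_rfl hP hQ ?_ hbad
  · have : 1 / lam ^ 2 * lam ^ 2 = 1 := by field_simp
    rw [this]; norm_num
  · intro y hy hc1 hc2
    have h1 := dig_sec (μ := 1) hk0 one_ne_zero hε0 hε1 (by simpa using hP' y hy)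
      (by simpa using hP0' y hy) (by positivity) hc1 hτ
    have h2 := dig_sec (μ := lam) hk0 hlam0 hε0 hε1 (hQ' y hy) (hQ0' y hy) (by positivity) hc2 hτ
    have h3 := hf y hy
    have h4 : 1 / lam ^ 2 * (1 / 16) ≤ 1 / 16 := by
      have : 1 / lam ^ 2 ≤ 1 := by
        rw [div_le_one (by positivity)]; exact hl2
      linarith
    norm_num at h1
    have h2' := h2.trans h4
    rw [abs_le] at h1 h2' h3 ⊢
    constructor <;> linarith [h1.1, h1.2, h2'.1, h2'.2, h3.1, h3.2]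

/-- lower Vitali count in one dimension with a uniform radius -/
theorem vitali_lower {A B : Set ℝ} {ρ c : ℝ} (hρ : 0 < ρ) (hc : 0 < c)
    (h : ∀ s ∈ A, ENNReal.ofReal c ≤ volume (B ∩ closedBall s ρ)) :
    volume A ≤ ENNReal.ofReal (10 * ρ / c) * volume B := by
  classical
  obtain ⟨u, huA, hdisj, hcov⟩ := Vitali.exists_disjoint_subfamily_covering_enlargement_closedBall
    A (fun s : ℝ => s) (fun _ => ρ) ρ (fun _ _ => le_rfl) 5 (by norm_num)
  have hcount : u.Countable := by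
    refine hdisj.countable_of_nonempty_interior fun s hs => ?_
    refine ⟨s, ?_⟩
    have h1 : ball s ρ ⊆ interior (closedBall s ρ) := ball_subset_interior_closedBall
    exact h1 (mem_ball_self hρ)
  have hsub : A ⊆ ⋃ s ∈ u, closedBall s (5 * ρ) := by
    intro x hx
    obtain ⟨b, hb, hbs⟩ := hcov x hx
    exact mem_biUnion hb (hbs (mem_closedBall_self hρ.le))
  calc volume A ≤ volume (⋃ s ∈ u, closedBall s (5 * ρ)) := measure_mono hsub
    _ ≤ ∑' s : u, volume (closedBall (s : ℝ) (5 * ρ)) := measure_biUnion_le _ hcount _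
    _ ≤ ∑' s : u, ENNReal.ofReal (10 * ρ / c) * volume (B ∩ closedBall (s : ℝ) ρ) := by
        refine ENNReal.tsum_le_tsum fun s => ?_
        rw [Real.volume_closedBall]
        have e : 2 * (5 * ρ) = 10 * ρ / c * c := by field_simp; ring
        rw [e, ENNReal.ofReal_mul (by positivity)]
        exact mul_le_mul_right (h s (huA s.2)) _
    _ = ENNReal.ofReal (10 * ρ / c) * ∑' s : u, volume (B ∩ closedBall (s : ℝ) ρ) := by
        rw [ENNReal.tsum_mul_left]
    _ ≤ ENNReal.ofReal (10 * ρ / c) * volume B := by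
        apply mul_le_mul_right
        have e : ∀ s : u, volume (B ∩ closedBall (s : ℝ) ρ) =
            (volume.restrict B) (closedBall (s : ℝ) ρ) := by
          intro s
          rw [Measure.restrict_apply measurableSet_closedBall, inter_comm]
        simp_rw [e]
        have hd' : Pairwise (Function.onFun Disjoint fun s : u => closedBall (s : ℝ) ρ) := by
          intro s t hst
          exact hdisj s.2 t.2 (fun h => hst (Subtype.ext h))
        haveI : Countable u := hcount.to_subtype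
        rw [← measure_iUnion hd' (fun s => measurableSet_closedBall)]
        calc (volume.restrict B) (⋃ s : u, closedBall (s : ℝ) ρ) ≤ (volume.restrict B) univ :=
              measure_mono (subset_univ _)
          _ = volume B := by rw [Measure.restrict_apply_univ]

end Crest.Agent.R128.RoughAsmX
end

-- ▼ part R128/RA123
section

/-!
Row 128, node RA (helper123): `Loc.RA` from level (117), step (189), broken (123), Vitali.
-/

set_option autoImplicit false

namespace Crest.Agent.R128.RA123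

open MeasureTheory Real Set Metric
open Crest.Agent.R128 Crest.Agent.R128.Cell Crest.Agent.R128.CellB Crest.Agent.R128.CellDy
open Crest.Agent.R128.Loc Crest.Agent.R128.RealL

theorem cell3_mono {k c : ℝ} {s : Bool} {n n' : ℕ} {m R lam C1 C q0 q1 q2 : ℝ} (hk : 0 < k)
    (hC : C1 ≤ C) (h : Cell3 k c s n n' m R lam C1 q0 q1 q2) :
    Cell3 k c s n n' m R lam C q0 q1 q2 := by
  have hR : 0 < R := lt_of_lt_of_le one_pos h.hR
  obtain ⟨σ, hσ, hs⟩ := h.slow
  refine ⟨h.hR, h.hlam, ⟨σ, hσ, fun z hz => (hs z hz).trans ?_⟩, fun z hz => (h.slow0 z hz).trans ?_,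
    fun z hz => (h.fast z hz).trans ?_, fun z hz => (h.fast0 z hz).trans ?_, h.quad⟩
  · gcongr
  · gcongr
  · gcongr
  · gcongr

theorem norm_cos_eq {k c : ℝ} {s : Bool} {n : ℕ} {t : ℝ} :
    ‖Complex.cos (2 * Real.pi * Y k c s n (t : ℂ))‖ =
      |Real.cos (2 * π * (Y k c s n (t : ℂ)).re)| := by
  rw [Y_real k c s n t]
  rw [← Real.norm_eq_abs, ← Complex.norm_real]
  congr 1
  push_cast
  rw [Complex.ofReal_re]

/-- upper bound of the next derivative -/
theorem D_upper {k c : ℝ} {s : Bool} {n n' : ℕ} {m R lam C1 q0 q1 q2 : ℝ} (hk : 1 ≤ k)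
    (hC : C1 ≤ k) (h : Cell3 k c s n n' m R lam C1 q0 q1 q2) {t : ℝ} (ht : |t - m| < 4 / R) :
    ‖D k c s (n + 2) (t : ℂ)‖ ≤ 20 * k * R := by
  have hR : 0 < R := lt_of_lt_of_le one_pos h.hR
  have hk0 : 0 < k := by linarith
  have hmem : (t : ℂ) ∈ ball (m : ℂ) (4 / R) := by
    rw [mem_ball, dist_eq_norm, ← Complex.ofReal_sub, Complex.norm_real, Real.norm_eq_abs]
    exact ht
  obtain ⟨σ, hσ, hs⟩ := h.slow
  have h1 := hs _ hmem
  have h2 := h.slow0 _ hmem
  have hCk : C1 * R / k ≤ R := by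
    rw [div_le_iff₀ hk0]
    nlinarith
  have hσR : ‖((σ * R : ℝ) : ℂ)‖ = R := by
    rw [Complex.norm_real, Real.norm_eq_abs, abs_mul, abs_of_pos hR]
    rcases hσ with h | h <;> rw [h] <;> norm_num
  have h3 : ‖D k c s (n + 1) (t : ℂ)‖ ≤ 2 * R := by
    calc ‖D k c s (n + 1) (t : ℂ)‖ = ‖(D k c s (n + 1) (t : ℂ) - (σ * R : ℝ)) + ((σ * R : ℝ) : ℂ)‖ := by
          ring_nf
      _ ≤ _ := norm_add_le _ _
      _ ≤ R + R := add_le_add (h1.trans hCk) hσR.le
      _ = 2 * R := by ring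
  have h4 : ‖D k c s n (t : ℂ)‖ ≤ R := h2.trans hCk
  rw [D_add_two]
  have h5 : ‖dg k c s (t : ℂ) (n + 1)‖ ≤ 2 + 2 * π * k := by
    rw [dg_real, Complex.norm_real, Real.norm_eq_abs]
    refine (abs_add_le _ _).trans ?_
    rw [abs_of_pos (by norm_num : (0:ℝ) < 2), abs_mul, abs_of_pos (by positivity : 0 < 2 * π * k)]
    have := Real.abs_cos_le_one (2 * π * (Y k c s (n + 1) (t : ℂ)).re)
    have hpk : 0 < 2 * π * k := by positivity
    nlinarith
  have hpi := Real.pi_lt_d2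
  calc ‖dg k c s (t : ℂ) (n + 1) * D k c s (n + 1) (t : ℂ) - D k c s n (t : ℂ)‖
      ≤ ‖dg k c s (t : ℂ) (n + 1)‖ * ‖D k c s (n + 1) (t : ℂ)‖ + ‖D k c s n (t : ℂ)‖ := by
        refine (norm_sub_le _ _).trans ?_
        rw [norm_mul]
    _ ≤ (2 + 2 * π * k) * (2 * R) + R := by
        gcongr
    _ ≤ 20 * k * R := by nlinarith [mul_pos hk0 hR]

theorem ra : Loc.RA := by
  intro C1
  obtain ⟨C, hC⟩ : ∃ C, C = max C1 1 := ⟨_, rfl⟩
  have hC1 : 1 ≤ C := by rw [hC]; exact le_max_right _ _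
  have hCC : C1 ≤ C := by rw [hC]; exact le_max_left _ _
  obtain ⟨del, r, kap, cB, hdel, hdel4, hr, hkap, hkap1, hcB, kB, HB⟩ := RABroken.broken hC1
  obtain ⟨cL, hcL, kL, HL⟩ := RALevel.level (del := del) hC1 hdel hdel4
  obtain ⟨C2, hC2, kS, HS⟩ := RAStep.step (C1 := C) (kap := kap) (L := 4) (by linarith) hkap hkap1
    (by norm_num)
  obtain ⟨del2, hd2⟩ : ∃ d, d = min (r / 6) (1 / 10 ^ 4) := ⟨_, rfl⟩
  have hd20 : 0 < del2 := by rw [hd2]; exact lt_min (by positivity) (by norm_num)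
  have hd21 : del2 ≤ 1 / 10 ^ 4 := by rw [hd2]; exact min_le_right _ _
  have hd22 : 3 * del2 < r := by
    have : del2 ≤ r / 6 := by rw [hd2]; exact min_le_left _ _
    linarith
  obtain ⟨cM, hcM, kM, HM⟩ := RALevel.level (del := del2) hC2 hd20 hd21
  obtain ⟨cF, hcF⟩ : ∃ x, x = cB * kap * cM / 1000 := ⟨_, rfl⟩
  have hcF0 : 0 < cF := by rw [hcF]; positivity
  refine ⟨min cL cF, lt_min hcL hcF0,
    max (max (max kB kL) (max kS kM)) (max C (max (16 / kap) 1)), ?_⟩
  intro k hk c s n n' m R lam q0 q1 q2 hlam hcell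
  have kkB : kB ≤ k := le_trans (le_trans (le_max_left _ _) (le_max_left _ _)) (le_trans (le_max_left _ _) hk)
  have kkL : kL ≤ k := le_trans (le_trans (le_max_right _ _) (le_max_left _ _)) (le_trans (le_max_left _ _) hk)
  have kkS : kS ≤ k := le_trans (le_trans (le_max_left _ _) (le_max_right _ _)) (le_trans (le_max_left _ _) hk)
  have kkM : kM ≤ k := le_trans (le_trans (le_max_right _ _) (le_max_right _ _)) (le_trans (le_max_left _ _) hk)
  have kkC : C ≤ k := le_trans (le_max_left _ _) (le_trans (le_max_right _ _) hk)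
  have kkap : 16 / kap ≤ k := le_trans (le_max_left _ _) (le_trans (le_max_right _ _) (le_trans (le_max_right _ _) hk))
  have kk1 : 1 ≤ k := le_trans (le_max_right _ _) (le_trans (le_max_right _ _) (le_trans (le_max_right _ _) hk))
  have hk0 : 0 < k := by linarith
  have hcell' := cell3_mono hk0 hCC hcell
  have hR : 0 < R := lt_of_lt_of_le one_pos hcell.hR
  have hlam' : |lam| ≤ C * Real.sqrt k :=
    hlam.trans (mul_le_mul_of_nonneg_right hCC (Real.sqrt_nonneg _))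
  have hkap16 : 16 ≤ kap * k := by
    rw [div_le_iff₀ hkap] at kkap; linarith
  rcases HL k kkL c s n n' m R lam q0 q1 q2 hlam' hcell' with hdead | ⟨hl4, eps, M, heps, hmir⟩
  · refine le_trans (ENNReal.ofReal_le_ofReal ?_) (hdead.trans (measure_mono ?_))
    · exact div_le_div_of_nonneg_right (min_le_left _ _) hR.le
    · rintro t ⟨h1, h2⟩
      exact ⟨h1, Or.inl h2⟩
  · have hZ := HB k kkB c s n n' m R lam q0 q1 q2 hl4 hcell' eps M heps hmir
    set B : Set ℝ := {t : ℝ | |t - m| ≤ 2 / R ∧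
        (1 / 4 < (2 * Real.pi * k * R ^ 2) * ‖cont k c s (n + 2) (n' + 2) t‖ ∨
         1 / 4 < (2 * Real.pi * k * (min ‖D k c s (n + 2) t‖ ‖D k c (!s) (n' + 2) t‖) ^ 2) *
            ‖cont k c s (n + 3) (n' + 3) t‖)} with hB
    set Z : Set ℝ := {t : ℝ | |t - m| ≤ 3 / 2 / R ∧
        kap ≤ |Real.cos (2 * π * (Y k c s (n + 1) (t : ℂ)).re)| ∧
        kap ≤ |Real.cos (2 * π * (Y k c (!s) (n' + 1) (t : ℂ)).re)| ∧
        ∀ j : ℤ, r < |(Y k c (!s) (n' + 2) (t : ℂ)).re + (Y k c s (n + 2) (t : ℂ)).re - j / 2| ∧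
          r < |(Y k c (!s) (n' + 2) (t : ℂ)).re - (Y k c s (n + 2) (t : ℂ)).re - j / 2|} with hZdef
    have hloc : ∀ t ∈ Z, ENNReal.ofReal (cM / (20 * k * R)) ≤
        volume (B ∩ closedBall t (4 / (kap * k * R))) := by
      rintro t ⟨ht1, ht2, ht3, ht4⟩
      have ht5 : |t - m| ≤ 2 / R := ht1.trans (by
        apply div_le_div_of_nonneg_right _ hR.le; norm_num)
      obtain ⟨s', a, a', R', lam', q0', q1', q2', hs', hR', hl', hcell2, hlow⟩ :=
        HS k kkS c s n n' m R lam q0 q1 q2 hcell' hl4 t ht5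
          (by rw [norm_cos_eq]; exact ht2) (by rw [norm_cos_eq]; exact ht3)
      have hR'0 : 0 < R' := lt_of_lt_of_le one_pos hcell2.hR
      have hR'8 : 8 * R ≤ R' := by nlinarith
      have hlamC2 : |lam'| ≤ C2 * Real.sqrt k := by
        have : 1 ≤ Real.sqrt k := by rw [Real.one_le_sqrt]; exact kk1
        nlinarith
      -- upper bound of R'
      have htmem : (t : ℂ) ∈ ball (t : ℂ) (4 / R') := mem_ball_self (by positivity)
      have hR'up : R' ≤ 20 * k * R := by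
        refine (hlow _ htmem).1.trans (D_upper kk1 kkC hcell' ?_)
        refine ht5.trans_lt ?_
        exact div_lt_div_of_pos_right (by norm_num) hR
      have hball : ∀ u : ℝ, |u - t| ≤ 2 / R' → |u - m| ≤ 2 / R ∧ u ∈ closedBall t (4 / (kap * k * R)) ∧
          R' ≤ ‖D k c s (n + 2) (u : ℂ)‖ ∧ R' ≤ ‖D k c (!s) (n' + 2) (u : ℂ)‖ := by
        intro u hu
        refine ⟨?_, ?_, ?_⟩
        · have h1 : |u - m| ≤ |u - t| + |t - m| := abs_sub_le _ _ _
          have h2 : 2 / R' ≤ 1 / 4 / R := by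
            rw [div_le_div_iff₀ hR'0 hR]; linarith
          have h3 : 1 / 4 / R + 3 / 2 / R ≤ 2 / R := by
            rw [← add_div]; apply div_le_div_of_nonneg_right _ hR.le; norm_num
          linarith
        · rw [mem_closedBall, Real.dist_eq]
          refine hu.trans ?_
          rw [div_le_div_iff₀ hR'0 (by positivity)]
          nlinarith
        · apply hlow
          rw [mem_ball, dist_eq_norm, ← Complex.ofReal_sub, Complex.norm_real, Real.norm_eq_abs]
          refine hu.trans_lt ?_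
          exact div_lt_div_of_pos_right (by norm_num) hR'0
      rcases HM k kkM c s' a a' t R' lam' q0' q1' q2' hlamC2 hcell2 with hd | ⟨-, eps2, M2, heps2, hmir2⟩
      · refine le_trans (ENNReal.ofReal_le_ofReal ?_) (hd.trans (measure_mono ?_))
        · exact div_le_div_of_nonneg_left hcM.le hR'0 hR'up
        · rintro u ⟨hu1, hu2⟩
          obtain ⟨g1, g2, g3, g4⟩ := hball u hu1
          refine ⟨⟨g1, Or.inr ?_⟩, g2⟩
          have hcont : ‖cont k c s' (a + 2) (a' + 2) (u : ℂ)‖ = ‖cont k c s (n + 3) (n' + 3) (u : ℂ)‖ := by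
            rcases hs' with ⟨e1, e2, e3⟩ | ⟨e1, e2, e3⟩
            · rw [e1, e2, e3]
            · rw [e1, e2, e3, RALem.cont_swap]
          rw [hcont] at hu2
          refine hu2.trans_le ?_
          apply mul_le_mul_of_nonneg_right _ (norm_nonneg _)
          apply mul_le_mul_of_nonneg_left _ (by positivity)
          exact pow_le_pow_left₀ hR'0.le (le_min g3 g4) 2
      · exfalso
        have hm := hmir2 t (by rw [sub_self, abs_zero]; positivity)
        have hlt : ∀ x : ℝ, |x| ≤ 3 * del2 → r < |x| → False := fun x h1 h2 => by linarith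
        rcases hs' with ⟨e1, e2, e3⟩ | ⟨e1, e2, e3⟩
        · rw [e1, e2, e3] at hm
          rcases heps2 with h | h
          · refine hlt _ hm ?_
            have := (ht4 (2 * M2 + 1)).2
            push_cast at this
            have e : (Y k c (!s) (n' + 1 + 1) (t : ℂ)).re - eps2 * (Y k c s (n + 1 + 1) (t : ℂ)).re -
                1 / 2 - M2 = (Y k c (!s) (n' + 2) (t : ℂ)).re - (Y k c s (n + 2) (t : ℂ)).re -
                (2 * M2 + 1) / 2 := by rw [h]; ring
            rw [e]; exact this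
          · refine hlt _ hm ?_
            have := (ht4 (2 * M2 + 1)).1
            push_cast at this
            have e : (Y k c (!s) (n' + 1 + 1) (t : ℂ)).re - eps2 * (Y k c s (n + 1 + 1) (t : ℂ)).re -
                1 / 2 - M2 = (Y k c (!s) (n' + 2) (t : ℂ)).re + (Y k c s (n + 2) (t : ℂ)).re -
                (2 * M2 + 1) / 2 := by rw [h]; ring
            rw [e]; exact this
        · rw [e1, e2, e3, Bool.not_not] at hm
          rcases heps2 with h | h
          · refine hlt _ hm ?_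
            have := (ht4 (-(2 * M2 + 1))).2
            push_cast at this
            have e : (Y k c s (n + 1 + 1) (t : ℂ)).re - eps2 * (Y k c (!s) (n' + 1 + 1) (t : ℂ)).re -
                1 / 2 - M2 = -((Y k c (!s) (n' + 2) (t : ℂ)).re - (Y k c s (n + 2) (t : ℂ)).re -
                (-(2 * M2 + 1)) / 2) := by rw [h]; ring
            rw [e, abs_neg]; exact this
          · refine hlt _ hm ?_
            have := (ht4 (2 * M2 + 1)).1
            push_cast at this
            have e : (Y k c s (n + 1 + 1) (t : ℂ)).re - eps2 * (Y k c (!s) (n' + 1 + 1) (t : ℂ)).re -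
                1 / 2 - M2 = (Y k c (!s) (n' + 2) (t : ℂ)).re + (Y k c s (n + 2) (t : ℂ)).re -
                (2 * M2 + 1) / 2 := by rw [h]; ring
            rw [e]; exact this
    have hvit := RoughAsmX.vitali_lower (A := Z) (B := B) (ρ := 4 / (kap * k * R))
      (c := cM / (20 * k * R)) (by positivity) (by positivity) hloc
    have h1 := hZ.trans hvit
    have e1 : 10 * (4 / (kap * k * R)) / (cM / (20 * k * R)) = 800 / (kap * cM) := by
      field_simp; ring
    rw [e1] at h1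
    have e2 : ENNReal.ofReal (cB / R) =
        ENNReal.ofReal (800 / (kap * cM)) * ENNReal.ofReal (cB * kap * cM / 800 / R) := by
      rw [← ENNReal.ofReal_mul (by positivity)]; congr 1; field_simp
    rw [e2] at h1
    have h0 : ENNReal.ofReal (800 / (kap * cM)) ≠ 0 := by
      rw [Ne, ENNReal.ofReal_eq_zero]; push Not; positivity
    have h2 := (ENNReal.mul_le_mul_iff_right h0 ENNReal.ofReal_ne_top).1 h1
    refine le_trans (ENNReal.ofReal_le_ofReal ?_) h2
    apply div_le_div_of_nonneg_right _ hR.le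
    refine (min_le_right _ _).trans ?_
    rw [hcF]
    have : 0 < cB * kap * cM := by positivity
    linarith

end Crest.Agent.R128.RA123
end

-- ▼ part R128/Geo
section

set_option autoImplicit false

/-!
# GEO: along a clean path that stays above a level of the root contour, the distance to the start
is the height above the level

`g` is the sequence of matrices seen from the root, `f n = log ‖g n‖` the root contour,
`‖g m * (g v)⁻¹‖ = ‖A_{v→m}‖`.
-/

open scoped Matrix.Norms.L2Operator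
open Matrix Finset

namespace Crest.Agent.R128.Geo

open Crest.Agent.R128.Hyp Crest.Agent.R128.Chain

/-- the weight of one step -/
theorem wt_le {g : ℕ → M2} (hg : ∀ i, (g i).det = 1) {A : ℝ} {j : ℕ}
    (hstep : ‖g (j + 1) * (g j)⁻¹‖ ≤ A) : wt g j ≤ A ^ 2 / ‖g j‖ ^ 2 := by
  have p1 := norm_pos' (hg j)
  have p2 := norm_pos' (hg (j + 1))
  have hA : 0 ≤ A := (norm_nonneg _).trans hstep
  have h1 : ‖g j‖ ≤ A * ‖g (j + 1)‖ := by
    have h2 := le_transfer hg (j + 1) j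
    rw [norm_symm (hg j) (hg (j + 1))] at h2
    exact h2.trans (mul_le_mul_of_nonneg_right hstep p2.le)
  unfold wt ch
  rw [div_le_div_iff₀ (by positivity) (by positivity)]
  calc ‖g (j + 1) * (g j)⁻¹‖ * ‖g j‖ ^ 2 ≤ A * ‖g j‖ ^ 2 := by gcongr
    _ = A * ‖g j‖ * ‖g j‖ := by ring
    _ ≤ A * ‖g j‖ * (A * ‖g (j + 1)‖) := by gcongr
    _ = A ^ 2 * (‖g j‖ * ‖g (j + 1)‖) := by ring

/-- the potential `S m = Σ_{v ≤ j < m} (L / ‖g j‖)²` -/
noncomputable def S (g : ℕ → M2) (L : ℝ) (v m : ℕ) : ℝ := ∑ j ∈ Ico v m, (L / ‖g j‖) ^ 2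

theorem S_nonneg (g : ℕ → M2) (L : ℝ) (v m : ℕ) : 0 ≤ S g L v m :=
  Finset.sum_nonneg fun _ _ => sq_nonneg _

theorem S_succ (g : ℕ → M2) (L : ℝ) {v m : ℕ} (h : v ≤ m) :
    S g L v (m + 1) = S g L v m + (L / ‖g m‖) ^ 2 := by
  unfold S
  rw [Finset.sum_Ico_succ_top h]


theorem S_start {g : ℕ → M2} (hg : ∀ i, (g i).det = 1) {A L : ℝ} {v N : ℕ} (hL : 0 < L)
    (hv' : L ≤ A * ‖g v‖) (hlow : ∀ j, v < j → j < N → L ≤ ‖g j‖) {m : ℕ} (hvm : v < m)
    (hmN : m ≤ N) : S g L v m ≤ A ^ 2 + ((m - v : ℕ) : ℝ) := by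
  have pv := norm_pos' (hg v)
  induction m with
  | zero => exact absurd hvm (Nat.not_lt_zero _)
  | succ m ih =>
    rcases Nat.lt_succ_iff_lt_or_eq.mp hvm with h | h
    · rw [S_succ g L h.le]
      have h1 := ih h (Nat.le_of_succ_le hmN)
      have pm := norm_pos' (hg m)
      have h2 : (L / ‖g m‖) ^ 2 ≤ 1 := by
        have h3 : L / ‖g m‖ ≤ 1 := by
          rw [div_le_one pm]
          exact hlow m h hmN
        have h4 : 0 ≤ L / ‖g m‖ := by positivity
        nlinarith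
      have h5 : ((m + 1 - v : ℕ) : ℝ) = ((m - v : ℕ) : ℝ) + 1 := by
        rw [Nat.succ_sub h.le]
        push_cast
        ring
      rw [h5]
      linarith
    · subst h
      unfold S
      rw [Finset.sum_Ico_succ_top le_rfl]
      simp only [Finset.Ico_self, Finset.sum_empty, zero_add]
      have h2 : L / ‖g v‖ ≤ A := by
        rw [div_le_iff₀ pv]
        exact hv'
      have h4 : 0 ≤ L / ‖g v‖ := by positivity
      have h6 : (L / ‖g v‖) ^ 2 ≤ A ^ 2 := by gcongr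
      have h7 : (0 : ℝ) ≤ ((v + 1 - v : ℕ) : ℝ) := by positivity
      linarith







/-! ## the sum of a clean path -/

theorem sum_inv_sq_le (a n : ℕ) (ha : 1 ≤ a) : ∑ j ∈ Ico a n, 1 / (j : ℝ) ^ 2 ≤ 2 := by
  have h : ∀ n, a ≤ n → ∑ j ∈ Ico a (n + 1), 1 / (j : ℝ) ^ 2 ≤ 2 - 1 / (n : ℝ) := by
    intro n hn
    induction n, hn using Nat.le_induction with
    | base =>
      rw [Finset.sum_Ico_succ_top le_rfl]
      simp only [Finset.Ico_self, Finset.sum_empty, zero_add]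
      have h1 : (1 : ℝ) ≤ (a : ℝ) := by exact_mod_cast ha
      have h2 : 1 / (a : ℝ) ≤ 1 := by
        rw [div_le_one (by linarith)]
        exact h1
      have h3 : 1 / (a : ℝ) ^ 2 ≤ 1 / (a : ℝ) := by
        apply one_div_le_one_div_of_le (by linarith)
        nlinarith
      linarith
    | succ n hn ih =>
      rw [Finset.sum_Ico_succ_top (by omega)]
      have hn1 : (1 : ℝ) ≤ (n : ℝ) := by exact_mod_cast (le_trans ha hn)
      have hn0 : (0 : ℝ) < n := by linarith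
      have h4 : 1 / ((n + 1 : ℕ) : ℝ) ^ 2 ≤ 1 / (n : ℝ) - 1 / ((n + 1 : ℕ) : ℝ) := by
        push_cast
        rw [div_sub_div _ _ (by positivity) (by positivity), div_le_div_iff₀ (by positivity)
          (by positivity)]
        nlinarith
      linarith
  rcases le_or_gt a n with hn | hn
  · rcases Nat.eq_zero_or_pos n with h0 | h0
    · omega
    · rcases Nat.lt_or_ge a n with h5 | h5
      · have h1 := h (n - 1) (by omega)
        have h6 : n - 1 + 1 = n := by omega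
        rw [h6] at h1
        have h2 : 0 ≤ 1 / ((n - 1 : ℕ) : ℝ) := by positivity
        linarith
      · rw [Finset.Ico_eq_empty (by omega)]
        simp
  · rw [Finset.Ico_eq_empty (by omega)]
    simp

/-- `(c2) + (c3)`: if along the path all distances after the first `M0` steps are `≥ D0` (norms) and
the time is at most the square root of the norm, then the sum in `geo` is at most `2 / D0`. -/
theorem sum_of_clean {d : ℕ → ℝ} {D0 : ℝ} {v N M0 : ℕ} (hM0 : 1 ≤ M0) (hD0 : 0 < D0)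
    (h2 : ∀ j, v + M0 ≤ j → j < N → D0 ≤ d j)
    (h3 : ∀ j, v + M0 ≤ j → j < N → ((j - v : ℕ) : ℝ) ^ 2 ≤ d j) :
    ∑ j ∈ Ico (v + M0) N, 1 / d j ^ 2 ≤ 2 / D0 := by
  have h4 : ∀ j ∈ Ico (v + M0) N, 1 / d j ^ 2 ≤ (1 / D0) * (1 / ((j - v : ℕ) : ℝ) ^ 2) := by
    intro j hj
    rw [Finset.mem_Ico] at hj
    have h5 := h2 j hj.1 hj.2
    have h6 := h3 j hj.1 hj.2
    have h7 : (0 : ℝ) < ((j - v : ℕ) : ℝ) := by
      exact_mod_cast (by omega : 0 < j - v)
    have h10 : 1 / D0 * (1 / ((j - v : ℕ) : ℝ) ^ 2) = 1 / (((j - v : ℕ) : ℝ) ^ 2 * D0) := by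
      field_simp
    rw [h10]
    apply one_div_le_one_div_of_le (by positivity)
    rw [pow_two (d j)]
    exact mul_le_mul h6 h5 hD0.le (by linarith)
  have h8 : ∑ j ∈ Ico (v + M0) N, 1 / ((j - v : ℕ) : ℝ) ^ 2 ≤ 2 := by
    have h9 : ∑ j ∈ Ico (v + M0) N, 1 / ((j - v : ℕ) : ℝ) ^ 2 =
        ∑ i ∈ Ico M0 (N - v), 1 / (i : ℝ) ^ 2 := by
      rcases le_or_gt v N with hvN | hvN
      · have h10 := Finset.sum_Ico_add' (fun j : ℕ => 1 / ((j - v : ℕ) : ℝ) ^ 2) M0 (N - v) v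
        rw [show M0 + v = v + M0 by omega, show N - v + v = N by omega] at h10
        rw [← h10]
        apply Finset.sum_congr rfl
        intro i _
        rw [Nat.add_sub_cancel]
      · rw [Finset.Ico_eq_empty (by omega), Finset.Ico_eq_empty (by omega)]
        simp
    rw [h9]
    exact sum_inv_sq_le M0 (N - v) hM0
  calc ∑ j ∈ Ico (v + M0) N, 1 / d j ^ 2 ≤
      ∑ j ∈ Ico (v + M0) N, (1 / D0) * (1 / ((j - v : ℕ) : ℝ) ^ 2) := Finset.sum_le_sum h4
    _ = (1 / D0) * ∑ j ∈ Ico (v + M0) N, 1 / ((j - v : ℕ) : ℝ) ^ 2 := by rw [Finset.mul_sum]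
    _ ≤ (1 / D0) * 2 := mul_le_mul_of_nonneg_left h8 (by positivity)
    _ = 2 / D0 := by ring


end Crest.Agent.R128.Geo
end

-- ▼ part R128/FootG
section

set_option autoImplicit false

/-!
# Row 128, node V1-5: a violation of (c2) along the path from a foot gives a nested valley

`h` is the sequence of matrices along the path from the foot (`h 0` = foot), `F m` the root
contour along the path, known up to an error `c0` only: `|F m - log ‖h m‖| ≤ c0`.
Part 1: GEO with an error factor `c` (`‖h 0‖ ≤ c L`, `L ≤ ‖h j‖`).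
Part 2: the drop inequality.
Part 3: `ValR` / `ValL` of `Charge`.
-/

open scoped Matrix.Norms.L2Operator
open Matrix Finset

namespace Crest.Agent.R128.FootG

open Crest.Agent.R128.Hyp Crest.Agent.R128.Chain Crest.Agent.R128.Geo Crest.Agent.R128.Charge

/-- chain inequality in terms of the potential, relaxed start -/
theorem transfer_le_S' {g : ℕ → M2} (hg : ∀ i, (g i).det = 1) {A L c : ℝ} {v N : ℕ}
    (hstep : ∀ j, v ≤ j → j < N → ‖g (j + 1) * (g j)⁻¹‖ ≤ A) (hL : 0 < L)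
    (hv : ‖g v‖ ≤ c * L)
    {m : ℕ} (hvm : v < m) (hmN : m ≤ N) :
    ‖g m * (g v)⁻¹‖ ≤ c * A ^ 2 * (‖g m‖ / L) * S g L v m := by
  have h1 := chain hg hvm
  have pv := norm_pos' (hg v)
  have pm := norm_pos' (hg m)
  have h2 : ∑ j ∈ Ico v m, wt g j ≤ ∑ j ∈ Ico v m, A ^ 2 / ‖g j‖ ^ 2 := by
    apply Finset.sum_le_sum
    intro j hj
    rw [Finset.mem_Ico] at hj
    exact wt_le hg (hstep j hj.1 (lt_of_lt_of_le hj.2 hmN))
  have h3 : ∑ j ∈ Ico v m, A ^ 2 / ‖g j‖ ^ 2 = A ^ 2 / L ^ 2 * S g L v m := by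
    unfold S
    rw [Finset.mul_sum]
    apply Finset.sum_congr rfl
    intro j _
    have pj := norm_pos' (hg j)
    field_simp
  have hS := S_nonneg g L v m
  calc ‖g m * (g v)⁻¹‖ ≤ ‖g v‖ * ‖g m‖ * ∑ j ∈ Ico v m, wt g j := h1
    _ ≤ ‖g v‖ * ‖g m‖ * ∑ j ∈ Ico v m, A ^ 2 / ‖g j‖ ^ 2 :=
        mul_le_mul_of_nonneg_left h2 (by positivity)
    _ = ‖g v‖ * ‖g m‖ * (A ^ 2 / L ^ 2 * S g L v m) := by rw [h3]
    _ ≤ (c * L) * ‖g m‖ * (A ^ 2 / L ^ 2 * S g L v m) := by gcongr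
    _ = c * A ^ 2 * (‖g m‖ / L) * S g L v m := by
        field_simp

/-- the potential stays bounded, relaxed start -/
theorem S_le' {g : ℕ → M2} (hg : ∀ i, (g i).det = 1) {A L c : ℝ} {v N M0 : ℕ} (hM0 : 1 ≤ M0)
    (hstep : ∀ j, v ≤ j → j < N → ‖g (j + 1) * (g j)⁻¹‖ ≤ A) (hL : 0 < L)
    (hv : ‖g v‖ ≤ c * L)
    (hv' : L ≤ A * ‖g v‖) (hlow : ∀ j, v < j → j < N → L ≤ ‖g j‖)
    (hsum : 4 * c ^ 2 * A ^ 4 * (A ^ 2 + M0) *
      ∑ j ∈ Ico (v + M0) N, 1 / ‖g j * (g v)⁻¹‖ ^ 2 ≤ 1)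
    {m : ℕ} (hvm : v < m) (hmN : m ≤ N) : S g L v m ≤ 2 * (A ^ 2 + M0) := by
  have hS0 : 0 ≤ A ^ 2 + (M0 : ℝ) := by positivity
  have pv0 := norm_pos' (hg v)
  have hc0 : 0 ≤ c := by
    by_contra hcon
    push Not at hcon
    nlinarith
  by_cases hM : m ≤ v + M0
  · have h1 := S_start hg hL hv' hlow hvm hmN
    have h2 : ((m - v : ℕ) : ℝ) ≤ (M0 : ℝ) := by
      exact_mod_cast (by omega : m - v ≤ M0)
    linarith
  · push Not at hM
    have key : ∀ n, v + M0 ≤ n → v < n → n ≤ N →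
        S g L v n ≤ (A ^ 2 + M0) *
          (1 + 4 * c ^ 2 * A ^ 4 * (A ^ 2 + M0) *
            ∑ j ∈ Ico (v + M0) n, 1 / ‖g j * (g v)⁻¹‖ ^ 2) := by
      intro n hn
      induction n, hn using Nat.le_induction with
      | base =>
        intro h1 h2
        have h3 := S_start hg hL hv' hlow h1 h2
        simp only [Finset.Ico_self, Finset.sum_empty, mul_zero, add_zero, mul_one]
        have h4 : ((v + M0 - v : ℕ) : ℝ) = (M0 : ℝ) := by
          congr 1
          omega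
        rw [h4] at h3
        exact h3
      | succ n hn ih =>
        intro h1 h2
        have hvn : v < n := by omega
        have h3 := ih hvn (Nat.le_of_succ_le h2)
        have hsub : ∑ j ∈ Ico (v + M0) n, 1 / ‖g j * (g v)⁻¹‖ ^ 2 ≤
            ∑ j ∈ Ico (v + M0) N, 1 / ‖g j * (g v)⁻¹‖ ^ 2 :=
          Finset.sum_le_sum_of_subset_of_nonneg
            (Finset.Ico_subset_Ico_right (Nat.le_of_succ_le h2))
            (fun j _ _ => by positivity)
        have h4 : S g L v n ≤ 2 * (A ^ 2 + M0) := by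
          have h5 : 4 * c ^ 2 * A ^ 4 * (A ^ 2 + M0) *
              ∑ j ∈ Ico (v + M0) n, 1 / ‖g j * (g v)⁻¹‖ ^ 2 ≤ 1 :=
            (mul_le_mul_of_nonneg_left hsub (by positivity)).trans hsum
          nlinarith
        have pn := norm_pos' (hg n)
        have pd : 0 < ‖g n * (g v)⁻¹‖ := norm_pos' (det_mul_inv (hg n) (hg v))
        have h6 := transfer_le_S' hg hstep hL hv hvn (Nat.le_of_succ_le h2)
        have h7 : L / ‖g n‖ ≤ c * A ^ 2 * S g L v n / ‖g n * (g v)⁻¹‖ := by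
          rw [div_le_div_iff₀ pn pd]
          have h8 : L * ‖g n * (g v)⁻¹‖ ≤ L * (c * A ^ 2 * (‖g n‖ / L) * S g L v n) :=
            mul_le_mul_of_nonneg_left h6 hL.le
          have h9 : L * (c * A ^ 2 * (‖g n‖ / L) * S g L v n) =
              c * A ^ 2 * S g L v n * ‖g n‖ := by
            field_simp
          rw [h9] at h8
          exact h8
        have h10 : (L / ‖g n‖) ^ 2 ≤
            (c * A ^ 2 * (2 * (A ^ 2 + M0)) / ‖g n * (g v)⁻¹‖) ^ 2 := by
          have h11 : 0 ≤ L / ‖g n‖ := by positivity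
          have h12 : c * A ^ 2 * S g L v n / ‖g n * (g v)⁻¹‖ ≤
              c * A ^ 2 * (2 * (A ^ 2 + M0)) / ‖g n * (g v)⁻¹‖ := by
            gcongr
          exact pow_le_pow_left₀ h11 (h7.trans h12) 2
        rw [S_succ g L hvn.le, Finset.sum_Ico_succ_top hn]
        have h13 : (c * A ^ 2 * (2 * (A ^ 2 + (M0 : ℝ))) / ‖g n * (g v)⁻¹‖) ^ 2 =
            (A ^ 2 + M0) * (4 * c ^ 2 * A ^ 4 * (A ^ 2 + M0) *
              (1 / ‖g n * (g v)⁻¹‖ ^ 2)) := by
          field_simp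
          ring
        rw [h13] at h10
        calc S g L v n + (L / ‖g n‖) ^ 2 ≤
            (A ^ 2 + M0) * (1 + 4 * c ^ 2 * A ^ 4 * (A ^ 2 + M0) *
              ∑ j ∈ Ico (v + M0) n, 1 / ‖g j * (g v)⁻¹‖ ^ 2) +
            (A ^ 2 + M0) * (4 * c ^ 2 * A ^ 4 * (A ^ 2 + M0) *
              (1 / ‖g n * (g v)⁻¹‖ ^ 2)) :=
              add_le_add h3 h10
          _ = _ := by ring
    have h1 := key m hM.le hvm hmN
    have hsub : ∑ j ∈ Ico (v + M0) m, 1 / ‖g j * (g v)⁻¹‖ ^ 2 ≤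
        ∑ j ∈ Ico (v + M0) N, 1 / ‖g j * (g v)⁻¹‖ ^ 2 :=
      Finset.sum_le_sum_of_subset_of_nonneg (Finset.Ico_subset_Ico_right hmN)
        (fun j _ _ => by positivity)
    have h5 : 4 * c ^ 2 * A ^ 4 * (A ^ 2 + M0) *
        ∑ j ∈ Ico (v + M0) m, 1 / ‖g j * (g v)⁻¹‖ ^ 2 ≤ 1 :=
      (mul_le_mul_of_nonneg_left hsub (by positivity)).trans hsum
    nlinarith

/-- **GEO with an error factor**: `‖g v‖ ≤ c L`, `L ≤ ‖g j‖` in between. -/
theorem geo' {g : ℕ → M2} (hg : ∀ i, (g i).det = 1) {A L c : ℝ} {v N M0 : ℕ} (hM0 : 1 ≤ M0)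
    (hstep : ∀ j, v ≤ j → j < N → ‖g (j + 1) * (g j)⁻¹‖ ≤ A) (hL : 0 < L)
    (hv : ‖g v‖ ≤ c * L)
    (hv' : L ≤ A * ‖g v‖) (hlow : ∀ j, v < j → j < N → L ≤ ‖g j‖)
    (hsum : 4 * c ^ 2 * A ^ 4 * (A ^ 2 + M0) *
      ∑ j ∈ Ico (v + M0) N, 1 / ‖g j * (g v)⁻¹‖ ^ 2 ≤ 1)
    {m : ℕ} (hvm : v < m) (hmN : m ≤ N) :
    ‖g m * (g v)⁻¹‖ ≤ 2 * c * A ^ 2 * (A ^ 2 + M0) * (‖g m‖ / L) := by
  have h1 := transfer_le_S' hg hstep hL hv hvm hmN
  have h2 := S_le' hg hM0 hstep hL hv hv' hlow hsum hvm hmN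
  have pm := norm_pos' (hg m)
  have pv := norm_pos' (hg v)
  have hc0 : 0 ≤ c := by
    by_contra hcon
    push Not at hcon
    nlinarith
  calc ‖g m * (g v)⁻¹‖ ≤ c * A ^ 2 * (‖g m‖ / L) * S g L v m := h1
    _ ≤ c * A ^ 2 * (‖g m‖ / L) * (2 * (A ^ 2 + M0)) :=
        mul_le_mul_of_nonneg_left h2 (by positivity)
    _ = 2 * c * A ^ 2 * (A ^ 2 + M0) * (‖g m‖ / L) := by ring

/-- the constant of the upper half of GEO, in logarithms -/
noncomputable def C0 (A c0 : ℝ) (M0 : ℕ) : ℝ := Real.log (2 * A ^ 2 * (A ^ 2 + M0)) + 4 * c0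

/-- **upper half of GEO for the contour**: along the path from a foot, as long as the contour
stays above the level `lam` of the foot and the path is clean, the distance to the foot is at most
the height above the level, up to the constant `C0`. -/
theorem up {h : ℕ → M2} (hh : ∀ i, (h i).det = 1) {F : ℕ → ℝ} {c0 lam A : ℝ} {n M0 : ℕ}
    (hM0 : 1 ≤ M0) (hF : ∀ m, m ≤ n → |F m - Real.log ‖h m‖| ≤ c0)
    (hstep : ∀ m, m < n → ‖h (m + 1) * (h m)⁻¹‖ ≤ A)
    (hF0 : F 0 ≤ lam) (hmid : ∀ m, 0 < m → m ≤ n → lam ≤ F m)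
    (hsum : 4 * Real.exp (2 * c0) ^ 2 * A ^ 4 * (A ^ 2 + M0) *
      ∑ i ∈ Ico M0 n, 1 / ‖h i * (h 0)⁻¹‖ ^ 2 ≤ 1)
    {m : ℕ} (hm : 0 < m) (hmn : m ≤ n) :
    Real.log ‖h m * (h 0)⁻¹‖ ≤ F m - lam + C0 A c0 M0 := by
  have hn : 0 < n := by omega
  set L : ℝ := Real.exp (lam - c0) with hLdef
  have hL : 0 < L := Real.exp_pos _
  have hnorm : ∀ i, 0 < ‖h i‖ := fun i => norm_pos' (hh i)
  -- the foot
  have e0 : ‖h 0‖ ≤ Real.exp (2 * c0) * L := by
    have h1 := hF 0 (Nat.zero_le _)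
    rw [abs_le] at h1
    have h2 : Real.log ‖h 0‖ ≤ 2 * c0 + (lam - c0) := by linarith [h1.1]
    rw [hLdef, ← Real.exp_add]
    rw [← Real.exp_log (hnorm 0)]
    exact Real.exp_le_exp.mpr h2
  have elow : ∀ j, 0 < j → j ≤ n → L ≤ ‖h j‖ := by
    intro j hj hjn
    have h1 := hF j hjn
    rw [abs_le] at h1
    have h2 := hmid j hj hjn
    have h3 : lam - c0 ≤ Real.log ‖h j‖ := by linarith [h1.2]
    rw [hLdef, ← Real.exp_log (hnorm j)]
    exact Real.exp_le_exp.mpr h3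
  have hA0 : 0 < A := lt_of_lt_of_le (norm_pos' (det_mul_inv (hh 1) (hh 0))) (hstep 0 hn)
  have e0' : L ≤ A * ‖h 0‖ := by
    have h1 := le_transfer hh 0 1
    have h2 := hstep 0 hn
    exact (elow 1 one_pos hn).trans (h1.trans (mul_le_mul_of_nonneg_right h2 (hnorm 0).le))
  have h3 := geo' hh (v := 0) (N := n) hM0 (fun j _ hj => hstep j hj) hL e0 e0'
    (fun j hj hjn => elow j hj hjn.le) (by rw [zero_add]; exact hsum) hm hmn
  have hpos : 0 < ‖h m * (h 0)⁻¹‖ := norm_pos' (det_mul_inv (hh m) (hh 0))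
  have h4 := Real.log_le_log hpos h3
  have hM0' : (0 : ℝ) < (M0 : ℝ) := by exact_mod_cast hM0
  have h5 : Real.log (2 * Real.exp (2 * c0) * A ^ 2 * (A ^ 2 + M0) * (‖h m‖ / L)) =
      Real.log (2 * A ^ 2 * (A ^ 2 + M0)) + 2 * c0 + (Real.log ‖h m‖ - (lam - c0)) := by
    have e1 : 2 * Real.exp (2 * c0) * A ^ 2 * (A ^ 2 + M0) * (‖h m‖ / L) =
        (2 * A ^ 2 * (A ^ 2 + M0)) * Real.exp (2 * c0) * (‖h m‖ / L) := by ring
    rw [e1, Real.log_mul (by positivity) (by have := hnorm m; positivity),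
      Real.log_mul (by positivity) (by positivity), Real.log_exp,
      Real.log_div (hnorm m).ne' hL.ne', hLdef, Real.log_exp]
  rw [h5] at h4
  have h6 := hF m hmn
  rw [abs_le] at h6
  unfold C0
  linarith [h6.1]

/-- **lower half** -/
theorem low {h : ℕ → M2} (hh : ∀ i, (h i).det = 1) {F : ℕ → ℝ} {c0 lam : ℝ} {n : ℕ}
    (hF : ∀ m, m ≤ n → |F m - Real.log ‖h m‖| ≤ c0) (hF0 : F 0 ≤ lam) :
    F n - lam ≤ Real.log ‖h n * (h 0)⁻¹‖ + 2 * c0 := by
  have hnorm : ∀ i, 0 < ‖h i‖ := fun i => norm_pos' (hh i)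
  have hpos : 0 < ‖h n * (h 0)⁻¹‖ := norm_pos' (det_mul_inv (hh n) (hh 0))
  have h1 := Real.log_le_log (hnorm n) (le_transfer hh 0 n)
  rw [Real.log_mul hpos.ne' (hnorm 0).ne'] at h1
  have h2 := hF 0 (Nat.zero_le _)
  have h3 := hF n le_rfl
  rw [abs_le] at h2 h3
  linarith [h2.1, h3.2]

/-- **the drop**: a violation of `(c2)` along the path gives a relative drop of the contour. -/
theorem drop {h : ℕ → M2} (hh : ∀ i, (h i).det = 1) {F : ℕ → ℝ} {c0 lam A : ℝ} {n M0 : ℕ}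
    (hM0 : 1 ≤ M0) (hF : ∀ m, m ≤ n → |F m - Real.log ‖h m‖| ≤ c0)
    (hstep : ∀ m, m < n → ‖h (m + 1) * (h m)⁻¹‖ ≤ A)
    (hF0 : F 0 ≤ lam) (hmid : ∀ m, 0 < m → m ≤ n → lam ≤ F m)
    (hsum : 4 * Real.exp (2 * c0) ^ 2 * A ^ 4 * (A ^ 2 + M0) *
      ∑ i ∈ Ico M0 n, 1 / ‖h i * (h 0)⁻¹‖ ^ 2 ≤ 1)
    {Wi Wn C2 d D : ℝ} {i : ℕ} (hi : 0 < i) (hin : i ≤ n) (hWi : Wi ≤ ‖h i * (h 0)⁻¹‖)
    (hWi1 : 1 ≤ Wi) (hWn : 0 < Wn) (hC2 : 0 < C2) (hn2 : ‖h n * (h 0)⁻¹‖ ≤ C2 * Wn)
    (hd0 : 0 ≤ d) (hd1 : d ≤ 1) (hviol : Wn ≤ Wi ^ (1 - d))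
    (hD : D + C0 A c0 M0 ≤ Real.log Wi)
    (hbig : (1 - d) * C0 A c0 M0 + Real.log C2 + 2 * c0 ≤ d / 2 * (Real.log Wi - C0 A c0 M0)) :
    ∃ a, 0 < a ∧ a ≤ n ∧ (∀ m, 0 < m → m ≤ n → F m ≤ F a) ∧ D ≤ F a - lam ∧
      F n ≤ F a - d / 2 * (F a - lam) := by
  obtain ⟨a, ha, hmax⟩ := Finset.exists_max_image (Finset.Ioc 0 n) F ⟨i, by simp [hi, hin]⟩
  rw [Finset.mem_Ioc] at ha
  have hmax' : ∀ m, 0 < m → m ≤ n → F m ≤ F a := fun m h1 h2 => hmax m (by simp [h1, h2])
  have hWi0 : 0 < Wi := by linarith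
  have hpi : 0 < ‖h i * (h 0)⁻¹‖ := norm_pos' (det_mul_inv (hh i) (hh 0))
  have h1 := up hh hM0 hF hstep hF0 hmid hsum hi hin
  have h2 : Real.log Wi ≤ F i - lam + C0 A c0 M0 :=
    (Real.log_le_log hWi0 hWi).trans h1
  have h3 := low hh hF hF0
  have h4 : Real.log ‖h n * (h 0)⁻¹‖ ≤ Real.log C2 + Real.log Wn := by
    rw [← Real.log_mul hC2.ne' hWn.ne']
    exact Real.log_le_log (norm_pos' (det_mul_inv (hh n) (hh 0))) hn2
  have h5 : Real.log Wn ≤ (1 - d) * Real.log Wi := by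
    rw [← Real.log_rpow hWi0]
    exact Real.log_le_log hWn hviol
  have h6 : F i ≤ F a := hmax' i hi hin
  refine ⟨a, ha.1, ha.2, hmax', by linarith, ?_⟩
  have h7 : (1 - d) * Real.log Wi ≤ (1 - d) * (F a - lam + C0 A c0 M0) :=
    mul_le_mul_of_nonneg_left (by linarith) (by linarith)
  have h8 : d / 2 * (Real.log Wi - C0 A c0 M0) ≤ d / 2 * (F a - lam) :=
    mul_le_mul_of_nonneg_left (by linarith) (by linarith)
  nlinarith



end Crest.Agent.R128.FootG
end

-- ▼ part R128/HypInst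
section

set_option autoImplicit false
set_option linter.unusedVariables false

/-! Row 128, MASTER v2, V1: the leaves (P1) of helper337.  Written by helper550. Sorry free. -/

open Crest.AnalysisR.StandardFamily
open scoped Matrix.Norms.L2Operator

namespace Crest.Agent.R128.HypInst

open Crest.Agent.R128.Hyp Crest.Agent.R128.Acc Crest.Agent.R128.NestedInst

theorem norm_Am_le' {k : ℝ} (hk : 2 ≤ k) (y : Tor) : ‖Am k y‖ ≤ 8 * k := by
  have h1 := dg_le k (by linarith) y 0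
  unfold dg at h1
  simp only [Function.iterate_zero, id_eq] at h1
  have hpi := Real.pi_lt_d2
  have h2 : |V k y.2| + 1 ≤ 8 * k := by nlinarith
  have hV := abs_nonneg (V k y.2)
  apply norm_le_of_ap (by linarith)
  intro v
  have e : ap (Am k y) v = -rot v + (V k y.2 * v 1) • (!₂[0, 1] : E2) + 0 := by
    ext i
    rw [ap_apply]
    unfold Am rot
    fin_cases i
    · simp
    · simp
  have h3 : ‖(!₂[0, 1] : E2)‖ ≤ 1 := by
    have h5 := norm_sq (!₂[0, 1] : E2)
    simp at h5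
    rcases h5 with h5 | h5
    · exact h5.le
    · linarith
  have hv1 : |v 1| ≤ ‖v‖ := by
    apply abs_le_of_sq_le_sq _ (norm_nonneg _)
    rw [norm_sq]
    nlinarith [sq_nonneg (v 0)]
  rw [e, add_zero]
  calc ‖-rot v + (V k y.2 * v 1) • (!₂[0, 1] : E2)‖ ≤ ‖-rot v‖ + ‖(V k y.2 * v 1) • (!₂[0, 1] : E2)‖ :=
        norm_add_le _ _
    _ ≤ ‖v‖ + |V k y.2| * ‖v‖ := by
        rw [norm_neg, norm_rot, norm_smul, Real.norm_eq_abs, abs_mul]
        have : |V k y.2| * |v 1| * ‖(!₂[0, 1] : E2)‖ ≤ |V k y.2| * ‖v‖ * 1 := by gcongr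
        linarith
    _ = (|V k y.2| + 1) * ‖v‖ := by ring
    _ ≤ 8 * k * ‖v‖ := by gcongr


/-- (P1a) -/
theorem hyp_inst {k : ℝ} (hk : 4 ≤ k) (z : Tor) :
    Tips.IsHyp (Hyp.dist (fun n => Mn k n z)) (Real.log 2 / 2) (Real.log (8 * k)) := by
  apply isHyp (fun n => det_Mn k n z)
  intro n
  have e : Mn k (n + 1) z * (Mn k n z)⁻¹ = Am k ((T k)^[n] z) := by
    rw [Mn_succ', Matrix.mul_assoc, Matrix.mul_nonsing_inv _ (by rw [det_Mn]; exact isUnit_one),
      Matrix.mul_one]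
  rw [e]
  have h1 := norm_Am_le' (by linarith : (2:ℝ) ≤ k) ((T k)^[n] z)
  have h2 := one_le_norm (det_Am k ((T k)^[n] z))
  exact Real.log_le_log (by linarith) h1

theorem dist_zero (k : ℝ) (z : Tor) (m : ℕ) :
    Hyp.dist (fun n => Mn k n z) 0 m = Real.log ‖Mn k m z‖ := by
  unfold Hyp.dist
  simp

/-- (P1b) -/
theorem bt_dist (k : ℝ) (z : Tor) (m : ℕ) :
    |bt (rr k z) m - Hyp.dist (fun n => Mn k n z) 0 m| ≤ Real.log 2 := by
  rw [dist_zero]
  exact near_bt k m z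


/-- (P1c) time reversal in the window `[0, N]`, with truncated subtraction the steps beyond `N` are
trivial -/
theorem rev_inst {d : ℕ → ℕ → ℝ} {δ B : ℝ} (h : Tips.IsHyp d δ B) (N : ℕ) (hB : 0 ≤ B) :
    Tips.IsHyp (fun i j => d (N - i) (N - j)) δ B where
  symm i j := h.symm _ _
  self i := h.self _
  nonneg i j := h.nonneg _ _
  tri i j l := h.tri _ _ _
  hyp i j l w := h.hyp _ _ _ _
  step i := by
    rcases Nat.lt_or_ge i N with h1 | h1
    · have h2 := h.step (N - (i + 1))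
      rw [show N - (i + 1) + 1 = N - i by omega] at h2
      rw [h.symm]
      exact h2
    · rw [show N - i = N - (i + 1) by omega, h.self]
      exact hB
  δ_nonneg := h.δ_nonneg

end Crest.Agent.R128.HypInst
end

-- ▼ part R128/Link
section

/-!
Row 128, node V5-LINK (helper862): from the root contour `β n = bt (rr k z) n` to intrinsic data at
`y = (T k)^[t] z`.

* `root_field`: a two-sided Jacobi field `x` at `y` with `max |x (-1)| |x 0| = 1` which is dominated by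
  the root contour at ALL times (one field for all levels of all components containing `t`);
* `root_field_top`: if `β (t-1) < β t` then `|x 0| = 1`, `|x (-1)| < 1`;
* `nu_of_field`, `digit_of_field`: 220's alignment and digit equations with EXPLICIT feet;
* `comp_field`: one closed component `(i,j)` of level `L` with top `t`.
-/

set_option autoImplicit false
open MeasureTheory Filter Topology
open Crest.Agent.R128 Crest.Agent.R128.Two Crest.Agent.R128.Acc Crest.Agent.R128.AlignMn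
open Crest.Agent.R128.TreeSum Crest.Agent.R128.AlignLam

namespace Crest.Agent.R128.Link

/-- the field at `y = T^t z` given by the vector `v0` at the root -/
theorem Az_root (k : ℝ) (z : Tor) (t : ℕ) (v0 : ℝ × ℝ) {m : ℤ} (hm : -(t : ℤ) ≤ m) :
    act (Az k m ((T k)^[t] z)) (act (Mn k t z) v0) = act (Mn k (m + t).toNat z) v0 := by
  have e1 : (T k)^[t] z = Tz k t z := by rw [Tz_natCast]
  rw [e1, ← Az_natCast, ← act_mul, ← Az_add]
  have e2 : m + t = (((m + t).toNat : ℕ) : ℤ) := (Int.toNat_of_nonneg (by omega)).symm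
  conv_lhs => rw [e2]
  rw [Az_natCast]

/-- **root field** -/
theorem root_field (k : ℝ) (z : Tor) (t : ℕ) : ∃ x : ℤ → ℝ,
    (∀ n, x (n + 1) = dz k ((T k)^[t] z) n * x n - x (n - 1)) ∧ max |x (-1)| |x 0| = 1 ∧
    ∀ m : ℤ, -(t : ℤ) ≤ m →
      max |x (m - 1)| |x m| ≤ Real.exp (bt (rr k z) (m + t).toNat - bt (rr k z) t) := by
  obtain ⟨e, he1, he2⟩ := exists_max (Mn k t z)
  have hnm : max (rn (Mn k t z) 0) (rn (Mn k t z) 1) = nm k t z := by
    unfold nm
    rw [rr_succ]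
    rfl
  rw [hnm] at he2
  have hp := nm_pos k t z
  have he3 : ‖act (Mn k t z) e‖ = nm k t z := by
    apply le_antisymm _ he2
    refine (norm_act_Mn_le k t z e).trans ?_
    nlinarith
  have key : ∀ m, ‖act (Mn k m z) ((nm k t z)⁻¹ • e)‖ ≤
      Real.exp (bt (rr k z) m - bt (rr k z) t) := by
    intro m
    rw [act_smul, norm_smul, Real.exp_sub, exp_bt, exp_bt, norm_inv, Real.norm_of_nonneg hp.le,
      div_eq_inv_mul]
    apply mul_le_mul_of_nonneg_left _ (inv_nonneg.mpr hp.le)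
    refine (norm_act_Mn_le k m z e).trans ?_
    have := (nm_pos k m z)
    nlinarith
  set v0 : ℝ × ℝ := (nm k t z)⁻¹ • e with hv0
  set y := (T k)^[t] z with hy
  set v := act (Mn k t z) v0 with hv
  have hnorm : ∀ m : ℤ, -(t : ℤ) ≤ m →
      max |xf k y v (m - 1)| |xf k y v m| = ‖act (Mn k (m + t).toNat z) v0‖ := by
    intro m hm
    rw [← norm_act_Az, hy, hv, Az_root k z t v0 hm]
  refine ⟨xf k y v, fun n => xf_succ k y v n, ?_, ?_⟩
  · have h := hnorm 0 (by omega)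
    rw [zero_sub, zero_add, Int.toNat_natCast] at h
    rw [h, hv0, act_smul, norm_smul, he3, norm_inv, Real.norm_of_nonneg hp.le,
      inv_mul_cancel₀ hp.ne']
  · intro m hm
    rw [hnorm m hm]
    exact key _

/-- at a strict (from the left) top the field is normalised at `0` -/
theorem root_field_top (k : ℝ) (z : Tor) {t : ℕ} (ht : 0 < t)
    (htop : bt (rr k z) (t - 1) < bt (rr k z) t) : ∃ x : ℤ → ℝ,
    (∀ n, x (n + 1) = dz k ((T k)^[t] z) n * x n - x (n - 1)) ∧ |x 0| = 1 ∧ |x (-1)| < 1 ∧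
    ∀ m : ℤ, -(t : ℤ) ≤ m →
      max |x (m - 1)| |x m| ≤ Real.exp (bt (rr k z) (m + t).toNat - bt (rr k z) t) := by
  obtain ⟨x, hx, h1, h2⟩ := root_field k z t
  have h3 : |x (-1)| < 1 := by
    have h := h2 (-1) (by omega)
    have e : ((-1 : ℤ) + t).toNat = t - 1 := by omega
    rw [e] at h
    refine (le_max_right _ _).trans_lt (h.trans_lt ?_)
    rw [← Real.exp_zero]
    exact Real.exp_lt_exp.mpr (by linarith)
  refine ⟨x, hx, ?_, h3, h2⟩
  rcases max_choice |x (-1)| |x 0| with h | h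
  · rw [h] at h1
    linarith
  · rw [h] at h1
    exact h1






end Crest.Agent.R128.Link
end

-- ▼ part R128/Bridge882
section

/-!
# Row 128, V5-BRIDGE, second implementation (helper882)

Two fresh levels `l` and `l' = l - 84 .. l - 90` of the root contour with the same first top `t`
give the intrinsic very fresh event `Good.G` at `(T k)^[t] z`.
-/

set_option autoImplicit false
open scoped Matrix.Norms.L2Operator
open Matrix Finset
open Crest.AnalysisR.StandardFamily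

namespace Crest.Agent.R128.Bridge882

open Crest.Agent.R128 Crest.Agent.R128.TreeSum Crest.Agent.R128.Acc Crest.Agent.R128.Lam0
open Crest.Agent.R128.Hyp Crest.Agent.R128.ValNorm

/-! ## consequences of validity -/

section val

variable {k : ℝ} {L0 n : ℕ} {u : Tor}

theorem val_c1 (h : Skel.Val k 1000 L0 u n) {L : ℕ} (hL : L ≤ L0) (hLn : L ≤ n) :
    ∀ m, m < L → k ^ (2 / 3 : ℝ) ≤ |V k ((T k)^[m] u).2| :=
  fun m hm => h.cl m (by omega) (by omega)

/-- growth through the first digits -/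
theorem val_growth (hk : 100 ≤ k) (h : Skel.Val k 1000 L0 u n) {m : ℕ} (hm : m ≤ L0)
    (hmn : m ≤ n) : (k ^ (1 / 2 : ℝ)) ^ m ≤ W k u m := by
  have h1 := W_pow (ValD.three hk) (val_c1 h hm hmn) (le_refl m)
  have h2 := beta_ge hk
  have h3 := ten_le hk
  exact (pow_le_pow_left₀ (by linarith) (by linarith) m).trans h1

/-- beyond 1000 steps the field is at least `k ^ 400` and `j ^ 2` -/
theorem val_far (hk : 100 ≤ k) (hL0 : 1000 ≤ L0) (h : Skel.Val k 1000 L0 u n) {j : ℕ}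
    (hj : 1000 ≤ j) (hjn : j ≤ n) : k ^ 400 ≤ W k u j ∧ (j : ℝ) ^ 2 ≤ W k u j := by
  have hk0 : 0 < k := by linarith
  have hk1 : 1 ≤ k := by linarith
  have h1 := val_growth hk h hL0 (hj.trans hjn)
  have e1 : (k ^ (1 / 2 : ℝ)) ^ 1000 = k ^ 500 := by
    rw [← Real.rpow_natCast, ← Real.rpow_mul hk0.le, ← Real.rpow_natCast k 500]
    norm_num
  rw [e1] at h1
  have hW0 : 0 ≤ W k u j := W_nonneg k u j
  constructor
  · have h2 := h.v2 1000 j le_rfl hj hjn
    have h3 : (k ^ 500) ^ 999 ≤ W k u j ^ 1000 :=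
      (pow_le_pow_left₀ (by positivity) h1 999).trans h2
    have h4 : (k ^ 400) ^ 1000 ≤ W k u j ^ 1000 := by
      refine le_trans ?_ h3
      rw [← pow_mul, ← pow_mul]
      exact pow_le_pow_right₀ hk1 (by norm_num)
    exact le_of_pow_le_pow_left₀ (by norm_num) hW0 h4
  · obtain ⟨i, hi1, hi2, hi3⟩ := h.v3 j hj hjn
    have h2 := h.v2 i j hi1 hi2 hjn
    have hj1 : (1 : ℝ) ≤ j := by exact_mod_cast (by omega : 1 ≤ j)
    have h3 : ((j : ℝ) ^ (4 * 1000)) ^ 999 ≤ W k u j ^ 1000 :=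
      (pow_le_pow_left₀ (by positivity) hi3 999).trans h2
    have h4 : ((j : ℝ) ^ 2) ^ 1000 ≤ W k u j ^ 1000 := by
      refine le_trans ?_ h3
      rw [← pow_mul, ← pow_mul]
      exact pow_le_pow_right₀ hj1 (by norm_num)
    exact le_of_pow_le_pow_left₀ (by norm_num) hW0 h4

/-- the sum of GEO -/
theorem val_sum (hk : 10000 ≤ k) (hL0 : 1000 ≤ L0) (h : Skel.Val k 1000 L0 u n)
    {d : ℕ → ℝ} (hd : ∀ m, m ≤ n → W k u m ≤ d m) :
    4 * Real.exp (2 * Real.log 2) ^ 2 * (8 * k) ^ 4 * ((8 * k) ^ 2 + (1000 : ℕ)) *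
      ∑ i ∈ Ico 1000 n, 1 / d i ^ 2 ≤ 1 := by
  have hk0 : 0 < k := by linarith
  have h1 : ∑ i ∈ Ico (0 + 1000) n, 1 / d i ^ 2 ≤ 2 / k ^ 8 := by
    apply Geo.sum_of_clean (by norm_num) (by positivity)
    · intro j hj hjn
      have h2 := (val_far (by linarith) hL0 h (by omega : 1000 ≤ j) hjn.le).1
      have h3 : k ^ 8 ≤ k ^ 400 := pow_le_pow_right₀ (by linarith) (by norm_num)
      exact h3.trans (h2.trans (hd j hjn.le))
    · intro j hj hjn
      have h2 := (val_far (by linarith) hL0 h (by omega : 1000 ≤ j) hjn.le).2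
      rw [Nat.sub_zero]
      exact h2.trans (hd j hjn.le)
  rw [Nat.zero_add] at h1
  have e1 : Real.exp (2 * Real.log 2) = 4 := by
    rw [show 2 * Real.log 2 = Real.log 2 + Real.log 2 by ring, Real.exp_add, Real.exp_log (by norm_num)]
    norm_num
  rw [e1]
  have h2 : 4 * (4 : ℝ) ^ 2 * (8 * k) ^ 4 * ((8 * k) ^ 2 + (1000 : ℕ)) ≤ 2 * 10 ^ 7 * k ^ 6 := by
    push_cast
    have h3 : (1000 : ℝ) ≤ k ^ 2 := by nlinarith
    have h4 : (0 : ℝ) ≤ k ^ 4 := by positivity
    nlinarith [mul_le_mul_of_nonneg_left h3 h4]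
  have h0 : 0 ≤ ∑ i ∈ Ico 1000 n, 1 / d i ^ 2 := Finset.sum_nonneg fun i _ => by positivity
  calc 4 * (4 : ℝ) ^ 2 * (8 * k) ^ 4 * ((8 * k) ^ 2 + (1000 : ℕ)) * ∑ i ∈ Ico 1000 n, 1 / d i ^ 2
      ≤ (2 * 10 ^ 7 * k ^ 6) * (2 / k ^ 8) := by
        apply mul_le_mul h2 h1 h0 (by positivity)
    _ = 4 * 10 ^ 7 / k ^ 2 := by
        have : k ^ 8 = k ^ 6 * k ^ 2 := by ring
        rw [this]
        field_simp
        ring
    _ ≤ 1 := by
        rw [div_le_one (by positivity)]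
        nlinarith

theorem C0_le (hk : 10 ^ 10 ≤ k) :
    FootG.C0 (8 * k) (Real.log 2) 1000 + 3 ≤ 5 * Real.log k := by
  have hk0 : 0 < k := by linarith
  unfold FootG.C0
  have h1 : 2 * (8 * k) ^ 2 * ((8 * k) ^ 2 + ((1000 : ℕ) : ℝ)) ≤ 10 ^ 4 * k ^ 4 := by
    push_cast
    have h3 : (1000 : ℝ) ≤ k ^ 2 := by nlinarith
    have h4 : (0 : ℝ) ≤ k ^ 2 := by positivity
    nlinarith [mul_le_mul_of_nonneg_left h3 h4]
  have h2 := Real.log_le_log (by positivity) h1
  have h2' : Real.log (10 ^ 4 * k ^ 4) = 4 * Real.log 10 + 4 * Real.log k := by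
    rw [Real.log_mul (by norm_num) (by positivity), Real.log_pow, Real.log_pow]
    norm_num
  rw [h2'] at h2
  have h3 : 10 * Real.log 10 ≤ Real.log k := by
    rw [show 10 * Real.log 10 = Real.log (10 ^ 10) by rw [Real.log_pow]; norm_num]
    exact Real.log_le_log (by norm_num) hk
  have h4 : 3 * Real.log 2 ≤ Real.log 10 := by
    rw [show 3 * Real.log 2 = Real.log (2 ^ 3) by rw [Real.log_pow]; norm_num]
    exact Real.log_le_log (by norm_num) (by norm_num)
  have h5 := Real.log_two_gt_d9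
  linarith

/-- **GEO for a valid start**: the transfer is bounded by the height above the level -/
theorem geo_up (hk : 10 ^ 10 ≤ k) (hL0 : 1000 ≤ L0) (h : Skel.Val k 1000 L0 u n)
    {g : ℕ → M2} (hg : ∀ i, (g i).det = 1) {F : ℕ → ℝ} {lam : ℝ}
    (hF : ∀ m, m ≤ n → |F m - Real.log ‖g m‖| ≤ Real.log 2)
    (hstep : ∀ m, m < n → ‖g (m + 1) * (g m)⁻¹‖ ≤ 8 * k)
    (hgu : ∀ m, m ≤ n → Real.log ‖g m * (g 0)⁻¹‖ = Real.log ‖Mn k m u‖)
    (hF0 : F 0 ≤ lam) (hmid : ∀ m, 0 < m → m ≤ n → lam ≤ F m) {m : ℕ} (hm : 0 < m) (hmn : m ≤ n) :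
    Real.log ‖Mn k m u‖ + 3 ≤ F m - lam + 5 * Real.log k := by
  have hnorm : ∀ m, m ≤ n → ‖g m * (g 0)⁻¹‖ = ‖Mn k m u‖ := by
    intro m hm
    have h1 := hgu m hm
    have p1 : 0 < ‖g m * (g 0)⁻¹‖ := Chain.norm_pos' (det_mul_inv (hg m) (hg 0))
    have p2 : 0 < ‖Mn k m u‖ := Chain.norm_pos' (det_Mn k m u)
    rw [← Real.exp_log p1, h1, Real.exp_log p2]
  have h1 := FootG.up hg (by norm_num : 1 ≤ 1000) hF hstep hF0 hmid
    (val_sum (by linarith) hL0 h (d := fun i => ‖g i * (g 0)⁻¹‖) (fun m hm => by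
      show W k u m ≤ ‖g m * (g 0)⁻¹‖
      rw [hnorm m hm]
      exact W_le_l2 k u m)) hm hmn
  rw [hgu m hmn] at h1
  have h2 := C0_le hk
  linarith

/-- number of steps to a foot of moderately small depth -/
theorem steps_le (hk : 10 ^ 10 ≤ k) (hL0 : 1000 ≤ L0) (h : Skel.Val k 1000 L0 u n) {m : ℕ}
    (hmn : m ≤ n) (hle : Real.log ‖Mn k m u‖ ≤ 96 * Real.log k) : m ≤ 192 := by
  have hk0 : 0 < k := by linarith
  have hlk : 0 < Real.log k := Real.log_pos (by linarith)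
  have hW := W_le_l2 k u m
  rcases Nat.lt_or_ge m 1000 with hlt | hge
  · have h1 := val_growth (by linarith) h (hlt.le.trans hL0) hmn
    have h2 : Real.log ((k ^ (1 / 2 : ℝ)) ^ m) ≤ Real.log ‖Mn k m u‖ :=
      Real.log_le_log (by positivity) (h1.trans hW)
    rw [Real.log_pow, Real.log_rpow hk0] at h2
    have h3 : (m : ℝ) * (1 / 2 * Real.log k) ≤ 96 * Real.log k := h2.trans hle
    have h4 : (m : ℝ) ≤ 192 := by
      by_contra hc
      push Not at hc
      nlinarith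
    exact_mod_cast h4
  · exfalso
    have h1 := (val_far (by linarith) hL0 h hge hmn).1
    have h2 : Real.log (k ^ 400) ≤ Real.log ‖Mn k m u‖ :=
      Real.log_le_log (by positivity) (h1.trans hW)
    rw [Real.log_pow] at h2
    push_cast at h2
    linarith

theorem cval_of_val (hk : 100 ≤ k) (hL0 : 1000 ≤ L0) (h : Skel.Val k 1000 L0 u n) {n' : ℕ}
    (hn : n' ≤ n) : Good.CVal k L0 u n' where
  cl := fun m h1 h2 => h.cl m h1 (by omega)
  v2 := by
    intro i j hi hij hj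
    have h1 := h.v2 i j (by omega) hij (by omega)
    have h2 : 1 ≤ ‖fld k u i‖ := by
      have h3 := (val_far hk hL0 h (by omega : 1000 ≤ i) (by omega)).1
      have h5 : (1 : ℝ) ≤ k ^ 400 := one_le_pow₀ (by linarith)
      exact h5.trans h3
    have h1' : ‖fld k u i‖ ^ 999 ≤ ‖fld k u j‖ ^ 1000 := h1
    have h5 : ‖fld k u i‖ ^ 990 ≤ ‖fld k u i‖ ^ 999 := pow_le_pow_right₀ h2 (by norm_num)
    have h4 : (‖fld k u i‖ ^ 99) ^ 10 ≤ (‖fld k u j‖ ^ 100) ^ 10 := by
      rw [← pow_mul, ← pow_mul]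
      norm_num
      exact h5.trans h1'
    exact le_of_pow_le_pow_left₀ (by norm_num) (pow_nonneg (norm_nonneg _) _) h4
  v3 := by
    intro j hj hjn
    refine ⟨j, hj, le_rfl, ?_⟩
    obtain ⟨i, hi1, hi2, hi3⟩ := h.v3 j (by omega) (by omega)
    have h2 := h.v2 i j hi1 hi2 (by omega)
    have hj1 : (1 : ℝ) ≤ j := by exact_mod_cast (by omega : 1 ≤ j)
    have h3 : ((j : ℝ) ^ (4 * 1000)) ^ 999 ≤ ‖fld k u j‖ ^ 1000 :=
      (pow_le_pow_left₀ (by positivity) hi3 999).trans h2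
    have h4 : ((j : ℝ) ^ 400) ^ 1000 ≤ ‖fld k u j‖ ^ 1000 := by
      refine le_trans ?_ h3
      rw [← pow_mul, ← pow_mul]
      exact pow_le_pow_right₀ hj1 (by norm_num)
    exact le_of_pow_le_pow_left₀ (by norm_num) (by positivity) h4

end val

/-! ## the two sides of the root orbit -/

theorem step_norm {k : ℝ} (hk : 2 ≤ k) (z : Tor) (n : ℕ) :
    ‖Mn k (n + 1) z * (Mn k n z)⁻¹‖ ≤ 8 * k := by
  have e : Mn k (n + 1) z * (Mn k n z)⁻¹ = Am k ((T k)^[n] z) := by
    rw [Mn_succ', Matrix.mul_assoc, Matrix.mul_nonsing_inv _ (by rw [det_Mn]; exact isUnit_one),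
      Matrix.mul_one]
  rw [e]
  exact HypInst.norm_Am_le' hk _

theorem step_norm' {k : ℝ} (hk : 2 ≤ k) (z : Tor) (n : ℕ) :
    ‖Mn k n z * (Mn k (n + 1) z)⁻¹‖ ≤ 8 * k := by
  rw [Chain.norm_symm (det_Mn k _ z) (det_Mn k _ z)]
  exact step_norm hk z n

/-- one step of the contour -/
theorem bz_step {k : ℝ} (hk : 1000 ≤ k) (z : Tor) (n : ℕ) :
    |Close.bz k z (n + 1) - Close.bz k z n| ≤ 2 * Real.log k := by
  have h1 := HypInst.bt_dist k z n
  have h2 := HypInst.bt_dist k z (n + 1)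
  have H := HypInst.hyp_inst (by linarith : 4 ≤ k) z
  have h3 := H.step n
  have h4 := H.tri 0 n (n + 1)
  have h5 := H.tri 0 (n + 1) n
  rw [H.symm (n + 1) n] at h5
  have h6 : Real.log (8 * k) = 3 * Real.log 2 + Real.log k := by
    rw [Real.log_mul (by norm_num) (by linarith), show (8 : ℝ) = 2 ^ 3 by norm_num, Real.log_pow]
    norm_num
  have h7 : 9 * Real.log 2 ≤ Real.log k := by
    rw [show 9 * Real.log 2 = Real.log (2 ^ 9) by rw [Real.log_pow]; norm_num]
    exact Real.log_le_log (by norm_num) (by norm_num; linarith)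
  rw [abs_le] at h1 h2
  unfold Close.bz
  rw [abs_le]
  have hl2 : 0 < Real.log 2 := Real.log_pos one_lt_two
  constructor <;> linarith [h1.1, h1.2, h2.1, h2.2]

theorem bz_step_iter {k : ℝ} (hk : 1000 ≤ k) (z : Tor) (n m : ℕ) :
    |Close.bz k z (n + m) - Close.bz k z n| ≤ m * (2 * Real.log k) := by
  induction m with
  | zero => simp
  | succ m ih =>
    have h := bz_step hk z (n + m)
    have e : Close.bz k z (n + (m + 1)) - Close.bz k z n =
        (Close.bz k z (n + m + 1) - Close.bz k z (n + m)) +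
          (Close.bz k z (n + m) - Close.bz k z n) := by
      rw [show n + (m + 1) = n + m + 1 by omega]
      ring
    rw [e]
    push_cast
    refine (abs_add_le _ _).trans ?_
    linarith


theorem Rev_eq (k : ℝ) (z : Tor) : DictY.Rev k z = (T k z).swap := rfl

section sides

variable {k : ℝ} {L0 N : ℕ} {z : Tor} {i t j l : ℕ}

/-- transfer from the right foot back to the top and beyond -/
theorem right_up (hk : 10 ^ 10 ≤ k) (hL0 : 1000 ≤ L0)
    (hc : Close.Cmp (Close.bz k z) (Real.log k) N i t j l)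
    (h : Skel.Val k 1000 L0 ((T k)^[j] z).swap (j - t)) {m : ℕ} (hm : 0 < m) (hmn : m ≤ j - t) :
    Real.log ‖Mn k m ((T k)^[j] z).swap‖ + 3 ≤
      Close.bz k z (j - m) - l * Real.log k + 5 * Real.log k := by
  have htj := hc.tj
  have hit := hc.it
  refine geo_up hk hL0 h (g := fun m => Mn k (j - m) z) (F := fun m => Close.bz k z (j - m))
    (fun _ => det_Mn k _ z) (fun m hm => ?_) (fun m hm => ?_) (fun m hm => ?_) ?_
    (fun m h1 h2 => ?_) hm hmn
  · have := HypInst.bt_dist k z (j - m)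
    rw [HypInst.dist_zero] at this
    exact this
  · have h1 := step_norm' (by linarith : 2 ≤ k) z (j - (m + 1))
    rw [show j - (m + 1) + 1 = j - m by omega] at h1
    exact h1
  · have h1 := Dd_sub k z (show m ≤ j by omega)
    exact h1
  · simpa using hc.right
  · exact (hc.above (j - m) (by omega) (by omega)).le

/-- transfer from the left foot forward -/
theorem left_up (hk : 10 ^ 10 ≤ k) (hL0 : 1000 ≤ L0)
    (hc : Close.Cmp (Close.bz k z) (Real.log k) N i t j l)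
    (h : Skel.Val k 1000 L0 ((T k)^[i] z) (t - i)) {m : ℕ} (hm : 0 < m) (hmn : m ≤ t - i) :
    Real.log ‖Mn k m ((T k)^[i] z)‖ + 3 ≤
      Close.bz k z (i + m) - l * Real.log k + 5 * Real.log k := by
  have htj := hc.tj
  have hit := hc.it
  refine geo_up hk hL0 h (g := fun m => Mn k (i + m) z) (F := fun m => Close.bz k z (i + m))
    (fun _ => det_Mn k _ z) (fun m hm => ?_) (fun m hm => ?_) (fun m hm => ?_) ?_
    (fun m h1 h2 => ?_) hm hmn
  · have := HypInst.bt_dist k z (i + m)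
    rw [HypInst.dist_zero] at this
    exact this
  · exact step_norm (by linarith : 2 ≤ k) z (i + m)
  · have h1 := Dd_add k z i m
    exact h1
  · simpa using hc.left
  · exact (hc.above (i + m) (by omega) (by omega)).le

/-- digits before the right foot -/
theorem right_digit {n' : ℕ} (h : Skel.Val k 1000 L0 ((T k)^[j] z).swap n') {p : ℕ} (hpj : p < j)
    (h1 : j - 1 - p < L0) (h2 : j - 1 - p < n') : k ^ (2 / 3 : ℝ) ≤ |V k ((T k)^[p] z).2| := by
  have h3 := h.cl (j - 1 - p) h1 h2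
  rw [Rev.iter_swap, Tinv_iter_T_iter k (by omega), show j - (j - 1 - p) = p + 1 by omega,
    Function.iterate_succ_apply'] at h3
  exact h3

/-- digits after the left foot -/
theorem left_digit {n' : ℕ} (h : Skel.Val k 1000 L0 ((T k)^[i] z) n') {p : ℕ} (hpi : i ≤ p)
    (h1 : p - i < L0) (h2 : p - i < n') : k ^ (2 / 3 : ℝ) ≤ |V k ((T k)^[p] z).2| := by
  have h3 := h.cl (p - i) h1 h2
  rw [← Function.iterate_add_apply, show p - i + i = p by omega] at h3
  exact h3


/-- two fresh levels: number of steps, right side -/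
theorem right_steps (hk : 10 ^ 10 ≤ k) (hL0 : 1000 ≤ L0)
    (hc : Close.Cmp (Close.bz k z) (Real.log k) N i t j l) {i' j' l' : ℕ}
    (hc' : Close.Cmp (Close.bz k z) (Real.log k) N i' t j' l') (hl1 : l' + 3 ≤ l)
    (hl2 : l ≤ l' + 90) (h' : Skel.Val k 1000 L0 ((T k)^[j'] z).swap (j' - t)) :
    j < j' ∧ j' - j ≤ 192 := by
  have hlk : 0 < Real.log k := Real.log_pos (by linarith)
  have hll : (l' : ℝ) + 3 ≤ l := by exact_mod_cast hl1
  have hll2 : (l : ℝ) ≤ l' + 90 := by exact_mod_cast hl2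
  have h1 : j ≤ j' := by
    by_contra hc1
    push Not at hc1
    have h2 := hc.above j' (hc.it.trans hc'.tj) hc1
    have h3 := hc'.right
    nlinarith
  have h2 : j ≠ j' := by
    intro he
    have h3 := hc.above (j - 1) (by have := hc.it; have := hc.tj; omega) (by have := hc.tj; omega)
    have h4 := hc'.right
    rw [← he] at h4
    have h5 := bz_step (by linarith : (1000 : ℝ) ≤ k) z (j - 1)
    rw [show j - 1 + 1 = j by have := hc.tj; omega, abs_le] at h5
    rcases Nat.eq_or_lt_of_le (show t ≤ j - 1 by have := hc.tj; omega) with h6 | h6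
    · nlinarith [h5.1, h5.2]
    · nlinarith [h5.1, h5.2]
  have h3 : j < j' := lt_of_le_of_ne h1 h2
  refine ⟨h3, ?_⟩
  have htj := hc.tj
  have h4 := right_up hk hL0 hc' h' (m := j' - j) (by omega) (by omega)
  rw [show j' - (j' - j) = j by omega] at h4
  have h5 := hc.right
  refine steps_le hk hL0 h' (by omega) ?_
  nlinarith

/-- two fresh levels: number of steps, left side -/
theorem left_steps (hk : 10 ^ 10 ≤ k) (hL0 : 1000 ≤ L0)
    (hc : Close.Cmp (Close.bz k z) (Real.log k) N i t j l) {i' j' l' : ℕ}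
    (hc' : Close.Cmp (Close.bz k z) (Real.log k) N i' t j' l') (hl1 : l' + 3 ≤ l)
    (hl2 : l ≤ l' + 90) (h' : Skel.Val k 1000 L0 ((T k)^[i'] z) (t - i')) :
    i' < i ∧ i - i' ≤ 192 := by
  have hlk : 0 < Real.log k := Real.log_pos (by linarith)
  have hll : (l' : ℝ) + 3 ≤ l := by exact_mod_cast hl1
  have hll2 : (l : ℝ) ≤ l' + 90 := by exact_mod_cast hl2
  have hit := hc.it
  have h1 : i' ≤ i := by
    by_contra hc1
    push Not at hc1
    have h2 := hc.above i' hc1 (hc'.it.trans hc.tj)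
    have h3 := hc'.left
    nlinarith
  have h2 : i ≠ i' := by
    intro he
    have h3 := hc.above (i + 1) (by omega) (by have := hc.tj; omega)
    have h4 := hc'.left
    rw [← he] at h4
    have h5 := bz_step (by linarith : (1000 : ℝ) ≤ k) z i
    rw [abs_le] at h5
    nlinarith [h5.1, h5.2]
  have h3 : i' < i := by omega
  refine ⟨h3, ?_⟩
  have h4 := left_up hk hL0 hc' h' (m := i - i') (by omega) (by omega)
  rw [show i' + (i - i') = i by omega] at h4
  have h5 := hc.left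
  refine steps_le hk hL0 h' (by omega) ?_
  nlinarith

/-- depth at least `2 m log k` : at least `m` steps -/
theorem steps_ge_right (hk : 1000 ≤ k) (hc : Close.Cmp (Close.bz k z) (Real.log k) N i t j l)
    {m : ℕ} (hm : m * (2 * Real.log k) ≤ Close.bz k z t - l * Real.log k) : m ≤ j - t := by
  have hlk : 0 < Real.log k := Real.log_pos (by linarith)
  have h1 := bz_step_iter hk z t (j - t)
  rw [show t + (j - t) = j by have := hc.tj; omega, abs_le] at h1
  have h2 := hc.right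
  by_contra hcon
  push Not at hcon
  have h3 : ((j - t : ℕ) : ℝ) + 1 ≤ m := by exact_mod_cast hcon
  nlinarith [h1.1]

theorem steps_ge_left (hk : 1000 ≤ k) (hc : Close.Cmp (Close.bz k z) (Real.log k) N i t j l)
    {m : ℕ} (hm : m * (2 * Real.log k) ≤ Close.bz k z t - l * Real.log k) : m ≤ t - i := by
  have hlk : 0 < Real.log k := Real.log_pos (by linarith)
  have h1 := bz_step_iter hk z i (t - i)
  rw [show i + (t - i) = t by have := hc.it; omega, abs_le] at h1
  have h2 := hc.left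
  by_contra hcon
  push Not at hcon
  have h3 : ((t - i : ℕ) : ℝ) + 1 ≤ m := by exact_mod_cast hcon
  nlinarith [h1.2]

end sides

end Crest.Agent.R128.Bridge882
end

-- ▼ part R128/Bridge882B
section

/-!
# Row 128, V5-BRIDGE (helper882), part 2: from the run of fresh levels to `Good.Side`, `Good.G`
-/

set_option autoImplicit false
open scoped Matrix.Norms.L2Operator
open Matrix Finset
open Crest.AnalysisR.StandardFamily

namespace Crest.Agent.R128.Bridge882

open Crest.Agent.R128 Crest.Agent.R128.TreeSum Crest.Agent.R128.Acc Crest.Agent.R128.Lam0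
open Crest.Agent.R128.Hyp Crest.Agent.R128.ValNorm Crest.Agent.R128.AlignMn Crest.Agent.R128.Two

/-- the tip field of the root contour at the first top `t` -/
structure Fld (k : ℝ) (z : Tor) (t : ℕ) (x : ℤ → ℝ) : Prop where
  rc : ∀ n, x (n + 1) = dz k ((T k)^[t] z) n * x n - x (n - 1)
  x0 : |x 0| = 1
  xm : |x (-1)| < 1
  dom : ∀ m : ℤ, -(t : ℤ) ≤ m →
    max |x (m - 1)| |x m| ≤ Real.exp (Close.bz k z (m + t).toNat - Close.bz k z t)

section fld

variable {k : ℝ} {z : Tor} {t : ℕ} {x : ℤ → ℝ}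

theorem exists_fld {N i j l : ℕ} (hκ : 0 ≤ Real.log k)
    (hc : Close.Cmp (Close.bz k z) (Real.log k) N i t j l) : ∃ x, Fld k z t x := by
  have hit := hc.it
  have h1 : Close.bz k z (t - 1) < Close.bz k z t := by
    rcases Nat.eq_or_lt_of_le (show i ≤ t - 1 by omega) with h | h
    · rw [← h]
      exact lt_of_le_of_lt hc.left hc.lt_top
    · exact hc.first _ h (by omega)
  obtain ⟨x, h2, h3, h4, h5⟩ := Link.root_field_top k z (by omega : 0 < t) h1
  exact ⟨x, h2, h3, h4, h5⟩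

theorem Fld.domR (F : Fld k z t x) {p : ℕ} (hp : t < p) :
    max |x ((p - t - 1 : ℕ) : ℤ)| |x ((p - t : ℕ) : ℤ)| ≤
      Real.exp (Close.bz k z p - Close.bz k z t) := by
  have h := F.dom ((p - t : ℕ) : ℤ) (by omega)
  rw [show (((p - t : ℕ) : ℤ) + t).toNat = p by omega,
    show ((p - t : ℕ) : ℤ) - 1 = ((p - t - 1 : ℕ) : ℤ) by omega] at h
  exact h

theorem Fld.domL (F : Fld k z t x) {p : ℕ} (hp : p ≤ t) :
    max |x (-((t - p : ℕ) : ℤ))| |x (-((t - p + 1 : ℕ) : ℤ))| ≤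
      Real.exp (Close.bz k z p - Close.bz k z t) := by
  have h := F.dom (-((t - p : ℕ) : ℤ)) (by omega)
  rw [show (-((t - p : ℕ) : ℤ) + t).toNat = p by omega,
    show -((t - p : ℕ) : ℤ) - 1 = -((t - p + 1 : ℕ) : ℤ) by omega, max_comm] at h
  exact h

theorem Fld.crit (F : Fld k z t x) (h1 : |x 1| ≤ 1) : |V k ((T k)^[t] z).2| < 2 := by
  have h := F.rc 0
  rw [dz_zero] at h
  norm_num at h
  have h2 : |V k ((T k)^[t] z).2| = |V k ((T k)^[t] z).2 * x 0| := by
    rw [abs_mul, F.x0, mul_one]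
  rw [h2, show V k ((T k)^[t] z).2 * x 0 = x 1 + x (-1) by linarith]
  exact (abs_add_le _ _).trans_lt (by linarith [F.xm])

theorem nn_pair_le (a b : ℝ) : nn (a, b) ≤ 2 * max |a| |b| := by
  have h := nn_le_norm (a, b)
  rw [Prod.norm_def, Real.norm_eq_abs, Real.norm_eq_abs] at h
  exact h

/-- lower bound at the right foot from the norm of the transfer matrix -/
theorem Fld.lo_right (F : Fld k z t x) {w : ℕ} (hw : 0 < w) {B : ℝ}
    (hB : Real.log ‖Mn k w ((T k)^[t] z)‖ + 1 ≤ B) :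
    Real.exp (-B) ≤ max |x ((w - 1 : ℕ) : ℤ)| |x (w : ℤ)| := by
  set y := (T k)^[t] z with hy
  set M := Mn k w y with hM
  have hdet : M.det = 1 := det_Mn k w y
  have h1 : act M (x (-1), x 0) = (x ((w - 1 : ℕ) : ℤ), x (w : ℤ)) := by
    rw [hM, ← Az_natCast, act_Az, ← eq_xf F.rc, ← eq_xf F.rc,
      show ((w - 1 : ℕ) : ℤ) = (w : ℤ) - 1 by omega]
  have h2 : (x (-1), x 0) = act M⁻¹ (x ((w - 1 : ℕ) : ℤ), x (w : ℤ)) := by
    rw [← h1, ← act_mul, Matrix.nonsing_inv_mul _ (by rw [hdet]; exact isUnit_one), AlignMn.act_one]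
  have h3 := nn_act_le M⁻¹ (x ((w - 1 : ℕ) : ℤ)) (x (w : ℤ))
  rw [← h2, ninv hdet] at h3
  have h4 : |x 0| ≤ nn (x (-1), x 0) := abs_snd_le (x (-1), x 0)
  rw [F.x0] at h4
  have h5 := nn_pair_le (x ((w - 1 : ℕ) : ℤ)) (x (w : ℤ))
  have hp : 0 < ‖M‖ := Chain.norm_pos' hdet
  set m := max |x ((w - 1 : ℕ) : ℤ)| |x (w : ℤ)| with hm
  have h6 : 1 ≤ ‖M‖ * (2 * m) := h4.trans (h3.trans (mul_le_mul_of_nonneg_left h5 hp.le))
  have h7 : ‖M‖ ≤ Real.exp (B - 1) := by
    rw [← Real.exp_log hp]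
    exact Real.exp_le_exp.mpr (by linarith)
  have hm0 : 0 ≤ m := (abs_nonneg _).trans (le_max_left _ _)
  have h8 : 1 ≤ Real.exp (B - 1) * (2 * m) :=
    h6.trans (mul_le_mul_of_nonneg_right h7 (by positivity))
  have h9 : Real.exp (B - 1) * 2 ≤ Real.exp B := by
    rw [Real.exp_sub, div_mul_eq_mul_div, div_le_iff₀ (Real.exp_pos 1)]
    have := Real.add_one_le_exp (1 : ℝ)
    nlinarith [Real.exp_pos B]
  rw [Real.exp_neg, inv_le_comm₀ (Real.exp_pos B) (by
    by_contra hc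
    push Not at hc
    nlinarith [Real.exp_pos (B - 1)])]
  have hmp : 0 < m := by
    by_contra hc
    push Not at hc
    nlinarith [Real.exp_pos (B - 1)]
  rw [inv_le_iff_one_le_mul₀ hmp]
  nlinarith

/-- lower bound at the left foot -/
theorem Fld.lo_left (F : Fld k z t x) {i : ℕ} (hi : i < t) {B : ℝ}
    (hB : Real.log ‖Mn k (t - i) ((T k)^[i] z)‖ + 1 ≤ B) :
    Real.exp (-B) ≤ max |x (-((t - i : ℕ) : ℤ))| |x (-((t - i + 1 : ℕ) : ℤ))| := by
  set y := (T k)^[t] z with hy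
  set M := Mn k (t - i) ((T k)^[i] z) with hM
  have hdet : M.det = 1 := det_Mn k _ _
  have e1 : Tz k (-((t - i : ℕ) : ℤ)) y = (T k)^[i] z := by
    rw [hy, ← Tz_natCast, ← Tz_add, ← Tz_natCast]
    congr 1
    omega
  have h1 : act M (x (-((t - i + 1 : ℕ) : ℤ)), x (-((t - i : ℕ) : ℤ))) = (x (-1), x 0) := by
    have h := act_Mn_Tz k y (x (-1), x 0) (t - i) (t - i)
    rw [e1, act_Az, ← eq_xf F.rc, ← eq_xf F.rc, sub_self, Az_zero, AlignMn.act_one] at h
    rw [show -((t - i + 1 : ℕ) : ℤ) = -((t - i : ℕ) : ℤ) - 1 by omega]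
    exact h
  have h3 := nn_act_le M (x (-((t - i + 1 : ℕ) : ℤ))) (x (-((t - i : ℕ) : ℤ)))
  rw [h1] at h3
  have h4 : |x 0| ≤ nn (x (-1), x 0) := abs_snd_le (x (-1), x 0)
  rw [F.x0] at h4
  have h5 := nn_pair_le (x (-((t - i + 1 : ℕ) : ℤ))) (x (-((t - i : ℕ) : ℤ)))
  have hp : 0 < ‖M‖ := Chain.norm_pos' hdet
  rw [max_comm]
  set m := max |x (-((t - i + 1 : ℕ) : ℤ))| |x (-((t - i : ℕ) : ℤ))| with hm
  have h6 : 1 ≤ ‖M‖ * (2 * m) := h4.trans (h3.trans (mul_le_mul_of_nonneg_left h5 hp.le))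
  have h7 : ‖M‖ ≤ Real.exp (B - 1) := by
    rw [← Real.exp_log hp]
    exact Real.exp_le_exp.mpr (by linarith)
  have hm0 : 0 ≤ m := (abs_nonneg _).trans (le_max_left _ _)
  have h8 : 1 ≤ Real.exp (B - 1) * (2 * m) :=
    h6.trans (mul_le_mul_of_nonneg_right h7 (by positivity))
  have h9 : Real.exp (B - 1) * 2 ≤ Real.exp B := by
    rw [Real.exp_sub, div_mul_eq_mul_div, div_le_iff₀ (Real.exp_pos 1)]
    have := Real.add_one_le_exp (1 : ℝ)
    nlinarith [Real.exp_pos B]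
  have hmp : 0 < m := by
    by_contra hc
    push Not at hc
    nlinarith [Real.exp_pos (B - 1)]
  rw [Real.exp_neg, inv_le_comm₀ (Real.exp_pos B) hmp, inv_le_iff_one_le_mul₀ hmp]
  nlinarith

end fld

end Crest.Agent.R128.Bridge882
end

-- ▼ part R128/BridgeLo
section

/-!
# Row 128, node V5-BRIDGE-LO (helper62)

Lower bound for the root field at the feet of a fresh component of the root contour: if
`β t ≤ 2 l κ` and the feet `i`, `j` of level `l` are fresh towards the top `t`, then every field `x`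
at `T^t z` with `max |x (-1)| |x 0| = 1` which is `≤ exp (-β t)` at the root satisfies
`exp (β j - β t) / 4 ≤ max |x (j-t-1)| |x (j-t)|` and the same at `i`.
-/

set_option autoImplicit false
open Crest.AnalysisR.StandardFamily
open scoped Matrix.Norms.L2Operator

namespace Crest.Agent.R128.BridgeLo

open Crest.Agent.R128 Crest.Agent.R128.Two Crest.Agent.R128.Acc Crest.Agent.R128.AlignMn

/-! ### vectors -/

/-- the determinant of two vectors -/
def cr (p q : ℝ × ℝ) : ℝ := p.1 * q.2 - p.2 * q.1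

theorem cr_act {M : Matrix (Fin 2) (Fin 2) ℝ} (hM : M.det = 1) (p q : ℝ × ℝ) :
    cr (act M p) (act M q) = cr p q := by
  rw [Matrix.det_fin_two] at hM
  unfold cr act
  simp only
  linear_combination (p.1 * q.2 - p.2 * q.1) * hM

theorem abs_cr_le (p q : ℝ × ℝ) : |cr p q| ≤ 2 * ‖p‖ * ‖q‖ := by
  have h1 : |p.1| ≤ ‖p‖ := by simpa using norm_fst_le p
  have h2 : |p.2| ≤ ‖p‖ := by simpa using norm_snd_le p
  have h3 : |q.1| ≤ ‖q‖ := by simpa using norm_fst_le q
  have h4 : |q.2| ≤ ‖q‖ := by simpa using norm_snd_le q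
  unfold cr
  have a1 : |p.1 * q.2| ≤ ‖p‖ * ‖q‖ := by
    rw [abs_mul]
    exact mul_le_mul h1 h4 (abs_nonneg _) (norm_nonneg _)
  have a2 : |p.2 * q.1| ≤ ‖p‖ * ‖q‖ := by
    rw [abs_mul]
    exact mul_le_mul h2 h3 (abs_nonneg _) (norm_nonneg _)
  have := abs_sub (p.1 * q.2) (p.2 * q.1)
  linarith

/-- decomposition of `U` along `P` -/
theorem decomp {P U : ℝ × ℝ} (hP : 0 < ‖P‖) : ∃ (c : ℝ) (r : ℝ × ℝ), U = c • P + r ∧
    ‖r‖ ≤ |cr P U| / ‖P‖ ∧ |c| * ‖P‖ ≤ 2 * ‖U‖ := by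
  set s := P.1 ^ 2 + P.2 ^ 2 with hs
  have h1 : |P.1| ≤ ‖P‖ := by simpa using norm_fst_le P
  have h2 : |P.2| ≤ ‖P‖ := by simpa using norm_snd_le P
  have h3 : |U.1| ≤ ‖U‖ := by simpa using norm_fst_le U
  have h4 : |U.2| ≤ ‖U‖ := by simpa using norm_snd_le U
  have hsq : ‖P‖ ^ 2 ≤ s := by
    rw [Prod.norm_def]
    rcases max_choice ‖P.1‖ ‖P.2‖ with h | h
    · rw [h, Real.norm_eq_abs, sq_abs]
      nlinarith [sq_nonneg P.2]
    · rw [h, Real.norm_eq_abs, sq_abs]
      nlinarith [sq_nonneg P.1]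
  have hs0 : 0 < s := lt_of_lt_of_le (by positivity) hsq
  refine ⟨(U.1 * P.1 + U.2 * P.2) / s, (cr P U / s) • (-P.2, P.1), ?_, ?_, ?_⟩
  · unfold cr
    ext
    · simp only [Prod.fst_add, Prod.smul_fst, smul_eq_mul]
      field_simp
      rw [hs]
      ring
    · simp only [Prod.snd_add, Prod.smul_snd, smul_eq_mul]
      field_simp
      rw [hs]
      ring
  · rw [norm_smul, Real.norm_eq_abs, abs_div, abs_of_pos hs0]
    have h5 : ‖((-P.2, P.1) : ℝ × ℝ)‖ ≤ ‖P‖ := by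
      rw [Prod.norm_def]
      simp only [norm_neg, Real.norm_eq_abs]
      exact max_le h2 h1
    rw [div_mul_eq_mul_div, div_le_div_iff₀ hs0 hP]
    have h6 := abs_nonneg (cr P U)
    calc |cr P U| * ‖((-P.2, P.1) : ℝ × ℝ)‖ * ‖P‖ ≤ |cr P U| * ‖P‖ * ‖P‖ := by gcongr
      _ = |cr P U| * ‖P‖ ^ 2 := by ring
      _ ≤ |cr P U| * s := by gcongr
  · rw [abs_div, abs_of_pos hs0, div_mul_eq_mul_div, div_le_iff₀ hs0]
    have h5 : |U.1 * P.1 + U.2 * P.2| ≤ 2 * ‖U‖ * ‖P‖ := by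
      have a1 : |U.1 * P.1| ≤ ‖U‖ * ‖P‖ := by
        rw [abs_mul]
        exact mul_le_mul h3 h1 (abs_nonneg _) (norm_nonneg _)
      have a2 : |U.2 * P.2| ≤ ‖U‖ * ‖P‖ := by
        rw [abs_mul]
        exact mul_le_mul h4 h2 (abs_nonneg _) (norm_nonneg _)
      have := abs_add_le (U.1 * P.1) (U.2 * P.2)
      linarith
    calc |U.1 * P.1 + U.2 * P.2| * ‖P‖ ≤ 2 * ‖U‖ * ‖P‖ * ‖P‖ := by gcongr
      _ = 2 * ‖U‖ * ‖P‖ ^ 2 := by ring
      _ ≤ 2 * ‖U‖ * s := by gcongr

theorem act_add (M : Matrix (Fin 2) (Fin 2) ℝ) (p q : ℝ × ℝ) :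
    act M (p + q) = act M p + act M q := by
  unfold act
  ext
  · simp only [Prod.fst_add, Prod.snd_add]; ring
  · simp only [Prod.fst_add, Prod.snd_add]; ring

/-- right foot, vector form: `t ≤ j` -/
theorem right_vec (k : ℝ) (z : Tor) {t m : ℕ} {p : ℝ × ℝ} (hp : ‖p‖ ≤ (nm k t z)⁻¹)
    (hP : ‖act (Mn k t z) p‖ = 1)
    (hdom : 4 * nm k m ((T k)^[t] z) ≤ nm k t z * nm k (t + m) z) :
    nm k (t + m) z ≤ 4 * nm k t z * ‖act (Mn k (t + m) z) p‖ := by
  obtain ⟨u, hu1, hu2⟩ := exists_max (Mn k (t + m) z)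
  have hnm : max (rn (Mn k (t + m) z) 0) (rn (Mn k (t + m) z) 1) = nm k (t + m) z := by
    unfold nm
    rw [rr_succ]
    rfl
  rw [hnm] at hu2
  have hσ := nm_pos k t z
  set P := act (Mn k t z) p with hPdef
  set U := act (Mn k t z) u with hUdef
  have hsplit : ∀ v, act (Mn k (t + m) z) v = act (Mn k m ((T k)^[t] z)) (act (Mn k t z) v) := by
    intro v
    rw [← act_mul, add_comm t m, Mn_add]
  have hcr : |cr P U| ≤ 2 * (nm k t z)⁻¹ := by
    rw [hPdef, hUdef, cr_act (det_Mn k t z)]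
    refine (abs_cr_le p u).trans ?_
    have := norm_nonneg p
    calc 2 * ‖p‖ * ‖u‖ ≤ 2 * ‖p‖ * 1 := by gcongr
      _ ≤ 2 * (nm k t z)⁻¹ := by linarith
  have hU : ‖U‖ ≤ nm k t z := by
    refine (norm_act_Mn_le k t z u).trans ?_
    nlinarith
  obtain ⟨c, r, h1, h2, h3⟩ := decomp (P := P) (U := U) (by rw [hP]; norm_num)
  rw [hP, div_one] at h2
  rw [hP, mul_one] at h3
  have e : act (Mn k (t + m) z) u = c • act (Mn k (t + m) z) p + act (Mn k m ((T k)^[t] z)) r := by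
    rw [hsplit u, hsplit p, ← hUdef, ← hPdef, h1, act_add, act_smul]
  have h4 : ‖act (Mn k (t + m) z) u‖ ≤ |c| * ‖act (Mn k (t + m) z) p‖ +
      nm k m ((T k)^[t] z) * ‖r‖ := by
    rw [e]
    refine (norm_add_le _ _).trans ?_
    rw [norm_smul, Real.norm_eq_abs]
    have := norm_act_Mn_le k m ((T k)^[t] z) r
    linarith
  have hA := nm_pos k m ((T k)^[t] z)
  have h5 : nm k m ((T k)^[t] z) * ‖r‖ ≤ nm k (t + m) z / 2 := by
    calc nm k m ((T k)^[t] z) * ‖r‖ ≤ nm k m ((T k)^[t] z) * (2 * (nm k t z)⁻¹) := by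
          have := h2.trans hcr
          gcongr
      _ = (4 * nm k m ((T k)^[t] z)) * (nm k t z)⁻¹ / 2 := by ring
      _ ≤ (nm k t z * nm k (t + m) z) * (nm k t z)⁻¹ / 2 := by
          have := inv_pos.mpr hσ
          gcongr
      _ = nm k (t + m) z / 2 := by field_simp
  have h6 : |c| * ‖act (Mn k (t + m) z) p‖ ≤ 2 * nm k t z * ‖act (Mn k (t + m) z) p‖ := by
    have := norm_nonneg (act (Mn k (t + m) z) p)
    have h7 : |c| ≤ 2 * nm k t z := by linarith
    gcongr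
  linarith

/-- left foot, vector form: `i`, `t = i + m` -/
theorem left_vec (k : ℝ) (z : Tor) {i m : ℕ} {p : ℝ × ℝ} (hp : ‖p‖ ≤ (nm k (i + m) z)⁻¹)
    (hP : ‖act (Mn k (i + m) z) p‖ = 1)
    (hdom : 4 * nm k m ((T k)^[i] z) ≤ nm k (i + m) z * nm k i z) :
    nm k i z ≤ 4 * nm k (i + m) z * ‖act (Mn k i z) p‖ := by
  obtain ⟨u, hu1, hu2⟩ := exists_max (Mn k i z)
  have hnm : max (rn (Mn k i z) 0) (rn (Mn k i z) 1) = nm k i z := by
    unfold nm
    rw [rr_succ]
    rfl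
  rw [hnm] at hu2
  have hσ := nm_pos k (i + m) z
  have hσi := nm_pos k i z
  set q := act (Mn k i z) u with hqdef
  set p' := act (Mn k i z) p with hpdef
  have hq0 : 0 < ‖q‖ := lt_of_lt_of_le hσi hu2
  have hsplit : ∀ v, act (Mn k (i + m) z) v = act (Mn k m ((T k)^[i] z)) (act (Mn k i z) v) := by
    intro v
    rw [← act_mul, add_comm i m, Mn_add]
  have hcr : |cr q p'| ≤ 2 * (nm k (i + m) z)⁻¹ := by
    rw [hpdef, hqdef, cr_act (det_Mn k i z)]
    refine (abs_cr_le u p).trans ?_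
    have := norm_nonneg p
    calc 2 * ‖u‖ * ‖p‖ ≤ 2 * 1 * ‖p‖ := by gcongr
      _ ≤ 2 * (nm k (i + m) z)⁻¹ := by linarith
  obtain ⟨c, r, h1, h2, h3⟩ := decomp (P := q) (U := p') hq0
  have hr : ‖r‖ ≤ 2 * (nm k (i + m) z)⁻¹ / nm k i z := by
    refine h2.trans ?_
    have := abs_nonneg (cr q p')
    have hi := inv_pos.mpr hσ
    gcongr
  have hBq : ‖act (Mn k m ((T k)^[i] z)) q‖ ≤ nm k (i + m) z := by
    rw [hqdef, ← hsplit u]
    refine (norm_act_Mn_le k (i + m) z u).trans ?_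
    nlinarith
  have h4 : 1 ≤ |c| * nm k (i + m) z + nm k m ((T k)^[i] z) * ‖r‖ := by
    rw [← hP, hsplit p, ← hpdef, h1, act_add, act_smul]
    refine (norm_add_le _ _).trans ?_
    rw [norm_smul, Real.norm_eq_abs]
    have a1 := norm_act_Mn_le k m ((T k)^[i] z) r
    have a2 : |c| * ‖act (Mn k m ((T k)^[i] z)) q‖ ≤ |c| * nm k (i + m) z := by
      have := abs_nonneg c
      gcongr
    linarith
  have hA := nm_pos k m ((T k)^[i] z)
  have h5 : nm k m ((T k)^[i] z) * ‖r‖ ≤ 1 / 2 := by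
    calc nm k m ((T k)^[i] z) * ‖r‖ ≤
          nm k m ((T k)^[i] z) * (2 * (nm k (i + m) z)⁻¹ / nm k i z) := by gcongr
      _ = (4 * nm k m ((T k)^[i] z)) * ((nm k (i + m) z)⁻¹ / nm k i z) / 2 := by ring
      _ ≤ (nm k (i + m) z * nm k i z) * ((nm k (i + m) z)⁻¹ / nm k i z) / 2 := by
          have := inv_pos.mpr hσ
          gcongr
      _ = 1 / 2 := by field_simp
  have h6 : 1 / 2 ≤ |c| * nm k (i + m) z := by linarith
  have h7 : |c| * nm k i z ≤ 2 * ‖p'‖ := by
    refine le_trans ?_ h3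
    have := abs_nonneg c
    gcongr
  -- 1/2 * nm i ≤ |c| nm(i+m) nm i ≤ 2 nm(i+m) ‖p'‖
  have h8 : 1 / 2 * nm k i z ≤ |c| * nm k (i + m) z * nm k i z := by gcongr
  have h9 : |c| * nm k (i + m) z * nm k i z ≤ nm k (i + m) z * (2 * ‖p'‖) := by
    calc |c| * nm k (i + m) z * nm k i z = nm k (i + m) z * (|c| * nm k i z) := by ring
      _ ≤ _ := by gcongr
  linarith

/-! ### the field of `Link` -/

/-- the root vector of a field at `T^t z` -/
theorem root_vec {k : ℝ} {z : Tor} {t : ℕ} {x : ℤ → ℝ}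
    (hx : ∀ n, x (n + 1) = dz k ((T k)^[t] z) n * x n - x (n - 1)) :
    ∃ p : ℝ × ℝ, ∀ n : ℕ, ‖act (Mn k n z) p‖ = max |x ((n : ℤ) - t - 1)| |x ((n : ℤ) - t)| := by
  refine ⟨act (Az k (-(t : ℤ)) ((T k)^[t] z)) (x (-1), x 0), fun n => ?_⟩
  have e : Tz k (-(t : ℤ)) ((T k)^[t] z) = z := by
    rw [← Tz_natCast, Tz_neg_cancel]
  have h := act_Mn_Tz k ((T k)^[t] z) (x (-1), x 0) t n
  rw [e] at h
  rw [h, norm_act_Az, ← eq_xf hx, ← eq_xf hx]

theorem lo_right_field {k : ℝ} {z : Tor} {t m : ℕ} {x : ℤ → ℝ}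
    (hx : ∀ n, x (n + 1) = dz k ((T k)^[t] z) n * x n - x (n - 1))
    (h1 : max |x (-1)| |x 0| = 1)
    (h0 : max |x (-(t : ℤ) - 1)| |x (-(t : ℤ))| ≤ Real.exp (-bt (rr k z) t))
    (hdom : 4 * nm k m ((T k)^[t] z) ≤ nm k t z * nm k (t + m) z) :
    Real.exp (bt (rr k z) (t + m) - bt (rr k z) t) / 4 ≤ max |x ((m : ℤ) - 1)| |x (m : ℤ)| := by
  obtain ⟨p, hp⟩ := root_vec hx
  have a0 := hp 0
  have at' := hp t
  have am := hp (t + m)
  rw [Mn_zero, act_one] at a0
  rw [show ((0 : ℕ) : ℤ) - t - 1 = -(t : ℤ) - 1 by push_cast; ring,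
    show ((0 : ℕ) : ℤ) - t = -(t : ℤ) by push_cast; ring] at a0
  rw [sub_self, zero_sub, h1] at at'
  rw [show ((t + m : ℕ) : ℤ) - t - 1 = (m : ℤ) - 1 by push_cast; ring,
    show ((t + m : ℕ) : ℤ) - t = (m : ℤ) by push_cast; ring] at am
  rw [Real.exp_neg, exp_bt] at h0
  have h := right_vec k z (p := p) (by rw [a0]; exact h0) at' hdom
  rw [am] at h
  rw [Real.exp_sub, exp_bt, exp_bt, div_div, div_le_iff₀ (by have := nm_pos k t z; positivity)]
  linarith

theorem lo_left_field {k : ℝ} {z : Tor} {i m : ℕ} {x : ℤ → ℝ}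
    (hx : ∀ n, x (n + 1) = dz k ((T k)^[i + m] z) n * x n - x (n - 1))
    (h1 : max |x (-1)| |x 0| = 1)
    (h0 : max |x (-((i + m : ℕ) : ℤ) - 1)| |x (-((i + m : ℕ) : ℤ))| ≤
      Real.exp (-bt (rr k z) (i + m)))
    (hdom : 4 * nm k m ((T k)^[i] z) ≤ nm k (i + m) z * nm k i z) :
    Real.exp (bt (rr k z) i - bt (rr k z) (i + m)) / 4 ≤ max |x (-(m : ℤ) - 1)| |x (-(m : ℤ))| := by
  obtain ⟨p, hp⟩ := root_vec hx
  have a0 := hp 0
  have at' := hp (i + m)
  have ai := hp i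
  rw [Mn_zero, act_one] at a0
  rw [show ((0 : ℕ) : ℤ) - ((i + m : ℕ) : ℤ) - 1 = -((i + m : ℕ) : ℤ) - 1 by push_cast; ring,
    show ((0 : ℕ) : ℤ) - ((i + m : ℕ) : ℤ) = -((i + m : ℕ) : ℤ) by push_cast; ring] at a0
  rw [sub_self, zero_sub, h1] at at'
  rw [show (i : ℤ) - ((i + m : ℕ) : ℤ) - 1 = -(m : ℤ) - 1 by push_cast; ring,
    show (i : ℤ) - ((i + m : ℕ) : ℤ) = -(m : ℤ) by push_cast; ring] at ai
  rw [Real.exp_neg, exp_bt] at h0
  have h := left_vec k z (p := p) (by rw [a0]; exact h0) at' hdom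
  rw [ai] at h
  rw [Real.exp_sub, exp_bt, exp_bt, div_div, div_le_iff₀ (by have := nm_pos k (i + m) z; positivity)]
  linarith

/-! ### domination -/

theorem toD {k : ℝ} {L n : ℕ} {z : Tor} (h : Skel.Val k 1000 L z n) (hL : 1000 ≤ L)
    (hn : L ≤ n) : ValNorm.ValD k (1 / 1000) L n z where
  c1 := fun m hm => h.cl m hm (hm.trans_le hn)
  c2 := by
    intro i j hi hij hj
    have h1 := h.v2 i j (hL.trans hi) hij hj
    have hi0 : 0 ≤ ValNorm.W k z i := ValNorm.W_nonneg _ _ _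
    have hj0 : 0 ≤ ValNorm.W k z j := ValNorm.W_nonneg _ _ _
    have e1 : ValNorm.W k z i ^ (1 - 1 / 1000 : ℝ) = (ValNorm.W k z i ^ 999) ^ (1 / 1000 : ℝ) := by
      rw [← Real.rpow_natCast (ValNorm.W k z i) 999, ← Real.rpow_mul hi0]
      norm_num
    have e2 : ValNorm.W k z j = (ValNorm.W k z j ^ 1000) ^ (1 / 1000 : ℝ) := by
      rw [← Real.rpow_natCast (ValNorm.W k z j) 1000, ← Real.rpow_mul hj0]
      norm_num
    rw [e1, e2]
    exact Real.rpow_le_rpow (pow_nonneg hi0 999) h1 (by norm_num)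
  c3 := by
    intro j hj hjn
    obtain ⟨i, h1, h2, h3⟩ := h.v3 j (hL.trans hj) hjn
    refine ⟨i, h2, ?_⟩
    have hj0 : (0:ℝ) ≤ j := Nat.cast_nonneg j
    have e : ((j : ℝ) ^ 4000) ^ (1 / 1000 / 4 : ℝ) = (j : ℝ) := by
      rw [← Real.rpow_natCast (j:ℝ) 4000, ← Real.rpow_mul hj0]
      have : (((4000 : ℕ) : ℝ) * (1 / 1000 / 4 : ℝ)) = 1 := by norm_num
      rw [this, Real.rpow_one]
    have h3' : (j : ℝ) ^ 4000 ≤ ValNorm.W k z i := h3
    have h4 : ((j : ℝ) ^ 4000) ^ (1 / 1000 / 4 : ℝ) ≤ ValNorm.W k z i ^ (1 / 1000 / 4 : ℝ) :=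
      Real.rpow_le_rpow (pow_nonneg hj0 4000) h3' (by norm_num)
    rw [e] at h4
    exact h4

/-- numeric core: `D` distance from the foot to the top -/
theorem num {κ D X bt' bj B l2 : ℝ} (hκ : 100 ≤ κ) (hl2 : l2 < 0.6931471808) (hl2' : 0 < l2)
    (hB : B = κ + 3 * l2) (hX : 3 * κ ≤ X) (hlow : bt' ≤ 2 * X)
    (hD : D ≤ bt' - X + 4 * l2 + 2 * B + 2 * (3 / 5 * (1 / 1000 / 4) * D + 3 + 1))
    (hj : X - B - 2 * l2 ≤ bj) : 2 * l2 + (D + l2) ≤ bt' + bj := by
  subst hB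
  nlinarith

section dom

variable {k : ℝ} {z : Tor} {N i t j l L0 : ℕ}

theorem log_facts (hk : Real.exp 100 ≤ k) : 100 ≤ Real.log k ∧ 100 ≤ k ∧
    Real.log (8 * k) = Real.log k + 3 * Real.log 2 := by
  have hk0 : 0 < k := (Real.exp_pos _).trans_le hk
  refine ⟨(Real.le_log_iff_exp_le hk0).mpr hk, ?_, ?_⟩
  · have := Real.add_one_le_exp 100
    linarith
  · rw [Real.log_mul (by norm_num) hk0.ne', show (8:ℝ) = 2 ^ 3 by norm_num, Real.log_pow]
    push_cast
    ring

/-- one step of the root contour, downwards -/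
theorem bt_down (hk : Real.exp 100 ≤ k) (z : Tor) (n : ℕ) :
    bt (rr k z) n - Real.log (8 * k) - 2 * Real.log 2 ≤ bt (rr k z) (n + 1) := by
  obtain ⟨-, hk100, -⟩ := log_facts hk
  have H := HypInst.hyp_inst (by linarith : (4:ℝ) ≤ k) z
  have h1 := abs_le.mp (HypInst.bt_dist k z n)
  have h2 := abs_le.mp (HypInst.bt_dist k z (n + 1))
  have h3 := H.tri 0 (n + 1) n
  have h4 := H.step n
  have h5 := H.symm (n + 1) n
  linarith

theorem bt_up (hk : Real.exp 100 ≤ k) (z : Tor) (n : ℕ) :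
    bt (rr k z) (n + 1) ≤ bt (rr k z) n + Real.log (8 * k) + 2 * Real.log 2 := by
  obtain ⟨-, hk100, -⟩ := log_facts hk
  have H := HypInst.hyp_inst (by linarith : (4:ℝ) ≤ k) z
  have h1 := abs_le.mp (HypInst.bt_dist k z n)
  have h2 := abs_le.mp (HypInst.bt_dist k z (n + 1))
  have h3 := H.tri 0 n (n + 1)
  have h4 := H.step n
  linarith

/-- from the logarithmic inequality to the norms -/
theorem dom_of_log {m t s : ℕ} {y : Tor} (D : ℝ)
    (hD : Real.log ‖Mn k m y‖ ≤ D)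
    (h : 2 * Real.log 2 + (D + Real.log 2) ≤ bt (rr k z) t + bt (rr k z) s) :
    4 * nm k m y ≤ nm k t z * nm k s z := by
  have h1 := abs_le.mp (NestedInst.near_bt k m y)
  have h4 : (4:ℝ) = Real.exp (2 * Real.log 2) := by
    rw [two_mul, Real.exp_add, Real.exp_log (by norm_num)]
    norm_num
  rw [← exp_bt, ← exp_bt k t, ← exp_bt k s, ← Real.exp_add, h4, ← Real.exp_add]
  apply Real.exp_le_exp.mpr
  linarith [h1.2]

/-- **domination, right foot** -/
theorem dom_right (hk : Real.exp 100 ≤ k) (hL : 1000 ≤ L0)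
    (C : Close.Cmp (Close.bz k z) (Real.log k) N i t j l)
    (F : Skel.Val k 1000 L0 ((T k)^[j] z).swap (j - t)) (hjt : L0 ≤ j - t) (hl : 3 ≤ l)
    (hlow : Close.bz k z t ≤ 2 * l * Real.log k) :
    4 * nm k (j - t) ((T k)^[t] z) ≤ nm k t z * nm k j z := by
  obtain ⟨hκ, hk100, hB⟩ := log_facts hk
  have hl2 := Real.log_two_lt_d9
  have hl2' : 0 < Real.log 2 := Real.log_pos one_lt_two
  have hBpos : 0 ≤ Real.log (8 * k) := by rw [hB]; linarith
  have H0 := HypInst.hyp_inst (by linarith : (4:ℝ) ≤ k) z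
  have H := HypInst.rev_inst H0 j hBpos
  have hval := toD F hL hjt
  have CF := ValNorm.cleanF_backward (N := j) hval (Nat.sub_le _ _) le_rfl hk100 (by omega)
    (by norm_num) (by norm_num) (c := 3) le_rfl
  rw [Nat.sub_self, Nat.zero_add] at CF
  have htj := C.tj
  have hnear : ∀ m, |bt (rr k z) (j - m) - (fun i i' => Hyp.dist (fun n => Mn k n z) (j - i) (j - i')) j m|
      ≤ Real.log 2 := by
    intro m
    simp only [Nat.sub_self]
    exact HypInst.bt_dist k z (j - m)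
  have h1 := V1.height_le (f := fun m => bt (rr k z) (j - m)) (r := j) H hnear (v := 0) (m := j - t)
    (lam := l * Real.log k) (by omega) (by
      simp only [Nat.sub_zero]
      exact C.right) (by
      intro s hs1 hs2
      exact C.above (j - s) (by have := C.it; omega) (by omega))
    (V1.ld (j - t - 0)) (V1.le_pow_ld _)
  have h2 := CF.dur H (by norm_num) (by norm_num) (by norm_num) (by norm_num) (by norm_num)
    (m := j - t) (by omega) le_rfl (by omega)
  simp only [Nat.sub_zero] at h1 h2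
  rw [show j - (j - t) = t by omega] at h1 h2
  have hDd : Hyp.dist (fun n => Mn k n z) j t = Real.log ‖Mn k (j - t) ((T k)^[t] z)‖ := by
    have e1 := ValNorm.Dd_symm k z j t
    have e2 := ValNorm.Dd_add k z t (j - t)
    rw [show t + (j - t) = j by omega] at e2
    rw [← ValNorm.Dd_eq, e1, e2]
  have hj : l * Real.log k - Real.log (8 * k) - 2 * Real.log 2 ≤ bt (rr k z) j := by
    have h3 := bt_down hk z (j - 1)
    rw [show j - 1 + 1 = j by omega] at h3
    have h4 := C.above (j - 1) (by have := C.it; omega) (by omega)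
    unfold Close.bz at h4
    linarith
  have hlr : (3:ℝ) ≤ l := by exact_mod_cast hl
  have hX : 3 * Real.log k ≤ l * Real.log k := by nlinarith
  unfold Close.bz at hlow
  refine dom_of_log (Hyp.dist (fun n => Mn k n z) j t) hDd.symm.le ?_
  exact num hκ hl2 hl2' hB hX (by linarith) (by nlinarith) hj

/-- **domination, left foot** -/
theorem dom_left (hk : Real.exp 100 ≤ k) (hL : 1000 ≤ L0)
    (C : Close.Cmp (Close.bz k z) (Real.log k) N i t j l)
    (F : Skel.Val k 1000 L0 ((T k)^[i] z) (t - i)) (hit : L0 ≤ t - i) (hl : 3 ≤ l)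
    (hlow : Close.bz k z t ≤ 2 * l * Real.log k) :
    4 * nm k (t - i) ((T k)^[i] z) ≤ nm k t z * nm k i z := by
  obtain ⟨hκ, hk100, hB⟩ := log_facts hk
  have hl2 := Real.log_two_lt_d9
  have hl2' : 0 < Real.log 2 := Real.log_pos one_lt_two
  have H := HypInst.hyp_inst (by linarith : (4:ℝ) ≤ k) z
  have hval := toD F hL hit
  have CF := ValNorm.cleanF_forward hval hk100 (by omega)
    (by norm_num) (by norm_num) (c := 3) le_rfl
  have hti := C.it
  rw [show i + (t - i) = t by omega] at CF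
  have h1 := V1.height_le (f := bt (rr k z)) (r := 0) H (HypInst.bt_dist k z) (v := i) (m := t)
    (lam := l * Real.log k) (by omega) C.left (by
      intro s hs1 hs2
      exact C.above s hs1 (by have := C.tj; omega))
    (V1.ld (t - i)) (V1.le_pow_ld _)
  have h2 := CF.dur H (by norm_num) (by norm_num) (by norm_num) (by norm_num) (by norm_num)
    (m := t) (by omega) le_rfl hti
  have hDd : Hyp.dist (fun n => Mn k n z) i t = Real.log ‖Mn k (t - i) ((T k)^[i] z)‖ := by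
    have e2 := ValNorm.Dd_add k z i (t - i)
    rw [show i + (t - i) = t by omega] at e2
    rw [← ValNorm.Dd_eq, e2]
  have hj : l * Real.log k - Real.log (8 * k) - 2 * Real.log 2 ≤ bt (rr k z) i := by
    have h3 := bt_up hk z i
    have h4 := C.above (i + 1) (by omega) (by have := C.tj; omega)
    unfold Close.bz at h4
    linarith
  have hlr : (3:ℝ) ≤ l := by exact_mod_cast hl
  have hX : 3 * Real.log k ≤ l * Real.log k := by nlinarith
  unfold Close.bz at hlow
  refine dom_of_log (Hyp.dist (fun n => Mn k n z) i t) hDd.symm.le ?_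
  exact num hκ hl2 hl2' hB hX (by linarith) (by nlinarith) hj

/-- number of steps from a foot to the top -/
theorem steps_le (hk : Real.exp 100 ≤ k) (z : Tor) {a b : ℕ} (hab : a ≤ b) :
    |bt (rr k z) b - bt (rr k z) a| ≤ (b - a : ℕ) * (2 * Real.log k) := by
  obtain ⟨hκ, -, hB⟩ := log_facts hk
  have hl2 := Real.log_two_lt_d9
  obtain ⟨m, rfl⟩ := Nat.exists_eq_add_of_le hab
  rw [Nat.add_sub_cancel_left]
  clear hab
  induction m with
  | zero => simp
  | succ m ih =>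
    have h1 := bt_down hk z (a + m)
    have h2 := bt_up hk z (a + m)
    rw [abs_le] at ih ⊢
    rw [← Nat.add_assoc]
    push_cast
    constructor <;> nlinarith [ih.1, ih.2]

end dom

/-- **LO, right foot**: field `lo` of `Good.Side` -/
theorem lo_right {k : ℝ} {z : Tor} {N i t j l L0 : ℕ} {x : ℤ → ℝ} (hk : Real.exp 100 ≤ k)
    (hL : 1000 ≤ L0) (C : Close.Cmp (Close.bz k z) (Real.log k) N i t j l)
    (F : Skel.Fresh k L0 z i j t) (hl : 3 ≤ l)
    (hlow : Close.bz k z t ≤ 2 * l * Real.log k)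
    (hhigh : l * Real.log k + 2 * L0 * Real.log k ≤ Close.bz k z t)
    (hx : ∀ n, x (n + 1) = dz k ((T k)^[t] z) n * x n - x (n - 1))
    (h1 : max |x (-1)| |x 0| = 1)
    (h0 : max |x (-(t : ℤ) - 1)| |x (-(t : ℤ))| ≤ Real.exp (-bt (rr k z) t)) :
    Real.exp (-(Close.bz k z t - l * Real.log k) - 2 * Real.log k) ≤
      max |x ((j - t : ℕ) - 1)| |x (j - t : ℕ)| := by
  obtain ⟨hκ, hk100, hB⟩ := log_facts hk
  have hl2 := Real.log_two_lt_d9
  have htj := C.tj
  have hr := C.right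
  unfold Close.bz at hr hhigh hlow
  have hjt : L0 ≤ j - t := by
    have h2 := steps_le hk z htj.le
    have h3 := abs_le.mp h2
    have h4 : (2 * L0 : ℝ) * Real.log k ≤ (j - t : ℕ) * (2 * Real.log k) := by linarith [h3.1]
    have h5 : (L0 : ℝ) ≤ (j - t : ℕ) := by
      by_contra hcon
      push Not at hcon
      nlinarith
    exact_mod_cast h5
  have hd := dom_right hk hL C F.2 hjt hl hlow
  have e : t + (j - t) = j := by omega
  have h2 := lo_right_field (m := j - t) hx h1 h0 (by rw [e]; exact hd)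
  refine le_trans ?_ h2
  rw [e]
  have hj : l * Real.log k - Real.log (8 * k) - 2 * Real.log 2 ≤ bt (rr k z) j := by
    have h3 := bt_down hk z (j - 1)
    rw [show j - 1 + 1 = j by omega] at h3
    have h4 := C.above (j - 1) (by have := C.it; omega) (by omega)
    unfold Close.bz at h4
    linarith
  have h4 : (4:ℝ) = Real.exp (2 * Real.log 2) := by
    rw [two_mul, Real.exp_add, Real.exp_log (by norm_num)]
    norm_num
  rw [h4, ← Real.exp_sub]
  apply Real.exp_le_exp.mpr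
  unfold Close.bz
  linarith

/-- **LO, left foot** -/
theorem lo_left {k : ℝ} {z : Tor} {N i t j l L0 : ℕ} {x : ℤ → ℝ} (hk : Real.exp 100 ≤ k)
    (hL : 1000 ≤ L0) (C : Close.Cmp (Close.bz k z) (Real.log k) N i t j l)
    (F : Skel.Fresh k L0 z i j t) (hl : 3 ≤ l)
    (hlow : Close.bz k z t ≤ 2 * l * Real.log k)
    (hhigh : l * Real.log k + 2 * L0 * Real.log k ≤ Close.bz k z t)
    (hx : ∀ n, x (n + 1) = dz k ((T k)^[t] z) n * x n - x (n - 1))
    (h1 : max |x (-1)| |x 0| = 1)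
    (h0 : max |x (-(t : ℤ) - 1)| |x (-(t : ℤ))| ≤ Real.exp (-bt (rr k z) t)) :
    Real.exp (-(Close.bz k z t - l * Real.log k) - 2 * Real.log k) ≤
      max |x (-(t - i : ℕ) - 1)| |x (-(t - i : ℕ))| := by
  obtain ⟨hκ, hk100, hB⟩ := log_facts hk
  have hl2 := Real.log_two_lt_d9
  have hit' := C.it
  have hr := C.left
  unfold Close.bz at hr hhigh hlow
  have hit : L0 ≤ t - i := by
    have h2 := steps_le hk z hit'.le
    have h3 := abs_le.mp h2
    have h4 : (2 * L0 : ℝ) * Real.log k ≤ (t - i : ℕ) * (2 * Real.log k) := by linarith [h3.2]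
    have h5 : (L0 : ℝ) ≤ (t - i : ℕ) := by
      by_contra hcon
      push Not at hcon
      nlinarith
    exact_mod_cast h5
  have hd := dom_left hk hL C F.1 hit hl hlow
  have e : i + (t - i) = t := by omega
  have h2 := lo_left_field (i := i) (m := t - i) (by rw [e]; exact hx) h1
    (by rw [e]; exact h0) (by rw [e]; exact hd)
  rw [e] at h2
  refine le_trans ?_ h2
  have hj : l * Real.log k - Real.log (8 * k) - 2 * Real.log 2 ≤ bt (rr k z) i := by
    have h3 := bt_up hk z i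
    have h4 := C.above (i + 1) (by omega) (by have := C.tj; omega)
    unfold Close.bz at h4
    linarith
  have h4 : (4:ℝ) = Real.exp (2 * Real.log 2) := by
    rw [two_mul, Real.exp_add, Real.exp_log (by norm_num)]
    norm_num
  rw [h4, ← Real.exp_sub]
  apply Real.exp_le_exp.mpr
  unfold Close.bz
  linarith

end Crest.Agent.R128.BridgeLo
end

-- ▼ part R128/V5End
section

/-!
Row 128, node V5-FINAL (helper862, second implementation): counting from a fresh block `FBR` of the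
skeleton to `Many η G P` on a dyadic grid, and `Skel.V5` from 284's area form and 23's bridge.
-/

set_option autoImplicit false
open MeasureTheory Filter Topology Finset
open scoped ENNReal
open Crest.Agent.R128 Crest.Agent.R128.Skel Crest.Agent.R128.Close

namespace Crest.Agent.R128.V5End

/-- the bridge: a run of `S + 1` fresh levels below a top gives the good event of every dyadic level
in the window -/
def Br (S X : ℕ) (k : ℝ) (L0 : ℕ) : Prop :=
  ∀ (N : ℕ) (z : Tor) (t n l : ℕ), X * Real.log k ≤ n * Real.log 2 →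
    n * Real.log 2 ≤ bz k z t - l * Real.log k →
    bz k z t - l * Real.log k ≤ n * Real.log 2 + 2 * Real.log k →
    S ≤ l → bz k z t ≤ 2 * ((l : ℝ) - S) * Real.log k →
    (∀ s ≤ S, ¬ nf k L0 N z t (l - s)) → (T k)^[t] z ∈ Good.G k L0 n




end Crest.Agent.R128.V5End
end

-- ▼ part R128/Bridge882C

/-!
# Row 128, V5-BRIDGE (helper882), part 3: `V5End.Br 86 X k L0`
-/

set_option autoImplicit false
open scoped Matrix.Norms.L2Operator
open Matrix Finset
open Crest.AnalysisR.StandardFamily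

namespace Crest.Agent.R128.Bridge882

open Crest.Agent.R128 Crest.Agent.R128.TreeSum Crest.Agent.R128.Acc Crest.Agent.R128.Lam0
open Crest.Agent.R128.Hyp Crest.Agent.R128.ValNorm Crest.Agent.R128.AlignMn Crest.Agent.R128.Two

section main

variable {k : ℝ} {z : Tor} {t : ℕ} {x : ℤ → ℝ}

theorem ap_orbit (k : ℝ) (z : Tor) (t n : ℕ) :
    AlignMn.ap k ((T k)^[t] z) n = V k ((T k)^[n + t] z).2 := by
  rw [AlignMn.ap, dz, Tz_natCast, ← Function.iterate_add_apply]

theorem am_orbit (k : ℝ) (z : Tor) {t n : ℕ} (h : n ≤ t) :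
    am k ((T k)^[t] z) n = V k ((T k)^[t - n] z).2 := by
  rw [am, dz, ← Tz_natCast, ← Tz_natCast, ← Tz_add]
  congr 3
  omega

theorem Fld.h1 (F : Fld k z t x) : max |x (-1)| |x 0| = 1 := by
  rw [F.x0]
  exact max_eq_right F.xm.le

theorem Fld.h0 (F : Fld k z t x) :
    max |x (-(t : ℤ) - 1)| |x (-(t : ℤ))| ≤ Real.exp (-bt (rr k z) t) := by
  have h := F.dom (-(t : ℤ)) le_rfl
  rw [neg_add_cancel] at h
  have e : Close.bz k z (Int.toNat 0) = 0 := Close.bz_zero k z
  rw [e, zero_sub] at h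
  exact h

theorem left_foot_point (k : ℝ) (z : Tor) {i t : ℕ} (hit : i < t) :
    ((T k)^[t - i + 1] (DictY.Rev k ((T k)^[t] z))).swap = (T k)^[i] z := by
  rw [← Tz_natCast, DictY.Tz_Rev_nat, Rev_eq, Prod.swap_swap, ← Tz_one, ← Tz_add, ← Tz_natCast k t,
    ← Tz_add, ← Tz_natCast k i]
  congr 1
  push_cast
  omega

variable {L0 N : ℕ} {i j l i' j' l' : ℕ}

/-- the right side -/
theorem side_right (hk : 10 ^ 10 ≤ k) (hL0 : 1000 ≤ L0) (F : Fld k z t x)
    (hc : Close.Cmp (Close.bz k z) (Real.log k) N i t j l)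
    (hc' : Close.Cmp (Close.bz k z) (Real.log k) N i' t j' l') (hl1 : l' + 86 ≤ l)
    (hl2 : l ≤ l' + 90) (hF : Skel.Fresh k L0 z i j t) (hF' : Skel.Fresh k L0 z i' j' t)
    (hd : (L0 + 1 : ℕ) * (2 * Real.log k) ≤ Close.bz k z t - l * Real.log k)
    (hlo : Real.exp (-(Close.bz k z t - l * Real.log k) - 3 * Real.log k) ≤
      max |x ((j - t : ℕ) - 1)| |x (j - t : ℕ)|) :
    Good.Side k L0 (Close.bz k z t - l * Real.log k) ((T k)^[t] z) (fun n => x (n : ℤ))
      (j - t) (j' - 1 - j) := by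
  have hlk : 0 < Real.log k := Real.log_pos (by linarith)
  have htj := hc.tj
  have hit := hc.it
  obtain ⟨s1, s2⟩ := right_steps hk hL0 hc hc' (by omega) hl2 hF'.2
  have hw := steps_ge_right (by linarith) hc hd
  have hll : (l' : ℝ) + 86 ≤ l := by exact_mod_cast hl1
  refine
    { hw := by omega
      val := ?_
      xrec := ?_
      x0 := F.x0
      x1 := ?_
      lo := ?_
      hi := ?_
      hM := by omega
      run := ?_
      fin := ?_ }
  · rw [← Function.iterate_add_apply, show j - t + t = j by omega]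
    exact cval_of_val (by linarith) hL0 hF.2 (by omega)
  · intro n
    have h := F.rc ((n : ℤ) + 1)
    have e1 : ((n + 2 : ℕ) : ℤ) = (n : ℤ) + 1 + 1 := by push_cast; ring
    have e2 : ((n + 1 : ℕ) : ℤ) = (n : ℤ) + 1 := by push_cast; ring
    show x ((n + 2 : ℕ) : ℤ) = AlignMn.ap k _ (n + 1) * x ((n + 1 : ℕ) : ℤ) - x (n : ℤ)
    rw [e1, h, AlignMn.ap, e2]
    congr 2
    ring
  · have h := F.dom 1 (by omega)
    have h2 : |x 1| ≤ Real.exp (Close.bz k z ((1 : ℤ) + t).toNat - Close.bz k z t) :=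
      (le_max_right _ _).trans h
    refine h2.trans ?_
    rw [show ((1 : ℤ) + t).toNat = t + 1 by omega, ← Real.exp_zero]
    apply Real.exp_le_exp.mpr
    rcases Nat.eq_or_lt_of_le (show t + 1 ≤ j by omega) with h3 | h3
    · rw [h3]
      linarith [hc.right, hc.lt_top]
    · linarith [hc.top (t + 1) (by omega) h3]
  · have e : (((j - t : ℕ) : ℤ) - 1) = ((j - t - 1 : ℕ) : ℤ) := by omega
    rw [e] at hlo
    exact hlo
  · refine (F.domR (p := j) (by omega)).trans (Real.exp_le_exp.mpr ?_)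
    linarith [hc.right]
  · intro n h1 h2
    rw [ap_orbit]
    exact right_digit hF'.2 (by omega) (by omega) (by omega)
  · have h1 := F.domR (p := j' - 1) (by omega)
    have e1 : j - t + (j' - 1 - j) = j' - 1 - t := by omega
    show max |x ((j - t + (j' - 1 - j) - 1 : ℕ) : ℤ)| |x ((j - t + (j' - 1 - j) : ℕ) : ℤ)| ≤ _
    rw [e1]
    refine h1.trans (Real.exp_le_exp.mpr ?_)
    have h2 := abs_le.mp (bz_step (by linarith : (1000 : ℝ) ≤ k) z (j' - 1))
    rw [show j' - 1 + 1 = j' by omega] at h2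
    have h3 := hc'.right
    nlinarith [h2.1]

/-- the left side -/
theorem side_left (hk : 10 ^ 10 ≤ k) (hL0 : 1000 ≤ L0) (F : Fld k z t x)
    (hc : Close.Cmp (Close.bz k z) (Real.log k) N i t j l)
    (hc' : Close.Cmp (Close.bz k z) (Real.log k) N i' t j' l') (hl1 : l' + 86 ≤ l)
    (hl2 : l ≤ l' + 90) (hF : Skel.Fresh k L0 z i j t) (hF' : Skel.Fresh k L0 z i' j' t)
    (hd : (L0 + 1 : ℕ) * (2 * Real.log k) ≤ Close.bz k z t - l * Real.log k)
    (hlo : Real.exp (-(Close.bz k z t - l * Real.log k) - 3 * Real.log k) ≤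
      max |x (-(t - i : ℕ) - 1)| |x (-(t - i : ℕ))|) :
    Good.Side k L0 (Close.bz k z t - l * Real.log k) (DictY.Rev k ((T k)^[t] z))
      (fun n => x (-(n : ℤ))) (t - i + 1) (i - i' - 1) := by
  have hlk : 0 < Real.log k := Real.log_pos (by linarith)
  have htj := hc.tj
  have hit := hc.it
  have hit' := hc'.it
  obtain ⟨s1, s2⟩ := left_steps hk hL0 hc hc' (by omega) hl2 hF'.1
  have hw := steps_ge_left (by linarith) hc hd
  have hll : (l' : ℝ) + 86 ≤ l := by exact_mod_cast hl1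
  refine
    { hw := by omega
      val := ?_
      xrec := ?_
      x0 := ?_
      x1 := ?_
      lo := ?_
      hi := ?_
      hM := by omega
      run := ?_
      fin := ?_ }
  · rw [left_foot_point k z hit, Nat.add_sub_cancel]
    exact cval_of_val (by linarith) hL0 hF.1 le_rfl
  · intro n
    have h := F.rc (-((n : ℤ) + 1))
    show x (-((n + 2 : ℕ) : ℤ)) = AlignMn.ap k _ (n + 1) * x (-((n + 1 : ℕ) : ℤ)) - x (-(n : ℤ))
    rw [← DictY.am_eq_ap, am]
    have e1 : -((n + 2 : ℕ) : ℤ) = -((n : ℤ) + 1) - 1 := by push_cast; ring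
    have e2 : -((n + 1 : ℕ) : ℤ) = -((n : ℤ) + 1) := by push_cast; ring
    have e3 : -((n : ℤ) + 1) + 1 = -(n : ℤ) := by ring
    rw [e1, e2]
    rw [e3] at h
    linarith
  · simpa using F.x0
  · simpa using F.xm.le
  · have e : (-((t - i : ℕ) : ℤ) - 1) = -((t - i + 1 : ℕ) : ℤ) := by omega
    rw [e, max_comm] at hlo
    show _ ≤ max |x (-((t - i + 1 - 1 : ℕ) : ℤ))| |x (-((t - i + 1 : ℕ) : ℤ))|
    rw [Nat.add_sub_cancel]
    exact hlo
  · have h := F.domL (p := i) hit.le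
    show max |x (-((t - i + 1 - 1 : ℕ) : ℤ))| |x (-((t - i + 1 : ℕ) : ℤ))| ≤ _
    rw [Nat.add_sub_cancel]
    refine h.trans (Real.exp_le_exp.mpr ?_)
    linarith [hc.left]
  · intro n h1 h2
    rw [← DictY.am_eq_ap, am_orbit k z (by omega)]
    exact left_digit hF'.1 (by omega) (by omega) (by omega)
  · have h1 := F.domL (p := i' + 1) (by omega)
    have e1 : t - i + 1 + (i - i' - 1) = t - i' := by omega
    show max |x (-((t - i + 1 + (i - i' - 1) - 1 : ℕ) : ℤ))|
      |x (-((t - i + 1 + (i - i' - 1) : ℕ) : ℤ))| ≤ _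
    rw [e1]
    rw [show t - (i' + 1) + 1 = t - i' by omega, show t - (i' + 1) = t - i' - 1 by omega] at h1
    refine h1.trans (Real.exp_le_exp.mpr ?_)
    have h2 := abs_le.mp (bz_step (by linarith : (1000 : ℝ) ≤ k) z i')
    have h3 := hc'.left
    nlinarith [h2.2]

/-- **BRIDGE** -/
theorem br {L0 : ℕ} (hL0 : 1000 ≤ L0) {k : ℝ} (hk : Real.exp 100 ≤ k) :
    V5End.Br 86 (2 * (L0 + 1)) k L0 := by
  intro N z t n l hX hn1 hn2 hSl hlow hfresh
  have hk10 : (10 : ℝ) ^ 10 ≤ k := by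
    refine le_trans ?_ hk
    have h1 : (2 : ℝ) ≤ Real.exp 1 := by
      have := Real.add_one_le_exp (1 : ℝ)
      linarith
    calc (10 : ℝ) ^ 10 ≤ 2 ^ 100 := by norm_num
      _ ≤ (Real.exp 1) ^ 100 := pow_le_pow_left₀ (by norm_num) h1 100
      _ = Real.exp 100 := by rw [← Real.exp_nat_mul]; norm_num
  have hlk : 0 < Real.log k := Real.log_pos (by linarith)
  have f0 := hfresh 0 (by norm_num)
  have f1 := hfresh 86 le_rfl
  unfold Skel.nf at f0 f1
  push Not at f0 f1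
  obtain ⟨i, j, hc, hF⟩ := f0
  obtain ⟨i', j', hc', hF'⟩ := f1
  rw [Nat.sub_zero] at hc
  obtain ⟨x, F⟩ := exists_fld hlk.le hc
  have hl : (l : ℝ) * Real.log k ≤ 2 * l * Real.log k := by
    have : 0 ≤ (l : ℝ) * Real.log k := by positivity
    linarith
  have hlow' : Close.bz k z t ≤ 2 * l * Real.log k := by
    refine hlow.trans ?_
    have : (0 : ℝ) ≤ ((86 : ℕ) : ℝ) * Real.log k := by positivity
    nlinarith
  have hX' : ((L0 + 1 : ℕ) : ℝ) * (2 * Real.log k) ≤ Close.bz k z t - l * Real.log k := by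
    refine le_trans (le_of_eq ?_) (hX.trans hn1)
    push_cast
    ring
  have hhigh : l * Real.log k + 2 * L0 * Real.log k ≤ Close.bz k z t := by
    push_cast at hX'
    nlinarith
  have r1 := BridgeLo.lo_right hk hL0 hc hF (by omega) hlow' hhigh F.rc F.h1 F.h0
  have r2 := BridgeLo.lo_left hk hL0 hc hF (by omega) hlow' hhigh F.rc F.h1 F.h0
  have hle : Real.exp (-(Close.bz k z t - l * Real.log k) - 3 * Real.log k) ≤
      Real.exp (-(Close.bz k z t - l * Real.log k) - 2 * Real.log k) :=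
    Real.exp_le_exp.mpr (by linarith)
  have S1 := side_right hk10 hL0 F hc hc' (by omega) (by omega) hF hF' hX' (hle.trans r1)
  have S2 := side_left hk10 hL0 F hc hc' (by omega) (by omega) hF hF' hX' (hle.trans r2)
  refine ⟨F.crit ?_, Close.bz k z t - l * Real.log k, hn1, hn2,
    fun n => x (n : ℤ), fun n => x (-(n : ℤ)), _, _, _, _, S1, S2, by simp, ?_⟩
  · simpa using S1.x1
  · have h := F.rc 0
    rw [dz_zero] at h
    norm_num at h
    show x ((1 : ℕ) : ℤ) + x (-((1 : ℕ) : ℤ)) = _ * x ((0 : ℕ) : ℤ)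
    push_cast
    linarith

/-- in the form of 862's `v5_of` -/
theorem br_all : ∃ L1 : ℕ, ∀ L0, L1 ≤ L0 → ∃ X : ℕ, ∃ k₁ : ℝ, ∀ k, k₁ ≤ k → V5End.Br 86 X k L0 :=
  ⟨1000, fun L0 hL0 => ⟨2 * (L0 + 1), Real.exp 100, fun _ hk => br hL0 hk⟩⟩

end main

end Crest.Agent.R128.Bridge882
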