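import Mathlib
import Crest.Agent.R128.TreeSum

/-!
Row 128, node P7-DISP: scalar displacement lemma.

`w` a real Jacobi field with norms `R m = nn (w m) > 0`; `D` a complex pair sequence with
`D (m+1) = stp (a m) (D m) + (0, q m)` and `D 0 = τ w 0`.  If `‖q m‖ ≤ Q (R m)^2` then
`‖D m - τ w m‖ ≤ 2 θ_m R m`, `θ_m = Q (B+1) ∑_{j<m} (∑_{l≤j} R_l^3)/(R_j R_{j+1})`.
-/

set_option autoImplicit false

open Finset Crest.Agent.R128.TreeSum

namespace Crest.Agent.R128.Disp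

/-- cubic partial sums `S m = ∑_{l ≤ m} R_l^3` -/
noncomputable def cub (w : ℕ → ℝ × ℝ) (m : ℕ) : ℝ := ∑ l ∈ range (m + 1), nn (w l) ^ 3

/-- `Sg n = ∑_{m<n} S m / (R_m R_{m+1})` -/
noncomputable def Sg (w : ℕ → ℝ × ℝ) (n : ℕ) : ℝ :=
  ∑ m ∈ range n, cub w m / (nn (w m) * nn (w (m + 1)))

theorem cub_nonneg (w : ℕ → ℝ × ℝ) (m : ℕ) : 0 ≤ cub w m :=
  Finset.sum_nonneg fun l _ => pow_nonneg (nn_nonneg _) 3


theorem cube_le_cub (w : ℕ → ℝ × ℝ) {l m : ℕ} (h : l ≤ m) : nn (w l) ^ 3 ≤ cub w m := by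
  unfold cub
  exact Finset.single_le_sum (f := fun l => nn (w l) ^ 3)
    (fun i _ => pow_nonneg (nn_nonneg _) 3) (Finset.mem_range.mpr (by omega))


theorem Sg_nonneg (w : ℕ → ℝ × ℝ) (n : ℕ) : 0 ≤ Sg w n :=
  Finset.sum_nonneg fun m _ => div_nonneg (cub_nonneg w m)
    (mul_nonneg (nn_nonneg _) (nn_nonneg _))

theorem Sg_succ (w : ℕ → ℝ × ℝ) (n : ℕ) :
    Sg w (n + 1) = Sg w n + cub w n / (nn (w n) * nn (w (n + 1))) := by
  unfold Sg
  rw [Finset.sum_range_succ]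

theorem Sg_mono (w : ℕ → ℝ × ℝ) {l m : ℕ} (h : l ≤ m) : Sg w l ≤ Sg w m := by
  unfold Sg
  exact Finset.sum_le_sum_of_subset_of_nonneg
    (Finset.range_subset_range.mpr h) (fun i _ _ => div_nonneg (cub_nonneg w i)
    (mul_nonneg (nn_nonneg _) (nn_nonneg _)))

/-- complex Wronskian of a real pair and a complex pair -/
noncomputable def bet (w : ℝ × ℝ) (D : ℂ × ℂ) : ℂ := w.1 * D.2 - w.2 * D.1

/-- complex component along `w` -/
noncomputable def alp (w : ℝ × ℝ) (D : ℂ × ℂ) : ℂ := (w.1 * D.1 + w.2 * D.2) / ((nn w ^ 2 : ℝ) : ℂ)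

/-- one step with an error term -/
noncomputable def stq (a : ℝ) (q : ℂ) (D : ℂ × ℂ) : ℂ × ℂ := (D.2, a * D.2 - D.1 + q)

theorem fst_eq {w : ℝ × ℝ} (hw : 0 < nn w) (D : ℂ × ℂ) :
    D.1 = alp w D * w.1 - bet w D * w.2 / ((nn w ^ 2 : ℝ) : ℂ) := by
  have hne : ((nn w ^ 2 : ℝ) : ℂ) ≠ 0 := by
    exact_mod_cast (pow_pos hw 2).ne'
  have e : ((nn w ^ 2 : ℝ) : ℂ) = (w.1 : ℂ) ^ 2 + (w.2 : ℂ) ^ 2 := by
    rw [nn_sq]; push_cast; ring
  unfold alp bet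
  rw [eq_sub_iff_add_eq, ← mul_right_inj' hne]
  field_simp
  rw [e]
  ring

theorem snd_eq {w : ℝ × ℝ} (hw : 0 < nn w) (D : ℂ × ℂ) :
    D.2 = alp w D * w.2 + bet w D * w.1 / ((nn w ^ 2 : ℝ) : ℂ) := by
  have hne : ((nn w ^ 2 : ℝ) : ℂ) ≠ 0 := by
    exact_mod_cast (pow_pos hw 2).ne'
  have e : ((nn w ^ 2 : ℝ) : ℂ) = (w.1 : ℂ) ^ 2 + (w.2 : ℂ) ^ 2 := by
    rw [nn_sq]; push_cast; ring
  unfold alp bet
  rw [← mul_right_inj' hne]
  field_simp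
  rw [e]
  ring


theorem bet_stq (a : ℝ) (q : ℂ) (w : ℝ × ℝ) (D : ℂ × ℂ) :
    bet (stp a w) (stq a q D) = bet w D + w.2 * q := by
  unfold bet stp stq
  push_cast
  ring


theorem norm_ofReal_fst_le (w : ℝ × ℝ) : ‖(w.1 : ℂ)‖ ≤ nn w := by
  rw [Complex.norm_real, Real.norm_eq_abs]; exact abs_fst_le w

theorem norm_ofReal_snd_le (w : ℝ × ℝ) : ‖(w.2 : ℂ)‖ ≤ nn w := by
  rw [Complex.norm_real, Real.norm_eq_abs]; exact abs_snd_le w

/-- change of the component along `w` in one step -/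
theorem alp_stq {a : ℝ} {q : ℂ} {w : ℝ × ℝ} {D : ℂ × ℂ} (hw : 0 < nn w)
    (hw' : 0 < nn (stp a w)) :
    ‖alp (stp a w) (stq a q D) - alp w D‖ ≤
      ‖bet w D‖ * (|a| + 2) / (nn w * nn (stp a w)) + ‖q‖ / nn (stp a w) := by
  set R := nn w with hR
  set R' := nn (stp a w) with hR'
  -- the transverse vector J w and its image
  set u : ℝ × ℝ := (-w.2, w.1) with hu
  have hun : nn u = R := by
    rw [hR]; unfold nn; rw [hu]; congr 1; ring
  have hne : ((R ^ 2 : ℝ) : ℂ) ≠ 0 := by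
    exact_mod_cast (pow_pos hw 2).ne'
  have hne' : ((R' ^ 2 : ℝ) : ℂ) ≠ 0 := by
    exact_mod_cast (pow_pos hw' 2).ne'
  have e : ((R ^ 2 : ℝ) : ℂ) = (w.1 : ℂ) ^ 2 + (w.2 : ℂ) ^ 2 := by
    rw [hR, nn_sq]; push_cast; ring
  have e' : ((R' ^ 2 : ℝ) : ℂ) = (w.2 : ℂ) ^ 2 + ((a : ℂ) * w.2 - w.1) ^ 2 := by
    rw [hR', nn_sq]; unfold stp; push_cast; ring
  have h1 := fst_eq hw D
  have h2 := snd_eq hw D
  rw [← hR] at h1 h2
  have key : alp (stp a w) (stq a q D) - alp w D =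
      bet w D * ((dt (stp a w) (stp a u) : ℝ) : ℂ) / (((R ^ 2 : ℝ) : ℂ) * ((R' ^ 2 : ℝ) : ℂ)) +
        ((stp a w).2 : ℂ) * q / ((R' ^ 2 : ℝ) : ℂ) := by
    have hal : alp (stp a w) (stq a q D) =
        ((w.2 : ℂ) * D.2 + ((a : ℂ) * w.2 - w.1) * (a * D.2 - D.1 + q)) / ((R' ^ 2 : ℝ) : ℂ) := by
      unfold alp stq
      rw [← hR']
      unfold stp
      push_cast
      ring
    have hdt : ((dt (stp a w) (stp a u) : ℝ) : ℂ) =
        (w.2 : ℂ) * w.1 + ((a : ℂ) * w.2 - w.1) * (a * w.1 + w.2) := by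
      unfold dt stp
      rw [hu]
      push_cast
      ring
    have hst : ((stp a w).2 : ℂ) = (a : ℂ) * w.2 - w.1 := by
      unfold stp; push_cast; ring
    rw [hal, hdt, hst]
    rw [eq_comm, ← sub_eq_zero]
    have h1' : D.1 * ((R ^ 2 : ℝ) : ℂ) = alp w D * w.1 * ((R ^ 2 : ℝ) : ℂ) - bet w D * w.2 := by
      rw [h1]; field_simp
    have h2' : D.2 * ((R ^ 2 : ℝ) : ℂ) = alp w D * w.2 * ((R ^ 2 : ℝ) : ℂ) + bet w D * w.1 := by
      rw [h2]; field_simp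
    generalize hA : alp w D = A at *
    generalize hB : bet w D = Bt at *
    generalize hX : ((R ^ 2 : ℝ) : ℂ) = X at *
    generalize hY : ((R' ^ 2 : ℝ) : ℂ) = Y at *
    have : (Bt * ((w.2 : ℂ) * w.1 + ((a : ℂ) * w.2 - w.1) * (a * w.1 + w.2)) / (X * Y) +
        ((a : ℂ) * w.2 - w.1) * q / Y -
        (((w.2 : ℂ) * D.2 + ((a : ℂ) * w.2 - w.1) * (a * D.2 - D.1 + q)) / Y - A)) * (X * Y)
        = 0 := by
      field_simp
      rw [e']
      linear_combination (-(w.2 : ℂ) - ((a : ℂ) * w.2 - w.1) * a) * h2' +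
        ((a : ℂ) * w.2 - w.1) * h1'
    rcases mul_eq_zero.mp this with h | h
    · exact h
    · exact absurd h (mul_ne_zero hne hne')
  rw [key]
  refine (norm_add_le _ _).trans (add_le_add ?_ ?_)
  · rw [norm_div, norm_mul, norm_mul, Complex.norm_real, Complex.norm_real, Complex.norm_real,
      Real.norm_eq_abs, Real.norm_eq_abs, Real.norm_eq_abs, abs_of_nonneg (sq_nonneg R),
      abs_of_nonneg (sq_nonneg R')]
    have hd : |dt (stp a w) (stp a u)| ≤ R' * ((|a| + 2) * R) := by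
      refine (abs_dt_le _ _).trans ?_
      refine mul_le_mul_of_nonneg_left ?_ hw'.le
      have := nn_stp_le a u
      rw [hun] at this
      exact this
    rw [div_le_div_iff₀ (by positivity) (by positivity)]
    have hb := norm_nonneg (bet w D)
    calc ‖bet w D‖ * |dt (stp a w) (stp a u)| * (R * R')
        ≤ ‖bet w D‖ * (R' * ((|a| + 2) * R)) * (R * R') := by gcongr
      _ = ‖bet w D‖ * (|a| + 2) * (R ^ 2 * R' ^ 2) := by ring
  · rw [norm_div, norm_mul, Complex.norm_real, Complex.norm_real, Real.norm_eq_abs,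
      Real.norm_eq_abs, abs_of_nonneg (sq_nonneg R')]
    have h3 : |(stp a w).2| ≤ R' := abs_snd_le _
    rw [div_le_div_iff₀ (by positivity) (by positivity)]
    have hq := norm_nonneg q
    calc |(stp a w).2| * ‖q‖ * R' ≤ R' * ‖q‖ * R' := by gcongr
      _ = ‖q‖ * R' ^ 2 := by ring


/-- `T m = ∑_{l<m} R_l^3` -/
noncomputable def Tc (w : ℕ → ℝ × ℝ) (m : ℕ) : ℝ := ∑ l ∈ range m, nn (w l) ^ 3

theorem Tc_succ (w : ℕ → ℝ × ℝ) (m : ℕ) : Tc w (m + 1) = Tc w m + nn (w m) ^ 3 := by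
  unfold Tc; rw [Finset.sum_range_succ]

theorem Tc_succ' (w : ℕ → ℝ × ℝ) (m : ℕ) : Tc w (m + 1) = cub w m := rfl

theorem Tc_nonneg (w : ℕ → ℝ × ℝ) (m : ℕ) : 0 ≤ Tc w m :=
  Finset.sum_nonneg fun l _ => pow_nonneg (nn_nonneg _) 3

/-- `T_m ≤ (B+1) Sg_m R_m^2` -/
theorem Tc_le {a : ℕ → ℝ} {w : ℕ → ℝ × ℝ} (hw : IsField a w) (h0 : 0 < nn (w 0)) {B : ℝ}
    {m : ℕ} (hB : ∀ j < m, |a j| + 2 ≤ B) (hB0 : 0 ≤ B) :
    Tc w m ≤ (B + 1) * Sg w m * nn (w m) ^ 2 := by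
  rcases m with _ | j
  · unfold Tc Sg
    simp
  · have hRj : 0 < nn (w j) := hw.pos (Nat.zero_le j) h0
    have hR1 : 0 < nn (w (j + 1)) := hw.pos (Nat.zero_le _) h0
    have h1 : nn (w j) ≤ B * nn (w (j + 1)) := by
      have := nn_le_stp (a j) (w j)
      rw [← hw j] at this
      exact this.trans (mul_le_mul_of_nonneg_right (hB j (Nat.lt_succ_self j)) hR1.le)
    have hc := cub_nonneg w j
    rw [Tc_succ']
    have h2 : cub w j / (nn (w j) * nn (w (j + 1))) ≤ Sg w (j + 1) := by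
      rw [Sg_succ]; linarith [Sg_nonneg w j]
    calc cub w j = cub w j / (nn (w j) * nn (w (j + 1))) * (nn (w j) * nn (w (j + 1))) := by
          field_simp
      _ ≤ cub w j / (nn (w j) * nn (w (j + 1))) * ((B * nn (w (j + 1))) * nn (w (j + 1))) := by
          gcongr
      _ = B * (cub w j / (nn (w j) * nn (w (j + 1)))) * nn (w (j + 1)) ^ 2 := by ring
      _ ≤ (B + 1) * Sg w (j + 1) * nn (w (j + 1)) ^ 2 := by
          have h3 : 0 ≤ cub w j / (nn (w j) * nn (w (j + 1))) := by positivity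
          have h4 : B * (cub w j / (nn (w j) * nn (w (j + 1)))) ≤ (B + 1) * Sg w (j + 1) := by
            nlinarith
          gcongr

/-- **General scalar displacement lemma.** -/
theorem disp_general {a : ℕ → ℝ} {w : ℕ → ℝ × ℝ} (hw : IsField a w) (h0 : 0 < nn (w 0))
    {B : ℝ} {N : ℕ} (hB : ∀ m < N, |a m| + 2 ≤ B) (hB0 : 0 ≤ B)
    {D : ℕ → ℂ × ℂ} {q : ℕ → ℂ} (hD : ∀ m < N, D (m + 1) = stq (a m) (q m) (D m))
    {τ : ℂ} (hD0 : D 0 = (τ * (w 0).1, τ * (w 0).2)) {Q : ℝ} (hQ : 0 ≤ Q)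
    (hq : ∀ m < N, ‖(D m).1 - τ * (w m).1‖ ≤ 2 * (Q * (B + 1) * Sg w m) * nn (w m) →
      ‖(D m).2 - τ * (w m).2‖ ≤ 2 * (Q * (B + 1) * Sg w m) * nn (w m) →
      ‖q m‖ ≤ Q * nn (w m) ^ 2) :
    ∀ m ≤ N, ‖(D m).1 - τ * (w m).1‖ ≤ 2 * (Q * (B + 1) * Sg w m) * nn (w m) ∧
      ‖(D m).2 - τ * (w m).2‖ ≤ 2 * (Q * (B + 1) * Sg w m) * nn (w m) := by
  -- invariants
  have hfin : ∀ m ≤ N, ‖bet (w m) (D m)‖ ≤ Q * Tc w m →
      ‖alp (w m) (D m) - τ‖ ≤ Q * (B + 1) * Sg w m →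
      ‖(D m).1 - τ * (w m).1‖ ≤ 2 * (Q * (B + 1) * Sg w m) * nn (w m) ∧
      ‖(D m).2 - τ * (w m).2‖ ≤ 2 * (Q * (B + 1) * Sg w m) * nn (w m) := by
    intro m hm hb ha
    have hR : 0 < nn (w m) := hw.pos (Nat.zero_le m) h0
    have hT := Tc_le hw h0 (m := m) (fun j hj => hB j (lt_of_lt_of_le hj hm)) hB0
    have hbR : ‖bet (w m) (D m)‖ / nn (w m) ≤ Q * (B + 1) * Sg w m * nn (w m) := by
      rw [div_le_iff₀ hR]
      calc ‖bet (w m) (D m)‖ ≤ Q * Tc w m := hb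
        _ ≤ Q * ((B + 1) * Sg w m * nn (w m) ^ 2) := mul_le_mul_of_nonneg_left hT hQ
        _ = _ := by ring
    have hth : 0 ≤ Q * (B + 1) * Sg w m :=
      mul_nonneg (mul_nonneg hQ (by linarith)) (Sg_nonneg w m)
    have hsq : ‖((nn (w m) ^ 2 : ℝ) : ℂ)‖ = nn (w m) ^ 2 := by
      rw [Complex.norm_real, Real.norm_eq_abs, abs_of_nonneg (sq_nonneg _)]
    have hdiv : ∀ x : ℝ, ‖(x : ℂ)‖ ≤ nn (w m) →
        ‖bet (w m) (D m) * (x : ℂ) / ((nn (w m) ^ 2 : ℝ) : ℂ)‖ ≤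
          ‖bet (w m) (D m)‖ / nn (w m) := by
      intro x hx
      rw [norm_div, norm_mul, hsq, div_le_div_iff₀ (pow_pos hR 2) hR]
      have := norm_nonneg (bet (w m) (D m))
      calc ‖bet (w m) (D m)‖ * ‖(x : ℂ)‖ * nn (w m) ≤
            ‖bet (w m) (D m)‖ * nn (w m) * nn (w m) := by gcongr
        _ = _ := by ring
    have h1n := norm_ofReal_fst_le (w m)
    have h2n := norm_ofReal_snd_le (w m)
    have hfin2 : ∀ x y : ℝ, ‖(x : ℂ)‖ ≤ nn (w m) → ‖(y : ℂ)‖ ≤ nn (w m) →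
        ‖(alp (w m) (D m) - τ) * (x : ℂ)‖ +
          ‖bet (w m) (D m) * (y : ℂ) / ((nn (w m) ^ 2 : ℝ) : ℂ)‖ ≤
          2 * (Q * (B + 1) * Sg w m) * nn (w m) := by
      intro x y hx hy
      have h3 : ‖(alp (w m) (D m) - τ) * (x : ℂ)‖ ≤ Q * (B + 1) * Sg w m * nn (w m) := by
        rw [norm_mul]
        exact mul_le_mul ha hx (norm_nonneg _) hth
      have h4 := (hdiv y hy).trans hbR
      linarith
    constructor
    · have e := fst_eq hR (D m)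
      have e2 : (D m).1 - τ * (w m).1 = (alp (w m) (D m) - τ) * (w m).1 -
          bet (w m) (D m) * (w m).2 / ((nn (w m) ^ 2 : ℝ) : ℂ) := by
        linear_combination e
      rw [e2]
      exact (norm_sub_le _ _).trans (hfin2 _ _ h1n h2n)
    · have e := snd_eq hR (D m)
      have e2 : (D m).2 - τ * (w m).2 = (alp (w m) (D m) - τ) * (w m).2 +
          bet (w m) (D m) * (w m).1 / ((nn (w m) ^ 2 : ℝ) : ℂ) := by
        linear_combination e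
      rw [e2]
      exact (norm_add_le _ _).trans (hfin2 _ _ h2n h1n)
  have hinv : ∀ m ≤ N, ‖bet (w m) (D m)‖ ≤ Q * Tc w m ∧
      ‖alp (w m) (D m) - τ‖ ≤ Q * (B + 1) * Sg w m := by
    intro m
    induction m with
    | zero =>
      intro _
      have hne : ((nn (w 0) ^ 2 : ℝ) : ℂ) ≠ 0 := by
        exact_mod_cast (pow_pos h0 2).ne'
      have e : ((nn (w 0) ^ 2 : ℝ) : ℂ) = ((w 0).1 : ℂ) ^ 2 + ((w 0).2 : ℂ) ^ 2 := by
        rw [nn_sq]; push_cast; ring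
      have hb : bet (w 0) (D 0) = 0 := by
        rw [hD0]; unfold bet; ring
      have ha : alp (w 0) (D 0) = τ := by
        unfold alp
        rw [div_eq_iff hne, hD0, e]
        ring
      rw [hb, ha, norm_zero, sub_self, norm_zero]
      exact ⟨mul_nonneg hQ (Tc_nonneg _ _),
        mul_nonneg (mul_nonneg hQ (by linarith)) (Sg_nonneg w 0)⟩
    | succ m ih =>
      intro hm
      have hmN : m < N := hm
      obtain ⟨ihb, iha⟩ := ih hmN.le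
      have hR : 0 < nn (w m) := hw.pos (Nat.zero_le m) h0
      have hR1 : 0 < nn (w (m + 1)) := hw.pos (Nat.zero_le _) h0
      obtain ⟨c1, c2⟩ := hfin m hmN.le ihb iha
      have hqm := hq m hmN c1 c2
      have hDm := hD m hmN
      have hBm := hB m hmN
      constructor
      · rw [hDm, hw m, bet_stq, Tc_succ]
        calc ‖bet (w m) (D m) + ((w m).2 : ℂ) * q m‖
            ≤ ‖bet (w m) (D m)‖ + ‖((w m).2 : ℂ)‖ * ‖q m‖ := by
              rw [← norm_mul]; exact norm_add_le _ _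
          _ ≤ Q * Tc w m + nn (w m) * (Q * nn (w m) ^ 2) :=
              add_le_add ihb (mul_le_mul (norm_ofReal_snd_le _) hqm (norm_nonneg _) hR.le)
          _ = Q * (Tc w m + nn (w m) ^ 3) := by ring
      · have hal := alp_stq (a := a m) (q := q m) (D := D m) hR (by rw [← hw m]; exact hR1)
        rw [← hw m, ← hDm] at hal
        have e3 : alp (w (m + 1)) (D (m + 1)) - τ =
            (alp (w (m + 1)) (D (m + 1)) - alp (w m) (D m)) + (alp (w m) (D m) - τ) := by ring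
        rw [e3]
        refine (norm_add_le _ _).trans ?_
        have hP : 0 < nn (w m) * nn (w (m + 1)) := mul_pos hR hR1
        have h5 : ‖bet (w m) (D m)‖ * (|a m| + 2) / (nn (w m) * nn (w (m + 1))) +
            ‖q m‖ / nn (w (m + 1)) ≤
            Q * (B + 1) * (cub w m / (nn (w m) * nn (w (m + 1)))) := by
          have h6 : ‖q m‖ / nn (w (m + 1)) = ‖q m‖ * nn (w m) / (nn (w m) * nn (w (m + 1))) := by
            field_simp
          rw [h6, ← add_div, ← mul_div_assoc]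
          refine div_le_div_of_nonneg_right ?_ hP.le
          have hab : (0:ℝ) ≤ |a m| + 2 := by positivity
          have h7 : ‖bet (w m) (D m)‖ * (|a m| + 2) ≤ Q * cub w m * B := by
            refine mul_le_mul (ihb.trans ?_) hBm hab (mul_nonneg hQ (cub_nonneg w m))
            refine mul_le_mul_of_nonneg_left ?_ hQ
            rw [← Tc_succ', Tc_succ]
            linarith [pow_nonneg hR.le 3]
          have h8 : ‖q m‖ * nn (w m) ≤ Q * cub w m := by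
            calc ‖q m‖ * nn (w m) ≤ Q * nn (w m) ^ 2 * nn (w m) :=
                  mul_le_mul_of_nonneg_right hqm hR.le
              _ = Q * nn (w m) ^ 3 := by ring
              _ ≤ Q * cub w m := mul_le_mul_of_nonneg_left (cube_le_cub w le_rfl) hQ
          calc ‖bet (w m) (D m)‖ * (|a m| + 2) + ‖q m‖ * nn (w m)
              ≤ Q * cub w m * B + Q * cub w m := add_le_add h7 h8
            _ = Q * (B + 1) * cub w m := by ring
        calc _ ≤ Q * (B + 1) * (cub w m / (nn (w m) * nn (w (m + 1)))) +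
              Q * (B + 1) * Sg w m := add_le_add (hal.trans h5) iha
          _ = Q * (B + 1) * Sg w (m + 1) := by rw [Sg_succ]; ring
  intro m hm
  exact hfin m hm (hinv m hm).1 (hinv m hm).2

/-- **P7, displacement.**  `8 M (B+1) |τ| Sg ≤ 1` keeps the displacement linear up to time `N`,
given only the quadratic bound of the error at every time `m < N`. -/
theorem disp_le {a : ℕ → ℝ} {w : ℕ → ℝ × ℝ} (hw : IsField a w) (h0 : 0 < nn (w 0))
    {B : ℝ} {N : ℕ} (hB : ∀ m < N, |a m| + 2 ≤ B) (hB0 : 0 ≤ B)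
    {D : ℕ → ℂ × ℂ} {q : ℕ → ℂ} (hD : ∀ m < N, D (m + 1) = stq (a m) (q m) (D m))
    {τ : ℂ} (hD0 : D 0 = (τ * (w 0).1, τ * (w 0).2)) {M : ℝ} (hM : 0 ≤ M)
    (hq : ∀ m < N, ‖(D m).2‖ ≤ 2 * ‖τ‖ * nn (w m) → ‖q m‖ ≤ M * ‖(D m).2‖ ^ 2)
    (hS : 8 * M * (B + 1) * ‖τ‖ * Sg w N ≤ 1) :
    ∀ m ≤ N, ‖(D m).1 - τ * (w m).1‖ ≤ ‖τ‖ * nn (w m) ∧
      ‖(D m).2 - τ * (w m).2‖ ≤ ‖τ‖ * nn (w m) ∧
      ‖(D m).1‖ ≤ 2 * ‖τ‖ * nn (w m) ∧ ‖(D m).2‖ ≤ 2 * ‖τ‖ * nn (w m) := by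
  have hτ := norm_nonneg τ
  set Q : ℝ := 4 * M * ‖τ‖ ^ 2 with hQdef
  have hQ : 0 ≤ Q := by positivity
  have hθ : ∀ m ≤ N, 2 * (Q * (B + 1) * Sg w m) ≤ ‖τ‖ := by
    intro m hm
    have h1 : Sg w m ≤ Sg w N := Sg_mono w hm
    have h2 : 2 * (Q * (B + 1) * Sg w m) ≤ 2 * (Q * (B + 1) * Sg w N) := by
      have : 0 ≤ Q * (B + 1) := mul_nonneg hQ (by linarith)
      nlinarith
    calc 2 * (Q * (B + 1) * Sg w m) ≤ 2 * (Q * (B + 1) * Sg w N) := h2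
      _ = ‖τ‖ * (8 * M * (B + 1) * ‖τ‖ * Sg w N) := by rw [hQdef]; ring
      _ ≤ ‖τ‖ * 1 := mul_le_mul_of_nonneg_left hS hτ
      _ = ‖τ‖ := mul_one _
  have hlin : ∀ m ≤ N, ∀ (x : ℂ) (y : ℝ), ‖(y : ℂ)‖ ≤ nn (w m) →
      ‖x - τ * (y : ℂ)‖ ≤ 2 * (Q * (B + 1) * Sg w m) * nn (w m) →
      ‖x - τ * (y : ℂ)‖ ≤ ‖τ‖ * nn (w m) ∧ ‖x‖ ≤ 2 * ‖τ‖ * nn (w m) := by
    intro m hm x y hy hx
    have h3 : ‖x - τ * (y : ℂ)‖ ≤ ‖τ‖ * nn (w m) :=
      hx.trans (mul_le_mul_of_nonneg_right (hθ m hm) (nn_nonneg _))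
    refine ⟨h3, ?_⟩
    calc ‖x‖ = ‖(x - τ * (y : ℂ)) + τ * (y : ℂ)‖ := by ring_nf
      _ ≤ ‖x - τ * (y : ℂ)‖ + ‖τ * (y : ℂ)‖ := norm_add_le _ _
      _ ≤ ‖τ‖ * nn (w m) + ‖τ‖ * nn (w m) := by
          refine add_le_add h3 ?_
          rw [norm_mul]
          exact mul_le_mul_of_nonneg_left hy hτ
      _ = _ := by ring
  have hmain := disp_general hw h0 hB hB0 hD hD0 hQ (fun m hm _ h2 => by
    obtain ⟨_, h4⟩ := hlin m hm.le _ _ (norm_ofReal_snd_le (w m)) h2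
    calc ‖q m‖ ≤ M * ‖(D m).2‖ ^ 2 := hq m hm h4
      _ ≤ M * (2 * ‖τ‖ * nn (w m)) ^ 2 := by
          gcongr
      _ = Q * nn (w m) ^ 2 := by rw [hQdef]; ring)
  intro m hm
  obtain ⟨h1, h2⟩ := hmain m hm
  obtain ⟨h3, h4⟩ := hlin m hm _ _ (norm_ofReal_fst_le (w m)) h1
  obtain ⟨h5, h6⟩ := hlin m hm _ _ (norm_ofReal_snd_le (w m)) h2
  exact ⟨h3, h5, h4, h6⟩

/-- **Distortion.**  A complex field of a perturbed potential `a_m + e_m`, `‖e_m‖ ≤ κ R_m`, started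
at `w 0`, stays within `2 (2κ (B+1) Sg)` (relative) of `w` as long as `4 κ (B+1) Sg ≤ 1`. -/
theorem field_le {a : ℕ → ℝ} {w : ℕ → ℝ × ℝ} (hw : IsField a w) (h0 : 0 < nn (w 0))
    {B : ℝ} {N : ℕ} (hB : ∀ m < N, |a m| + 2 ≤ B) (hB0 : 0 ≤ B)
    {D : ℕ → ℂ × ℂ} {e : ℕ → ℂ}
    (hD : ∀ m < N, D (m + 1) = ((D m).2, ((a m : ℂ) + e m) * (D m).2 - (D m).1))
    (hD0 : D 0 = (((w 0).1 : ℂ), ((w 0).2 : ℂ))) {κ : ℝ} (hκ : 0 ≤ κ)
    (he : ∀ m < N, ‖e m‖ ≤ κ * nn (w m))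
    (hS : 4 * κ * (B + 1) * Sg w N ≤ 1) :
    ∀ m ≤ N, ‖(D m).1 - (w m).1‖ ≤ 4 * κ * (B + 1) * Sg w m * nn (w m) ∧
      ‖(D m).2 - (w m).2‖ ≤ 4 * κ * (B + 1) * Sg w m * nn (w m) := by
  have hD' : ∀ m < N, D (m + 1) = stq (a m) (e m * (D m).2) (D m) := by
    intro m hm
    rw [hD m hm]
    unfold stq
    ext
    · rfl
    · simp only; ring
  have hD0' : D 0 = ((1 : ℂ) * (w 0).1, (1 : ℂ) * (w 0).2) := by
    rw [hD0]; simp
  have hθ : ∀ m ≤ N, 2 * (2 * κ * (B + 1) * Sg w m) ≤ 1 := by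
    intro m hm
    have h1 : Sg w m ≤ Sg w N := Sg_mono w hm
    have : 0 ≤ 4 * κ * (B + 1) := by
      have : 0 ≤ B + 1 := by linarith
      positivity
    nlinarith
  have hmain := disp_general hw h0 hB hB0 hD' (τ := 1) hD0' (Q := 2 * κ) (by positivity)
    (fun m hm _ h2 => by
      have hR := nn_nonneg (w m)
      have h3 : ‖(D m).2 - 1 * ((w m).2 : ℂ)‖ ≤ nn (w m) :=
        h2.trans (by
          have := hθ m hm.le
          nlinarith)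
      have h4 : ‖(D m).2‖ ≤ 2 * nn (w m) := by
        calc ‖(D m).2‖ = ‖((D m).2 - 1 * ((w m).2 : ℂ)) + ((w m).2 : ℂ)‖ := by ring_nf
          _ ≤ ‖(D m).2 - 1 * ((w m).2 : ℂ)‖ + ‖((w m).2 : ℂ)‖ := norm_add_le _ _
          _ ≤ nn (w m) + nn (w m) := add_le_add h3 (norm_ofReal_snd_le _)
          _ = _ := by ring
      rw [norm_mul]
      calc ‖e m‖ * ‖(D m).2‖ ≤ (κ * nn (w m)) * (2 * nn (w m)) :=
            mul_le_mul (he m hm) h4 (norm_nonneg _) (by positivity)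
        _ = 2 * κ * nn (w m) ^ 2 := by ring)
  intro m hm
  obtain ⟨h1, h2⟩ := hmain m hm
  rw [one_mul] at h1 h2
  constructor
  · calc _ ≤ _ := h1
      _ = _ := by ring
  · calc _ ≤ _ := h2
      _ = _ := by ring

end Crest.Agent.R128.Disp
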