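import Mathlib
import Crest.Agent.R128.Disp
import Crest.Agent.R128.TreeVal
import Crest.Agent.R128.Remez
import Crest.Agent.R128.CellB

-- ▼ part R128/CleanNum
section

/-!
Row 128, node N6-CLEANDISC, numeric part (helper816).

`w` = field started at the tip (time `0`), `z` = the field which is seen from the end `n` of the
clean segment (`z n` has size about one); `Z_m = nn (z m)`, `R_m = nn (w m)`, `X = |wr (w 0) (z 0)|`.
Backward clean: `Z_j^(1-δ) ≤ Z_i` for `i ≤ j ≤ n` and `∑ Z_m^(-δ) ≤ K`.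
-/

set_option autoImplicit false

open Finset

namespace Crest.Agent.R128.CleanNum

open Crest.Agent.R128.TreeSum Crest.Agent.R128.Disp

/-- The data of a backward clean side. -/
structure Clean (a : ℕ → ℝ) (w z : ℕ → ℝ × ℝ) (n : ℕ) (δ K A c0 : ℝ) : Prop where
  hw : IsField a w
  hz : IsField a z
  w0 : 0 < nn (w 0)
  A1 : 1 ≤ A
  hA : ∀ j, |a j| + 2 ≤ A
  δ0 : 0 ≤ δ
  δ1 : δ ≤ 1 / 60
  K1 : 1 ≤ K
  c1 : 1 ≤ c0
  one : ∀ m ≤ n, 1 ≤ nn (z m)
  val : ∀ i j, i ≤ j → j ≤ n → nn (z j) ^ (1 - δ) ≤ nn (z i)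
  dur : ∑ m ∈ range (n + 1), nn (z m) ^ (-δ) ≤ K
  tr : nn (w 0) * nn (z 0) ≤ c0 * |wr (w 0) (z 0)|

variable {a : ℕ → ℝ} {w z : ℕ → ℝ × ℝ} {n : ℕ} {δ K A c0 : ℝ}

/-- `Z_i^{-c} ≤ Z_j^{-(1-δ) c}` for `i ≤ j`. -/
theorem Clean.rpow_le (h : Clean a w z n δ K A c0) {i j : ℕ} (hij : i ≤ j) (hj : j ≤ n) {c : ℝ}
    (hc : 0 ≤ c) : nn (z i) ^ (-c) ≤ nn (z j) ^ (-((1 - δ) * c)) := by
  have hj0 : 0 < nn (z j) := lt_of_lt_of_le one_pos (h.one j hj)
  have h1 : nn (z i) ^ (-c) ≤ (nn (z j) ^ (1 - δ)) ^ (-c) :=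
    Real.rpow_le_rpow_of_nonpos (Real.rpow_pos_of_pos hj0 _) (h.val i j hij hj) (by linarith)
  refine h1.trans (le_of_eq ?_)
  rw [← Real.rpow_mul hj0.le]
  congr 1
  ring

/-- partial sums of negative powers -/
theorem Clean.sum_le (h : Clean a w z n δ K A c0) {e : ℕ} (he : e ≤ n) {c : ℝ} (hc : δ ≤ c)
    {s : Finset ℕ} (hs : s ⊆ range (e + 1)) :
    ∑ m ∈ s, nn (z m) ^ (-c) ≤ K * nn (z e) ^ (-((1 - δ) * (c - δ))) := by
  have h0 : ∀ m, 0 ≤ nn (z m) ^ (-δ) := fun m => Real.rpow_nonneg (nn_nonneg _) _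
  calc ∑ m ∈ s, nn (z m) ^ (-c)
      ≤ ∑ m ∈ s, nn (z m) ^ (-δ) * nn (z e) ^ (-((1 - δ) * (c - δ))) := by
        refine Finset.sum_le_sum fun m hm => ?_
        have hme : m ≤ e := by have := Finset.mem_range.1 (hs hm); omega
        have hm0 : 0 < nn (z m) := lt_of_lt_of_le one_pos (h.one m (hme.trans he))
        have e1 : nn (z m) ^ (-c) = nn (z m) ^ (-δ) * nn (z m) ^ (-(c - δ)) := by
          rw [← Real.rpow_add hm0]; congr 1; ring
        rw [e1]
        exact mul_le_mul_of_nonneg_left (h.rpow_le hme he (by linarith)) (h0 m)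
    _ = (∑ m ∈ s, nn (z m) ^ (-δ)) * nn (z e) ^ (-((1 - δ) * (c - δ))) := by
        rw [Finset.sum_mul]
    _ ≤ K * nn (z e) ^ (-((1 - δ) * (c - δ))) := by
        refine mul_le_mul_of_nonneg_right ?_ (Real.rpow_nonneg (nn_nonneg _) _)
        refine (Finset.sum_le_sum_of_subset_of_nonneg ?_ fun m _ _ => h0 m).trans h.dur
        exact hs.trans (Finset.range_subset_range.2 (by omega))

theorem Clean.Xpos (h : Clean a w z n δ K A c0) : 0 < |wr (w 0) (z 0)| := by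
  have h1 : 0 < nn (z 0) := lt_of_lt_of_le one_pos (h.one 0 (Nat.zero_le _))
  have h2 : 0 < nn (w 0) * nn (z 0) := mul_pos h.w0 h1
  have h3 := h.tr
  have h4 := h.c1
  by_contra hc
  have h5 : |wr (w 0) (z 0)| = 0 := le_antisymm (not_lt.1 hc) (abs_nonneg _)
  rw [h5, mul_zero] at h3
  linarith

/-- `X ≤ R_m Z_m` -/
theorem Clean.X_le (h : Clean a w z n δ K A c0) (m : ℕ) :
    |wr (w 0) (z 0)| ≤ nn (w m) * nn (z m) := by
  have h1 : wr (w m) (z m) = wr (w 0) (z 0) := h.hw.wr_eq h.hz (Nat.zero_le m)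
  rw [← h1]
  exact abs_wr_le _ _

theorem Clean.Rpos (h : Clean a w z n δ K A c0) (m : ℕ) : 0 < nn (w m) :=
  h.hw.pos (Nat.zero_le m) h.w0

theorem Clean.Z_succ_le (h : Clean a w z n δ K A c0) (m : ℕ) : nn (z (m + 1)) ≤ A * nn (z m) := by
  rw [h.hz m]
  exact (nn_stp_le _ _).trans (mul_le_mul_of_nonneg_right (h.hA m) (nn_nonneg _))

theorem Clean.Z_le_succ (h : Clean a w z n δ K A c0) (m : ℕ) : nn (z m) ≤ A * nn (z (m + 1)) := by
  have := nn_le_stp (a m) (z m)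
  rw [← h.hz m] at this
  exact this.trans (mul_le_mul_of_nonneg_right (h.hA m) (nn_nonneg _))

/-- the constant `C1` -/
noncomputable def C1 (A K c0 : ℝ) : ℝ := c0 + A ^ 2 * K + 1

theorem C1_pos (h : Clean a w z n δ K A c0) : 1 ≤ C1 A K c0 := by
  have h1 := h.c1
  have h2 := h.K1
  unfold C1
  have : 0 ≤ A ^ 2 * K := mul_nonneg (sq_nonneg _) (by linarith)
  linarith

/-- **Upper bound of the field**: `R_m ≤ C1 X Z_m^{-(1-3δ)}`. -/
theorem Clean.R_le (h : Clean a w z n δ K A c0) {m : ℕ} (hm : m ≤ n) :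
    nn (w m) ≤ C1 A K c0 * |wr (w 0) (z 0)| * nn (z m) ^ (-(1 - 3 * δ)) := by
  have hX := h.Xpos
  set X := |wr (w 0) (z 0)| with hXdef
  have hδ0 := h.δ0
  have hδ1 := h.δ1
  have hK := h.K1
  have hc := h.c1
  have hZ1 : 1 ≤ nn (z m) := h.one m hm
  have hZ0 : 0 < nn (z m) := by linarith
  have hz01 : 1 ≤ nn (z 0) := h.one 0 (Nat.zero_le _)
  have hz00 : 0 < nn (z 0) := by linarith
  have hR0 := h.w0
  -- component along `z`
  have d1 : |lam (z m) (w m) - lam (z 0) (w 0)| ≤ |wr (z 0) (w 0)| * wt a z 0 m :=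
    lam_diff h.hz h.hw (Nat.zero_le m) hz00
  have hwrc : ∀ u v : ℝ × ℝ, |wr u v| = |wr v u| := by
    intro u v
    rw [show wr u v = -wr v u by unfold wr; ring, abs_neg]
  rw [hwrc (z 0) (w 0), ← hXdef] at d1
  have d2 : |lam (z 0) (w 0)| ≤ nn (w 0) / nn (z 0) := by
    unfold lam
    rw [abs_div, abs_of_pos (by positivity : 0 < nn (z 0) ^ 2),
      div_le_div_iff₀ (by positivity) hz00]
    have := abs_dt_le (w 0) (z 0)
    nlinarith
  have d3 : wt a z 0 m ≤ A ^ 2 * K * (nn (z m) ^ (1 - δ)) ^ (-(2 - δ)) := by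
    refine wt_le_of_valid h.hz h.hA (Real.one_le_rpow hZ1 (by linarith)) (by linarith) ?_ ?_
    · intro j hj
      rw [Finset.mem_Ico] at hj
      exact h.val j m hj.2.le hm
    · refine (Finset.sum_le_sum_of_subset_of_nonneg ?_ fun j _ _ =>
        Real.rpow_nonneg (nn_nonneg _) _).trans h.dur
      intro j hj
      rw [Finset.mem_Ico] at hj
      rw [Finset.mem_range]
      omega
  have d4 := nn_le_lam (z m) (w m) hZ0
  rw [show |wr (z m) (w m)| = X by
    rw [hwrc, h.hw.wr_eq h.hz (Nat.zero_le m)]] at d4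
  have d5 : |lam (z m) (w m)| ≤ nn (w 0) / nn (z 0) + X * wt a z 0 m := by
    have := abs_add_le (lam (z 0) (w 0)) (lam (z m) (w m) - lam (z 0) (w 0))
    rw [add_sub_cancel] at this
    linarith
  -- the three terms
  have hP : 0 < nn (z m) ^ (-(1 - 3 * δ)) := Real.rpow_pos_of_pos hZ0 _
  have e1 : nn (w 0) / nn (z 0) * nn (z m) ≤ c0 * X * nn (z m) ^ (-(1 - 3 * δ)) := by
    have f1 : nn (w 0) / nn (z 0) ≤ c0 * X / nn (z 0) ^ 2 := by
      rw [div_le_div_iff₀ hz00 (by positivity)]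
      have := h.tr
      calc nn (w 0) * nn (z 0) ^ 2 = nn (w 0) * nn (z 0) * nn (z 0) := by ring
        _ ≤ c0 * X * nn (z 0) := mul_le_mul_of_nonneg_right this hz00.le
    have f2 : (nn (z 0) ^ 2)⁻¹ ≤ nn (z m) ^ (-((1 - δ) * 2)) := by
      have := h.rpow_le (Nat.zero_le m) hm (c := 2) (by norm_num)
      rw [Real.rpow_neg hz00.le] at this
      rw [← Real.rpow_natCast]
      exact_mod_cast this
    have f3 : nn (z m) ^ (-((1 - δ) * 2)) * nn (z m) ≤ nn (z m) ^ (-(1 - 3 * δ)) := by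
      have : nn (z m) ^ (-((1 - δ) * 2)) * nn (z m) = nn (z m) ^ (-((1 - δ) * 2) + 1) := by
        rw [Real.rpow_add hZ0, Real.rpow_one]
      rw [this]
      exact Real.rpow_le_rpow_of_exponent_le hZ1 (by linarith)
    calc nn (w 0) / nn (z 0) * nn (z m) ≤ c0 * X / nn (z 0) ^ 2 * nn (z m) :=
          mul_le_mul_of_nonneg_right f1 hZ0.le
      _ = c0 * X * ((nn (z 0) ^ 2)⁻¹ * nn (z m)) := by rw [div_eq_mul_inv]; ring
      _ ≤ c0 * X * (nn (z m) ^ (-((1 - δ) * 2)) * nn (z m)) := by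
          have : 0 ≤ c0 * X := by positivity
          gcongr
      _ ≤ c0 * X * nn (z m) ^ (-(1 - 3 * δ)) := by
          have : 0 ≤ c0 * X := by positivity
          gcongr
  have e2 : X * wt a z 0 m * nn (z m) ≤ A ^ 2 * K * X * nn (z m) ^ (-(1 - 3 * δ)) := by
    have g1 : (nn (z m) ^ (1 - δ)) ^ (-(2 - δ)) * nn (z m) ≤ nn (z m) ^ (-(1 - 3 * δ)) := by
      have : (nn (z m) ^ (1 - δ)) ^ (-(2 - δ)) * nn (z m) =
          nn (z m) ^ ((1 - δ) * (-(2 - δ)) + 1) := by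
        rw [← Real.rpow_mul hZ0.le, Real.rpow_add hZ0, Real.rpow_one]
      rw [this]
      refine Real.rpow_le_rpow_of_exponent_le hZ1 ?_
      nlinarith
    calc X * wt a z 0 m * nn (z m)
        ≤ X * (A ^ 2 * K * (nn (z m) ^ (1 - δ)) ^ (-(2 - δ))) * nn (z m) := by gcongr
      _ = A ^ 2 * K * X * ((nn (z m) ^ (1 - δ)) ^ (-(2 - δ)) * nn (z m)) := by ring
      _ ≤ A ^ 2 * K * X * nn (z m) ^ (-(1 - 3 * δ)) := by
          have : 0 ≤ A ^ 2 * K * X := by positivity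
          gcongr
  have e3 : X / nn (z m) ≤ X * nn (z m) ^ (-(1 - 3 * δ)) := by
    rw [div_eq_mul_inv]
    refine mul_le_mul_of_nonneg_left ?_ hX.le
    rw [← Real.rpow_neg_one]
    exact Real.rpow_le_rpow_of_exponent_le hZ1 (by linarith)
  calc nn (w m) ≤ |lam (z m) (w m)| * nn (z m) + X / nn (z m) := d4
    _ ≤ (nn (w 0) / nn (z 0) + X * wt a z 0 m) * nn (z m) + X / nn (z m) := by gcongr
    _ = nn (w 0) / nn (z 0) * nn (z m) + X * wt a z 0 m * nn (z m) + X / nn (z m) := by ring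
    _ ≤ c0 * X * nn (z m) ^ (-(1 - 3 * δ)) + A ^ 2 * K * X * nn (z m) ^ (-(1 - 3 * δ)) +
        X * nn (z m) ^ (-(1 - 3 * δ)) := by linarith
    _ = C1 A K c0 * X * nn (z m) ^ (-(1 - 3 * δ)) := by unfold C1; ring

/-- `1/(R_m R_{m+1}) ≤ A Z_m^2 / X^2` -/
theorem Clean.inv_le (h : Clean a w z n δ K A c0) {m : ℕ} (hm : m < n) :
    1 / (nn (w m) * nn (w (m + 1))) ≤ A * nn (z m) ^ 2 / |wr (w 0) (z 0)| ^ 2 := by
  have hX := h.Xpos
  have h1 := h.X_le m
  have h2 := h.X_le (m + 1)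
  have h3 := h.Z_succ_le m
  have hR := h.Rpos m
  have hR1 := h.Rpos (m + 1)
  have hZ : 0 < nn (z m) := lt_of_lt_of_le one_pos (h.one m hm.le)
  rw [div_le_div_iff₀ (by positivity) (by positivity), one_mul]
  calc |wr (w 0) (z 0)| ^ 2 = |wr (w 0) (z 0)| * |wr (w 0) (z 0)| := by ring
    _ ≤ (nn (w m) * nn (z m)) * (nn (w (m + 1)) * nn (z (m + 1))) := by gcongr
    _ ≤ (nn (w m) * nn (z m)) * (nn (w (m + 1)) * (A * nn (z m))) := by gcongr
    _ = A * nn (z m) ^ 2 * (nn (w m) * nn (w (m + 1))) := by ring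

/-- the constant of the `Sg` bound -/
noncomputable def C2 (A K c0 : ℝ) : ℝ := C1 A K c0 ^ 3 * K ^ 2 * A

/-- **The displacement sum of a clean side**: `Sg w e ≤ C2 X Z_e^{-(1-15δ)}` for every `e ≤ n`. -/
theorem Clean.Sg_le (h : Clean a w z n δ K A c0) {e : ℕ} (he : e ≤ n) :
    Sg w e ≤ C2 A K c0 * |wr (w 0) (z 0)| * nn (z e) ^ (-(1 - 15 * δ)) := by
  have hX := h.Xpos
  set X := |wr (w 0) (z 0)| with hXdef
  have hδ0 := h.δ0
  have hδ1 := h.δ1
  have hK := h.K1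
  have hA1 := h.A1
  have hC := C1_pos h
  -- cubes
  have hcub : ∀ m ≤ n, cub w m ≤ (C1 A K c0 * X) ^ 3 * (K * nn (z m) ^ (-(3 - 13 * δ))) := by
    intro m hm
    have hZ1 := h.one m hm
    unfold cub
    calc ∑ l ∈ range (m + 1), nn (w l) ^ 3
        ≤ ∑ l ∈ range (m + 1), (C1 A K c0 * X) ^ 3 * nn (z l) ^ (-(3 - 9 * δ)) := by
          refine Finset.sum_le_sum fun l hl => ?_
          have hlm : l ≤ m := by have := Finset.mem_range.1 hl; omega
          have hl0 : 0 < nn (z l) := lt_of_lt_of_le one_pos (h.one l (hlm.trans hm))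
          have h1 := h.R_le (hlm.trans hm)
          calc nn (w l) ^ 3 ≤ (C1 A K c0 * X * nn (z l) ^ (-(1 - 3 * δ))) ^ 3 :=
                pow_le_pow_left₀ (nn_nonneg _) h1 3
            _ = (C1 A K c0 * X) ^ 3 * (nn (z l) ^ (-(1 - 3 * δ))) ^ 3 := by ring
            _ = (C1 A K c0 * X) ^ 3 * nn (z l) ^ (-(3 - 9 * δ)) := by
                congr 1
                rw [← Real.rpow_natCast, ← Real.rpow_mul hl0.le]
                congr 1
                push_cast
                ring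
      _ = (C1 A K c0 * X) ^ 3 * ∑ l ∈ range (m + 1), nn (z l) ^ (-(3 - 9 * δ)) := by
          rw [Finset.mul_sum]
      _ ≤ (C1 A K c0 * X) ^ 3 * (K * nn (z m) ^ (-((1 - δ) * ((3 - 9 * δ) - δ)))) := by
          refine mul_le_mul_of_nonneg_left ?_ (by positivity)
          exact h.sum_le hm (by linarith) (Finset.Subset.refl _)
      _ ≤ (C1 A K c0 * X) ^ 3 * (K * nn (z m) ^ (-(3 - 13 * δ))) := by
          have : nn (z m) ^ (-((1 - δ) * ((3 - 9 * δ) - δ))) ≤ nn (z m) ^ (-(3 - 13 * δ)) := by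
            refine Real.rpow_le_rpow_of_exponent_le hZ1 ?_
            nlinarith
          have hp : 0 ≤ (C1 A K c0 * X) ^ 3 := by positivity
          gcongr
  -- the terms
  have hterm : ∀ m < e, cub w m / (nn (w m) * nn (w (m + 1))) ≤
      C1 A K c0 ^ 3 * K * A * X * nn (z m) ^ (-(1 - 13 * δ)) := by
    intro m hme
    have hmn : m < n := by omega
    have hZ1 := h.one m hmn.le
    have hZ0 : 0 < nn (z m) := by linarith
    have h1 := hcub m hmn.le
    have h2 := h.inv_le hmn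
    rw [← hXdef] at h2
    have hR := h.Rpos m
    have hR1 := h.Rpos (m + 1)
    have hcn := cub_nonneg w m
    calc cub w m / (nn (w m) * nn (w (m + 1)))
        = cub w m * (1 / (nn (w m) * nn (w (m + 1)))) := by ring
      _ ≤ ((C1 A K c0 * X) ^ 3 * (K * nn (z m) ^ (-(3 - 13 * δ)))) *
          (A * nn (z m) ^ 2 / X ^ 2) := by
          have hp : 0 ≤ nn (z m) ^ (-(3 - 13 * δ)) := Real.rpow_nonneg hZ0.le _
          refine mul_le_mul h1 h2 (by positivity) (by positivity)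
      _ = C1 A K c0 ^ 3 * K * A * X * (nn (z m) ^ (-(3 - 13 * δ)) * nn (z m) ^ 2) := by
          field_simp
      _ = C1 A K c0 ^ 3 * K * A * X * nn (z m) ^ (-(1 - 13 * δ)) := by
          congr 1
          rw [← Real.rpow_natCast, ← Real.rpow_add hZ0]
          congr 1
          push_cast
          ring
  unfold Sg
  calc ∑ m ∈ range e, cub w m / (nn (w m) * nn (w (m + 1)))
      ≤ ∑ m ∈ range e, C1 A K c0 ^ 3 * K * A * X * nn (z m) ^ (-(1 - 13 * δ)) :=
        Finset.sum_le_sum fun m hm => hterm m (Finset.mem_range.1 hm)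
    _ = C1 A K c0 ^ 3 * K * A * X * ∑ m ∈ range e, nn (z m) ^ (-(1 - 13 * δ)) := by
        rw [Finset.mul_sum]
    _ ≤ C1 A K c0 ^ 3 * K * A * X * (K * nn (z e) ^ (-((1 - δ) * ((1 - 13 * δ) - δ)))) := by
        refine mul_le_mul_of_nonneg_left ?_ (by positivity)
        exact h.sum_le he (by linarith) (Finset.range_subset_range.2 (by omega))
    _ ≤ C1 A K c0 ^ 3 * K * A * X * (K * nn (z e) ^ (-(1 - 15 * δ))) := by
        have : nn (z e) ^ (-((1 - δ) * ((1 - 13 * δ) - δ))) ≤ nn (z e) ^ (-(1 - 15 * δ)) := by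
          refine Real.rpow_le_rpow_of_exponent_le (h.one e he) ?_
          nlinarith
        have hp : 0 ≤ C1 A K c0 ^ 3 * K * A * X := by positivity
        gcongr
    _ = C2 A K c0 * X * nn (z e) ^ (-(1 - 15 * δ)) := by unfold C2; ring

/-- the field at the times before `e` -/
theorem Clean.R_le' (h : Clean a w z n δ K A c0) {m e : ℕ} (hme : m ≤ e) (he : e ≤ n) :
    nn (w m) ≤ C1 A K c0 * |wr (w 0) (z 0)| * nn (z e) ^ (-(1 - 4 * δ)) := by
  have hX := h.Xpos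
  have hδ0 := h.δ0
  have hδ1 := h.δ1
  have hC := C1_pos h
  refine (h.R_le (hme.trans he)).trans ?_
  have h1 := h.rpow_le hme he (c := 1 - 3 * δ) (by linarith)
  have h2 : nn (z e) ^ (-((1 - δ) * (1 - 3 * δ))) ≤ nn (z e) ^ (-(1 - 4 * δ)) := by
    refine Real.rpow_le_rpow_of_exponent_le (h.one e he) ?_
    nlinarith
  exact mul_le_mul_of_nonneg_left (h1.trans h2) (by positivity)

/-- **The content sum of a clean side**:
`∑_{m<e} A/(R_m R_{m+1}) (Z_{m+1}^{-(1-15δ)})^3 ≤ A^4 K X^{-2} Z_e^{-(1-47δ)}`. -/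
theorem Clean.content_le (h : Clean a w z n δ K A c0) {e : ℕ} (he : e ≤ n) :
    ∑ m ∈ range e, 1 / (nn (w m) * nn (w (m + 1))) * (nn (z (m + 1)) ^ (-(1 - 15 * δ))) ^ 3 ≤
      A ^ 3 * K / |wr (w 0) (z 0)| ^ 2 * nn (z e) ^ (-(1 - 47 * δ)) := by
  have hX := h.Xpos
  set X := |wr (w 0) (z 0)| with hXdef
  have hδ0 := h.δ0
  have hδ1 := h.δ1
  have hK := h.K1
  have hA1 := h.A1
  have hterm : ∀ m < e, 1 / (nn (w m) * nn (w (m + 1))) *
      (nn (z (m + 1)) ^ (-(1 - 15 * δ))) ^ 3 ≤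
      A ^ 3 / X ^ 2 * nn (z (m + 1)) ^ (-(1 - 45 * δ)) := by
    intro m hme
    have hmn : m < n := by omega
    have hZ0 : 0 < nn (z m) := lt_of_lt_of_le one_pos (h.one m hmn.le)
    have hZ1 : 0 < nn (z (m + 1)) := lt_of_lt_of_le one_pos (h.one (m + 1) hmn)
    have h2 := h.inv_le hmn
    rw [← hXdef] at h2
    have h3 := h.Z_le_succ m
    have hp : 0 ≤ (nn (z (m + 1)) ^ (-(1 - 15 * δ))) ^ 3 := by
      have := Real.rpow_nonneg hZ1.le (-(1 - 15 * δ))
      positivity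
    calc 1 / (nn (w m) * nn (w (m + 1))) * (nn (z (m + 1)) ^ (-(1 - 15 * δ))) ^ 3
        ≤ (A * nn (z m) ^ 2 / X ^ 2) * (nn (z (m + 1)) ^ (-(1 - 15 * δ))) ^ 3 :=
          mul_le_mul_of_nonneg_right h2 hp
      _ ≤ (A * (A * nn (z (m + 1))) ^ 2 / X ^ 2) * (nn (z (m + 1)) ^ (-(1 - 15 * δ))) ^ 3 := by
          gcongr
      _ = A ^ 3 / X ^ 2 * (nn (z (m + 1)) ^ 2 * (nn (z (m + 1)) ^ (-(1 - 15 * δ))) ^ 3) := by
          ring
      _ = A ^ 3 / X ^ 2 * nn (z (m + 1)) ^ (-(1 - 45 * δ)) := by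
          congr 1
          rw [← Real.rpow_natCast, ← Real.rpow_natCast, ← Real.rpow_mul hZ1.le,
            ← Real.rpow_add hZ1]
          congr 1
          push_cast
          ring
  calc _ ≤ ∑ m ∈ range e, A ^ 3 / X ^ 2 * nn (z (m + 1)) ^ (-(1 - 45 * δ)) :=
        Finset.sum_le_sum fun m hm => hterm m (Finset.mem_range.1 hm)
    _ = A ^ 3 / X ^ 2 * ∑ m ∈ range e, nn (z (m + 1)) ^ (-(1 - 45 * δ)) := by
        rw [Finset.mul_sum]
    _ = A ^ 3 / X ^ 2 * ∑ m ∈ (range e).image (· + 1), nn (z m) ^ (-(1 - 45 * δ)) := by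
        rw [Finset.sum_image (by intro x _ y _ hxy; simpa using hxy)]
    _ ≤ A ^ 3 / X ^ 2 * (K * nn (z e) ^ (-((1 - δ) * ((1 - 45 * δ) - δ)))) := by
        refine mul_le_mul_of_nonneg_left ?_ (by positivity)
        refine h.sum_le he (by linarith) ?_
        intro m hm
        rw [Finset.mem_image] at hm
        obtain ⟨x, hx, rfl⟩ := hm
        rw [Finset.mem_range] at hx ⊢
        omega
    _ ≤ A ^ 3 / X ^ 2 * (K * nn (z e) ^ (-(1 - 47 * δ))) := by
        have : nn (z e) ^ (-((1 - δ) * ((1 - 45 * δ) - δ))) ≤ nn (z e) ^ (-(1 - 47 * δ)) := by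
          refine Real.rpow_le_rpow_of_exponent_le (h.one e he) ?_
          nlinarith
        have hp : 0 ≤ A ^ 3 / X ^ 2 := by positivity
        gcongr
    _ = _ := by ring

end Crest.Agent.R128.CleanNum
end

-- ▼ part R128/PolyC
section

set_option autoImplicit false

open Complex Metric Set MeasureTheory

namespace Crest.Agent.R128.PolyC

/-- (T1) Taylor remainder `2 B (r/R)^(N+1)`. -/
theorem taylor_rem {f : ℂ → ℂ} {c : ℂ} {R B : ℝ} (hR : 0 < R)
    (hf : DifferentiableOn ℂ f (closedBall c R))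
    (hB : ∀ z ∈ closedBall c R, ‖f z‖ ≤ B) (N : ℕ) :
    ∃ P : Polynomial ℂ, P.natDegree ≤ N ∧
      ∀ r : ℝ, 2 * r ≤ R → ∀ z ∈ closedBall c r, ‖f z - P.eval z‖ ≤ 2 * B * (r / R) ^ (N + 1) := by
  classical
  have hB0 : 0 ≤ B := (norm_nonneg _).trans (hB c (mem_closedBall_self hR.le))
  have hcoef : ∀ n : ℕ, ‖iteratedDeriv n f c‖ ≤ n.factorial * B / R ^ n := fun n =>
    Complex.norm_iteratedDeriv_le_of_forall_mem_sphere_norm_le n hR
      (by
        apply DifferentiableOn.diffContOnCl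
        rw [closure_ball c hR.ne']
        exact hf)
      (fun z hz => hB z (sphere_subset_closedBall hz))
  set a : ℕ → ℂ := fun n => (n.factorial : ℂ)⁻¹ * iteratedDeriv n f c with ha
  have han : ∀ n, ‖a n‖ ≤ B / R ^ n := by
    intro n
    simp only [ha]
    rw [norm_mul, norm_inv, Complex.norm_natCast]
    have h1 := hcoef n
    have hfac : (0 : ℝ) < n.factorial := by exact_mod_cast n.factorial_pos
    calc (n.factorial : ℝ)⁻¹ * ‖iteratedDeriv n f c‖
        ≤ (n.factorial : ℝ)⁻¹ * (n.factorial * B / R ^ n) := by gcongr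
      _ = B / R ^ n := by field_simp
  refine ⟨∑ n ∈ Finset.range (N + 1), Polynomial.C (a n) * (Polynomial.X - Polynomial.C c) ^ n,
    ?_, ?_⟩
  · apply Polynomial.natDegree_sum_le_of_forall_le
    intro n hn
    refine (Polynomial.natDegree_C_mul_le _ _).trans ?_
    refine (Polynomial.natDegree_pow_le).trans ?_
    rw [Polynomial.natDegree_X_sub_C]
    have := Finset.mem_range.1 hn
    omega
  · intro r hr z hz
    have hz' : ‖z - c‖ ≤ r := by rwa [mem_closedBall, dist_eq_norm] at hz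
    have hr0 : 0 ≤ r := (norm_nonneg _).trans hz'
    set q : ℝ := r / R with hq
    have hq0 : 0 ≤ q := by positivity
    have hq1 : q ≤ 1 / 2 := by
      rw [hq, div_le_iff₀ hR]; linarith
    have hs : HasSum (fun n : ℕ => a n * (z - c) ^ n) (f z) := by
      have h0 := Complex.hasSum_taylorSeries_on_ball (r := R) (c := c) (z := z)
        (hf.mono ball_subset_closedBall) (by rw [mem_ball, dist_eq_norm]; linarith)
      have he : (fun n : ℕ => a n * (z - c) ^ n) =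
          (fun n : ℕ => (n.factorial : ℂ)⁻¹ • (z - c) ^ n • iteratedDeriv n f c) := by
        funext n
        rw [smul_eq_mul, smul_eq_mul]
        show (n.factorial : ℂ)⁻¹ * iteratedDeriv n f c * (z - c) ^ n = _
        ring
      rw [he]
      exact h0
    have heval : (∑ n ∈ Finset.range (N + 1),
        Polynomial.C (a n) * (Polynomial.X - Polynomial.C c) ^ n).eval z =
        ∑ n ∈ Finset.range (N + 1), a n * (z - c) ^ n := by
      rw [Polynomial.eval_finsetSum]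
      simp
    rw [heval]
    have hterm : ∀ n, ‖a n * (z - c) ^ n‖ ≤ B * q ^ n := by
      intro n
      rw [norm_mul, norm_pow]
      calc ‖a n‖ * ‖z - c‖ ^ n ≤ B / R ^ n * r ^ n := by
            gcongr
            exact han n
        _ = B * q ^ n := by
            rw [hq, div_pow]
            ring
    have hsplit := hs.summable.sum_add_tsum_nat_add (N + 1)
    rw [hs.tsum_eq] at hsplit
    rw [← hsplit, add_sub_cancel_left]
    have hgeo : HasSum (fun n : ℕ => B * q ^ (N + 1) * (1 / 2) ^ n)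
        (B * q ^ (N + 1) * 2) :=
      (hasSum_geometric_two).mul_left (B * q ^ (N + 1))
    have hb : ∀ n : ℕ, ‖a (n + (N + 1)) * (z - c) ^ (n + (N + 1))‖ ≤
        B * q ^ (N + 1) * (1 / 2) ^ n := by
      intro n
      refine (hterm (n + (N + 1))).trans ?_
      have h1 : q ^ n ≤ (1 / 2) ^ n := pow_le_pow_left₀ hq0 hq1 n
      calc B * q ^ (n + (N + 1)) = B * q ^ (N + 1) * q ^ n := by rw [pow_add]; ring
        _ ≤ _ := mul_le_mul_of_nonneg_left h1 (by positivity)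
    have := tsum_of_norm_bounded hgeo hb
    refine this.trans (le_of_eq ?_)
    ring







end Crest.Agent.R128.PolyC
end

-- ▼ part R128/CleanDisc

/-!
Row 128, node N6-CLEANDISC (helper816): the complexified orbit and its fields on the disc of a
backward clean side; the content is quadratic.

`wf k c t0 m = (Q_m, Q_{m+1})` is the field of `(0,1)` at the real point `(c, t0)`;
`yd k c m t` (CellB) its complexification, `pd k c m t` the complex field of `(1,0)`.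
-/

set_option autoImplicit false

open Finset Metric Topology

namespace Crest.Agent.R128.CleanDisc

open Crest.Agent.R128 Crest.Agent.R128.Cell Crest.Agent.R128.CellB
open Crest.Agent.R128.TreeSum Crest.Agent.R128.Disp Crest.Agent.R128.CleanNum

/-- real digits along the orbit of `(c, t0)` -/
noncomputable def ra (k c t0 : ℝ) (m : ℕ) : ℝ := V k ((T k)^[m] (pr (c, t0))).2

/-- the field of the vector `(0,1)` at the real point `(c, t0)` -/
noncomputable def wf (k c t0 : ℝ) (m : ℕ) : ℝ × ℝ :=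
  (Mn k m (pr (c, t0)) 0 1, Mn k m (pr (c, t0)) 1 1)

theorem wf_fst (k c t0 : ℝ) (m : ℕ) : (((wf k c t0 m).1 : ℝ) : ℂ) = yd k c m (t0 : ℂ) :=
  (yd_ofReal k c m t0).symm

theorem wf_snd (k c t0 : ℝ) (m : ℕ) : (((wf k c t0 m).2 : ℝ) : ℂ) = yd k c (m + 1) (t0 : ℂ) :=
  (yd_ofReal' k c m t0).symm

theorem cV_y (k c t0 : ℝ) (m : ℕ) : cV k (y k c (m + 1) (t0 : ℂ)) = ((ra k c t0 m : ℝ) : ℂ) := by
  rw [y_ofReal, cV_ofReal]
  unfold ra
  rw [← pr_rorb]
  rfl

theorem isField_wf (k c t0 : ℝ) : IsField (ra k c t0) (wf k c t0) := by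
  intro m
  unfold stp
  have h1 : (((wf k c t0 (m + 1)).1 : ℝ) : ℂ) = (((wf k c t0 m).2 : ℝ) : ℂ) := by
    rw [wf_fst, wf_snd]
  have h2 : (((wf k c t0 (m + 1)).2 : ℝ) : ℂ) =
      ((ra k c t0 m * (wf k c t0 m).2 - (wf k c t0 m).1 : ℝ) : ℂ) := by
    rw [wf_snd, yd_add_two, cV_y]
    push_cast
    rw [wf_fst, wf_snd]
  ext
  · exact_mod_cast h1
  · exact_mod_cast h2

theorem wf_zero (k c t0 : ℝ) : wf k c t0 0 = (0, 1) := by
  have h1 : (((wf k c t0 0).1 : ℝ) : ℂ) = 0 := by rw [wf_fst, yd_zero]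
  have h2 : (((wf k c t0 0).2 : ℝ) : ℂ) = 1 := by rw [wf_snd, yd_one]
  ext
  · exact_mod_cast h1
  · exact_mod_cast h2

theorem nn_wf_zero (k c t0 : ℝ) : nn (wf k c t0 0) = 1 := by
  rw [wf_zero]; unfold nn; simp

/-- quadratic remainder of the map in the strip -/
theorem quad_rem {k : ℝ} {Y Y0 : ℂ} (h0 : Y0.im = 0) (h : ‖Y - Y0‖ ≤ 1) :
    ‖(2 * Y + k * Complex.sin (2 * Real.pi * Y)) - (2 * Y0 + k * Complex.sin (2 * Real.pi * Y0)) -
      cV k Y0 * (Y - Y0)‖ ≤ CL k * ‖Y - Y0‖ ^ 2 := by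
  have hcv : Convex ℝ (closedBall Y0 ‖Y - Y0‖) := convex_closedBall _ _
  have hd : ∀ z : ℂ, HasDerivAt (fun z : ℂ => 2 * z + k * Complex.sin (2 * Real.pi * z) -
      cV k Y0 * z) (cV k z - cV k Y0) z := by
    intro z
    have h1 := hasDerivAt_sin2pi k z
    have h2 := (hasDerivAt_id z).const_mul (cV k Y0)
    have h3 : HasDerivAt (fun z : ℂ => 2 * z + k * Complex.sin (2 * Real.pi * z) -
      cV k Y0 * z) (cV k z - cV k Y0 * 1) z := h1.sub h2
    rwa [mul_one] at h3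
  have hin : ∀ z ∈ closedBall Y0 ‖Y - Y0‖, |z.im| ≤ 1 := by
    intro z hz
    rw [mem_closedBall, dist_eq_norm] at hz
    have := Complex.abs_im_le_norm (z - Y0)
    rw [Complex.sub_im, h0, sub_zero] at this
    linarith
  have hY0 : |Y0.im| ≤ 1 := by rw [h0]; simp
  have := hcv.norm_image_sub_le_of_norm_hasDerivWithin_le
    (f := fun z : ℂ => 2 * z + k * Complex.sin (2 * Real.pi * z) - cV k Y0 * z)
    (f' := fun z => cV k z - cV k Y0) (C := CL k * ‖Y - Y0‖)
    (fun z _ => (hd z).hasDerivWithinAt)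
    (fun z hz => by
      refine (norm_cV_sub_le k (hin z hz) hY0).trans ?_
      rw [mem_closedBall, dist_eq_norm] at hz
      exact mul_le_mul_of_nonneg_left hz (CL_nonneg k))
    (mem_closedBall_self (norm_nonneg _) : Y0 ∈ closedBall Y0 ‖Y - Y0‖)
    (by rw [mem_closedBall, dist_eq_norm] : Y ∈ closedBall Y0 ‖Y - Y0‖)
  calc _ = ‖(2 * Y + k * Complex.sin (2 * Real.pi * Y) - cV k Y0 * Y) -
      (2 * Y0 + k * Complex.sin (2 * Real.pi * Y0) - cV k Y0 * Y0)‖ := by congr 1; ring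
    _ ≤ CL k * ‖Y - Y0‖ * ‖Y - Y0‖ := this
    _ = _ := by ring

/-- **The complex orbit on the disc.** -/
theorem orbit_disc {k c t0 A : ℝ} (hA : ∀ j, |ra k c t0 j| + 2 ≤ A) {N : ℕ} {t : ℂ}
    (hS : 8 * CL k * (A + 1) * ‖t - t0‖ * Sg (wf k c t0) N ≤ 1)
    (hR : ∀ m ≤ N, 2 * ‖t - t0‖ * nn (wf k c t0 m) ≤ 1) :
    ∀ m ≤ N, ‖y k c m t - y k c m t0 - (t - t0) * (wf k c t0 m).1‖ ≤
        ‖t - t0‖ * nn (wf k c t0 m) ∧
      ‖y k c (m + 1) t - y k c (m + 1) t0 - (t - t0) * (wf k c t0 m).2‖ ≤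
        ‖t - t0‖ * nn (wf k c t0 m) ∧
      ‖y k c m t - y k c m t0‖ ≤ 2 * ‖t - t0‖ * nn (wf k c t0 m) ∧
      ‖y k c (m + 1) t - y k c (m + 1) t0‖ ≤ 2 * ‖t - t0‖ * nn (wf k c t0 m) := by
  have hw := isField_wf k c t0
  have h0 : 0 < nn (wf k c t0 0) := by rw [nn_wf_zero]; exact one_pos
  have hA0 : 0 ≤ A := by
    have := hA 0
    have := abs_nonneg (ra k c t0 0)
    linarith
  set D : ℕ → ℂ × ℂ := fun m => (y k c m t - y k c m t0, y k c (m + 1) t - y k c (m + 1) t0)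
    with hDdef
  set q : ℕ → ℂ := fun m => (2 * y k c (m + 1) t + k * Complex.sin (2 * Real.pi * y k c (m + 1) t))
    - (2 * y k c (m + 1) t0 + k * Complex.sin (2 * Real.pi * y k c (m + 1) t0)) -
      cV k (y k c (m + 1) t0) * (y k c (m + 1) t - y k c (m + 1) t0) with hqdef
  have hD : ∀ m < N, D (m + 1) = stq (ra k c t0 m) (q m) (D m) := by
    intro m _
    rw [hDdef, hqdef]
    unfold stq
    simp only
    ext
    · rfl
    · simp only
      rw [y_add_two, y_add_two, cV_y]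
      ring
  have hD0 : D 0 = ((t - t0) * ((wf k c t0 0).1 : ℂ), (t - t0) * ((wf k c t0 0).2 : ℂ)) := by
    rw [wf_zero, hDdef]
    simp
  have hq : ∀ m < N, ‖(D m).2‖ ≤ 2 * ‖t - t0‖ * nn (wf k c t0 m) →
      ‖q m‖ ≤ CL k * ‖(D m).2‖ ^ 2 := by
    intro m hm h2
    exact quad_rem (im_y_ofReal k c (m + 1) t0) (h2.trans (hR m hm.le))
  intro m hm
  exact disp_le hw h0 (fun j _ => hA j) hA0 hD hD0 (CL_nonneg k) hq hS m hm

/-- **The complex field of `(0,1)` on the disc** (relative distortion). -/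
theorem field_disc {k c t0 A : ℝ} (hA : ∀ j, |ra k c t0 j| + 2 ≤ A) {N : ℕ} {t : ℂ}
    (hS : 8 * CL k * (A + 1) * ‖t - t0‖ * Sg (wf k c t0) N ≤ 1)
    (hR : ∀ m ≤ N, 2 * ‖t - t0‖ * nn (wf k c t0 m) ≤ 1) :
    ∀ m ≤ N, ‖yd k c m t - (wf k c t0 m).1‖ ≤
        8 * CL k * (A + 1) * ‖t - t0‖ * Sg (wf k c t0) m * nn (wf k c t0 m) ∧
      ‖yd k c (m + 1) t - (wf k c t0 m).2‖ ≤
        8 * CL k * (A + 1) * ‖t - t0‖ * Sg (wf k c t0) m * nn (wf k c t0 m) := by
  have hw := isField_wf k c t0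
  have h0 : 0 < nn (wf k c t0 0) := by rw [nn_wf_zero]; exact one_pos
  have hA0 : 0 ≤ A := by
    have := hA 0
    have := abs_nonneg (ra k c t0 0)
    linarith
  have horb := orbit_disc hA hS hR
  set D : ℕ → ℂ × ℂ := fun m => (yd k c m t, yd k c (m + 1) t) with hDdef
  set e : ℕ → ℂ := fun m => cV k (y k c (m + 1) t) - ra k c t0 m with hedef
  have hD : ∀ m < N, D (m + 1) = ((D m).2, ((ra k c t0 m : ℂ) + e m) * (D m).2 - (D m).1) := by
    intro m _
    rw [hDdef, hedef]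
    simp only
    ext
    · rfl
    · simp only
      rw [yd_add_two]
      ring
  have hD0 : D 0 = (((wf k c t0 0).1 : ℂ), ((wf k c t0 0).2 : ℂ)) := by
    rw [wf_zero, hDdef]
    simp
  have he : ∀ m < N, ‖e m‖ ≤ (2 * CL k * ‖t - t0‖) * nn (wf k c t0 m) := by
    intro m hm
    have h4 := (horb m hm.le).2.2.2
    have h5 := hR m hm.le
    have him0 : (y k c (m + 1) (t0 : ℂ)).im = 0 := im_y_ofReal k c (m + 1) t0
    have h6 : |(y k c (m + 1) t).im| ≤ 1 := by
      have := Complex.abs_im_le_norm (y k c (m + 1) t - y k c (m + 1) t0)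
      rw [Complex.sub_im, him0, sub_zero] at this
      linarith
    have h7 : |(y k c (m + 1) (t0 : ℂ)).im| ≤ 1 := by rw [him0]; simp
    have h8 := norm_cV_sub_le k h6 h7
    rw [cV_y] at h8
    rw [hedef]
    simp only
    refine h8.trans ?_
    calc CL k * ‖y k c (m + 1) t - y k c (m + 1) t0‖ ≤
        CL k * (2 * ‖t - t0‖ * nn (wf k c t0 m)) := mul_le_mul_of_nonneg_left h4 (CL_nonneg k)
      _ = _ := by ring
  have hκ : 0 ≤ 2 * CL k * ‖t - t0‖ := by
    have := CL_nonneg k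
    positivity
  have hmain := field_le hw h0 (fun j (_ : j < N) => hA j) hA0 hD hD0 hκ he (by
    calc 4 * (2 * CL k * ‖t - t0‖) * (A + 1) * Sg (wf k c t0) N
        = 8 * CL k * (A + 1) * ‖t - t0‖ * Sg (wf k c t0) N := by ring
      _ ≤ 1 := hS)
  intro m hm
  obtain ⟨h1, h2⟩ := hmain m hm
  refine ⟨h1.trans (le_of_eq (by ring)), h2.trans (le_of_eq (by ring))⟩

/-! ### the second field -/

/-- the complex field of `(1, 0)` -/
noncomputable def pd (k : ℝ) (c : ℂ) : ℕ → ℂ → ℂ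
  | 0, _ => 1
  | 1, _ => 0
  | n + 2, t => cV k (y k c (n + 1) t) * pd k c (n + 1) t - pd k c n t

@[simp] theorem pd_zero (k : ℝ) (c t : ℂ) : pd k c 0 t = 1 := rfl
@[simp] theorem pd_one (k : ℝ) (c t : ℂ) : pd k c 1 t = 0 := rfl
theorem pd_add_two (k : ℝ) (c : ℂ) (n : ℕ) (t : ℂ) : pd k c (n + 2) t =
    cV k (y k c (n + 1) t) * pd k c (n + 1) t - pd k c n t := rfl

theorem wronskian (k : ℝ) (c : ℂ) (m : ℕ) (t : ℂ) :
    pd k c m t * yd k c (m + 1) t - pd k c (m + 1) t * yd k c m t = 1 := by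
  induction m with
  | zero => simp
  | succ m ih =>
    rw [pd_add_two, yd_add_two]
    linear_combination ih

theorem differentiable_cV (k : ℝ) : Differentiable ℂ (cV k) :=
  fun z => (hasDerivAt_cV k z).differentiableAt

theorem differentiable_yd (k : ℝ) (c : ℂ) (m : ℕ) : Differentiable ℂ (yd k c m) := by
  induction m using Nat.strong_induction_on with
  | _ m ih =>
    match m with
    | 0 => exact differentiable_const 0
    | 1 => exact differentiable_const 1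
    | m + 2 =>
      exact (((differentiable_cV k).comp (differentiable_y k c (m + 1))).mul
        (ih (m + 1) (by omega))).sub (ih m (by omega))

theorem differentiable_pd (k : ℝ) (c : ℂ) (m : ℕ) : Differentiable ℂ (pd k c m) := by
  induction m using Nat.strong_induction_on with
  | _ m ih =>
    match m with
    | 0 => exact differentiable_const 1
    | 1 => exact differentiable_const 0
    | m + 2 =>
      exact (((differentiable_cV k).comp (differentiable_y k c (m + 1))).mul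
        (ih (m + 1) (by omega))).sub (ih m (by omega))

/-- `⟨w_m, Q(t)⟩` -/
noncomputable def den (k c t0 : ℝ) (m : ℕ) (t : ℂ) : ℂ :=
  (wf k c t0 m).1 * yd k c m t + (wf k c t0 m).2 * yd k c (m + 1) t

/-- `⟨w_m, P(t)⟩` -/
noncomputable def num (k c t0 : ℝ) (m : ℕ) (t : ℂ) : ℂ :=
  (wf k c t0 m).1 * pd k c m t + (wf k c t0 m).2 * pd k c (m + 1) t

/-- the holomorphic slope `⟨w_m, P(t)⟩ / ⟨w_m, Q(t)⟩` -/
noncomputable def mu (k c t0 : ℝ) (m : ℕ) (t : ℂ) : ℂ := num k c t0 m t / den k c t0 m t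

theorem mu_zero (k c t0 : ℝ) (t : ℂ) : mu k c t0 0 t = 0 := by
  unfold mu num den
  rw [wf_zero]
  simp

theorem differentiable_den (k c t0 : ℝ) (m : ℕ) : Differentiable ℂ (den k c t0 m) :=
  ((differentiable_yd k c m).const_mul _).add ((differentiable_yd k c (m + 1)).const_mul _)

theorem differentiable_num (k c t0 : ℝ) (m : ℕ) : Differentiable ℂ (num k c t0 m) :=
  ((differentiable_pd k c m).const_mul _).add ((differentiable_pd k c (m + 1)).const_mul _)

/-- one step of the slope -/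
theorem num_den_step (k c t0 : ℝ) (m : ℕ) (t : ℂ) :
    num k c t0 (m + 1) t * den k c t0 m t - num k c t0 m t * den k c t0 (m + 1) t =
      -((wf k c t0 (m + 1)).1 * (wf k c t0 m).1 +
        cV k (y k c (m + 1) t) * (wf k c t0 (m + 1)).2 * (wf k c t0 m).1 +
        (wf k c t0 (m + 1)).2 * (wf k c t0 m).2) := by
  unfold num den
  rw [pd_add_two, yd_add_two]
  have h := wronskian k c m t
  linear_combination (-((wf k c t0 (m + 1)).1 * (wf k c t0 m).1 +
        cV k (y k c (m + 1) t) * (wf k c t0 (m + 1)).2 * (wf k c t0 m).1 +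
        (wf k c t0 (m + 1)).2 * (wf k c t0 m).2) : ℂ) * h

/-- the denominator is close to `R_m^2` when the distortion is `≤ 1/10` -/
theorem den_ge {k c t0 : ℝ} {m : ℕ} {t : ℂ}
    (h1 : ‖yd k c m t - (wf k c t0 m).1‖ ≤ 1 / 10 * nn (wf k c t0 m))
    (h2 : ‖yd k c (m + 1) t - (wf k c t0 m).2‖ ≤ 1 / 10 * nn (wf k c t0 m)) :
    4 / 5 * nn (wf k c t0 m) ^ 2 ≤ ‖den k c t0 m t‖ := by
  have e : den k c t0 m t = ((nn (wf k c t0 m) ^ 2 : ℝ) : ℂ) +
      (((wf k c t0 m).1 : ℂ) * (yd k c m t - (wf k c t0 m).1) +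
        ((wf k c t0 m).2 : ℂ) * (yd k c (m + 1) t - (wf k c t0 m).2)) := by
    rw [nn_sq]
    unfold den
    push_cast
    ring
  have h3 : ‖((wf k c t0 m).1 : ℂ) * (yd k c m t - (wf k c t0 m).1) +
        ((wf k c t0 m).2 : ℂ) * (yd k c (m + 1) t - (wf k c t0 m).2)‖ ≤
      1 / 5 * nn (wf k c t0 m) ^ 2 := by
    refine (norm_add_le _ _).trans ?_
    rw [norm_mul, norm_mul]
    have a1 := norm_ofReal_fst_le (wf k c t0 m)
    have a2 := norm_ofReal_snd_le (wf k c t0 m)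
    have a0 := nn_nonneg (wf k c t0 m)
    calc _ ≤ nn (wf k c t0 m) * (1 / 10 * nn (wf k c t0 m)) +
          nn (wf k c t0 m) * (1 / 10 * nn (wf k c t0 m)) := by gcongr
      _ = _ := by ring
  have h4 : nn (wf k c t0 m) ^ 2 ≤ ‖den k c t0 m t‖ + 1 / 5 * nn (wf k c t0 m) ^ 2 := by
    have h5 : ‖((nn (wf k c t0 m) ^ 2 : ℝ) : ℂ)‖ = nn (wf k c t0 m) ^ 2 := by
      rw [Complex.norm_real, Real.norm_eq_abs, abs_of_nonneg (sq_nonneg _)]
    rw [← h5]
    have h6 : ((nn (wf k c t0 m) ^ 2 : ℝ) : ℂ) = den k c t0 m t -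
      (((wf k c t0 m).1 : ℂ) * (yd k c m t - (wf k c t0 m).1) +
        ((wf k c t0 m).2 : ℂ) * (yd k c (m + 1) t - (wf k c t0 m).2)) := by rw [e]; ring
    calc ‖((nn (wf k c t0 m) ^ 2 : ℝ) : ℂ)‖ ≤ ‖den k c t0 m t‖ +
        ‖((wf k c t0 m).1 : ℂ) * (yd k c m t - (wf k c t0 m).1) +
        ((wf k c t0 m).2 : ℂ) * (yd k c (m + 1) t - (wf k c t0 m).2)‖ := by
          rw [h6]; exact norm_sub_le _ _
      _ ≤ ‖den k c t0 m t‖ + 1 / 5 * ‖((nn (wf k c t0 m) ^ 2 : ℝ) : ℂ)‖ := by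
          rw [h5]
          linarith
  linarith

/-- one step of the slope is of size `1/(R_m R_{m+1})` -/
theorem step_le {k c t0 : ℝ} {m : ℕ} {t : ℂ} (hR : 0 < nn (wf k c t0 m))
    (hR1 : 0 < nn (wf k c t0 (m + 1)))
    (d0 : 4 / 5 * nn (wf k c t0 m) ^ 2 ≤ ‖den k c t0 m t‖)
    (d1 : 4 / 5 * nn (wf k c t0 (m + 1)) ^ 2 ≤ ‖den k c t0 (m + 1) t‖)
    (him : |(y k c (m + 1) t).im| ≤ 1) :
    ‖mu k c t0 (m + 1) t - mu k c t0 m t‖ ≤
      2 * (CV k + 2) * (1 / (nn (wf k c t0 m) * nn (wf k c t0 (m + 1)))) := by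
  have n0 : den k c t0 m t ≠ 0 := by
    intro h; rw [h, norm_zero] at d0
    have : 0 < nn (wf k c t0 m) ^ 2 := by positivity
    linarith
  have n1 : den k c t0 (m + 1) t ≠ 0 := by
    intro h; rw [h, norm_zero] at d1
    have : 0 < nn (wf k c t0 (m + 1)) ^ 2 := by positivity
    linarith
  unfold mu
  rw [div_sub_div _ _ n1 n0, mul_comm (den k c t0 (m + 1) t) (num k c t0 m t), num_den_step,
    norm_div, norm_neg, norm_mul]
  have hCV := CV_ge k
  have b1 := norm_cV_le k him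
  have a1 := norm_ofReal_fst_le (wf k c t0 m)
  have a2 := norm_ofReal_snd_le (wf k c t0 m)
  have a3 := norm_ofReal_fst_le (wf k c t0 (m + 1))
  have a4 := norm_ofReal_snd_le (wf k c t0 (m + 1))
  set R := nn (wf k c t0 m) with hRdef
  set R1 := nn (wf k c t0 (m + 1)) with hR1def
  have hnum : ‖((wf k c t0 (m + 1)).1 : ℂ) * (wf k c t0 m).1 +
        cV k (y k c (m + 1) t) * (wf k c t0 (m + 1)).2 * (wf k c t0 m).1 +
        (wf k c t0 (m + 1)).2 * (wf k c t0 m).2‖ ≤ (CV k + 2) * (R * R1) := by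
    refine (norm_add_le _ _).trans ?_
    have t1 : ‖((wf k c t0 (m + 1)).1 : ℂ) * (wf k c t0 m).1 +
        cV k (y k c (m + 1) t) * (wf k c t0 (m + 1)).2 * (wf k c t0 m).1‖ ≤
        R1 * R + CV k * R1 * R := by
      refine (norm_add_le _ _).trans ?_
      rw [norm_mul, norm_mul, norm_mul]
      gcongr
    have t2 : ‖((wf k c t0 (m + 1)).2 : ℂ) * (wf k c t0 m).2‖ ≤ R1 * R := by
      rw [norm_mul]
      gcongr
    calc _ ≤ (R1 * R + CV k * R1 * R) + R1 * R := add_le_add t1 t2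
      _ = _ := by ring
  have hdd : 16 / 25 * (R ^ 2 * R1 ^ 2) ≤ ‖den k c t0 (m + 1) t‖ * ‖den k c t0 m t‖ := by
    calc 16 / 25 * (R ^ 2 * R1 ^ 2) = (4 / 5 * R1 ^ 2) * (4 / 5 * R ^ 2) := by ring
      _ ≤ _ := mul_le_mul d1 d0 (by positivity) (norm_nonneg _)
  have hpos : 0 < ‖den k c t0 (m + 1) t‖ * ‖den k c t0 m t‖ := by positivity
  rw [mul_one_div, div_le_div_iff₀ hpos (by positivity)]
  calc _ ≤ ((CV k + 2) * (R * R1)) * (R * R1) := by gcongr
    _ = (CV k + 2) * (R ^ 2 * R1 ^ 2) := by ring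
    _ ≤ (CV k + 2) * (2 * (16 / 25 * (R ^ 2 * R1 ^ 2))) := by
        have : 0 ≤ R ^ 2 * R1 ^ 2 := by positivity
        have h2 : 0 ≤ CV k + 2 := by linarith
        apply mul_le_mul_of_nonneg_left _ h2
        linarith
    _ ≤ (CV k + 2) * (2 * (‖den k c t0 (m + 1) t‖ * ‖den k c t0 m t‖)) := by
        have h2 : 0 ≤ CV k + 2 := by linarith
        apply mul_le_mul_of_nonneg_left _ h2
        linarith
    _ = _ := by ring

end Crest.Agent.R128.CleanDisc
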