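import Mathlib
import Crest.Agent.R128.BVP7
import Crest.Agent.R128.Lam0U

/-!
Row 128, node LAM0 (P3): the `(0,1)` field of an orbit of real numbers, strict validity, and the exact
statement `CoreStmt` of the shadowing/coherence theorem used in the proof of P3.
-/

set_option autoImplicit false

open Finset MeasureTheory

namespace Crest.Agent.R128.Lam0

open Crest.Agent.R128.BVP

/-- the `(0,1)` field along the orbit of `(a, b)`, positions `0, 1, 2, …` -/
noncomputable def pk (k a b : ℝ) : ℕ → ℝ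
  | 0 => 0
  | 1 => 1
  | m + 2 => Vk k (xorb k a b (m + 1)) * pk k a b (m + 1) - pk k a b m

/-- max norm of the field -/
noncomputable def nf (k a b : ℝ) (m : ℕ) : ℝ := max |pk k a b m| |pk k a b (m + 1)|

theorem fld_pk (k a b : ℝ) (m : ℕ) :
    fld k ((a : UnitAddCircle), (b : UnitAddCircle)) m = (pk k a b m, pk k a b (m + 1)) := by
  induction m with
  | zero => rw [fld_zero]; rfl
  | succ m ih =>
    rw [fld_succ, ih, xorb_T]
    unfold TreeSum.stp
    simp only
    rw [V_eq_Vk]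
    rfl

theorem norm_fld_pk (k a b : ℝ) (m : ℕ) :
    ‖fld k ((a : UnitAddCircle), (b : UnitAddCircle)) m‖ = nf k a b m := by
  rw [fld_pk, Prod.norm_def]
  rfl

/-- strict validity before the time `n'` -/
structure SV (k : ℝ) (L : ℕ) (a b : ℝ) (n' : ℕ) : Prop where
  cl : ∀ m ∈ Icc 1 L, k ^ (2 / 3 : ℝ) ≤ |Vk k (xorb k a b m)|
  v2 : ∀ i j, L ≤ i → i ≤ j → j < n' → nf k a b i ^ 99 ≤ nf k a b j ^ 100
  v3 : ∀ j, L ≤ j → j < n' → ∃ i, L ≤ i ∧ i ≤ j ∧ (j : ℝ) ^ 400 ≤ nf k a b i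


end Crest.Agent.R128.Lam0
private theorem rz_a7959c8b67 : type_of% @_root_.Crest.Agent.R128.Lam0.pk.eq_def := @_root_.Crest.Agent.R128.Lam0.pk.eq_def -- L19
private theorem rz_d1ebba5925 : type_of% @_root_.Crest.Agent.R128.Lam0.pk.eq_1 := @_root_.Crest.Agent.R128.Lam0.pk.eq_1 -- L19
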