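import Mathlib
import Crest.Agent.R128.Chain
import Crest.Agent.R128.Lam0U
import Crest.Agent.R128.AccRoot

-- ▼ part R128/DDRootA
section

/-!
# Row 128, V2 in root form, part 1: pure one-dimensional combinatorics (helper136)

* `Pk`, `Vl`: first top / first bottom of two-sided prominence `x` of a real sequence.
* `osc`: oscillation lemma.
* `sum_Pk`, `sum_Vl`: the sum of the prominences of distinct first tops (first bottoms) is at most the
  number of integer down-crossings.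
* `count_pairs`: counting of pairs `(s, D)` charged to extrema.
-/

set_option autoImplicit false

open Finset

namespace Crest.Agent.R128.DDRoot

/-- `t` is a first top of prominence `x` inside `[a, b]` -/
def Pk (f : ℕ → ℝ) (a b t : ℕ) (x : ℝ) : Prop :=
  ∃ u w, a ≤ u ∧ u < t ∧ t < w ∧ w ≤ b ∧ f u + x ≤ f t ∧ f w + x ≤ f t ∧
    (∀ m, u ≤ m → m ≤ w → f m ≤ f t) ∧ (∀ m, u ≤ m → m < t → f m < f t)

/-- `t` is a first bottom of prominence `x` inside `[a, b]` -/
def Vl (f : ℕ → ℝ) (a b t : ℕ) (x : ℝ) : Prop :=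
  ∃ u w, a ≤ u ∧ u < t ∧ t < w ∧ w ≤ b ∧ f t + x ≤ f u ∧ f t + x ≤ f w ∧
    (∀ m, u ≤ m → m ≤ w → f t ≤ f m) ∧ (∀ m, u ≤ m → m < t → f t < f m)

theorem Pk.mono {f : ℕ → ℝ} {a b a' b' t : ℕ} {x : ℝ} (h : Pk f a b t x) (ha : a' ≤ a) (hb : b ≤ b') :
    Pk f a' b' t x := by
  obtain ⟨u, w, h1, h2, h3, h4, h5⟩ := h
  exact ⟨u, w, by omega, h2, h3, by omega, h5⟩

theorem Vl.mono {f : ℕ → ℝ} {a b a' b' t : ℕ} {x : ℝ} (h : Vl f a b t x) (ha : a' ≤ a) (hb : b ≤ b') :
    Vl f a' b' t x := by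
  obtain ⟨u, w, h1, h2, h3, h4, h5⟩ := h
  exact ⟨u, w, by omega, h2, h3, by omega, h5⟩

theorem Vl_iff {f : ℕ → ℝ} {a b t : ℕ} {x : ℝ} : Vl f a b t x ↔ Pk (fun n => - f n) a b t x := by
  unfold Vl Pk
  constructor
  · rintro ⟨u, w, h1, h2, h3, h4, h5, h6, h7, h8⟩
    refine ⟨u, w, h1, h2, h3, h4, ?_, ?_, fun m hm hm' => ?_, fun m hm hm' => ?_⟩
    · simp only; linarith
    · simp only; linarith
    · have := h7 m hm hm'; simp only; linarith
    · have := h8 m hm hm'; simp only; linarith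
  · rintro ⟨u, w, h1, h2, h3, h4, h5, h6, h7, h8⟩
    simp only at h5 h6 h7 h8
    refine ⟨u, w, h1, h2, h3, h4, ?_, ?_, fun m hm hm' => ?_, fun m hm hm' => ?_⟩
    · linarith
    · linarith
    · have := h7 m hm hm'; linarith
    · have := h8 m hm hm'; linarith

theorem exists_Pk {f : ℕ → ℝ} {a c u v w : ℕ} {x : ℝ} (hx : 0 < x) (hu : a ≤ u) (huv : u < v)
    (hvw : v < w) (hw : w ≤ c) (h1 : f u + x ≤ f v) (h2 : f w + x ≤ f v) : ∃ t, Pk f a c t x := by
  classical
  have hex : ∃ t, u ≤ t ∧ t ≤ w ∧ ∀ m, u ≤ m → m ≤ w → f m ≤ f t := by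
    obtain ⟨t, ht, hmax⟩ := (Finset.Icc u w).exists_max_image f ⟨u, by simp; omega⟩
    rw [Finset.mem_Icc] at ht
    exact ⟨t, ht.1, ht.2, fun m h3 h4 => hmax m (Finset.mem_Icc.mpr ⟨h3, h4⟩)⟩
  obtain ⟨t1, t2, t3⟩ := Nat.find_spec hex
  have hfirst : ∀ m, u ≤ m → m < Nat.find hex → f m < f (Nat.find hex) := by
    intro m hm hmt
    by_contra hc
    push Not at hc
    exact Nat.find_min hex hmt ⟨hm, by omega, fun m' h3 h4 => (t3 m' h3 h4).trans hc⟩
  set t := Nat.find hex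
  have hv := t3 v huv.le hvw.le
  have hut : u ≠ t := by
    intro h
    rw [← h] at hv
    linarith
  have hwt : w ≠ t := by
    intro h
    rw [← h] at hv
    linarith
  exact ⟨t, u, w, hu, by omega, by omega, hw, by linarith, by linarith, t3, hfirst⟩

theorem exists_Vl {f : ℕ → ℝ} {a c u v w : ℕ} {x : ℝ} (hx : 0 < x) (hu : a ≤ u) (huv : u < v)
    (hvw : v < w) (hw : w ≤ c) (h1 : f v + x ≤ f u) (h2 : f v + x ≤ f w) : ∃ t, Vl f a c t x := by
  obtain ⟨t, ht⟩ := exists_Pk (f := fun n => - f n) hx hu huv hvw hw (by linarith)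
    (by linarith)
  exact ⟨t, Vl_iff.mpr ht⟩

/-- **oscillation lemma** -/
theorem osc {f : ℕ → ℝ} {a b c : ℕ} {x dab dac c0 c1 : ℝ} (hx : 0 < x) (hab : a ≤ b) (hbc : b ≤ c)
    (h0 : 0 ≤ dac + c1) (h1 : |f a - f c| ≤ dac + c1)
    (h2 : ∃ u, a ≤ u ∧ u ≤ b ∧ (∀ m, a ≤ m → m ≤ b → f u ≤ f m) ∧ dab ≤ f a + f b - 2 * f u + c0)
    (h : dac + c1 + 4 * x + c0 < dab) : (∃ t, Pk f a c t x) ∨ (∃ t, Vl f a c t x) := by
  by_contra hcon
  push Not at hcon
  obtain ⟨hnP, hnV⟩ := hcon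
  have hP : ∀ u v w, a ≤ u → u < v → v < w → w ≤ c → f u + x ≤ f v → f v < f w + x := by
    intro u v w hu huv hvw hw h3
    by_contra hc
    push Not at hc
    obtain ⟨t, ht⟩ := exists_Pk hx hu huv hvw hw h3 hc
    exact hnP t ht
  have hV : ∀ u v w, a ≤ u → u < v → v < w → w ≤ c → f v + x ≤ f u → f w < f v + x := by
    intro u v w hu huv hvw hw h3
    by_contra hc
    push Not at hc
    obtain ⟨t, ht⟩ := exists_Vl hx hu huv hvw hw h3 hc
    exact hnV t ht
  obtain ⟨p, hp, hpm⟩ := (Finset.Icc a c).exists_max_image f ⟨a, by simp; omega⟩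
  obtain ⟨v, hv, hvm⟩ := (Finset.Icc a c).exists_min_image f ⟨a, by simp; omega⟩
  rw [Finset.mem_Icc] at hp hv
  have hpm' : ∀ m, a ≤ m → m ≤ c → f m ≤ f p := fun m h3 h4 => hpm m (Finset.mem_Icc.mpr ⟨h3, h4⟩)
  have hvm' : ∀ m, a ≤ m → m ≤ c → f v ≤ f m := fun m h3 h4 => hvm m (Finset.mem_Icc.mpr ⟨h3, h4⟩)
  obtain ⟨u, hu1, hu2, hu3, hu4⟩ := h2
  have fa1 := hpm' a le_rfl (by omega)
  have fa2 := hvm' a le_rfl (by omega)
  have fb1 := hpm' b hab hbc
  have fb2 := hvm' b hab hbc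
  have fu2 := hvm' u hu1 (by omega)
  have fc1 := hpm' c (by omega) le_rfl
  have fc2 := hvm' c (by omega) le_rfl
  have hA := abs_le.mp h1
  by_cases hsmall : f p - f v < x
  · linarith
  push Not at hsmall
  rcases lt_trichotomy v p with hvp | hvp | hvp
  · -- valley first
    have g1 : f p < f c + x := by
      rcases Nat.lt_or_ge p c with h3 | h3
      · exact hP v p c hv.1 hvp h3 le_rfl (by linarith)
      · have : p = c := by omega
        rw [this]; linarith
    have g2 : f a < f v + x := by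
      rcases Nat.lt_or_ge a v with h3 | h3
      · by_contra hc
        push Not at hc
        have := hV a v p le_rfl h3 hvp hp.2 hc
        linarith
      · have : a = v := by omega
        rw [this]; linarith
    linarith [hA.1]
  · rw [hvp] at hsmall
    linarith
  · have g1 : f p < f a + x := by
      rcases Nat.lt_or_ge a p with h3 | h3
      · by_contra hc
        push Not at hc
        have := hP a p v le_rfl h3 hvp hv.2 hc
        linarith
      · have : a = p := by omega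
        rw [this]; linarith
    have g2 : f c < f v + x := by
      rcases Nat.lt_or_ge v c with h3 | h3
      · exact hV p v c hp.1 hvp h3 le_rfl (by linarith)
      · have : v = c := by omega
        rw [← this]; linarith
    by_cases hcase : f u + x ≤ f a
    · have g3 : f b < f u + x := by
        rcases Nat.lt_or_ge u b with h3 | h3
        · have hau : a < u := by
            rcases Nat.lt_or_ge a u with h4 | h4
            · exact h4
            · have : u = a := by omega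
              rw [this] at hcase
              linarith
          exact hV a u b le_rfl hau h3 hbc hcase
        · have : u = b := by omega
          rw [this]; linarith
      linarith [hA.2]
    · push Not at hcase
      linarith

/-- number of integer down-crossings -/
noncomputable def cr (f : ℕ → ℝ) (N : ℕ) : ℕ := ∑ n ∈ range N, (⌈f n⌉₊ - ⌈f (n + 1)⌉₊)

theorem card_cr (f : ℕ → ℝ) (N : ℕ) :
    #((range N).sigma (fun n => Finset.Ico ⌈f (n + 1)⌉₊ ⌈f n⌉₊)) = cr f N := by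
  rw [Finset.card_sigma]
  simp [cr]

theorem floor_le_ceil_sub (a y : ℝ) (hy : 0 ≤ y) (hay : 0 ≤ a - y) : ⌊y⌋₊ ≤ ⌈a⌉₊ - ⌈a - y⌉₊ := by
  have h1 : ⌈a - y⌉₊ + ⌊y⌋₊ ≤ ⌈a⌉₊ := by
    have h2 : ⌈a - y⌉₊ + ⌊y⌋₊ = ⌈a - y + (⌊y⌋₊ : ℝ)⌉₊ := by
      rw [Nat.ceil_add_natCast hay]
    rw [h2]
    apply Nat.ceil_mono
    have := Nat.floor_le hy
    linarith
  omega

/-- **Lemma V, tops** -/
theorem sum_Pk {f : ℕ → ℝ} (hf : ∀ n, 0 ≤ f n) {N : ℕ} {S : Finset ℕ} {x : ℕ → ℝ}
    (hx : ∀ t ∈ S, 0 ≤ x t) (hS : ∀ t ∈ S, Pk f 0 N t (x t)) :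
    ∑ t ∈ S, ⌊x t⌋₊ ≤ cr f N := by
  classical
  rw [← card_cr]
  have h1 : ∑ t ∈ S, ⌊x t⌋₊ ≤ #(S.sigma (fun t => Finset.Ico ⌈f t - x t⌉₊ ⌈f t⌉₊)) := by
    rw [Finset.card_sigma]
    apply Finset.sum_le_sum
    intro t ht
    rw [Nat.card_Ico]
    apply floor_le_ceil_sub _ _ (hx t ht)
    obtain ⟨u, w, _, _, _, _, h5, _⟩ := hS t ht
    have := hf u
    linarith
  refine h1.trans ?_
  set g : (Σ _ : ℕ, ℕ) → (Σ _ : ℕ, ℕ) := fun p => ⟨sInf {n | p.1 ≤ n ∧ f (n + 1) ≤ p.2}, p.2⟩ with hg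
  -- properties of the crossing time
  have key : ∀ p ∈ S.sigma (fun t => Finset.Ico ⌈f t - x t⌉₊ ⌈f t⌉₊),
      p.1 ≤ (g p).1 ∧ f ((g p).1 + 1) ≤ p.2 ∧ (∀ m, p.1 ≤ m → m ≤ (g p).1 → (p.2 : ℝ) < f m) ∧
      (g p).1 < N := by
    rintro ⟨t, l⟩ hp
    rw [Finset.mem_sigma, Finset.mem_Ico] at hp
    obtain ⟨ht, hl1, hl2⟩ := hp
    simp only at ht hl1 hl2
    rw [Nat.ceil_le] at hl1
    rw [Nat.lt_ceil] at hl2
    obtain ⟨u, w, h1, h2, h3, h4, h5, h6, h7, h8⟩ := hS t ht
    have hw : w - 1 ∈ {n | t ≤ n ∧ f (n + 1) ≤ l} := by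
      refine ⟨by omega, ?_⟩
      have : w - 1 + 1 = w := by omega
      rw [this]
      linarith
    have hmem := Nat.sInf_mem ⟨_, hw⟩
    have hle : sInf {n | t ≤ n ∧ f (n + 1) ≤ l} ≤ w - 1 := Nat.sInf_le hw
    simp only [hg]
    refine ⟨hmem.1, hmem.2, ?_, by omega⟩
    intro m hm1 hm2
    rcases Nat.eq_or_lt_of_le hm1 with h | h
    · rw [← h]; exact hl2
    · by_contra hc
      push Not at hc
      have hm3 : m - 1 ∈ {n | t ≤ n ∧ f (n + 1) ≤ l} := by
        refine ⟨by omega, ?_⟩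
        have : m - 1 + 1 = m := by omega
        rw [this]
        exact hc
      have := Nat.sInf_le hm3
      omega
  apply Finset.card_le_card_of_injOn g
  · intro p hp
    have hp' := Finset.mem_coe.mp hp
    obtain ⟨k1, k2, k3, k4⟩ := key p hp'
    rw [Finset.mem_coe, Finset.mem_sigma, Finset.mem_range, Finset.mem_Ico]
    refine ⟨k4, ?_, ?_⟩
    · rw [Nat.ceil_le]
      exact k2
    · rw [Nat.lt_ceil]
      exact k3 _ k1 le_rfl
  · intro p hp q hq hpq
    have hp' := Finset.mem_coe.mp hp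
    have hq' := Finset.mem_coe.mp hq
    obtain ⟨k1, k2, k3, k4⟩ := key p hp'
    obtain ⟨j1, j2, j3, j4⟩ := key q hq'
    rw [Finset.mem_sigma, Finset.mem_Ico] at hp' hq'
    obtain ⟨hpS, hp1, hp2⟩ := hp'
    obtain ⟨hqS, hq1, hq2⟩ := hq'
    have e2 : p.2 = q.2 := by
      have := congrArg (fun r : (Σ _ : ℕ, ℕ) => r.2) hpq
      exact this
    have e1 : (g p).1 = (g q).1 := by rw [hpq]
    -- main claim
    have main : ∀ (t t' l : ℕ) (n : ℕ), t ∈ S → t' ∈ S → t < t' → t' ≤ n → f t - x t ≤ l →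
        f t' - x t' ≤ l → (∀ m, t ≤ m → m ≤ n → (l : ℝ) < f m) → False := by
      intro t t' l n ht ht' htt htn hl hl' hgt
      obtain ⟨u, w, h1, h2, h3, h4, h5, h6, h7, h8⟩ := hS t ht
      obtain ⟨u', w', h1', h2', h3', h4', h5', h6', h7', h8'⟩ := hS t' ht'
      have hu' : u' < t := by
        by_contra hc
        push Not at hc
        have := hgt u' hc (by omega)
        linarith
      have hw : n < w := by
        by_contra hc
        push Not at hc
        have := hgt w (by omega) hc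
        linarith
      have a1 := h8' t hu'.le htt
      have a2 := h7 t' (by omega) (by omega)
      linarith
    rw [Nat.ceil_le] at hp1 hq1
    have e : p.1 = q.1 := by
      rcases lt_trichotomy p.1 q.1 with h | h | h
      · exfalso
        apply main p.1 q.1 p.2 (g p).1 hpS hqS h (by rw [e1]; exact j1) hp1 (by rw [e2]; exact hq1) k3
      · exact h
      · exfalso
        apply main q.1 p.1 q.2 (g q).1 hqS hpS h (by rw [← e1]; exact k1) hq1
          (by rw [← e2]; exact hp1) j3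
    obtain ⟨p1, p2⟩ := p
    obtain ⟨q1, q2⟩ := q
    simp only at e e2
    rw [e, e2]

/-- **Lemma V, bottoms** -/
theorem sum_Vl {f : ℕ → ℝ} (hf : ∀ n, 0 ≤ f n) {N : ℕ} {S : Finset ℕ} {x : ℕ → ℝ}
    (hx : ∀ t ∈ S, 0 ≤ x t) (hS : ∀ t ∈ S, Vl f 0 N t (x t)) :
    ∑ t ∈ S, ⌊x t⌋₊ ≤ cr f N := by
  classical
  rw [← card_cr]
  have h1 : ∑ t ∈ S, ⌊x t⌋₊ ≤ #(S.sigma (fun t => Finset.Ico ⌈f t⌉₊ ⌈f t + x t⌉₊)) := by
    rw [Finset.card_sigma]
    apply Finset.sum_le_sum
    intro t ht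
    rw [Nat.card_Ico]
    have := floor_le_ceil_sub (f t + x t) (x t) (hx t ht) (by have := hf t; linarith)
    have e : f t + x t - x t = f t := by ring
    rwa [e] at this
  refine h1.trans ?_
  set g : (Σ _ : ℕ, ℕ) → (Σ _ : ℕ, ℕ) := fun p =>
    ⟨Nat.findGreatest (fun n => (p.2 : ℝ) < f n) p.1, p.2⟩ with hg
  have key : ∀ p ∈ S.sigma (fun t => Finset.Ico ⌈f t⌉₊ ⌈f t + x t⌉₊),
      (g p).1 < p.1 ∧ (p.2 : ℝ) < f (g p).1 ∧ (∀ m, (g p).1 < m → m ≤ p.1 → f m ≤ (p.2 : ℝ)) ∧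
      (g p).1 < N := by
    rintro ⟨t, l⟩ hp
    rw [Finset.mem_sigma, Finset.mem_Ico] at hp
    obtain ⟨ht, hl1, hl2⟩ := hp
    simp only at ht hl1 hl2
    rw [Nat.ceil_le] at hl1
    rw [Nat.lt_ceil] at hl2
    obtain ⟨u, w, h1, h2, h3, h4, h5, h6, h7, h8⟩ := hS t ht
    have hu : (fun n => (l : ℝ) < f n) u := by
      simp only
      linarith
    have hspec := Nat.findGreatest_spec (P := fun n => (l : ℝ) < f n) (n := t) h2.le hu
    have hle : Nat.findGreatest (fun n => (l : ℝ) < f n) t ≤ t := Nat.findGreatest_le t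
    have hne : Nat.findGreatest (fun n => (l : ℝ) < f n) t ≠ t := by
      intro hc
      rw [hc] at hspec
      linarith
    simp only [hg]
    refine ⟨by omega, hspec, ?_, by omega⟩
    intro m hm1 hm2
    exact not_lt.mp (Nat.findGreatest_is_greatest (P := fun n => (l : ℝ) < f n) hm1 hm2)
  apply Finset.card_le_card_of_injOn g
  · intro p hp
    have hp' := Finset.mem_coe.mp hp
    obtain ⟨k1, k2, k3, k4⟩ := key p hp'
    rw [Finset.mem_coe, Finset.mem_sigma, Finset.mem_range, Finset.mem_Ico]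
    refine ⟨k4, ?_, ?_⟩
    · rw [Nat.ceil_le]
      exact k3 _ (by omega) (by omega)
    · rw [Nat.lt_ceil]
      exact k2
  · intro p hp q hq hpq
    have hp' := Finset.mem_coe.mp hp
    have hq' := Finset.mem_coe.mp hq
    obtain ⟨k1, k2, k3, k4⟩ := key p hp'
    obtain ⟨j1, j2, j3, j4⟩ := key q hq'
    rw [Finset.mem_sigma, Finset.mem_Ico] at hp' hq'
    obtain ⟨hpS, hp1, hp2⟩ := hp'
    obtain ⟨hqS, hq1, hq2⟩ := hq'
    have e2 : p.2 = q.2 := by
      have := congrArg (fun r : (Σ _ : ℕ, ℕ) => r.2) hpq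
      exact this
    have e1 : (g p).1 = (g q).1 := by rw [hpq]
    have main : ∀ (t t' l : ℕ) (n : ℕ), t ∈ S → t' ∈ S → t < t' → n < t → (l : ℝ) < f t + x t →
        (l : ℝ) < f t' + x t' → (∀ m, n < m → m ≤ t' → f m ≤ (l : ℝ)) → False := by
      intro t t' l n ht ht' htt htn hl hl' hgt
      obtain ⟨u, w, h1, h2, h3, h4, h5, h6, h7, h8⟩ := hS t ht
      obtain ⟨u', w', h1', h2', h3', h4', h5', h6', h7', h8'⟩ := hS t' ht'
      have hu' : u' ≤ n := by
        by_contra hc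
        push Not at hc
        have := hgt u' hc (by omega)
        linarith
      have hw : t' < w := by
        by_contra hc
        push Not at hc
        have := hgt w (by omega) hc
        linarith
      have a1 := h8' t (by omega) htt
      have a2 := h7 t' (by omega) (by omega)
      linarith
    rw [Nat.lt_ceil] at hp2 hq2
    have e : p.1 = q.1 := by
      rcases lt_trichotomy p.1 q.1 with h | h | h
      · exfalso
        apply main p.1 q.1 p.2 (g p).1 hpS hqS h k1 hp2 (by rw [e2]; exact hq2)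
        rw [e1, e2]
        exact j3
      · exact h
      · exfalso
        apply main q.1 p.1 q.2 (g q).1 hqS hpS h j1 hq2 (by rw [← e2]; exact hp2)
        rw [← e1, ← e2]
        exact k3
    obtain ⟨p1, p2⟩ := p
    obtain ⟨q1, q2⟩ := q
    simp only at e e2
    rw [e, e2]

/-- counting of pairs `(s, D)` charged to a finite family of times with a prominence bound -/
theorem count_pairs {P : Finset (ℕ × ℕ)} {τ : ℕ × ℕ → ℕ} {L A C : ℕ} (hA : 0 < A)
    (hD : ∀ p ∈ P, A ≤ p.2) (hmult : ∀ t D, #{p ∈ P | τ p = t ∧ p.2 = D} ≤ L)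
    (hsum : ∀ x : ℕ → ℕ, (∀ t ∈ P.image τ, ∃ p ∈ P, τ p = t ∧ x t = p.2) →
      ∑ t ∈ P.image τ, x t / A ≤ C) :
    #P ≤ 2 * A * L * C := by
  classical
  -- maximal D for each t
  have hex : ∀ t ∈ P.image τ, ∃ p ∈ P, τ p = t ∧ ∀ q ∈ P, τ q = t → q.2 ≤ p.2 := by
    intro t ht
    rw [Finset.mem_image] at ht
    obtain ⟨p0, hp0, hp0t⟩ := ht
    obtain ⟨p, hp, hmax⟩ := (P.filter (fun q => τ q = t)).exists_max_image (fun q => q.2)
      ⟨p0, by rw [Finset.mem_filter]; exact ⟨hp0, hp0t⟩⟩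
    rw [Finset.mem_filter] at hp
    exact ⟨p, hp.1, hp.2, fun q hq hqt => hmax q (by rw [Finset.mem_filter]; exact ⟨hq, hqt⟩)⟩
  choose! m hm1 hm2 hm3 using hex
  have h1 := hsum (fun t => (m t).2) (fun t ht => ⟨m t, hm1 t ht, hm2 t ht, rfl⟩)
  have h2 : #P = ∑ t ∈ P.image τ, #{p ∈ P | τ p = t} :=
    Finset.card_eq_sum_card_image τ P
  have h3 : ∀ t ∈ P.image τ, #{p ∈ P | τ p = t} ≤ 2 * A * L * ((m t).2 / A) := by
    intro t ht
    have h4 : {p ∈ P | τ p = t} ⊆ (Finset.Icc A (m t).2).biUnion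
        (fun D => {p ∈ P | τ p = t ∧ p.2 = D}) := by
      intro p hp
      rw [Finset.mem_filter] at hp
      rw [Finset.mem_biUnion]
      exact ⟨p.2, Finset.mem_Icc.mpr ⟨hD p hp.1, hm3 t ht p hp.1 hp.2⟩, by
        rw [Finset.mem_filter]; exact ⟨hp.1, hp.2, rfl⟩⟩
    have h5 : #{p ∈ P | τ p = t} ≤ (m t).2 * L := by
      calc #{p ∈ P | τ p = t} ≤ _ := Finset.card_le_card h4
        _ ≤ ∑ D ∈ Finset.Icc A (m t).2, #{p ∈ P | τ p = t ∧ p.2 = D} := Finset.card_biUnion_le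
        _ ≤ ∑ D ∈ Finset.Icc A (m t).2, L := Finset.sum_le_sum fun D _ => hmult t D
        _ = ((m t).2 + 1 - A) * L := by rw [Finset.sum_const, Nat.card_Icc, smul_eq_mul]
        _ ≤ (m t).2 * L := by
            apply Nat.mul_le_mul_right
            omega
    have h6 : (m t).2 ≤ 2 * A * ((m t).2 / A) := by
      have hAm : A ≤ (m t).2 := hD _ (hm1 t ht)
      have h7 : 1 ≤ (m t).2 / A := (Nat.one_le_div_iff hA).mpr hAm
      have h8 := Nat.div_add_mod (m t).2 A
      have h9 := Nat.mod_lt (m t).2 hA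
      nlinarith
    calc #{p ∈ P | τ p = t} ≤ (m t).2 * L := h5
      _ ≤ (2 * A * ((m t).2 / A)) * L := Nat.mul_le_mul_right _ h6
      _ = 2 * A * L * ((m t).2 / A) := by ring
  calc #P = _ := h2
    _ ≤ ∑ t ∈ P.image τ, 2 * A * L * ((m t).2 / A) := Finset.sum_le_sum h3
    _ = 2 * A * L * ∑ t ∈ P.image τ, ((m t).2 / A) := by rw [Finset.mul_sum]
    _ ≤ 2 * A * L * C := Nat.mul_le_mul_left _ h1

end Crest.Agent.R128.DDRoot
end

-- ▼ part R128/DDRootB
section

/-!
# Row 128, V2 in root form, part 2: geometry (helper136)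

The root contour `β = bt (rr k z)` has a first top or a first bottom of prominence `D/2000` levels in
the window of a relaxed drawdown event of class `k ^ D`.
-/

set_option autoImplicit false

open MeasureTheory Finset
open scoped Matrix.Norms.L2Operator

namespace Crest.Agent.R128.DDRoot

open Crest.Agent.R128.TreeSum Crest.Agent.R128.Acc Crest.Agent.R128.Hyp Crest.Agent.R128.Lam0
open Crest.Agent.R128.Chain

theorem nnv (v : E2) : nn (v 0, v 1) = ‖v‖ := by
  have h1 := norm_sq v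
  have h2 := nn_sq (v 0, v 1)
  simp only at h2
  exact (sq_eq_sq₀ (nn_nonneg _) (norm_nonneg _)).mp (by rw [h1, h2])

theorem nn_act_le (M : M2) (v : ℝ × ℝ) : nn (act M v) ≤ ‖M‖ * nn v := by
  have h := norm_ap_le M !₂[v.1, v.2]
  rw [← nnv, ← nnv] at h
  simpa [ap_apply, act] using h

theorem norm_le_of_act {M : M2} {C : ℝ} (hC : 0 ≤ C) (h : ∀ v, nn (act M v) ≤ C * nn v) :
    ‖M‖ ≤ C := by
  apply norm_le_of_ap hC
  intro v
  have := h (v 0, v 1)
  rw [nnv] at this
  rw [← nnv (ap M v), ap_apply, ap_apply]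
  exact this

theorem opn_le (M : M2) : max (rn M 0) (rn M 1) ≤ 2 * ‖M‖ := by
  obtain ⟨e, he, h⟩ := exists_max M
  have h1 := nn_act_le M e
  have h2 := nn_le_norm e
  have h3 := norm_le_nn (act M e)
  have h4 : nn e ≤ 2 := by linarith
  calc max (rn M 0) (rn M 1) ≤ ‖act M e‖ := h
    _ ≤ nn (act M e) := h3
    _ ≤ ‖M‖ * nn e := h1
    _ ≤ ‖M‖ * 2 := mul_le_mul_of_nonneg_left h4 (norm_nonneg _)
    _ = 2 * ‖M‖ := mul_comm _ _

theorem le_opn (M : M2) : ‖M‖ ≤ 2 * max (rn M 0) (rn M 1) := by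
  have h0 : 0 ≤ max (rn M 0) (rn M 1) := le_max_of_le_left (by unfold rn; positivity)
  apply norm_le_of_act (by positivity)
  intro v
  have h1 := norm_act_le M v
  have h2 := nn_le_norm (act M v)
  have h3 := norm_le_nn v
  calc nn (act M v) ≤ 2 * ‖act M v‖ := h2
    _ ≤ 2 * (max (rn M 0) (rn M 1) * ‖v‖) := by linarith
    _ ≤ 2 * (max (rn M 0) (rn M 1) * nn v) := by gcongr
    _ = _ := by ring

theorem nm_eq (k : ℝ) (n : ℕ) (z : Tor) : nm k n z = max (rn (Mn k n z) 0) (rn (Mn k n z) 1) := by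
  unfold nm
  rw [rr_succ]
  rfl

theorem nm_le (k : ℝ) (n : ℕ) (z : Tor) : nm k n z ≤ 2 * ‖Mn k n z‖ := by
  rw [nm_eq]
  exact opn_le _

theorem le_nm (k : ℝ) (n : ℕ) (z : Tor) : ‖Mn k n z‖ ≤ 2 * nm k n z := by
  rw [nm_eq]
  exact le_opn _

theorem transfer_eq (k : ℝ) (z : Tor) (a m : ℕ) :
    Mn k (a + m) z * (Mn k a z)⁻¹ = Mn k m ((T k)^[a] z) := by
  rw [add_comm, Mn_add, Matrix.mul_assoc, Matrix.mul_nonsing_inv _ (by
    rw [det_Mn]; exact isUnit_one), Matrix.mul_one]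

theorem step_norm_le {k : ℝ} (hk : 4 ≤ k) (z : Tor) (l : ℕ) :
    ‖Mn k (l + 1) z * (Mn k l z)⁻¹‖ ≤ 8 * k := by
  rw [transfer_eq, Mn_succ, Mn_zero, one_mul]
  apply norm_le_of_act (by linarith)
  intro v
  rw [act_Am]
  refine (nn_stp_le _ _).trans ?_
  exact mul_le_mul_of_nonneg_right (abs_V_le hk _) (nn_nonneg _)

/-- (F2) -/
theorem trans_le {k : ℝ} (hk : 4 ≤ k) (z : Tor) {a b u : ℕ} (hab : a < b)
    (hu : ∀ m, a ≤ m → m ≤ b → bt (rr k z) u ≤ bt (rr k z) m) :
    ‖Mn k b z * (Mn k a z)⁻¹‖ ≤ 128 * k * (b - a : ℕ) *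
      Real.exp (bt (rr k z) a + bt (rr k z) b - 2 * bt (rr k z) u) := by
  have hg : ∀ i, ((fun j => Mn k j z) i).det = 1 := fun i => det_Mn k i z
  have h1 := chain (g := fun j => Mn k j z) hg hab
  have hk0 : 0 < k := by linarith
  have hlow : ∀ m, a ≤ m → m ≤ b → Real.exp (bt (rr k z) u) / 2 ≤ ‖Mn k m z‖ := by
    intro m h3 h4
    have h5 := nm_le k m z
    have h6 : Real.exp (bt (rr k z) u) ≤ nm k m z := by
      rw [← exp_bt]
      exact Real.exp_le_exp.mpr (hu m h3 h4)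
    linarith
  have h2 : ∑ j ∈ Ico a b, Chain.wt (fun j => Mn k j z) j ≤
      ∑ _j ∈ Ico a b, 32 * k * Real.exp (- (2 * bt (rr k z) u)) := by
    apply Finset.sum_le_sum
    intro j hj
    rw [Finset.mem_Ico] at hj
    have p1 := hlow j hj.1 hj.2.le
    have p2 := hlow (j + 1) (by omega) (by omega)
    have e0 := Real.exp_pos (bt (rr k z) u)
    unfold Chain.wt ch
    have h3 := step_norm_le hk z j
    have h4 : (Real.exp (bt (rr k z) u) / 2) * (Real.exp (bt (rr k z) u) / 2) ≤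
        ‖Mn k j z‖ * ‖Mn k (j + 1) z‖ := mul_le_mul p1 p2 (by positivity) (norm_nonneg _)
    calc ‖Mn k (j + 1) z * (Mn k j z)⁻¹‖ / (‖Mn k j z‖ * ‖Mn k (j + 1) z‖)
        ≤ (8 * k) / ((Real.exp (bt (rr k z) u) / 2) * (Real.exp (bt (rr k z) u) / 2)) := by
          gcongr
      _ = 32 * k * Real.exp (- (2 * bt (rr k z) u)) := by
          rw [Real.exp_neg, two_mul, Real.exp_add]
          field_simp
          ring
  rw [Finset.sum_const, Nat.card_Ico, nsmul_eq_mul] at h2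
  have ha := le_nm k a z
  have hb := le_nm k b z
  rw [← exp_bt] at ha hb
  calc ‖Mn k b z * (Mn k a z)⁻¹‖ ≤ _ := h1
    _ ≤ (2 * Real.exp (bt (rr k z) a)) * (2 * Real.exp (bt (rr k z) b)) *
        ((b - a : ℕ) * (32 * k * Real.exp (- (2 * bt (rr k z) u)))) := by
          gcongr
          exact Finset.sum_nonneg fun j _ => Chain.wt_nonneg _ _
    _ = 128 * k * (b - a : ℕ) * (Real.exp (bt (rr k z) a) * Real.exp (bt (rr k z) b) *
        Real.exp (- (2 * bt (rr k z) u))) := by ring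
    _ = _ := by
        rw [← Real.exp_add, ← Real.exp_add, sub_eq_add_neg]

/-- (F1) -/
theorem bt_diff (k : ℝ) (z : Tor) (a c : ℕ) :
    |bt (rr k z) a - bt (rr k z) c| ≤ Real.log ‖Mn k c z * (Mn k a z)⁻¹‖ + 2 * Real.log 2 := by
  have hg : ∀ i, ((fun j => Mn k j z) i).det = 1 := fun i => det_Mn k i z
  have hpos : 0 < ‖Mn k c z * (Mn k a z)⁻¹‖ := norm_pos' (det_mul_inv (det_Mn k c z) (det_Mn k a z))
  have key : ∀ x y : ℕ, Real.exp (bt (rr k z) y) ≤
      4 * ‖Mn k y z * (Mn k x z)⁻¹‖ * Real.exp (bt (rr k z) x) := by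
    intro x y
    have h1 := le_transfer (g := fun j => Mn k j z) hg x y
    have h2 := nm_le k y z
    have h3 := le_nm k x z
    rw [← exp_bt] at h2 h3
    calc Real.exp (bt (rr k z) y) ≤ 2 * ‖Mn k y z‖ := h2
      _ ≤ 2 * (‖Mn k y z * (Mn k x z)⁻¹‖ * ‖Mn k x z‖) := by linarith
      _ ≤ 2 * (‖Mn k y z * (Mn k x z)⁻¹‖ * (2 * Real.exp (bt (rr k z) x))) := by gcongr
      _ = _ := by ring
  have conv : ∀ x y : ℕ, ‖Mn k y z * (Mn k x z)⁻¹‖ = ‖Mn k c z * (Mn k a z)⁻¹‖ →
      bt (rr k z) y - bt (rr k z) x ≤ Real.log ‖Mn k c z * (Mn k a z)⁻¹‖ + 2 * Real.log 2 := by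
    intro x y hxy
    have h := key x y
    rw [hxy] at h
    have h4 := Real.log_le_log (Real.exp_pos _) h
    rw [Real.log_exp, Real.log_mul (by positivity) (Real.exp_pos _).ne', Real.log_exp,
      Real.log_mul (by norm_num) hpos.ne'] at h4
    have h5 : Real.log 4 = 2 * Real.log 2 := by
      rw [show (4:ℝ) = 2 ^ 2 by norm_num, Real.log_pow]
      push_cast
      ring
    linarith
  rw [abs_le]
  constructor
  · have := conv a c rfl
    linarith
  · exact conv c a (Chain.norm_symm (det_Mn k a z) (det_Mn k c z))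

/-- normal form of a relaxed drawdown event -/
structure Ev (k : ℝ) (L M : ℕ) (X : ℝ) (y : Tor) (n c σ : ℕ) : Prop where
  hLn : L ≤ n
  hσ : σ < n
  hnc : n < c
  hcM : c ≤ M
  max : ∀ j, j ≤ c → ‖fld k y j‖ ≤ ‖fld k y n‖
  endc : ‖fld k y c‖ ^ 102 ≤ ‖fld k y n‖ ^ 101
  ends : ‖fld k y σ‖ ^ 102 ≤ ‖fld k y n‖ ^ 101
  mid : ∀ j, σ < j → j < c → ‖fld k y n‖ ^ 101 < ‖fld k y j‖ ^ 102
  lo : X ≤ ‖fld k y n‖
  hi : ‖fld k y n‖ ≤ k ^ 2 * X
  vl : RV k L y (c - 1)

theorem rv_mono {k : ℝ} {L : ℕ} {z : Tor} {n m : ℕ} (h : RV k L z n) (hm : m ≤ n) : RV k L z m :=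
  ⟨h.big, fun i j h1 h2 h3 => h.v2 i j h1 h2 (by omega), fun j h1 h2 => h.v3 j h1 (by omega)⟩

theorem ev_of {k : ℝ} {L M : ℕ} {X : ℝ} (hX : 1 < X) {y : Tor} {n n' : ℕ} (h : DDn k L M X y n n')
    (hv : RV k L y (n' - 1)) : ∃ n c σ, Ev k L M X y n c σ := by
  classical
  have hn1 : 1 < ‖fld k y n‖ := lt_of_lt_of_le hX h.lo
  have hex : ∃ c, n < c ∧ ‖fld k y c‖ ^ 102 ≤ ‖fld k y n‖ ^ 101 := ⟨n', h.lt, h.drop⟩
  obtain ⟨c1, c2⟩ := Nat.find_spec hex
  have c3 : Nat.find hex ≤ n' := Nat.find_min' hex ⟨h.lt, h.drop⟩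
  have c4 : ∀ j, n < j → j < Nat.find hex → ‖fld k y n‖ ^ 101 < ‖fld k y j‖ ^ 102 := by
    intro j h1 h2
    by_contra hc
    push Not at hc
    exact Nat.find_min hex h2 ⟨h1, hc⟩
  set c := Nat.find hex
  set σ := Nat.findGreatest (fun j => ‖fld k y j‖ ^ 102 ≤ ‖fld k y n‖ ^ 101) n with hσ
  have s0 : ‖fld k y 0‖ ^ 102 ≤ ‖fld k y n‖ ^ 101 := by
    rw [fld_zero]
    have e1 : ‖((0, 1) : ℝ × ℝ)‖ = 1 := by simp [Prod.norm_def]
    rw [e1, one_pow]
    exact one_le_pow₀ hn1.le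
  have s1 : ‖fld k y σ‖ ^ 102 ≤ ‖fld k y n‖ ^ 101 :=
    Nat.findGreatest_spec (P := fun j => ‖fld k y j‖ ^ 102 ≤ ‖fld k y n‖ ^ 101) (Nat.zero_le n) s0
  have s2 : σ ≤ n := Nat.findGreatest_le n
  have hnn : ‖fld k y n‖ ^ 101 < ‖fld k y n‖ ^ 102 := pow_lt_pow_right₀ hn1 (by norm_num)
  have s3 : σ ≠ n := by
    intro hc
    rw [hc] at s1
    linarith
  refine ⟨n, c, σ, h.hLn, by omega, c1, by have := h.le; omega, fun j hj => h.max j (by omega), c2, s1, ?_,
    h.lo, h.hi, rv_mono hv (by omega)⟩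
  intro j h1 h2
  rcases Nat.lt_or_ge n j with h3 | h3
  · exact c4 j h3 h2
  · exact not_le.mp (Nat.findGreatest_is_greatest
      (P := fun j => ‖fld k y j‖ ^ 102 ≤ ‖fld k y n‖ ^ 101) h1 h3)

theorem fld_step_le {k : ℝ} (hk : 4 ≤ k) (y : Tor) (j : ℕ) : nn (fld k y (j + 1)) ≤ 8 * k * nn (fld k y j) := by
  rw [fld_succ]
  exact (nn_stp_le _ _).trans (mul_le_mul_of_nonneg_right (abs_V_le hk _) (nn_nonneg _))

theorem fld_step_ge {k : ℝ} (hk : 4 ≤ k) (y : Tor) (j : ℕ) : nn (fld k y j) ≤ 8 * k * nn (fld k y (j + 1)) := by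
  rw [fld_succ]
  exact (nn_le_stp _ _).trans (mul_le_mul_of_nonneg_right (abs_V_le hk _) (nn_nonneg _))

/-- numeric contradiction used in `Ev.overlap` -/
theorem pow_contra {k X u v n1 n2 : ℝ} (hk : 1 ≤ k) (hX : 0 < X) (hu : 0 ≤ u)
    (hn1 : 0 ≤ n1) (b5 : k ^ 397 * u ≤ v) (b6 : v ^ 102 ≤ n1 ^ 101) (b7 : n1 ≤ k ^ 2 * X)
    (b8 : X ≤ n2) (b1 : n2 ^ 101 < u ^ 102) : False := by
  have hk0 : 0 < k := by linarith
  -- `k ^ 2 ≤ k ^ 397`
  have g1 : k ^ 2 ≤ k ^ 397 := pow_le_pow_right₀ hk (by norm_num)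
  have g2 : 1 ≤ k ^ 397 := one_le_pow₀ hk
  generalize k ^ 397 = A at *
  generalize k ^ 2 = B at *
  have hA0 : 0 < A := by linarith
  have f1 : (A * u) ^ 102 ≤ (A * X) ^ 101 := by
    calc (A * u) ^ 102 ≤ v ^ 102 := pow_le_pow_left₀ (by positivity) b5 _
      _ ≤ n1 ^ 101 := b6
      _ ≤ _ := pow_le_pow_left₀ hn1 (b7.trans (mul_le_mul_of_nonneg_right g1 hX.le)) _
  have f2 : X ^ 101 < u ^ 102 := lt_of_le_of_lt (pow_le_pow_left₀ hX.le b8 _) b1
  rw [mul_pow, mul_pow] at f1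
  have f3 : A ^ 102 * X ^ 101 < A ^ 101 * X ^ 101 := by
    refine lt_of_lt_of_le ?_ f1
    exact mul_lt_mul_of_pos_left f2 (by positivity)
  have f4 : A ^ 102 < A ^ 101 := lt_of_mul_lt_mul_right f3 (by positivity)
  have f5 : A ^ 101 ≤ A ^ 102 := pow_le_pow_right₀ g2 (by norm_num)
  linarith

/-- **multiplicity**: two events of the same class with overlapping windows have close starts -/
theorem Ev.overlap {k : ℝ} (hk : (10:ℝ) ^ 3 ≤ k) {L M M' : ℕ} (hL : 3 ≤ L) {X : ℝ} (hX : 0 < X) {y : Tor} {m : ℕ}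
    {n1 c1 σ1 n2 c2 σ2 : ℕ} (h1 : Ev k L M X y n1 c1 σ1) (h2 : Ev k L M' X ((T k)^[m] y) n2 c2 σ2)
    (hm : L ≤ m) (hov : m + σ2 < c1) : False := by
  have hk1 : (100:ℝ) ≤ k := le_trans (by norm_num) hk
  have hk0 : (0:ℝ) < k := by linarith
  rcases Nat.lt_or_ge (m + n2) c1 with hcase | hcase
  · have hv : RV k L y (m + n2) := rv_mono h1.vl (by omega)
    have hs := sep hk1 hL hm hv (κ := k ^ 3) (by positivity) (pow_le_pow_right₀ (by linarith) (by norm_num))
    have a1 := h1.max (m + n2) hcase.le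
    have a2 := h1.hi
    have a3 := h2.lo
    have hk3 : k ^ 3 * X ≤ 2 * (k ^ 2 * X) := by
      calc k ^ 3 * X ≤ k ^ 3 * ‖fld k ((T k)^[m] y) n2‖ := mul_le_mul_of_nonneg_left a3 (by positivity)
        _ ≤ 2 * ‖fld k y (m + n2)‖ := hs
        _ ≤ _ := by linarith
    have hpos : 0 < k ^ 2 * X := by positivity
    nlinarith
  · -- `c1 ≤ m + n2`
    obtain ⟨j, hj⟩ : ∃ j, c1 = m + (j + 1) := ⟨c1 - m - 1, by omega⟩
    have hjn : j + 1 ≤ n2 := by omega
    have hjσ : σ2 < j + 1 := by omega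
    have hv : RV k L y (m + j) := rv_mono h1.vl (by omega)
    have hs := sep hk1 hL hm hv (κ := k ^ 400) (by positivity) le_rfl
    have b1 := h2.mid (j + 1) hjσ (by have := h2.hnc; omega)
    have b2 := fld_step_le (by linarith : (4:ℝ) ≤ k) ((T k)^[m] y) j
    have b3 := fld_step_ge (by linarith : (4:ℝ) ≤ k) y (m + j)
    have b4 : fld k y (m + j + 1) = fld k y c1 := by rw [hj]; rfl
    rw [b4] at b3
    -- `k^397 ‖w2 (j+1)‖ ≤ ‖w1 c1‖`
    have b5 : k ^ 397 * ‖fld k ((T k)^[m] y) (j + 1)‖ ≤ ‖fld k y c1‖ := by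
      have d1 := norm_le_nn (fld k ((T k)^[m] y) (j + 1))
      have d2 := nn_le_norm (fld k ((T k)^[m] y) j)
      have d3 := norm_le_nn (fld k y (m + j))
      have d4 := nn_le_norm (fld k y c1)
      have hk3 : (512:ℝ) ≤ k := le_trans (by norm_num) hk
      have e1 : ‖fld k ((T k)^[m] y) (j + 1)‖ ≤ 16 * k * ‖fld k ((T k)^[m] y) j‖ := by nlinarith
      have e2 : ‖fld k y (m + j)‖ ≤ 16 * k * ‖fld k y c1‖ := by nlinarith
      have hc0 := norm_nonneg (fld k y c1)
      have hp : (0:ℝ) < k ^ 2 := by positivity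
      have e3 : k ^ 400 * ‖fld k ((T k)^[m] y) (j + 1)‖ ≤ (512 * k ^ 2) * ‖fld k y c1‖ := by
        calc k ^ 400 * ‖fld k ((T k)^[m] y) (j + 1)‖
            ≤ k ^ 400 * (16 * k * ‖fld k ((T k)^[m] y) j‖) := by gcongr
          _ = 16 * k * (k ^ 400 * ‖fld k ((T k)^[m] y) j‖) := by ring
          _ ≤ 16 * k * (2 * ‖fld k y (m + j)‖) := by gcongr
          _ ≤ 16 * k * (2 * (16 * k * ‖fld k y c1‖)) := by gcongr
          _ = (512 * k ^ 2) * ‖fld k y c1‖ := by ring
      have e4 : (512 * k ^ 2) * ‖fld k y c1‖ ≤ k ^ 3 * ‖fld k y c1‖ := by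
        apply mul_le_mul_of_nonneg_right _ hc0
        nlinarith
      have e5 : k ^ 400 = k ^ 3 * k ^ 397 := by rw [← pow_add]
      rw [e5, mul_assoc] at e3
      exact le_of_mul_le_mul_left (e3.trans e4) (by positivity)
    have b6 := h1.endc
    have b7 := h1.hi
    have b8 := h2.lo
    -- powers
    exact pow_contra (by linarith) hX (norm_nonneg _) (norm_nonneg _) b5 b6 b7 b8 b1

end Crest.Agent.R128.DDRoot
end

-- ▼ part R128/DDRootC

/-!
# Row 128, V2 in root form, part 3 (helper136)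

`count_events`: for every root orbit, the number of pairs `(s, D)`, `s < N`, `D ≥ 2000`, such that the start
`T^s z` has a relaxed drawdown event of class `k ^ D` completed within `N - s` steps, is at most
`8000 L` times the number of integer down-crossings of the root contour.
-/

set_option autoImplicit false

open MeasureTheory Finset
open scoped Matrix.Norms.L2Operator ENNReal

namespace Crest.Agent.R128.DDRoot

open Crest.Agent.R128.TreeSum Crest.Agent.R128.Acc Crest.Agent.R128.Hyp Crest.Agent.R128.Lam0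
open Crest.Agent.R128.Chain Crest.Agent.R128.AccRoot

theorem isField_gen (k : ℝ) (y : Tor) (σ : ℕ) (v : ℝ × ℝ) :
    IsField (fun j => V k ((T k)^[σ + j] y).2) (fun j => act (Mn k j ((T k)^[σ] y)) v) := by
  intro n
  simp only
  rw [Mn_succ', act_mul, act_Am]
  have : (T k)^[n] ((T k)^[σ] y) = (T k)^[σ + n] y := by
    rw [← Function.iterate_add_apply, add_comm]
  rw [this]

theorem fld_add (k : ℝ) (y : Tor) (σ m : ℕ) :
    fld k y (σ + m) = act (Mn k m ((T k)^[σ] y)) (fld k y σ) := by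
  unfold fld
  rw [add_comm, Mn_add, act_mul]

/-- logarithmic data of an event -/
theorem Ev.logs {k : ℝ} (hk : (10:ℝ) ^ 3 ≤ k) {L M : ℕ} (hL : 3 ≤ L) {X : ℝ} (hX : 1 < X) {y : Tor}
    {n c σ : ℕ} (h : Ev k L M X y n c σ) :
    Real.log ‖fld k y n‖ / 102 - Real.log 2 ≤ Real.log ‖Mn k (n - σ) ((T k)^[σ] y)‖ ∧
    Real.log ‖Mn k (c - σ) ((T k)^[σ] y)‖ ≤ 6 * Real.log 2 + Real.log k + Real.log c ∧
    Real.log c ≤ Real.log 2 + (Real.log 2 + Real.log ‖fld k y n‖) / 400 := by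
  have hk4 : (4:ℝ) ≤ k := le_trans (by norm_num) hk
  have hk0 : (0:ℝ) < k := by linarith
  have hW1 : 1 < ‖fld k y n‖ := lt_of_lt_of_le hX h.lo
  have hW0 : 0 < ‖fld k y n‖ := by linarith
  set W := ‖fld k y n‖ with hW
  set R : ℝ := W ^ ((101:ℝ) / 102) with hR
  have hR0 : 0 < R := Real.rpow_pos_of_pos hW0 _
  have hRpow : R ^ 102 = W ^ 101 := by
    rw [hR, ← Real.rpow_natCast, ← Real.rpow_mul hW0.le, ← Real.rpow_natCast]
    norm_num
  have hlogR : Real.log R = 101 / 102 * Real.log W := by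
    rw [hR, Real.log_rpow hW0]
  have le_R : ∀ j, ‖fld k y j‖ ^ 102 ≤ W ^ 101 → ‖fld k y j‖ ≤ R := by
    intro j hj
    rw [← hRpow] at hj
    exact le_of_pow_le_pow_left₀ (by norm_num) hR0.le hj
  have gt_R : ∀ j, σ < j → j < c → R < ‖fld k y j‖ := by
    intro j h1 h2
    have := h.mid j h1 h2
    rw [← hRpow] at this
    exact lt_of_pow_lt_pow_left₀ 102 (norm_nonneg _) this
  have hσR := le_R σ h.ends
  have hcR := le_R c h.endc
  have hσn := h.hσ
  have hnc := h.hnc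
  have nσ : nn (fld k y σ) ≤ 2 * R := (nn_le_norm _).trans (by linarith)
  have nc : nn (fld k y c) ≤ 2 * R := (nn_le_norm _).trans (by linarith)
  have nmid : ∀ j, σ < j → j < c → R < nn (fld k y j) := fun j h1 h2 =>
    lt_of_lt_of_le (gt_R j h1 h2) (norm_le_nn _)
  have nσ' : R ≤ 8 * k * nn (fld k y σ) :=
    (nmid (σ + 1) (by omega) (by omega)).le.trans (fld_step_le hk4 y σ)
  have nc' : R ≤ 8 * k * nn (fld k y c) := by
    have h1 := fld_step_ge hk4 y (c - 1)
    have e : c - 1 + 1 = c := by omega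
    rw [e] at h1
    exact (nmid (c - 1) (by omega) (by omega)).le.trans h1
  have pσ : 0 < nn (fld k y σ) := by
    by_contra hc
    push Not at hc
    nlinarith
  have pc : 0 < nn (fld k y c) := by
    by_contra hc
    push Not at hc
    nlinarith
  refine ⟨?_, ?_, ?_⟩
  · have h1 := nn_act_le (Mn k (n - σ) ((T k)^[σ] y)) (fld k y σ)
    rw [← fld_add, Nat.add_sub_cancel' hσn.le] at h1
    have h2 : W / (2 * R) ≤ ‖Mn k (n - σ) ((T k)^[σ] y)‖ := by
      rw [div_le_iff₀ (by positivity)]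
      calc W ≤ nn (fld k y n) := norm_le_nn _
        _ ≤ ‖Mn k (n - σ) ((T k)^[σ] y)‖ * nn (fld k y σ) := h1
        _ ≤ _ := mul_le_mul_of_nonneg_left nσ (norm_nonneg _)
    have h3 := Real.log_le_log (by positivity) h2
    rw [Real.log_div hW0.ne' (by positivity), Real.log_mul (by norm_num) hR0.ne', hlogR] at h3
    linarith
  · obtain ⟨m, hm⟩ : ∃ m, c = σ + m := ⟨c - σ, by omega⟩
    have hm1 : 1 ≤ m := by omega
    have e1 : c - σ = m := by omega
    rw [e1]
    have hbound : ‖Mn k m ((T k)^[σ] y)‖ ≤ 64 * k * m := by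
      apply norm_le_of_act (by positivity)
      intro v
      have ht := tree_ineq (isField_shift k y σ) (isField_gen k y σ v) (m := 0) (n := m) (Nat.zero_le _)
        (by simpa using pσ)
      simp only [add_zero, Mn_zero] at ht
      rw [← hm] at ht
      have e0 : act (1 : Matrix (Fin 2) (Fin 2) ℝ) v = v := by
        unfold act
        simp
      rw [e0] at ht
      refine ht.trans ?_
      rw [mul_comm (nn v)]
      apply mul_le_mul_of_nonneg_right _ (nn_nonneg v)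
      have t1 : nn (fld k y c) / nn (fld k y σ) ≤ 16 * k := by
        rw [div_le_iff₀ pσ]
        nlinarith
      have t2 : nn (fld k y σ) / nn (fld k y c) ≤ 16 * k := by
        rw [div_le_iff₀ pc]
        nlinarith
      have t3 : nn (fld k y σ) * nn (fld k y c) *
          TreeSum.wt (fun j => V k ((T k)^[σ + j] y).2) (fun j => fld k y (σ + j)) 0 m ≤ 32 * k * m := by
        unfold TreeSum.wt
        rw [Finset.mul_sum]
        calc ∑ j ∈ Ico 0 m, nn (fld k y σ) * nn (fld k y c) *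
            ((|V k ((T k)^[σ + j] y).2| + 2) / (nn (fld k y (σ + j)) * nn (fld k y (σ + (j + 1)))))
            ≤ ∑ _j ∈ Ico 0 m, 32 * k := by
              apply Finset.sum_le_sum
              intro j hj
              rw [Finset.mem_Ico] at hj
              have q1 : nn (fld k y σ) ≤ 2 * nn (fld k y (σ + j)) := by
                rcases Nat.eq_zero_or_pos j with h0 | h0
                · rw [h0, add_zero]; linarith
                · have := nmid (σ + j) (by omega) (by omega)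
                  linarith
              have q2 : nn (fld k y c) ≤ 2 * nn (fld k y (σ + (j + 1))) := by
                rcases Nat.lt_or_ge (j + 1) m with h0 | h0
                · have := nmid (σ + (j + 1)) (by omega) (by omega)
                  linarith
                · have : σ + (j + 1) = c := by omega
                  rw [this]; linarith
              have q3 := abs_V_le hk4 ((T k)^[σ + j] y)
              have p1 : 0 < nn (fld k y (σ + j)) := by linarith
              have p2 : 0 < nn (fld k y (σ + (j + 1))) := by linarith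
              rw [mul_div_assoc', div_le_iff₀ (by positivity)]
              have q4 : nn (fld k y σ) * nn (fld k y c) ≤
                  (2 * nn (fld k y (σ + j))) * (2 * nn (fld k y (σ + (j + 1)))) :=
                mul_le_mul q1 q2 pc.le (by positivity)
              calc nn (fld k y σ) * nn (fld k y c) * (|V k ((T k)^[σ + j] y).2| + 2)
                  ≤ ((2 * nn (fld k y (σ + j))) * (2 * nn (fld k y (σ + (j + 1))))) * (8 * k) :=
                    mul_le_mul q4 q3 (by positivity) (by positivity)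
                _ = _ := by ring
          _ = 32 * k * m := by
              rw [Finset.sum_const, Nat.card_Ico, nsmul_eq_mul]
              simp only [Nat.sub_zero]
              ring
      have hm1' : (1:ℝ) ≤ m := by exact_mod_cast hm1
      nlinarith
    have hm0 : (0:ℝ) < m := by exact_mod_cast hm1
    have hpos : 0 < ‖Mn k m ((T k)^[σ] y)‖ := norm_pos' (det_Mn _ _ _)
    have h3 := Real.log_le_log hpos hbound
    rw [Real.log_mul (by positivity) hm0.ne', Real.log_mul (by norm_num) hk0.ne'] at h3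
    have h4 : Real.log 64 = 6 * Real.log 2 := by
      rw [show (64:ℝ) = 2 ^ 6 by norm_num, Real.log_pow]
      push_cast
      ring
    have h5 : Real.log m ≤ Real.log c := by
      apply Real.log_le_log hm0
      exact_mod_cast (by omega : m ≤ c)
    linarith
  · have hLn := h.hLn
    obtain ⟨i, hi1, hi2, hi3⟩ := h.vl.v3 (c - 1) (by omega) le_rfl
    have hi4 := h.max i (by omega)
    have hc1 : 1 ≤ c - 1 := by omega
    have hc1' : (0:ℝ) < ((c - 1 : ℕ) : ℝ) := by exact_mod_cast hc1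
    have h3 : Real.log (((c - 1 : ℕ) : ℝ) ^ 400) ≤ Real.log (2 * W) :=
      Real.log_le_log (by positivity) (by linarith)
    rw [Real.log_pow, Real.log_mul (by norm_num) hW0.ne'] at h3
    push_cast at h3
    have h4 : Real.log c ≤ Real.log (2 * ((c - 1 : ℕ) : ℝ)) := by
      apply Real.log_le_log (by exact_mod_cast (by omega : 0 < c))
      exact_mod_cast (by omega : c ≤ 2 * (c - 1))
    rw [Real.log_mul (by norm_num) hc1'.ne'] at h4
    linarith

/-- **geometry**: an event produces an extremum of the root contour -/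
theorem Ev.extremum {k : ℝ} (hk : (10:ℝ) ^ 3 ≤ k) {L M : ℕ} (hL : 3 ≤ L) {D : ℕ} (hD : 2000 ≤ D)
    {z : Tor} {s n c σ : ℕ} (h : Ev k L M (k ^ D) ((T k)^[s] z) n c σ) :
    (∃ t, Pk (fun j => bt (rr k z) j / Real.log k) (s + σ) (s + c) t ((D : ℝ) / 2000)) ∨
    (∃ t, Vl (fun j => bt (rr k z) j / Real.log k) (s + σ) (s + c) t ((D : ℝ) / 2000)) := by
  have hk4 : (4:ℝ) ≤ k := le_trans (by norm_num) hk
  have hk0 : (0:ℝ) < k := by linarith
  have hk1 : (1:ℝ) < k := by linarith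
  have hX1 : (1:ℝ) < k ^ D := one_lt_pow₀ hk1 (by omega)
  obtain ⟨l1, l2, l3⟩ := h.logs hk hL hX1
  have hκ : 0 < Real.log k := Real.log_pos hk1
  have hκ2 : 9 * Real.log 2 ≤ Real.log k := by
    have h1 : Real.log ((2:ℝ) ^ 9) ≤ Real.log k :=
      Real.log_le_log (by norm_num) (le_trans (by norm_num) hk)
    rw [Real.log_pow] at h1
    push_cast at h1
    exact h1
  have hl2 : 0 < Real.log 2 := Real.log_pos (by norm_num)
  have hlo : (D : ℝ) * Real.log k ≤ Real.log ‖fld k ((T k)^[s] z) n‖ := by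
    have := Real.log_le_log (by positivity) h.lo
    rwa [Real.log_pow] at this
  have hσn := h.hσ
  have hnc := h.hnc
  -- the three matrices
  have E1 : Mn k (s + n) z * (Mn k (s + σ) z)⁻¹ = Mn k (n - σ) ((T k)^[σ] ((T k)^[s] z)) := by
    have := transfer_eq k z (s + σ) (n - σ)
    rw [show s + σ + (n - σ) = s + n by omega] at this
    rw [this, add_comm s σ, Function.iterate_add_apply]
  have E2 : Mn k (s + c) z * (Mn k (s + σ) z)⁻¹ = Mn k (c - σ) ((T k)^[σ] ((T k)^[s] z)) := by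
    have := transfer_eq k z (s + σ) (c - σ)
    rw [show s + σ + (c - σ) = s + c by omega] at this
    rw [this, add_comm s σ, Function.iterate_add_apply]
  set W := Real.log ‖fld k ((T k)^[s] z) n‖ with hW
  set dab := Real.log ‖Mn k (n - σ) ((T k)^[σ] ((T k)^[s] z))‖ with hdab
  set dac := Real.log ‖Mn k (c - σ) ((T k)^[σ] ((T k)^[s] z))‖ with hdac
  have hdac0 : 0 ≤ dac := Real.log_nonneg (one_le_norm (det_Mn _ _ _))
  have hc0 : (0:ℝ) < c := by exact_mod_cast (by omega : 0 < c)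
  set x : ℝ := (D : ℝ) * Real.log k / 2000 with hx
  have hD' : (2000:ℝ) ≤ D := by exact_mod_cast hD
  have hDk : 2000 * Real.log k ≤ D * Real.log k := mul_le_mul_of_nonneg_right hD' hκ.le
  have hx0 : 0 < x := by
    rw [hx]
    have : 0 < (D:ℝ) * Real.log k := by nlinarith
    positivity
  have hosc := osc (f := bt (rr k z)) (a := s + σ) (b := s + n) (c := s + c) (x := x) (dab := dab)
    (dac := dac) (c0 := 7 * Real.log 2 + Real.log k + Real.log c) (c1 := 2 * Real.log 2) hx0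
    (by omega) (by omega) (by linarith)
    (by
      have := bt_diff k z (s + σ) (s + c)
      rw [E2] at this
      exact this)
    (by
      obtain ⟨u, hu, hum⟩ := (Finset.Icc (s + σ) (s + n)).exists_min_image (bt (rr k z))
        ⟨s + σ, by rw [Finset.mem_Icc]; omega⟩
      rw [Finset.mem_Icc] at hu
      have hum' : ∀ m, s + σ ≤ m → m ≤ s + n → bt (rr k z) u ≤ bt (rr k z) m := fun m h3 h4 =>
        hum m (Finset.mem_Icc.mpr ⟨h3, h4⟩)
      refine ⟨u, hu.1, hu.2, hum', ?_⟩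
      have h1 := trans_le hk4 z (a := s + σ) (b := s + n) (u := u) (by omega) hum'
      rw [E1] at h1
      have hpos : 0 < ‖Mn k (n - σ) ((T k)^[σ] ((T k)^[s] z))‖ := norm_pos' (det_Mn _ _ _)
      have h2 := Real.log_le_log hpos h1
      have e3 : s + n - (s + σ) = n - σ := by omega
      rw [e3] at h2
      have hns : (0:ℝ) < ((n - σ : ℕ) : ℝ) := by exact_mod_cast (by omega : 0 < n - σ)
      rw [Real.log_mul (by positivity) (Real.exp_pos _).ne', Real.log_exp,
        Real.log_mul (by positivity) hns.ne', Real.log_mul (by norm_num) hk0.ne'] at h2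
      have h4 : Real.log 128 = 7 * Real.log 2 := by
        rw [show (128:ℝ) = 2 ^ 7 by norm_num, Real.log_pow]
        push_cast
        ring
      have h5 : Real.log ((n - σ : ℕ) : ℝ) ≤ Real.log c := by
        apply Real.log_le_log hns
        exact_mod_cast (by omega : n - σ ≤ c)
      linarith)
    (by
      rw [hx]
      have hP : (D:ℝ) * Real.log k ≤ W := hlo
      have : 2000 * Real.log k ≤ (D:ℝ) * Real.log k := hDk
      linarith)
  have hxk : x / Real.log k = (D : ℝ) / 2000 := by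
    rw [hx]
    field_simp
  rcases hosc with ⟨t, ht⟩ | ⟨t, ht⟩
  · left
    refine ⟨t, ?_⟩
    obtain ⟨u, w, h1, h2, h3, h4, h5, h6, h7, h8⟩ := ht
    refine ⟨u, w, h1, h2, h3, h4, ?_, ?_, ?_, ?_⟩
    · rw [← hxk, ← add_div]
      exact div_le_div_of_nonneg_right h5 hκ.le
    · rw [← hxk, ← add_div]
      exact div_le_div_of_nonneg_right h6 hκ.le
    · intro m hm1 hm2
      exact div_le_div_of_nonneg_right (h7 m hm1 hm2) hκ.le
    · intro m hm1 hm2
      exact div_lt_div_of_pos_right (h8 m hm1 hm2) hκ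
  · right
    refine ⟨t, ?_⟩
    obtain ⟨u, w, h1, h2, h3, h4, h5, h6, h7, h8⟩ := ht
    refine ⟨u, w, h1, h2, h3, h4, ?_, ?_, ?_, ?_⟩
    · rw [← hxk, ← add_div]
      exact div_le_div_of_nonneg_right h5 hκ.le
    · rw [← hxk, ← add_div]
      exact div_le_div_of_nonneg_right h6 hκ.le
    · intro m hm1 hm2
      exact div_le_div_of_nonneg_right (h7 m hm1 hm2) hκ.le
    · intro m hm1 hm2
      exact div_lt_div_of_pos_right (h8 m hm1 hm2) hκ

/-- relaxed drawdown event of class `k ^ D` completed within `M` steps (`Skel.RD` for `L = 1000`) -/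
def Bev (k : ℝ) (L M D : ℕ) : Set Tor :=
  {z | ∃ n n', DDn k L M (k ^ D) z n n' ∧ RV k L z (n' - 1)}

open Classical in
/-- **V2, pointwise root form** -/
theorem count_events {k : ℝ} (hk : (10:ℝ) ^ 3 ≤ k) {L : ℕ} (hL : 3 ≤ L) (z : Tor) (N H : ℕ) :
    ∑ D ∈ Finset.Icc 2000 H, #{s ∈ range N | (T k)^[s] z ∈ Bev k L (N - s) D} ≤
      8000 * L * cross k N z := by
  have hk1 : (1:ℝ) < k := lt_of_lt_of_le (by norm_num) hk
  have hκ : 0 < Real.log k := Real.log_pos hk1
  set f : ℕ → ℝ := fun j => bt (rr k z) j / Real.log k with hf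
  have hf0 : ∀ n, 0 ≤ f n := fun n => div_nonneg (bt_nonneg (rr_pos k z) (rr_h4 k z) n) hκ.le
  have hcr : cross k N z = cr f N := rfl
  rw [hcr]
  set Q : Finset (ℕ × ℕ) := ((range N) ×ˢ (Finset.Icc 2000 H)).filter
    (fun p => (T k)^[p.1] z ∈ Bev k L (N - p.1) p.2) with hQ
  have hQc : ∑ D ∈ Finset.Icc 2000 H, #{s ∈ range N | (T k)^[s] z ∈ Bev k L (N - s) D} = #Q := by
    rw [hQ, Finset.card_filter, Finset.sum_product_right]
    apply Finset.sum_congr rfl
    intro D _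
    rw [Finset.card_filter]
  rw [hQc]
  set R1 : ℕ × ℕ → ℕ → Prop := fun p t => ∃ n c σ, Ev k L (N - p.1) (k ^ p.2) ((T k)^[p.1] z) n c σ ∧
    Pk f (p.1 + σ) (p.1 + c) t ((p.2 : ℝ) / 2000) with hR1
  set R2 : ℕ × ℕ → ℕ → Prop := fun p t => ∃ n c σ, Ev k L (N - p.1) (k ^ p.2) ((T k)^[p.1] z) n c σ ∧
    Vl f (p.1 + σ) (p.1 + c) t ((p.2 : ℝ) / 2000) with hR2
  have hsub : Q ⊆ (Q.filter (fun p => ∃ t, R1 p t)) ∪ (Q.filter (fun p => ∃ t, R2 p t)) := by
    intro p hp
    have hp' := hp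
    rw [hQ, Finset.mem_filter, Finset.mem_product, Finset.mem_range, Finset.mem_Icc] at hp'
    obtain ⟨⟨p1, p2, p3⟩, n, n', p4, p5⟩ := hp'
    have hX1 : (1:ℝ) < k ^ p.2 := one_lt_pow₀ hk1 (by omega)
    obtain ⟨n, c, σ, hE⟩ := ev_of hX1 p4 p5
    rcases hE.extremum hk hL p2 with ⟨t, ht⟩ | ⟨t, ht⟩
    · exact Finset.mem_union_left _ (Finset.mem_filter.mpr ⟨hp, t, n, c, σ, hE, ht⟩)
    · exact Finset.mem_union_right _ (Finset.mem_filter.mpr ⟨hp, t, n, c, σ, hE, ht⟩)
  -- general multiplicity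
  have mult : ∀ (Q' : Finset (ℕ × ℕ)) (τ : ℕ × ℕ → ℕ),
      (∀ p ∈ Q', ∃ n c σ, Ev k L (N - p.1) (k ^ p.2) ((T k)^[p.1] z) n c σ ∧ p.1 + σ < τ p ∧ τ p < p.1 + c) →
      ∀ t D, #{p ∈ Q' | τ p = t ∧ p.2 = D} ≤ L := by
    intro Q' τ hQ' t D
    rcases ({p ∈ Q' | τ p = t ∧ p.2 = D} : Finset (ℕ × ℕ)).eq_empty_or_nonempty with he | hne
    · rw [he]; simp
    · obtain ⟨p0, hp0, hmin⟩ := Finset.exists_min_image _ (fun p : ℕ × ℕ => p.1) hne
      have h1 : ({p ∈ Q' | τ p = t ∧ p.2 = D} : Finset (ℕ × ℕ)) ⊆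
          (Finset.Ico p0.1 (p0.1 + L)).image (fun s => (s, D)) := by
        intro q hq
        have hq' := hmin q hq
        rw [Finset.mem_filter] at hq hp0
        rw [Finset.mem_image]
        refine ⟨q.1, ?_, ?_⟩
        · rw [Finset.mem_Ico]
          refine ⟨hq', ?_⟩
          by_contra hc
          push Not at hc
          obtain ⟨n1, c1, σ1, e1, a1, a2⟩ := hQ' p0 hp0.1
          obtain ⟨n2, c2, σ2, e2, b1, b2⟩ := hQ' q hq.1
          rw [hp0.2.1] at a1 a2
          rw [hq.2.1] at b1 b2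
          rw [hp0.2.2] at e1
          rw [hq.2.2] at e2
          have e3 : (T k)^[q.1] z = (T k)^[q.1 - p0.1] ((T k)^[p0.1] z) := by
            rw [← Function.iterate_add_apply, Nat.sub_add_cancel hq']
          rw [e3] at e2
          exact Ev.overlap hk hL (by positivity) e1 e2 (by omega) (by omega)
        · rw [← hq.2.2]
      calc #{p ∈ Q' | τ p = t ∧ p.2 = D} ≤ _ := Finset.card_le_card h1
        _ ≤ #(Finset.Ico p0.1 (p0.1 + L)) := Finset.card_image_le
        _ = L := by simp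
  have hQN : ∀ p ∈ Q, p.1 ≤ N ∧ 2000 ≤ p.2 := by
    intro p hp
    rw [hQ, Finset.mem_filter, Finset.mem_product, Finset.mem_range, Finset.mem_Icc] at hp
    omega
  have b1 : #(Q.filter (fun p => ∃ t, R1 p t)) ≤ 2 * 2000 * L * cr f N := by
    have hch : ∀ p ∈ Q.filter (fun p => ∃ t, R1 p t), ∃ t, R1 p t := fun p hp =>
      (Finset.mem_filter.mp hp).2
    choose! τ hτ using hch
    apply count_pairs (τ := τ) (A := 2000) (by norm_num)
    · intro p hp
      exact (hQN p (Finset.mem_filter.mp hp).1).2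
    · apply mult
      intro p hp
      obtain ⟨n, c, σ, e, u, w, h1, h2, h3, h4, _⟩ := hτ p hp
      exact ⟨n, c, σ, e, by omega, by omega⟩
    · intro x hx
      have := sum_Pk (f := f) hf0 (N := N) (S := (Q.filter (fun p => ∃ t, R1 p t)).image τ)
        (x := fun t => (x t : ℝ) / 2000) (fun t _ => div_nonneg (Nat.cast_nonneg _) (by norm_num)) (by
          intro t ht
          obtain ⟨p, hp, hpt, hxt⟩ := hx t ht
          obtain ⟨n, c, σ, e, hpk⟩ := hτ p hp
          rw [hpt, ← hxt] at hpk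
          have h3 := (hQN p (Finset.mem_filter.mp hp).1).1
          exact hpk.mono (Nat.zero_le _) (by have := e.hcM; omega))
      refine le_trans (le_of_eq ?_) this
      apply Finset.sum_congr rfl
      intro t _
      rw [Nat.floor_div_ofNat, Nat.floor_natCast]
  have b2 : #(Q.filter (fun p => ∃ t, R2 p t)) ≤ 2 * 2000 * L * cr f N := by
    have hch : ∀ p ∈ Q.filter (fun p => ∃ t, R2 p t), ∃ t, R2 p t := fun p hp =>
      (Finset.mem_filter.mp hp).2
    choose! τ hτ using hch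
    apply count_pairs (τ := τ) (A := 2000) (by norm_num)
    · intro p hp
      exact (hQN p (Finset.mem_filter.mp hp).1).2
    · apply mult
      intro p hp
      obtain ⟨n, c, σ, e, u, w, h1, h2, h3, h4, _⟩ := hτ p hp
      exact ⟨n, c, σ, e, by omega, by omega⟩
    · intro x hx
      have := sum_Vl (f := f) hf0 (N := N) (S := (Q.filter (fun p => ∃ t, R2 p t)).image τ)
        (x := fun t => (x t : ℝ) / 2000) (fun t _ => div_nonneg (Nat.cast_nonneg _) (by norm_num)) (by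
          intro t ht
          obtain ⟨p, hp, hpt, hxt⟩ := hx t ht
          obtain ⟨n, c, σ, e, hpk⟩ := hτ p hp
          rw [hpt, ← hxt] at hpk
          have h3 := (hQN p (Finset.mem_filter.mp hp).1).1
          exact hpk.mono (Nat.zero_le _) (by have := e.hcM; omega))
      refine le_trans (le_of_eq ?_) this
      apply Finset.sum_congr rfl
      intro t _
      rw [Nat.floor_div_ofNat, Nat.floor_natCast]
  calc #Q ≤ _ := Finset.card_le_card hsub
    _ ≤ _ := Finset.card_union_le _ _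
    _ ≤ 2 * 2000 * L * cr f N + 2 * 2000 * L * cr f N := Nat.add_le_add b1 b2
    _ = 8000 * L * cr f N := by ring

open Classical in
/-- `Skel.V2` (with `D0 = 2000`, `C = 8000000`) -/
theorem v2_form {k : ℝ} (hk : (10:ℝ) ^ 3 ≤ k) (N J : ℕ) (z : Tor) :
    ∑ D ∈ range J, #{v ∈ range N | (T k)^[v] z ∈ Bev k 1000 (N - v) (2000 + D)} ≤
      8000000 * cross k N z := by
  have h := count_events hk (L := 1000) (by norm_num) z N (2000 + J)
  refine le_trans ?_ (h.trans (by norm_num))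
  have e : ∑ D ∈ range J, #{v ∈ range N | (T k)^[v] z ∈ Bev k 1000 (N - v) (2000 + D)} =
      ∑ D ∈ Finset.Ico 2000 (2000 + J), #{v ∈ range N | (T k)^[v] z ∈ Bev k 1000 (N - v) D} := by
    rw [Finset.sum_Ico_eq_sum_range]
    simp
  rw [e]
  apply Finset.sum_le_sum_of_subset
  intro D hD
  rw [Finset.mem_Ico] at hD
  rw [Finset.mem_Icc]
  omega

end Crest.Agent.R128.DDRoot
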