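import Crest.Agent.R128.LocA2
import Crest.Agent.R128.LocQB
import Mathlib
import Crest.Agent.R128.CellA2
import Crest.Agent.R128.Near
import Crest.Agent.R128.CellB
import Crest.Agent.R128.LocA0

-- ▼ part R128/LocA3
section

/-!
# LocA, `Loc.Cell3` at a good centre (row 128, helper595)
-/

set_option autoImplicit false

open MeasureTheory Metric Set
open Crest.Agent.R128 Crest.Agent.R128.Cell Crest.Agent.R128.CellB

namespace Crest.Agent.R128.LocA

/-- numerical sum over the digits of one side (`LocNum.side_sum`) -/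
def SideSum : Prop :=
  ∀ (k A ρ r0 R b σ : ℝ) (d v rr : ℕ → ℝ) (jS i : ℕ), 10 ^ 130 ≤ k → 1 ≤ A →
    10 ^ 60 * k ^ 2 * Real.sqrt k ≤ A ^ 5 → 0 < ρ → 0 < r0 → 1 ≤ R * ρ → 0 < R →
    b = d (jS + i) → b ≤ 4 * Real.sqrt k * R → 3 ≤ i → i ≤ 6 → jS + i ≤ 100 →
    (∀ j ≤ jS + i, 0 < d j) → (∀ j < jS + i, v j / 2 * d j ≤ d (j + 1)) →
    (∀ j ≤ jS, A ≤ v j) → (∀ j, jS < j → j < jS + i → k / 10 ^ 4 ≤ v j) →
    (∀ j < jS + i, rr j = min r0 (1 / 10 ^ 10 * v j / (k * d j))) →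
    10 ^ 9 * k * (d 0 * ρ) ≤ (d 0 * r0) ^ 3 → σ = 4 / R →
    2 * Real.pi * k * R ^ 2 *
      ∑ j ∈ Finset.range (jS + i), 20 / (d j * d (j + 1)) * (σ / rr j) ^ 3 ≤ 1 / 100

variable {k c : ℝ} {s : Bool} {n0 jS : ℕ} {r0 ρ δ A t₁ : ℝ}

/-- the new content of one side is quadratic -/
theorem SideOK.quad (hSS : SideSum) (N : NumB k A δ ρ) (S : SideOK k c s n0 jS r0 ρ δ A t₁)
    {i : ℕ} (hi3 : 3 ≤ i) (hi6 : i ≤ 6) {R : ℝ} (hR0 : 0 < R) (hR : 1 ≤ R * ρ)
    (hbR : R ≤ ‖Ds k c s (n0 + 1 + (jS + i)) t₁‖)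
    (hb : ‖Ds k c s (n0 + 1 + (jS + i)) t₁‖ ≤ 4 * Real.sqrt k * R) :
    ∃ q0 q1 q2 : ℝ, ∀ t ∈ ball (t₁ : ℂ) (4 / R),
      2 * Real.pi * k * R ^ 2 * ‖Loc.mu k c s (n0 + 1 + (jS + i)) t - Loc.mu k c s (n0 + 1) t -
        (q0 + q1 * (t - t₁) + q2 * (t - t₁) ^ 2)‖ ≤ 1 / 100 := by
  obtain ⟨c1, c2⟩ := S.chain' N
  have hk := N.k_large
  have hk0 : 0 < k := by linarith
  have hρ := N.ρ_pos
  set b := ‖Ds k c s (n0 + 1 + (jS + i)) t₁‖ with hbd
  have hb0 : 0 < b := (c1 (jS + i) (by omega)).2.1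
  have hbρ : 1 ≤ b * ρ := hR.trans (by gcongr)
  have hrad := S.rad_ge N (i := i) (by omega) hi6 hbρ
  rw [← hbd] at hrad
  set rr : ℕ → ℝ := fun j => rad k (Loc.Y k c s) (Ds k c s) n0 r0 t₁ (j + 1) with hrr
  -- radii are decreasing
  have hanti : ∀ m, ∀ j, j + m = jS + i → rad k (Loc.Y k c s) (Ds k c s) n0 r0 t₁ (jS + i) ≤
      rad k (Loc.Y k c s) (Ds k c s) n0 r0 t₁ j := by
    intro m
    induction m with
    | zero => intro j hj; have : j = jS + i := by omega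
              rw [this]
    | succ m ih =>
      intro j hj
      exact (ih (j + 1) (by omega)).trans (c2 j (by omega)).1
  have hsq : Real.sqrt k * Real.sqrt k = k := Real.mul_self_sqrt hk0.le
  have hsq0 : 0 < Real.sqrt k := Real.sqrt_pos.mpr hk0
  have hsqL : 10 ^ 60 ≤ Real.sqrt k := by
    rw [show (10 : ℝ) ^ 60 = Real.sqrt ((10 ^ 60) ^ 2) by
      rw [Real.sqrt_sq (by positivity)]]
    apply Real.sqrt_le_sqrt
    norm_num at hk ⊢
    linarith
  have h8 : 2 * (4 / R) ≤ k / (10 ^ 19 * b) := by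
    rw [mul_div_assoc', div_le_div_iff₀ hR0 (by positivity)]
    calc 2 * 4 * (10 ^ 19 * b) ≤ 2 * 4 * (10 ^ 19 * (4 * Real.sqrt k * R)) := by gcongr
      _ = (32 * 10 ^ 19) * (Real.sqrt k * R) := by ring
      _ ≤ Real.sqrt k * (Real.sqrt k * R) := by
          gcongr
          norm_num at hsqL ⊢
          linarith
      _ = k * R := by rw [← mul_assoc, hsq]
  have hq := LocQB.mu_quadratic k c s (t₁ := t₁) (σ := 4 / R) (by positivity) (n0 := n0)
    (J := jS + i) (r := rr) (fun j hj => by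
      have h1 := hanti (jS + i - (j + 1)) (j + 1) (by omega)
      have h2 := (c1 (j + 1) (by omega)).2.2
      exact ⟨(h8.trans hrad).trans h1, h2⟩) (fun j hj t ht => by
      have ha := (c1 j (by omega)).1
      have hb' := (c1 (j + 1) (by omega)).1
      have hm := (c2 j (by omega)).1
      have e1 : n0 + j + 1 = n0 + 1 + j := by omega
      have e2 : n0 + (j + 1) + 1 = n0 + 2 + j := by omega
      have h1 := ha.close t (ball_subset_ball hm ht)
      have h2 := hb'.close t ht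
      rw [e1] at h1
      rw [e2] at h2
      rw [norm_Ds_sub, norm_Ds] at h1 h2
      constructor
      · refine h1.trans ?_
        gcongr
        norm_num
      · refine h2.trans ?_
        gcongr
        norm_num) (fun j hj => by
      have := (c1 j (by omega)).2.1
      rw [norm_Ds] at this
      exact norm_pos_iff.mp this)
  obtain ⟨q0, q1, q2, hq⟩ := hq
  refine ⟨q0, q1, q2, fun t ht => ?_⟩
  have hsum := hSS k A ρ r0 R b (4 / R) (fun j => ‖Ds k c s (n0 + 1 + j) t₁‖)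
    (fun j => vv k (Loc.Y k c s) (n0 + 1 + j) t₁) rr jS i hk (by linarith [N.A_pos]) N.A5 hρ
    S.start.pos hR hR0 rfl hb hi3 hi6 (by have := S.len; omega)
    (fun j hj => (c1 j (by omega)).2.1) (fun j hj => by
      refine le_trans ?_ (c2 j (by omega)).2.1
      have hv := S.start.dig j (by omega)
      have hA := N.A_pos
      gcongr
      linarith) (fun j hj => S.start.dig j (by omega)) (fun j hj1 hj2 => by
      have := S.mac (j - jS) (by omega) (by omega)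
      have e : jS + (j - jS) = j := by omega
      rwa [e] at this) (fun j hj => rfl) (by simpa using S.old) rfl
  refine le_trans ?_ hsum
  have hq' := hq t ht
  refine mul_le_mul_of_nonneg_left (hq'.trans (le_of_eq ?_)) (by positivity)
  refine Finset.sum_congr rfl (fun j _ => ?_)
  have e : n0 + 2 + j = n0 + 1 + (j + 1) := by omega
  simp only [norm_Ds, e]

/-- the constant of the cells -/
noncomputable def CC : ℝ := 10 ^ 19

theorem D_eq_ofReal (k c : ℝ) (s : Bool) (n : ℕ) (x : ℝ) :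
    Loc.D k c s n (x : ℂ) = (((Loc.D k c s n (x : ℂ)).re : ℝ) : ℂ) := by
  apply Complex.ext
  · simp
  · simp [im_D]

set_option maxHeartbeats 1600000 in
/-- **`Cell3` at a good centre**, slow side `s` with index `i`, fast side `!s` with index `j` -/
theorem cell3 (hSS : SideSum) (N : NumB k A δ ρ) (hρ1 : ρ ≤ 1) {n0 jS : Bool → ℕ} {r0 : Bool → ℝ}
    (S : ∀ s, SideOK k c s (n0 s) (jS s) (r0 s) ρ δ A t₁) {ε : ℝ}
    (old : ∃ p0 p1 p2 : ℝ, ∀ z ∈ ball (t₁ : ℂ) (4 * ρ / k),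
      ‖Loc.cont k c true (n0 true + 1) (n0 false + 1) z -
        (p0 + p1 * (z - t₁) + p2 * (z - t₁) ^ 2)‖ ≤ ε)
    (hε : 10 ^ 3 * k ^ 17 * ε ≤ ρ ^ 2) (s : Bool) {i j : ℕ} (hi3 : 3 ≤ i) (hi6 : i ≤ 6) (hj3 : 3 ≤ j)
    (hj6 : j ≤ 6)
    (hab : ‖Ds k c s (n0 s + 1 + (jS s + i)) t₁‖ ≤ ‖Ds k c (!s) (n0 (!s) + 1 + (jS (!s) + j)) t₁‖)
    (hba : ‖Ds k c (!s) (n0 (!s) + 1 + (jS (!s) + j)) t₁‖ ≤
      4 * Real.sqrt k * ‖Ds k c s (n0 s + 1 + (jS s + i)) t₁‖)
    (hlo : k ≤ ‖Ds k c s (n0 s + 1 + (jS s + i)) t₁‖ * ρ)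
    (hhi : ‖Ds k c s (n0 s + 1 + (jS s + i)) t₁‖ * ρ ≤ k ^ 8) :
    ∃ lam q0 q1 q2 : ℝ, |lam| ≤ CC * Real.sqrt k ∧
      Loc.Cell3 k c s (n0 s + (jS s + i)) (n0 (!s) + (jS (!s) + j)) t₁
        ‖Ds k c s (n0 s + 1 + (jS s + i)) t₁‖ lam CC q0 q1 q2 := by
  have hk := N.k_large
  have hk0 : 0 < k := by linarith
  have hρ := N.ρ_pos
  have hsq : Real.sqrt k * Real.sqrt k = k := Real.mul_self_sqrt hk0.le
  have hsq0 : 0 < Real.sqrt k := Real.sqrt_pos.mpr hk0
  have hsqL : 10 ^ 60 ≤ Real.sqrt k := by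
    rw [show (10 : ℝ) ^ 60 = Real.sqrt ((10 ^ 60) ^ 2) by
      rw [Real.sqrt_sq (by positivity)]]
    apply Real.sqrt_le_sqrt
    norm_num at hk ⊢
    linarith
  set R := ‖Ds k c s (n0 s + 1 + (jS s + i)) t₁‖ with hRd
  set b := ‖Ds k c (!s) (n0 (!s) + 1 + (jS (!s) + j)) t₁‖ with hbd
  have hR0 : 0 < R := (((S s).chain' N).1 (jS s + i) (by omega)).2.1
  have hb0 : 0 < b := lt_of_lt_of_le hR0 hab
  have hRρ : 1 ≤ R * ρ := by linarith
  have hbρ : 1 ≤ b * ρ := hRρ.trans (by gcongr)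
  have hR1 : 1 ≤ R := by nlinarith
  -- the real numbers
  set x := (Loc.D k c s (n0 s + 1 + (jS s + i)) (t₁ : ℂ)).re with hx
  set y := (Loc.D k c (!s) (n0 (!s) + 1 + (jS (!s) + j)) (t₁ : ℂ)).re with hy
  have hxe : Loc.D k c s (n0 s + 1 + (jS s + i)) (t₁ : ℂ) = (x : ℂ) := D_eq_ofReal _ _ _ _ _
  have hye : Loc.D k c (!s) (n0 (!s) + 1 + (jS (!s) + j)) (t₁ : ℂ) = (y : ℂ) :=
    D_eq_ofReal _ _ _ _ _
  have hxR : |x| = R := by
    rw [hRd, norm_Ds, hxe, Complex.norm_real, Real.norm_eq_abs]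
  have hyb : |y| = b := by
    rw [hbd, norm_Ds, hye, Complex.norm_real, Real.norm_eq_abs]
  have h4R : 4 / R ≤ k / (10 ^ 19 * R) := by
    rw [div_le_div_iff₀ hR0 (by positivity)]
    have : 4 * 10 ^ 19 ≤ k := by norm_num at hk ⊢; linarith
    calc 4 * (10 ^ 19 * R) = (4 * 10 ^ 19) * R := by ring
      _ ≤ k * R := by gcongr
  have h4b : 4 / R ≤ k / (10 ^ 19 * b) := by
    rw [div_le_div_iff₀ hR0 (by positivity)]
    calc 4 * (10 ^ 19 * b) ≤ 4 * (10 ^ 19 * (4 * Real.sqrt k * R)) := by gcongr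
      _ = (16 * 10 ^ 19) * (Real.sqrt k * R) := by ring
      _ ≤ Real.sqrt k * (Real.sqrt k * R) := by
          gcongr
          norm_num at hsqL ⊢
          linarith
      _ = k * R := by rw [← mul_assoc, hsq]
  have ei : n0 s + (jS s + i) + 1 = n0 s + 1 + (jS s + i) := by omega
  have ej : n0 (!s) + (jS (!s) + j) + 1 = n0 (!s) + 1 + (jS (!s) + j) := by omega
  -- contents
  obtain ⟨a0, a1, a2, hqa⟩ := (S s).quad hSS N hi3 hi6 hR0 hRρ le_rfl (by
    rw [← hRd]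
    have : 1 * R ≤ 4 * Real.sqrt k * R := by gcongr; norm_num at hsqL ⊢; linarith
    linarith)
  obtain ⟨b0, b1, b2, hqb⟩ := (S (!s)).quad hSS N hj3 hj6 hR0 hRρ hab hba
  obtain ⟨p0, p1, p2, hp⟩ := old
  refine ⟨y / R, 2 * Real.pi * k * R ^ 2 * (p0 - a0 - b0), 2 * Real.pi * k * R * (p1 - a1 - b1),
    2 * Real.pi * k * (p2 - a2 - b2), ?_, ?_⟩
  · rw [abs_div, hyb, abs_of_pos hR0, div_le_iff₀ hR0]
    refine hba.trans ?_
    have : (4 : ℝ) ≤ CC := by unfold CC; norm_num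
    gcongr
  · refine ⟨hR1, ?_, ?_, ?_, ?_, ?_, ?_⟩
    · rw [abs_div, hyb, abs_of_pos hR0, one_le_div hR0]; exact hab
    · refine ⟨if 0 ≤ x then 1 else -1, ?_, fun z hz => ?_⟩
      · split_ifs
        · left; rfl
        · right; rfl
      · have hxs : (((if 0 ≤ x then 1 else -1 : ℝ)) * R : ℝ) = x := by
          split_ifs with h
          · rw [one_mul, ← hxR, abs_of_nonneg h]
          · rw [← hxR, abs_of_neg (not_le.mp h)]; ring
        rw [hxs, ei, ← hxe]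
        have hz' : ‖z - t₁‖ < 4 / R := by rw [← dist_eq_norm]; exact mem_ball.mp hz
        have h1 := ((S s).exit N (by omega) hi6 hRρ (lt_of_lt_of_le hz' h4R)).1
        rw [norm_Ds_sub, ← hRd] at h1
        refine h1.trans ?_
        calc 10 ^ 17 * R ^ 2 / k * ‖z - t₁‖ ≤ 10 ^ 17 * R ^ 2 / k * (4 / R) := by gcongr
          _ = 4 * 10 ^ 17 * R / k := by field_simp
          _ ≤ CC * R / k := by
              have : (4 * 10 ^ 17 : ℝ) ≤ CC := by unfold CC; norm_num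
              gcongr
    · intro z hz
      have hz' : ‖z - t₁‖ < 4 / R := by rw [← dist_eq_norm]; exact mem_ball.mp hz
      have h1 := ((S s).exit N (by omega) hi6 hRρ (lt_of_lt_of_le hz' h4R)).2
      rw [norm_Ds, ← hRd] at h1
      refine h1.trans ?_
      have : (10 ^ 5 : ℝ) ≤ CC := by unfold CC; norm_num
      gcongr
    · intro z hz
      have hz' : ‖z - t₁‖ < 4 / R := by rw [← dist_eq_norm]; exact mem_ball.mp hz
      have h1 := ((S (!s)).exit N (by omega) hj6 hbρ (lt_of_lt_of_le hz' h4b)).1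
      rw [norm_Ds_sub, ← hbd] at h1
      have hyl : ((y / R * R : ℝ)) = y := by field_simp
      rw [hyl, ej, ← hye]
      refine h1.trans ?_
      have hl : |y / R| ^ 2 = b ^ 2 / R ^ 2 := by rw [abs_div, hyb, abs_of_pos hR0, div_pow]
      rw [hl]
      calc 10 ^ 17 * b ^ 2 / k * ‖z - t₁‖ ≤ 10 ^ 17 * b ^ 2 / k * (4 / R) := by gcongr
        _ = 4 * 10 ^ 17 * (b ^ 2 / R ^ 2) * R / k := by field_simp
        _ ≤ CC * (b ^ 2 / R ^ 2) * R / k := by
            have : (4 * 10 ^ 17 : ℝ) ≤ CC := by unfold CC; norm_num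
            gcongr
    · intro z hz
      have hz' : ‖z - t₁‖ < 4 / R := by rw [← dist_eq_norm]; exact mem_ball.mp hz
      have h1 := ((S (!s)).exit N (by omega) hj6 hbρ (lt_of_lt_of_le hz' h4b)).2
      rw [norm_Ds, ← hbd] at h1
      have hl : |y / R| = b / R := by rw [abs_div, hyb, abs_of_pos hR0]
      rw [hl]
      refine h1.trans ?_
      have h2 : CC * (b / R) * R / k = CC * b / k := by field_simp
      rw [h2]
      have : (10 ^ 5 : ℝ) ≤ CC := by unfold CC; norm_num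
      gcongr
    · intro z hz
      have h1 := hqa z hz
      have h2 := hqb z hz
      have h3 := hp z (ball_subset_ball (by
        rw [div_le_div_iff₀ hR0 hk0]
        nlinarith) hz)
      rw [ei, ej]
      set W : ℝ := 2 * Real.pi * k * R ^ 2 with hW
      have hW0 : 0 ≤ W := by positivity
      have hWε : W * ε ≤ 1 / 100 := by
        have hε0 : 0 ≤ ε := le_trans (norm_nonneg _) h3
        have h5 : (R * ρ) ^ 2 ≤ (k ^ 8) ^ 2 := by gcongr
        have h6 : W * ε * ρ ^ 2 ≤ 2 * 3.15 * k ^ 17 * ε := by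
          calc W * ε * ρ ^ 2 = 2 * Real.pi * k * (R * ρ) ^ 2 * ε := by rw [hW]; ring
            _ ≤ 2 * 3.15 * k * (k ^ 8) ^ 2 * ε := by
                have := Real.pi_lt_d2
                gcongr
            _ = 2 * 3.15 * k ^ 17 * ε := by ring
        have h7 : W * ε * ρ ^ 2 ≤ 1 / 100 * ρ ^ 2 := by
          refine h6.trans ?_
          nlinarith
        exact le_of_mul_le_mul_right h7 (by positivity)
      have hcont : Loc.cont k c s (n0 s + 1) (n0 (!s) + 1) z =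
          Loc.cont k c true (n0 true + 1) (n0 false + 1) z := by
        cases s with
        | true => rfl
        | false =>
          simp only [Loc.cont, Bool.not_false, Bool.not_true]
          ring
      have hdec : (W : ℂ) * Loc.cont k c s (n0 s + 1 + (jS s + i))
          (n0 (!s) + 1 + (jS (!s) + j)) z -
          (((2 * Real.pi * k * R ^ 2 * (p0 - a0 - b0) : ℝ) : ℂ) +
            ((2 * Real.pi * k * R * (p1 - a1 - b1) : ℝ) : ℂ) * ((R : ℂ) * (z - t₁)) +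
            ((2 * Real.pi * k * (p2 - a2 - b2) : ℝ) : ℂ) * ((R : ℂ) * (z - t₁)) ^ 2) =
          (W : ℂ) * ((Loc.cont k c true (n0 true + 1) (n0 false + 1) z -
            (p0 + p1 * (z - t₁) + p2 * (z - t₁) ^ 2)) -
            (Loc.mu k c s (n0 s + 1 + (jS s + i)) z - Loc.mu k c s (n0 s + 1) z -
              (a0 + a1 * (z - t₁) + a2 * (z - t₁) ^ 2)) -
            (Loc.mu k c (!s) (n0 (!s) + 1 + (jS (!s) + j)) z - Loc.mu k c (!s) (n0 (!s) + 1) z -
              (b0 + b1 * (z - t₁) + b2 * (z - t₁) ^ 2))) := by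
        rw [← hcont, hW]
        simp only [Loc.cont]
        push_cast
        ring
      have hgoal : ‖(W : ℂ) * Loc.cont k c s (n0 s + 1 + (jS s + i))
          (n0 (!s) + 1 + (jS (!s) + j)) z -
          (((2 * Real.pi * k * R ^ 2 * (p0 - a0 - b0) : ℝ) : ℂ) +
            ((2 * Real.pi * k * R * (p1 - a1 - b1) : ℝ) : ℂ) * ((R : ℂ) * (z - t₁)) +
            ((2 * Real.pi * k * (p2 - a2 - b2) : ℝ) : ℂ) * ((R : ℂ) * (z - t₁)) ^ 2)‖ ≤ 1 / 16 := by
        rw [hdec, norm_mul, Complex.norm_real, Real.norm_eq_abs, abs_of_nonneg hW0]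
        refine le_trans (mul_le_mul_of_nonneg_left ((norm_sub_le _ _).trans
          (add_le_add (norm_sub_le _ _) le_rfl)) hW0) ?_
        have h8 : W * ‖Loc.cont k c true (n0 true + 1) (n0 false + 1) z -
            (p0 + p1 * (z - t₁) + p2 * (z - t₁) ^ 2)‖ ≤ 1 / 100 :=
          (mul_le_mul_of_nonneg_left h3 hW0).trans hWε
        rw [mul_add, mul_add]
        linarith
      exact hgoal

end Crest.Agent.R128.LocA
end

-- ▼ part R128/LocNum
section

/-!
Row 128 (helper466, interface by helper595), node LocA: the numerical sum of the cubic remainders of one side.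
-/

set_option autoImplicit false

namespace Crest.Agent.R128.LocNum

/-- up to `1000` digits -/
theorem side_sum' {k A ρ r0 R b σ : ℝ} {d v rr : ℕ → ℝ} {jS i : ℕ} (hk : 10 ^ 130 ≤ k) (hA0 : 1 ≤ A)
    (hA : 10 ^ 60 * k ^ 2 * Real.sqrt k ≤ A ^ 5) (hρ : 0 < ρ) (hr0 : 0 < r0) (hR : 1 ≤ R * ρ)
    (hR0 : 0 < R) (hb : b = d (jS + i)) (hRb : b ≤ 4 * Real.sqrt k * R) (hi : 3 ≤ i) (hi6 : i ≤ 6)
    (hJ : jS + i ≤ 1000) (hd : ∀ j ≤ jS + i, 0 < d j)
    (hg : ∀ j < jS + i, v j / 2 * d j ≤ d (j + 1)) (hv : ∀ j ≤ jS, A ≤ v j)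
    (hv' : ∀ j, jS < j → j < jS + i → k / 10 ^ 4 ≤ v j)
    (hrr : ∀ j < jS + i, rr j = min r0 (1 / 10 ^ 10 * v j / (k * d j)))
    (h0 : 10 ^ 9 * k * (d 0 * ρ) ≤ (d 0 * r0) ^ 3) (hσ : σ = 4 / R) :
    2 * Real.pi * k * R ^ 2 *
      ∑ j ∈ Finset.range (jS + i), 20 / (d j * d (j + 1)) * (σ / rr j) ^ 3 ≤ 1 / 100 := by
  have hk0 : (0 : ℝ) < k := lt_of_lt_of_le (by norm_num) hk
  have hk1 : (1 : ℝ) ≤ k := le_trans (by norm_num) hk
  set q := Real.sqrt k with hq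
  have hqq : q * q = k := Real.mul_self_sqrt hk0.le
  have hq0 : 0 < q := Real.sqrt_pos.mpr hk0
  have hq1 : (10 : ℝ) ^ 65 ≤ q := by
    rw [hq]
    apply Real.le_sqrt_of_sq_le
    calc ((10 : ℝ) ^ 65) ^ 2 = 10 ^ 130 := by norm_num
      _ ≤ k := hk
  -- `A ≥ 2`
  have hA2 : (2 : ℝ) ≤ A := by
    by_contra hcon
    push Not at hcon
    have h1 : A ^ 5 ≤ 2 ^ 5 := by gcongr
    have h2 : (1 : ℝ) ≤ k ^ 2 := one_le_pow₀ hk1
    have h3 : (1 : ℝ) ≤ q := le_trans (by norm_num) hq1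
    have h4 : (10 : ℝ) ^ 60 * 1 * 1 ≤ 10 ^ 60 * k ^ 2 * q := by gcongr
    have h5 : (10 : ℝ) ^ 60 * 1 * 1 ≤ 2 ^ 5 := h4.trans (hA.trans h1)
    norm_num at h5
  -- all digits are at least `2`
  have hv2 : ∀ j < jS + i, 2 ≤ v j := by
    intro j hj
    rcases Nat.lt_or_ge jS j with h | h
    · have h1 := hv' j h hj
      have h2 : (2 : ℝ) ≤ k / 10 ^ 4 := by
        rw [le_div_iff₀ (by norm_num)]
        exact le_trans (by norm_num) hk
      linarith
    · exact hA2.trans (hv j h)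
  have hstep : ∀ j < jS + i, d j ≤ d (j + 1) := by
    intro j hj
    have h1 := hg j hj
    have h2 := hv2 j hj
    have h3 := hd j hj.le
    nlinarith
  have hmono : ∀ a b' : ℕ, a ≤ b' → b' ≤ jS + i → d a ≤ d b' := by
    intro a b' hab
    induction b', hab using Nat.le_induction with
    | base => intro _; exact le_rfl
    | succ n hn ih => intro h; exact (ih (by omega)).trans (hstep n (by omega))
  have hbpos : 0 < b := by rw [hb]; exact hd _ le_rfl
  -- the last steps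
  have hlast : ∀ j ≤ jS, (k / (2 * 10 ^ 4)) ^ 2 * (v j / 2 * d j) ≤ b := by
    intro j hj
    have h1 := hg (jS + 1) (by omega)
    have h2 := hg (jS + 2) (by omega)
    have h3 : d (jS + 3) ≤ b := by rw [hb]; exact hmono _ _ (by omega) le_rfl
    have h4 : v j / 2 * d j ≤ d (jS + 1) :=
      (hg j (by omega)).trans (hmono (j + 1) (jS + 1) (by omega) (by omega))
    have h5 := hv' (jS + 1) (by omega) (by omega)
    have h6 := hv' (jS + 2) (by omega) (by omega)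
    have h7 : 0 ≤ v j / 2 * d j := by
      have h8 := hv2 j (by omega)
      have h9 := hd j (by omega)
      positivity
    have h10 : k / (2 * 10 ^ 4) * (v j / 2 * d j) ≤ d (jS + 2) := by
      calc k / (2 * 10 ^ 4) * (v j / 2 * d j) ≤ (v (jS + 1) / 2) * d (jS + 1) := by
            apply mul_le_mul _ h4 h7 (by linarith [hv2 (jS + 1) (by omega)])
            rw [div_le_div_iff₀ (by norm_num) (by norm_num)]
            rw [div_le_iff₀ (by norm_num)] at h5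
            linarith
        _ ≤ d (jS + 2) := h1
    calc (k / (2 * 10 ^ 4)) ^ 2 * (v j / 2 * d j)
        = k / (2 * 10 ^ 4) * (k / (2 * 10 ^ 4) * (v j / 2 * d j)) := by ring
      _ ≤ (v (jS + 2) / 2) * d (jS + 2) := by
            apply mul_le_mul _ h10 (by positivity) (by linarith [hv2 (jS + 2) (by omega)])
            rw [div_le_div_iff₀ (by norm_num) (by norm_num)]
            rw [div_le_iff₀ (by norm_num)] at h6
            linarith
      _ ≤ d (jS + 3) := h2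
      _ ≤ b := h3
  -- main inequality
  have hmain : ∀ j < jS + i, 0 < rr j ∧ 10 ^ 9 * k ≤ R * d j * d (j + 1) * rr j ^ 3 := by
    intro j hj
    have hdj := hd j hj.le
    have hdj1 := hd (j + 1) (by omega)
    have hvj := hv2 j hj
    have hvj0 : 0 < v j := by linarith
    have hX : 0 < 1 / 10 ^ 10 * v j / (k * d j) := by positivity
    rcases le_total r0 (1 / 10 ^ 10 * v j / (k * d j)) with hc | hc
    · have e : rr j = r0 := by rw [hrr j hj, min_eq_left hc]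
      rw [e]
      refine ⟨hr0, ?_⟩
      have hd0 := hd 0 (by omega)
      have h1 : d 0 ≤ d j := hmono 0 j (by omega) hj.le
      have h2 : d 0 ≤ d (j + 1) := hmono 0 (j + 1) (by omega) (by omega)
      have h3 : R * d 0 * d 0 * r0 ^ 3 ≤ R * d j * d (j + 1) * r0 ^ 3 := by gcongr
      refine le_trans ?_ h3
      -- `d0 * (R d0 d0 r0^3) = R (d0 r0)^3 ≥ R 10^9 k d0 ρ ≥ 10^9 k d0`
      have h4 : d 0 * (10 ^ 9 * k) ≤ d 0 * (R * d 0 * d 0 * r0 ^ 3) := by
        calc d 0 * (10 ^ 9 * k) = 10 ^ 9 * k * d 0 * 1 := by ring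
          _ ≤ 10 ^ 9 * k * d 0 * (R * ρ) := by
              apply mul_le_mul_of_nonneg_left hR; positivity
          _ = R * (10 ^ 9 * k * (d 0 * ρ)) := by ring
          _ ≤ R * (d 0 * r0) ^ 3 := mul_le_mul_of_nonneg_left h0 hR0.le
          _ = d 0 * (R * d 0 * d 0 * r0 ^ 3) := by ring
      exact le_of_mul_le_mul_left h4 hd0
    · have e : rr j = 1 / 10 ^ 10 * v j / (k * d j) := by rw [hrr j hj, min_eq_right hc]
      rw [e]
      refine ⟨hX, ?_⟩
      -- `b v^4 ≥ 8 * 10^38 k^4 q d_j`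
      have hkey : 8 * 10 ^ 39 * k ^ 4 * q * d j ≤ b * v j ^ 4 := by
        rcases Nat.lt_or_ge jS j with h | h
        · have h1 := hv' j h hj
          have h2 : v j / 2 * d j ≤ b :=
            (hg j hj).trans (by rw [hb]; exact hmono _ _ (by omega) le_rfl)
          have h3 : (k / 10 ^ 4) ^ 5 ≤ v j ^ 5 := by gcongr
          have h4 : 8 * 10 ^ 39 * k ^ 4 * q * 2 ≤ (k / 10 ^ 4) ^ 5 := by
            have h5 : (k / 10 ^ 4) ^ 5 = k ^ 4 * q * (q / 10 ^ 20) := by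
              rw [div_pow]
              rw [show k ^ 5 = k ^ 4 * (q * q) by rw [hqq]; ring]
              ring
            rw [h5]
            have h6 : 8 * 10 ^ 39 * 2 ≤ q / 10 ^ 20 := by
              rw [le_div_iff₀ (by norm_num)]
              exact le_trans (by norm_num) hq1
            calc 8 * 10 ^ 39 * k ^ 4 * q * 2 = k ^ 4 * q * (8 * 10 ^ 39 * 2) := by ring
              _ ≤ k ^ 4 * q * (q / 10 ^ 20) := by gcongr
          calc 8 * 10 ^ 39 * k ^ 4 * q * d j = (8 * 10 ^ 39 * k ^ 4 * q * 2) * (d j / 2) := by ring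
            _ ≤ v j ^ 5 * (d j / 2) := by
                apply mul_le_mul_of_nonneg_right (h4.trans h3); positivity
            _ = (v j / 2 * d j) * v j ^ 4 := by ring
            _ ≤ b * v j ^ 4 := by gcongr
        · have h1 := hv j h
          have h2 := hlast j h
          have h3 : A ^ 5 ≤ v j ^ 5 := by gcongr
          have h4 : 10 ^ 60 * k ^ 2 * q ≤ v j ^ 5 := hA.trans h3
          calc 8 * 10 ^ 39 * k ^ 4 * q * d j
              ≤ (k / (2 * 10 ^ 4)) ^ 2 * (10 ^ 60 * k ^ 2 * q / 2 * d j) := by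
                have h5 : (k / (2 * 10 ^ 4)) ^ 2 * (10 ^ 60 * k ^ 2 * q / 2 * d j) =
                  (10 ^ 60 / (8 * 10 ^ 8)) * (k ^ 4 * q * d j) := by
                  rw [div_pow]; ring
                rw [h5]
                have h6 : 0 ≤ k ^ 4 * q * d j := by positivity
                have h7 : (8 * 10 ^ 39 : ℝ) ≤ 10 ^ 60 / (8 * 10 ^ 8) := by norm_num
                calc 8 * 10 ^ 39 * k ^ 4 * q * d j = 8 * 10 ^ 39 * (k ^ 4 * q * d j) := by ring
                  _ ≤ _ := mul_le_mul_of_nonneg_right h7 h6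
            _ ≤ (k / (2 * 10 ^ 4)) ^ 2 * (v j ^ 5 / 2 * d j) := by gcongr
            _ = ((k / (2 * 10 ^ 4)) ^ 2 * (v j / 2 * d j)) * v j ^ 4 := by ring
            _ ≤ b * v j ^ 4 := by gcongr
      -- `R v^4 ≥ 2 * 10^38 k^4 d_j`
      have hkey2 : 2 * 10 ^ 39 * k ^ 4 * d j ≤ R * v j ^ 4 := by
        have h1 : b * v j ^ 4 ≤ 4 * q * R * v j ^ 4 := by gcongr
        have h2 : (4 * q) * (2 * 10 ^ 39 * k ^ 4 * d j) ≤ (4 * q) * (R * v j ^ 4) := by
          calc (4 * q) * (2 * 10 ^ 39 * k ^ 4 * d j) = 8 * 10 ^ 39 * k ^ 4 * q * d j := by ring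
            _ ≤ b * v j ^ 4 := hkey
            _ ≤ 4 * q * R * v j ^ 4 := h1
            _ = (4 * q) * (R * v j ^ 4) := by ring
        exact le_of_mul_le_mul_left h2 (by positivity)
      have h5 : R * d j * (v j / 2 * d j) * (1 / 10 ^ 10 * v j / (k * d j)) ^ 3 =
          R * v j ^ 4 / (2 * 10 ^ 30 * k ^ 3 * d j) := by
        field_simp
      calc 10 ^ 9 * k ≤ R * v j ^ 4 / (2 * 10 ^ 30 * k ^ 3 * d j) := by
            rw [le_div_iff₀ (by positivity)]
            calc 10 ^ 9 * k * (2 * 10 ^ 30 * k ^ 3 * d j) = 2 * 10 ^ 39 * k ^ 4 * d j := by ring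
              _ ≤ _ := hkey2
        _ = R * d j * (v j / 2 * d j) * (1 / 10 ^ 10 * v j / (k * d j)) ^ 3 := h5.symm
        _ ≤ R * d j * d (j + 1) * (1 / 10 ^ 10 * v j / (k * d j)) ^ 3 := by
            have := hg j hj
            gcongr
  -- each term
  have hterm : ∀ j ∈ Finset.range (jS + i),
      2 * Real.pi * k * R ^ 2 * (20 / (d j * d (j + 1)) * (σ / rr j) ^ 3) ≤ 1 / 10 ^ 5 := by
    intro j hj
    rw [Finset.mem_range] at hj
    obtain ⟨hX, hm⟩ := hmain j hj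
    have hdj := hd j hj.le
    have hdj1 := hd (j + 1) (by omega)
    have e : 2 * Real.pi * k * R ^ 2 * (20 / (d j * d (j + 1)) * (σ / rr j) ^ 3) =
        2560 * Real.pi * k / (R * d j * d (j + 1) * rr j ^ 3) := by
      rw [hσ]
      field_simp
      norm_num
    rw [e, div_le_div_iff₀ (by positivity) (by norm_num)]
    have hpi : Real.pi ≤ 3.15 := by linarith [Real.pi_lt_d2]
    calc 2560 * Real.pi * k * 10 ^ 5 ≤ 2560 * 3.15 * k * 10 ^ 5 := by gcongr
      _ ≤ 1 * (10 ^ 9 * k) := by nlinarith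
      _ ≤ 1 * (R * d j * d (j + 1) * rr j ^ 3) := by linarith
  rw [Finset.mul_sum]
  refine (Finset.sum_le_sum hterm).trans ?_
  rw [Finset.sum_const, Finset.card_range, nsmul_eq_mul]
  have h1 : ((jS + i : ℕ) : ℝ) ≤ 1000 := by exact_mod_cast hJ
  calc ((jS + i : ℕ) : ℝ) * (1 / 10 ^ 5) ≤ 1000 * (1 / 10 ^ 5) := by gcongr
    _ = 1 / 100 := by norm_num

theorem side_sum {k A ρ r0 R b σ : ℝ} {d v rr : ℕ → ℝ} {jS i : ℕ} (hk : 10 ^ 130 ≤ k) (hA0 : 1 ≤ A)
    (hA : 10 ^ 60 * k ^ 2 * Real.sqrt k ≤ A ^ 5) (hρ : 0 < ρ) (hr0 : 0 < r0) (hR : 1 ≤ R * ρ)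
    (hR0 : 0 < R) (hb : b = d (jS + i)) (hRb : b ≤ 4 * Real.sqrt k * R) (hi : 3 ≤ i) (hi6 : i ≤ 6)
    (hJ : jS + i ≤ 100) (hd : ∀ j ≤ jS + i, 0 < d j)
    (hg : ∀ j < jS + i, v j / 2 * d j ≤ d (j + 1)) (hv : ∀ j ≤ jS, A ≤ v j)
    (hv' : ∀ j, jS < j → j < jS + i → k / 10 ^ 4 ≤ v j)
    (hrr : ∀ j < jS + i, rr j = min r0 (1 / 10 ^ 10 * v j / (k * d j)))
    (h0 : 10 ^ 9 * k * (d 0 * ρ) ≤ (d 0 * r0) ^ 3) (hσ : σ = 4 / R) :
    2 * Real.pi * k * R ^ 2 *
      ∑ j ∈ Finset.range (jS + i), 20 / (d j * d (j + 1)) * (σ / rr j) ^ 3 ≤ 1 / 100 :=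
  side_sum' hk hA0 hA hρ hr0 hR hR0 hb hRb hi hi6 (by omega) hd hg hv hv' hrr h0 hσ

end Crest.Agent.R128.LocNum
end

-- ▼ part R128/FreshStep
section

/-!
# Fresh cells: from an exit curve of small size to full laps (row 128, label P1)

`RO k s Y D`: a family of real orbits `Y n t` with derivatives `D n t` on the interval `s`.
-/

set_option autoImplicit false

open Set MeasureTheory
open scoped NNReal ENNReal

namespace Crest.Agent.R128.Fresh

open Crest.Agent.R128.CellA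

/-- real digit -/
noncomputable def Vr (k x : ℝ) : ℝ := 2 + 2 * Real.pi * k * Real.cos (2 * Real.pi * x)

theorem Vr_add_one (k x : ℝ) : Vr k (x + 1) = Vr k x := by
  unfold Vr
  rw [show 2 * Real.pi * (x + 1) = 2 * Real.pi * x + 2 * Real.pi by ring, Real.cos_add_two_pi]

theorem abs_Vr_le {k : ℝ} (hk : 1 ≤ k) (x : ℝ) : |Vr k x| ≤ 10 * k := by
  unfold Vr
  have h1 := Real.abs_cos_le_one (2 * Real.pi * x)
  have h2 := Real.pi_lt_d2
  have h3 := Real.pi_pos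
  have h4 : |2 * Real.pi * k * Real.cos (2 * Real.pi * x)| ≤ 2 * Real.pi * k := by
    rw [abs_mul, abs_of_nonneg (by positivity : 0 ≤ 2 * Real.pi * k)]
    exact mul_le_of_le_one_right (by positivity) h1
  calc |2 + 2 * Real.pi * k * Real.cos (2 * Real.pi * x)|
      ≤ |(2 : ℝ)| + |2 * Real.pi * k * Real.cos (2 * Real.pi * x)| := abs_add_le _ _
    _ ≤ 2 + 2 * Real.pi * k := by rw [abs_of_pos (by norm_num : (0 : ℝ) < 2)]; linarith
    _ ≤ 10 * k := by nlinarith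

theorem abs_Vr_sub_le {k : ℝ} (hk : 0 ≤ k) (x y : ℝ) : |Vr k x - Vr k y| ≤ 40 * k * |x - y| := by
  unfold Vr
  have h2 := Real.pi_lt_d2
  have h3 := Real.pi_pos
  have e : 2 + 2 * Real.pi * k * Real.cos (2 * Real.pi * x) -
      (2 + 2 * Real.pi * k * Real.cos (2 * Real.pi * y)) =
      2 * Real.pi * k * (Real.cos (2 * Real.pi * x) - Real.cos (2 * Real.pi * y)) := by ring
  rw [e, abs_mul, abs_of_nonneg (by positivity : 0 ≤ 2 * Real.pi * k)]
  have h4 : |Real.cos (2 * Real.pi * x) - Real.cos (2 * Real.pi * y)| ≤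
      |2 * Real.pi * x - 2 * Real.pi * y| := Real.abs_cos_sub_cos_le _ _
  have h5 : |2 * Real.pi * x - 2 * Real.pi * y| = 2 * Real.pi * |x - y| := by
    rw [← mul_sub, abs_mul, abs_of_pos (by positivity : 0 < 2 * Real.pi)]
  rw [h5] at h4
  have h6 : Real.pi ^ 2 ≤ 10 := by nlinarith
  calc 2 * Real.pi * k * |Real.cos (2 * Real.pi * x) - Real.cos (2 * Real.pi * y)|
      ≤ 2 * Real.pi * k * (2 * Real.pi * |x - y|) := by gcongr
    _ = 4 * Real.pi ^ 2 * (k * |x - y|) := by ring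
    _ ≤ 4 * 10 * (k * |x - y|) := by gcongr
    _ = 40 * k * |x - y| := by ring

/-- near critical positions have small measure -/
theorem volume_Vr_small {k : ℝ} (hk : 1 ≤ k) {r : ℝ} (hr : 0 ≤ r) :
    volume ({x : ℝ | |Vr k x| ≤ r} ∩ Ico 0 1) ≤ ENNReal.ofReal (r / k) := by
  have h := volume_V_lin hk (s := 0) (by simpa using (by linarith : (0 : ℝ) ≤ k)) hr
  simp only [sub_zero] at h
  have hms : MeasurableSet {x : UnitAddCircle | |V k x| ≤ r} := by
    refine measurableSet_le ?_ measurable_const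
    have hcont : Continuous fun x : UnitAddCircle => V k x := by
      unfold V
      have : Continuous fun x : UnitAddCircle => (AddCircle.toCircle x : ℂ).re :=
        Complex.continuous_re.comp (continuous_subtype_val.comp AddCircle.continuous_toCircle)
      fun_prop
    exact hcont.abs.measurable
  have hmp := UnitAddCircle.measurePreserving_mk 0
  rw [zero_add] at hmp
  have h1 := hmp.measure_preimage hms.nullMeasurableSet
  rw [Measure.restrict_apply (hmp.measurable hms)] at h1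
  rw [← h1] at h
  have hsub : {x : ℝ | |Vr k x| ≤ r} ∩ Ico 0 1 ⊆
      (((fun x : ℝ => (x : UnitAddCircle)) ⁻¹' {x : UnitAddCircle | |V k x| ≤ r}) ∩ Ioc 0 1) ∪ {0} := by
    rintro x ⟨hx1, hx2⟩
    rcases eq_or_lt_of_le hx2.1 with h0 | h0
    · right; simp [← h0]
    · left
      refine ⟨?_, h0, hx2.2.le⟩
      simp only [mem_preimage, mem_ofPred_eq, V_coe]
      exact hx1
  calc volume ({x : ℝ | |Vr k x| ≤ r} ∩ Ico 0 1)
      ≤ volume ((((fun x : ℝ => (x : UnitAddCircle)) ⁻¹' {x : UnitAddCircle | |V k x| ≤ r}) ∩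
          Ioc 0 1) ∪ {0}) := measure_mono hsub
    _ ≤ volume (((fun x : ℝ => (x : UnitAddCircle)) ⁻¹' {x : UnitAddCircle | |V k x| ≤ r}) ∩
          Ioc 0 1) + volume {(0 : ℝ)} := measure_union_le _ _
    _ ≤ ENNReal.ofReal (r / k) := by
        rw [Real.volume_singleton, add_zero]; exact h

/-- a family of real orbits with derivatives -/
structure RO (k : ℝ) (s : Set ℝ) (Y D : ℕ → ℝ → ℝ) : Prop where
  deriv : ∀ n, ∀ t ∈ s, HasDerivWithinAt (Y n) (D n t) s t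
  step : ∀ n, ∀ t ∈ s, D (n + 2) t = Vr k (Y (n + 1) t) * D (n + 1) t - D n t

theorem RO.mono {k : ℝ} {s s' : Set ℝ} {Y D : ℕ → ℝ → ℝ} (h : RO k s Y D) (hs : s' ⊆ s) :
    RO k s' Y D :=
  ⟨fun n t ht => (h.deriv n t (hs ht)).mono hs, fun n t ht => h.step n t (hs ht)⟩

theorem _root_.Crest.Agent.R128.CellA.NearAff.mono {φ φ' : ℝ → ℝ} {s s' : Set ℝ} {lam η : ℝ}
    (h : NearAff φ φ' s lam η) (hs : s' ⊆ s) : NearAff φ φ' s' lam η :=
  ⟨fun t ht => (h.deriv t (hs ht)).mono hs, fun t ht => h.close t (hs ht)⟩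

/-- One regular step. -/
theorem step {k : ℝ} {s : Set ℝ} {Y D : ℕ → ℝ → ℝ} (h : RO k s Y D) {t₀ : ℝ} (ht₀ : t₀ ∈ s)
    {n : ℕ} {η ζ A : ℝ} (hNA : NearAff (Y (n + 1)) (D (n + 1)) s (D (n + 1) t₀) η) (hη0 : 0 ≤ η)
    (hη : η ≤ 1) (hσ : ∀ t ∈ s, |D n t| ≤ |D (n + 1) t₀|) (hA20 : 22 ≤ A)
    (hA : A ≤ |Vr k (Y (n + 1) t₀)|)
    (hζ : ∀ t ∈ s, |Vr k (Y (n + 1) t) - Vr k (Y (n + 1) t₀)| ≤ ζ * |Vr k (Y (n + 1) t₀)|) :
    NearAff (Y (n + 2)) (D (n + 2)) s (D (n + 2) t₀) (1.1 * (η + 2 * ζ + 2 / A)) ∧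
      (∀ t ∈ s, |D (n + 1) t| ≤ 4 / A * |D (n + 2) t₀|) ∧
      A / 2 * |D (n + 1) t₀| ≤ |D (n + 2) t₀| := by
  set a := |Vr k (Y (n + 1) t₀)| with ha
  set d := |D (n + 1) t₀| with hd
  have hd0 : 0 ≤ d := abs_nonneg _
  have ha0 : 0 < a := by linarith
  have hζ0 : 0 ≤ ζ := by
    have := hζ t₀ ht₀
    rw [sub_self, abs_zero] at this
    by_contra hcon
    push Not at hcon
    have := mul_neg_of_neg_of_pos hcon ha0
    linarith
  have hlow : (a - 1) * d ≤ |D (n + 2) t₀| := by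
    rw [h.step n t₀ ht₀]
    have h1 : |Vr k (Y (n + 1) t₀) * D (n + 1) t₀| = a * d := abs_mul _ _
    have h2 := abs_sub_abs_le_abs_sub (Vr k (Y (n + 1) t₀) * D (n + 1) t₀) (D n t₀)
    have h3 := hσ t₀ ht₀
    rw [h1] at h2
    linarith
  have hup : ∀ t ∈ s, |D (n + 1) t| ≤ 2 * d := by
    intro t ht
    have h1 := hNA.close t ht
    have h2 : |D (n + 1) t| ≤ |D (n + 1) t - D (n + 1) t₀| + |D (n + 1) t₀| := by
      have : D (n + 1) t = (D (n + 1) t - D (n + 1) t₀) + D (n + 1) t₀ := by ring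
      calc |D (n + 1) t| = |(D (n + 1) t - D (n + 1) t₀) + D (n + 1) t₀| := by rw [← this]
        _ ≤ _ := abs_add_le _ _
    have h3 : η * d ≤ 1 * d := by gcongr
    linarith
  refine ⟨⟨fun t ht => h.deriv _ t ht, ?_⟩, ?_, ?_⟩
  · intro t ht
    have e : D (n + 2) t - D (n + 2) t₀ =
        (Vr k (Y (n + 1) t) - Vr k (Y (n + 1) t₀)) * D (n + 1) t +
        Vr k (Y (n + 1) t₀) * (D (n + 1) t - D (n + 1) t₀) + (-(D n t) + D n t₀) := by
      rw [h.step n t ht, h.step n t₀ ht₀]; ring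
    have h1 : |(Vr k (Y (n + 1) t) - Vr k (Y (n + 1) t₀)) * D (n + 1) t| ≤ ζ * a * (2 * d) := by
      rw [abs_mul]
      exact mul_le_mul (hζ t ht) (hup t ht) (abs_nonneg _) (by positivity)
    have h2 : |Vr k (Y (n + 1) t₀) * (D (n + 1) t - D (n + 1) t₀)| ≤ a * (η * d) := by
      rw [abs_mul]
      exact mul_le_mul_of_nonneg_left (hNA.close t ht) (abs_nonneg _)
    have h3 : |-(D n t) + D n t₀| ≤ 2 * d := by
      refine (abs_add_le _ _).trans ?_
      rw [abs_neg]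
      linarith [hσ t ht, hσ t₀ ht₀]
    have h4 : |D (n + 2) t - D (n + 2) t₀| ≤ ζ * a * (2 * d) + a * (η * d) + 2 * d := by
      rw [e]
      refine (abs_add_le _ _).trans (add_le_add ((abs_add_le _ _).trans (add_le_add h1 h2)) h3)
    refine h4.trans ?_
    have h5 : ζ * a * (2 * d) + a * (η * d) + 2 * d ≤ (η + 2 * ζ + 2 / A) * (a * d) := by
      have : 2 * d ≤ 2 / A * (a * d) := by
        rw [div_mul_eq_mul_div, le_div_iff₀ (by linarith)]
        nlinarith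
      nlinarith
    refine h5.trans ?_
    have h6 : a * d ≤ 1.1 * ((a - 1) * d) := by nlinarith
    have h7 : 0 ≤ η + 2 * ζ + 2 / A := by positivity
    have h8 : a * d ≤ 1.1 * |D (n + 2) t₀| := by linarith
    calc (η + 2 * ζ + 2 / A) * (a * d) ≤ (η + 2 * ζ + 2 / A) * (1.1 * |D (n + 2) t₀|) :=
          mul_le_mul_of_nonneg_left h8 h7
      _ = 1.1 * (η + 2 * ζ + 2 / A) * |D (n + 2) t₀| := by ring
  · intro t ht
    refine (hup t ht).trans ?_
    rw [div_mul_eq_mul_div, le_div_iff₀ (by linarith)]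
    have : A / 2 * d ≤ |D (n + 2) t₀| := by nlinarith
    nlinarith
  · nlinarith

theorem _root_.Crest.Agent.R128.CellA.NearAff.weaken {φ φ' : ℝ → ℝ} {s : Set ℝ} {lam η η' : ℝ}
    (h : NearAff φ φ' s lam η) (hη : η ≤ η') : NearAff φ φ' s lam η' :=
  ⟨h.deriv, fun t ht => (h.close t ht).trans (by gcongr)⟩

theorem _root_.Crest.Agent.R128.CellA.NearAff.abs_le {φ φ' : ℝ → ℝ} {s : Set ℝ} {lam η : ℝ}
    (h : NearAff φ φ' s lam η) {t : ℝ} (ht : t ∈ s) : |φ' t| ≤ (1 + η) * |lam| := by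
  have h1 := h.close t ht
  have h2 : |φ' t| ≤ |φ' t - lam| + |lam| := by
    calc |φ' t| = |(φ' t - lam) + lam| := by ring_nf
      _ ≤ _ := abs_add_le _ _
  linarith

theorem _root_.Crest.Agent.R128.CellA.NearAff.le_abs {φ φ' : ℝ → ℝ} {s : Set ℝ} {lam η : ℝ}
    (h : NearAff φ φ' s lam η) {t : ℝ} (ht : t ∈ s) : (1 - η) * |lam| ≤ |φ' t| := by
  have h1 := h.close t ht
  have h2 : |lam| ≤ |φ' t| + |φ' t - lam| := by
    calc |lam| = |φ' t - (φ' t - lam)| := by ring_nf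
      _ ≤ _ := abs_sub _ _
  linarith



/-- the unit curves used by LAM0 -/
def UnitCurve (κ : ℝ≥0) (g : ℝ → ℝ) (a : ℝ) : Prop := LipschitzOnWith κ g (Icc a (a + 1))

end Crest.Agent.R128.Fresh
end

-- ▼ part R128/FreshLap
section

/-!
# Transfer of estimates on unit curves to fresh cells (row 128, label P1)
-/

set_option autoImplicit false

open Set MeasureTheory
open scoped NNReal ENNReal

namespace Crest.Agent.R128.Fresh

open Crest.Agent.R128.CellA

/-- Measure of the image of a subset. -/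
theorem _root_.Crest.Agent.R128.CellA.NearAff.measure_le_image {φ φ' : ℝ → ℝ} {s : Set ℝ}
    {lam η : ℝ} (hs : Convex ℝ s) (h : NearAff φ φ' s lam η) (hl : lam ≠ 0) (hη : η < 1)
    {T : Set ℝ} (hT : MeasurableSet T) (hTs : T ⊆ s) :
    ENNReal.ofReal ((1 - η) * |lam|) * volume T ≤ volume (φ '' T) := by
  have hinj := (h.injOn hs hl hη).mono hTs
  have key := lintegral_image_eq_lintegral_abs_deriv_mul hT
    (fun x hx => (h.deriv x (hTs hx)).mono hTs) hinj (fun _ => 1)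
  simp only [mul_one, lintegral_const, one_mul, Measure.restrict_apply MeasurableSet.univ,
    univ_inter] at key
  rw [key]
  calc ENNReal.ofReal ((1 - η) * |lam|) * volume T
      = ∫⁻ x in T, ENNReal.ofReal ((1 - η) * |lam|) := by rw [setLIntegral_const]
    _ ≤ ∫⁻ x in T, ENNReal.ofReal |φ' x| := by
        refine setLIntegral_mono' hT ?_
        intro x hx
        exact ENNReal.ofReal_le_ofReal (h.le_abs (hTs hx))

/-- Estimate on every unit curve. -/
def UCBound (κ : ℝ≥0) (E : Set (ℝ × ℝ)) (ε : ℝ) : Prop :=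
  ∀ (g : ℝ → ℝ) (a : ℝ), UnitCurve κ g a →
    volume {x | x ∈ Icc a (a + 1) ∧ (g x, x) ∈ E} ≤ ENNReal.ofReal ε

/-- Transfer on one nearly affine piece. -/
theorem piece_transfer {φ φ' ψ : ℝ → ℝ} {a b lam η κ ε : ℝ} (hab : a ≤ b)
    (h : NearAff φ φ' (Icc a b) lam η) (hl : lam ≠ 0) (hη : η ≤ 1 / 4)
    (hκ : 0 ≤ κ) (hψ : ∀ t ∈ Icc a b, ∀ u ∈ Icc a b, |ψ t - ψ u| ≤ κ * |lam| * |t - u|)
    {E : Set (ℝ × ℝ)} (hE : MeasurableSet E) (hε : 0 ≤ ε)
    (hUC : UCBound (Real.toNNReal (2 * κ)) E ε) :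
    volume {t | t ∈ Icc a b ∧ (ψ t, φ t) ∈ E} ≤
      ENNReal.ofReal (2 * ε * (b - a) + 2 / |lam|) := by
  classical
  have hlp : 0 < |lam| := abs_pos.2 hl
  have hcontφ : ContinuousOn φ (Icc a b) := fun x hx => (h.deriv x hx).continuousWithinAt
  have hLipψ : LipschitzOnWith (Real.toNNReal (κ * |lam|)) ψ (Icc a b) := by
    refine LipschitzOnWith.of_dist_le_mul ?_
    intro x hx y hy
    rw [Real.coe_toNNReal _ (by positivity), Real.dist_eq, Real.dist_eq]
    exact hψ x hx y hy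
  have hcontψ : ContinuousOn ψ (Icc a b) := hLipψ.continuousOn
  set T : Set ℝ := {t | t ∈ Icc a b ∧ (ψ t, φ t) ∈ E} with hTdef
  have hTs : T ⊆ Icc a b := fun t ht => ht.1
  have hTm : MeasurableSet T := by
    have h1 : ContinuousOn (fun t => (ψ t, φ t)) (Icc a b) := hcontψ.prodMk hcontφ
    have h2 := (continuousOn_iff_continuous_domRestrict.1 h1).measurable hE
    have h3 := MeasurableSet.subtype_image measurableSet_Icc h2
    rwa [show Subtype.val '' ((Icc a b).domRestrict (fun t => (ψ t, φ t)) ⁻¹' E) = T by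
      ext x; simp [hTdef, and_comm]] at h3
  have hinj := h.injOn (convex_Icc a b) hl (by linarith : η < 1)
  have himg := h.image_Icc hab hl (by linarith : η < 1)
  -- inverse function
  set α := min (φ a) (φ b) with hα
  set L := |φ b - φ a| with hL
  have huIcc : uIcc (φ a) (φ b) = Icc α (α + L) := by
    rw [uIcc]
    congr 1
    rcases le_total (φ a) (φ b) with h' | h'
    · rw [hα, hL, max_eq_right h', min_eq_left h', abs_of_nonneg (by linarith)]; ring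
    · rw [hα, hL, max_eq_left h', min_eq_right h', abs_of_nonpos (by linarith)]; ring
  rw [huIcc] at himg
  set g : ℝ → ℝ := fun x => ψ (Function.invFunOn φ (Icc a b) x) with hg
  have hginv : ∀ x ∈ Icc α (α + L), Function.invFunOn φ (Icc a b) x ∈ Icc a b ∧
      φ (Function.invFunOn φ (Icc a b) x) = x := by
    intro x hx
    rw [← himg] at hx
    obtain ⟨t, ht, rfl⟩ := hx
    exact ⟨Function.invFunOn_mem ⟨t, ht, rfl⟩, Function.invFunOn_eq ⟨t, ht, rfl⟩⟩
  have hgφ : ∀ t ∈ Icc a b, g (φ t) = ψ t := by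
    intro t ht
    have h1 := hginv (φ t) (by rw [← himg]; exact ⟨t, ht, rfl⟩)
    have h2 : Function.invFunOn φ (Icc a b) (φ t) = t := hinj h1.1 ht h1.2
    simp only [hg, h2]
  have hgLip : ∀ c, Icc c (c + 1) ⊆ Icc α (α + L) → UnitCurve (Real.toNNReal (2 * κ)) g c := by
    intro c hc
    refine LipschitzOnWith.of_dist_le_mul ?_
    intro x hx y hy
    rw [Real.coe_toNNReal _ (by positivity), Real.dist_eq, Real.dist_eq]
    obtain ⟨h1, h2⟩ := hginv x (hc hx)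
    obtain ⟨h3, h4⟩ := hginv y (hc hy)
    have h5 := h.le_dist (convex_Icc a b) h3 h1
    rw [h2, h4] at h5
    have h6 := hψ _ h1 _ h3
    simp only [hg]
    refine h6.trans ?_
    have h7 : |lam| * |Function.invFunOn φ (Icc a b) x - Function.invFunOn φ (Icc a b) y| ≤
        2 * |x - y| := by
      have : (1 / 2 : ℝ) * (|lam| * |Function.invFunOn φ (Icc a b) x -
          Function.invFunOn φ (Icc a b) y|) ≤ |x - y| := by
        refine le_trans ?_ h5
        rw [mul_assoc]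
        gcongr
        linarith
      linarith
    calc κ * |lam| * |Function.invFunOn φ (Icc a b) x - Function.invFunOn φ (Icc a b) y|
        = κ * (|lam| * |Function.invFunOn φ (Icc a b) x - Function.invFunOn φ (Icc a b) y|) := by
          ring
      _ ≤ κ * (2 * |x - y|) := by gcongr
      _ = 2 * κ * |x - y| := by ring
  -- the image of `T`
  have hL0 : 0 ≤ L := abs_nonneg _
  set N : ℕ := ⌊L⌋₊ with hN
  have hN1 : (N : ℝ) ≤ L := Nat.floor_le hL0
  have hN2 : L < N + 1 := Nat.lt_floor_add_one L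
  have himT : φ '' T ⊆ (⋃ j ∈ Finset.range N, {x | x ∈ Icc (α + j) (α + j + 1) ∧ (g x, x) ∈ E}) ∪
      Icc (α + N) (α + N + 1) := by
    rintro _ ⟨t, ht, rfl⟩
    have h1 : φ t ∈ Icc α (α + L) := by rw [← himg]; exact ⟨t, ht.1, rfl⟩
    have h2 : (g (φ t), φ t) ∈ E := by rw [hgφ t ht.1]; exact ht.2
    by_cases h3 : φ t < α + N
    · left
      simp only [mem_iUnion, Finset.mem_range, exists_prop]
      have h4 : 0 ≤ φ t - α := by linarith [h1.1]
      refine ⟨⌊φ t - α⌋₊, ?_, ⟨?_, ?_⟩, h2⟩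
      · have : (⌊φ t - α⌋₊ : ℝ) < N := by
          have := Nat.floor_le h4
          linarith
        exact_mod_cast this
      · linarith [Nat.floor_le h4]
      · linarith [Nat.lt_floor_add_one (φ t - α)]
    · right
      push Not at h3
      exact ⟨h3, by linarith [h1.2]⟩
  have hvolim : volume (φ '' T) ≤ ENNReal.ofReal (L * ε + 1) := by
    calc volume (φ '' T)
        ≤ volume ((⋃ j ∈ Finset.range N, {x | x ∈ Icc (α + j) (α + j + 1) ∧ (g x, x) ∈ E}) ∪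
          Icc (α + N) (α + N + 1)) := measure_mono himT
      _ ≤ volume (⋃ j ∈ Finset.range N, {x | x ∈ Icc (α + j) (α + j + 1) ∧ (g x, x) ∈ E}) +
          volume (Icc (α + N) (α + N + 1)) := measure_union_le _ _
      _ ≤ ∑ j ∈ Finset.range N, volume {x | x ∈ Icc (α + j) (α + j + 1) ∧ (g x, x) ∈ E} +
          ENNReal.ofReal 1 := by
          refine add_le_add (measure_biUnion_finset_le _ _) ?_
          rw [Real.volume_Icc]
          exact ENNReal.ofReal_le_ofReal (by linarith)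
      _ ≤ ∑ j ∈ Finset.range N, ENNReal.ofReal ε + ENNReal.ofReal 1 := by
          refine add_le_add (Finset.sum_le_sum ?_) le_rfl
          intro j hj
          refine hUC g (α + j) (hgLip _ ?_)
          have hj' : (j : ℝ) + 1 ≤ N := by exact_mod_cast Finset.mem_range.1 hj
          intro x hx
          exact ⟨by linarith [hx.1, (Nat.cast_nonneg j : (0 : ℝ) ≤ j)], by linarith [hx.2]⟩
      _ = ENNReal.ofReal (N * ε + 1) := by
          rw [Finset.sum_const, Finset.card_range, nsmul_eq_mul,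
            ENNReal.ofReal_add (by positivity) zero_le_one, ENNReal.ofReal_mul (by positivity),
            ENNReal.ofReal_natCast]
      _ ≤ ENNReal.ofReal (L * ε + 1) := ENNReal.ofReal_le_ofReal (by nlinarith)
  have hmain := (h.measure_le_image (convex_Icc a b) hl (by linarith : η < 1) hTm hTs).trans hvolim
  have hLle : L ≤ (1 + η) * |lam| * (b - a) := by
    have := h.dist_le (convex_Icc a b) (left_mem_Icc.2 hab) (right_mem_Icc.2 hab)
    rwa [abs_of_nonneg (sub_nonneg.2 hab)] at this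
  have hc : 0 < (1 - η) * |lam| := mul_pos (by linarith) hlp
  have hc' : ENNReal.ofReal ((1 - η) * |lam|) ≠ 0 := by simpa using hc
  have h2 : volume T ≤ ENNReal.ofReal (L * ε + 1) / ENNReal.ofReal ((1 - η) * |lam|) := by
    rw [ENNReal.le_div_iff_mul_le (Or.inl hc') (Or.inl ENNReal.ofReal_ne_top), mul_comm]
    exact hmain
  refine h2.trans ?_
  rw [← ENNReal.ofReal_div_of_pos hc]
  refine ENNReal.ofReal_le_ofReal ?_
  rw [div_le_iff₀ hc]
  have hba : 0 ≤ b - a := sub_nonneg.2 hab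
  have h3 : L * ε ≤ 5 / 4 * |lam| * (b - a) * ε := by
    have : (1 + η) * |lam| * (b - a) ≤ 5 / 4 * |lam| * (b - a) := by gcongr; linarith
    exact mul_le_mul_of_nonneg_right (hLle.trans this) hε
  have h4 : (2 * ε * (b - a) + 2 / |lam|) * (3 / 4 * |lam|) ≤
      (2 * ε * (b - a) + 2 / |lam|) * ((1 - η) * |lam|) := by
    gcongr
    linarith
  have h5 : (2 * ε * (b - a) + 2 / |lam|) * (3 / 4 * |lam|) =
      3 / 2 * (|lam| * (b - a) * ε) + 3 / 2 := by field_simp; ring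
  have h6 : 0 ≤ |lam| * (b - a) * ε := by positivity
  nlinarith

set_option maxHeartbeats 1600000 in
/-- **Lap transfer**: a nearly affine curve of length `≥ δ`, one step later. -/
theorem lap_transfer {k : ℝ} (hk : 1 ≤ k) {t₀ r : ℝ} (hr : 0 < r) {Y D : ℕ → ℝ → ℝ}
    (h : RO k (Icc (t₀ - r) (t₀ + r)) Y D) {M : ℕ} {η₁ δ w A : ℝ} (hη₁ : 0 ≤ η₁) (hη₁' : η₁ ≤ 1 / 20)
    (hδ : 0 < δ) (hw : 0 < w) (hwδ : w ≤ δ) (hδ1 : δ ≤ 1) (hA40 : 80 ≤ A) (hζ : 44 * k * w ≤ A / 40)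
    (hNA : NearAff (Y (M + 1)) (D (M + 1)) (Icc (t₀ - r) (t₀ + r)) (D (M + 1) t₀) η₁)
    (hσ : ∀ t ∈ Icc (t₀ - r) (t₀ + r), |D M t| ≤ 1 / 4 * |D (M + 1) t₀|)
    (hsize : δ ≤ |D (M + 1) t₀| * r)
    {E : Set (ℝ × ℝ)} (hE : MeasurableSet E) {ε : ℝ} (hε : 0 ≤ ε)
    (hUC : UCBound (Real.toNNReal (2 * (5 / A))) E ε) :
    volume {t | t ∈ Icc (t₀ - r) (t₀ + r) ∧ (Y (M + 1) t, Y (M + 2) t) ∈ E} ≤
      ENNReal.ofReal (2 * r * (2 * ε + 16 / (A * w) + 8 * A / (k * δ))) := by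
  classical
  have hA0 : 0 < A := by linarith
  have hk0 : 0 < k := by linarith
  set s := Icc (t₀ - r) (t₀ + r) with hs
  have ht₀ : t₀ ∈ s := ⟨by linarith, by linarith⟩
  set lam := |D (M + 1) t₀| with hlam
  have hlam0 : 0 < lam := by
    by_contra hcon
    push Not at hcon
    have : lam * r ≤ 0 := mul_nonpos_of_nonpos_of_nonneg hcon hr.le
    linarith
  have hDne : D (M + 1) t₀ ≠ 0 := abs_pos.1 hlam0
  -- number of pieces
  set N : ℕ := ⌈2 * r * lam / w⌉₊ with hN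
  have hNpos : 0 < N := Nat.ceil_pos.2 (by positivity)
  have hNr : (0 : ℝ) < N := by exact_mod_cast hNpos
  have hN1 : 2 * r * lam / w ≤ N := Nat.le_ceil _
  have hN2 : (N : ℝ) < 2 * r * lam / w + 1 := Nat.ceil_lt_add_one (by positivity)
  have hbig : 1 ≤ 2 * r * lam / w := by
    rw [le_div_iff₀ hw]; nlinarith
  set p : ℝ := 2 * r / N with hp
  have hp0 : 0 < p := by positivity
  have hpw : lam * p ≤ w := by
    rw [hp, mul_div_assoc', div_le_iff₀ hNr]
    rw [div_le_iff₀ hw] at hN1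
    linarith
  have hpw2 : w ≤ 2 * (lam * p) := by
    have : (N : ℝ) ≤ 2 * (2 * r * lam / w) := by linarith
    rw [hp, mul_div_assoc', mul_div_assoc', le_div_iff₀ hNr]
    have h1 : w * N ≤ w * (2 * (2 * r * lam / w)) := by gcongr
    have h2 : w * (2 * (2 * r * lam / w)) = 4 * r * lam := by field_simp; ring
    linarith
  set a : ℕ → ℝ := fun i => t₀ - r + i * p with ha
  have haN : a N = t₀ + r := by
    simp only [ha, hp]; field_simp; ring
  have hpiece : ∀ i < N, Icc (a i) (a (i + 1)) ⊆ s := by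
    intro i hi x hx
    have h1 : (i : ℝ) + 1 ≤ N := by exact_mod_cast hi
    have h2 : a (i + 1) ≤ a N := by
      simp only [ha]; push_cast
      have : ((i : ℝ) + 1) * p ≤ N * p := by gcongr
      linarith
    have h3 : t₀ - r ≤ a i := by
      simp only [ha]
      have : 0 ≤ (i : ℝ) * p := by positivity
      linarith
    exact ⟨h3.trans hx.1, (hx.2.trans h2).trans haN.le⟩
  have hai1 : ∀ i : ℕ, a (i + 1) = a i + p := by
    intro i; simp only [ha]; push_cast; ring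
  have haile : ∀ i : ℕ, a i ≤ a (i + 1) := fun i => by rw [hai1]; linarith
  have hcover : s ⊆ ⋃ i ∈ Finset.range N, Icc (a i) (a (i + 1)) := by
    intro x hx
    simp only [mem_iUnion, Finset.mem_range, exists_prop]
    rcases eq_or_lt_of_le hx.2 with h1 | h1
    · refine ⟨N - 1, by omega, ?_, ?_⟩
      · rw [h1, ← haN]
        have : a (N - 1 + 1) = a N := by congr 1; omega
        rw [← this]; exact haile _
      · rw [h1, ← haN]
        have : a (N - 1 + 1) = a N := by congr 1; omega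
        rw [this]
    · have h2 : 0 ≤ (x - (t₀ - r)) / p := div_nonneg (by linarith [hx.1]) hp0.le
      refine ⟨⌊(x - (t₀ - r)) / p⌋₊, ?_, ?_, ?_⟩
      · have h3 : (⌊(x - (t₀ - r)) / p⌋₊ : ℝ) ≤ (x - (t₀ - r)) / p := Nat.floor_le h2
        have h4 : (x - (t₀ - r)) / p < N := by
          rw [div_lt_iff₀ hp0]
          have : (N : ℝ) * p = 2 * r := by rw [hp]; field_simp
          rw [this]; linarith
        exact_mod_cast lt_of_le_of_lt h3 h4
      · have h3 : (⌊(x - (t₀ - r)) / p⌋₊ : ℝ) ≤ (x - (t₀ - r)) / p := Nat.floor_le h2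
        simp only [ha]
        rw [le_div_iff₀ hp0] at h3
        linarith
      · have h3 := Nat.lt_floor_add_one ((x - (t₀ - r)) / p)
        simp only [ha]; push_cast
        rw [div_lt_iff₀ hp0] at h3
        linarith
  have hDt : ∀ t ∈ s, |D (M + 1) t| ≤ 21 / 20 * lam := by
    intro t ht
    refine (hNA.abs_le ht).trans ?_
    gcongr; linarith
  have hDt' : ∀ t ∈ s, 19 / 20 * lam ≤ |D (M + 1) t| := by
    intro t ht
    refine le_trans ?_ (hNA.le_abs ht)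
    gcongr; linarith
  have hYt : ∀ t ∈ s, ∀ u ∈ s, |Y (M + 1) t - Y (M + 1) u| ≤ 21 / 20 * lam * |t - u| := by
    intro t ht u hu
    have := hNA.dist_le (convex_Icc _ _) hu ht
    refine this.trans ?_
    gcongr; linarith
  have hVvar : ∀ i < N, ∀ t ∈ Icc (a i) (a (i + 1)),
      |Vr k (Y (M + 1) t) - Vr k (Y (M + 1) (a i))| ≤ 44 * k * w := by
    intro i hi t ht
    have h1 := abs_Vr_sub_le hk0.le (Y (M + 1) t) (Y (M + 1) (a i))
    have h2 := hYt t (hpiece i hi ht) (a i) (hpiece i hi (left_mem_Icc.2 (haile i)))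
    have h3 : |t - a i| ≤ p := by
      rw [abs_of_nonneg (by linarith [ht.1])]
      have := ht.2; rw [hai1] at this; linarith
    calc _ ≤ 40 * k * |Y (M + 1) t - Y (M + 1) (a i)| := h1
      _ ≤ 40 * k * (21 / 20 * lam * p) := by
          refine mul_le_mul_of_nonneg_left (h2.trans ?_) (by positivity)
          gcongr
      _ = 42 * k * (lam * p) := by ring
      _ ≤ 42 * k * w := by gcongr
      _ ≤ 44 * k * w := by nlinarith [mul_pos hk0 hw]
  -- good pieces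
  have hgood : ∀ i < N, A ≤ |Vr k (Y (M + 1) (a i))| →
      volume {t | t ∈ Icc (a i) (a (i + 1)) ∧ (Y (M + 1) t, Y (M + 2) t) ∈ E} ≤
        ENNReal.ofReal ((2 * ε + 16 / (A * w)) * p) := by
    intro i hi hAi
    have hsub := hpiece i hi
    have hai : a i ∈ Icc (a i) (a (i + 1)) := left_mem_Icc.2 (haile i)
    have hRO := h.mono hsub
    have hlami : 19 / 20 * lam ≤ |D (M + 1) (a i)| := hDt' _ (hsub hai)
    have hNAi : NearAff (Y (M + 1)) (D (M + 1)) (Icc (a i) (a (i + 1))) (D (M + 1) (a i)) (3 * η₁) := by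
      refine ⟨fun t ht => hRO.deriv _ t ht, ?_⟩
      intro t ht
      have h1 := hNA.close t (hsub ht)
      have h2 := hNA.close (a i) (hsub hai)
      have h3 : |D (M + 1) t - D (M + 1) (a i)| ≤ η₁ * lam + η₁ * lam := by
        have : D (M + 1) t - D (M + 1) (a i) =
            (D (M + 1) t - D (M + 1) t₀) - (D (M + 1) (a i) - D (M + 1) t₀) := by ring
        rw [this]
        exact (abs_sub _ _).trans (add_le_add h1 h2)
      have h4 : η₁ * (19 / 20 * lam) ≤ η₁ * |D (M + 1) (a i)| := by gcongr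
      have h5 : 0 ≤ η₁ * lam := by positivity
      linarith
    have hV0 : 0 < |Vr k (Y (M + 1) (a i))| := by linarith
    have hstep := step hRO hai (n := M) (η := 3 * η₁) (ζ := 1 / 40) (A := A) hNAi (by positivity)
      (by linarith) (by
        intro t ht
        have := hσ t (hsub ht)
        linarith) (by linarith) hAi (by
        intro t ht
        have h1 := hVvar i hi t ht
        have h2 : A / 40 ≤ 1 / 40 * |Vr k (Y (M + 1) (a i))| := by linarith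
        linarith)
    have hη2 : 1.1 * (3 * η₁ + 2 * (1 / 40) + 2 / A) ≤ (1 / 4 : ℝ) := by
      have : 2 / A ≤ 1 / 40 := by
        rw [div_le_div_iff₀ hA0 (by norm_num)]; linarith
      linarith
    have hlam2 : A / 2 * (19 / 20 * lam) ≤ |D (M + 2) (a i)| := by
      refine le_trans ?_ hstep.2.2
      gcongr
    have hlam2pos : 0 < |D (M + 2) (a i)| := lt_of_lt_of_le (by positivity) hlam2
    have hpt := piece_transfer (φ := Y (M + 2)) (φ' := D (M + 2)) (ψ := Y (M + 1)) (haile i)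
      (hstep.1.weaken hη2) (abs_pos.1 hlam2pos) le_rfl (κ := 5 / A) (by positivity) (by
        intro t ht u hu
        have h1 : |Y (M + 1) t - Y (M + 1) u| ≤ 21 / 20 * lam * |t - u| :=
          hYt t (hsub ht) u (hsub hu)
        refine h1.trans ?_
        have h2 : 21 / 20 * lam ≤ 5 / A * |D (M + 2) (a i)| := by
          calc 21 / 20 * lam ≤ 5 / A * (A / 2 * (19 / 20 * lam)) := by
                have : 5 / A * (A / 2 * (19 / 20 * lam)) = 95 / 40 * lam := by field_simp; ring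
                rw [this]; linarith
            _ ≤ _ := by gcongr
        gcongr) hE hε hUC
    refine hpt.trans (ENNReal.ofReal_le_ofReal ?_)
    have h1 : a (i + 1) - a i = p := by rw [hai1]; ring
    rw [h1]
    have h2 : 2 / |D (M + 2) (a i)| ≤ 16 / (A * w) * p := by
      calc 2 / |D (M + 2) (a i)| ≤ 2 / (A / 2 * (19 / 20 * lam)) := by gcongr
        _ = 80 / 19 / (A * lam) := by field_simp; ring
        _ ≤ 16 / (A * w) * p := by
            rw [div_mul_eq_mul_div, div_le_div_iff₀ (by positivity) (by positivity)]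
            have : 80 / 19 * (A * w) ≤ 80 / 19 * (A * (2 * (lam * p))) := by gcongr
            nlinarith [mul_pos hA0 (mul_pos hlam0 hp0)]
    nlinarith
  -- bad pieces
  have hbad : volume {t | t ∈ s ∧ |Vr k (Y (M + 1) t)| ≤ 2 * A} ≤
      ENNReal.ofReal (2 * r * (8 * A / (k * δ))) := by
    have hV : Measurable (Vr k) := by
      unfold Vr; fun_prop
    have hms : MeasurableSet {x : ℝ | |Vr k x| ≤ 2 * A} :=
      measurableSet_le hV.abs measurable_const
    have hper : ∀ x, x ∈ {x : ℝ | |Vr k x| ≤ 2 * A} ↔ x + 1 ∈ {x : ℝ | |Vr k x| ≤ 2 * A} := by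
      intro x; simp only [mem_ofPred_eq, Vr_add_one]
    have h1 := hNA.equidistribution (by linarith : t₀ - r < t₀ + r) hDne (by linarith : η₁ < 1)
      hms hper
    have h2 := volume_Vr_small hk (r := 2 * A) (by positivity)
    have h3 : {t | t ∈ s ∧ |Vr k (Y (M + 1) t)| ≤ 2 * A} =
        Icc (t₀ - r) (t₀ + r) ∩ Y (M + 1) ⁻¹' {x : ℝ | |Vr k x| ≤ 2 * A} := by
      ext t; simp [hs]
    rw [h3]
    refine h1.trans ((mul_le_mul_of_nonneg_left h2 (by positivity)).trans ?_)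
    rw [← ENNReal.ofReal_mul (by
      refine div_nonneg ?_ ?_
      · have : 0 ≤ (1 + η₁) * |D (M + 1) t₀| * (t₀ + r - (t₀ - r)) :=
          mul_nonneg (by positivity) (by linarith)
        linarith
      · exact mul_nonneg (by linarith) (abs_nonneg _))]
    refine ENNReal.ofReal_le_ofReal ?_
    have hden : 0 < (1 - η₁) * lam := mul_pos (by linarith) hlam0
    have h4 : ((1 + η₁) * lam * (t₀ + r - (t₀ - r)) + 1) / ((1 - η₁) * lam) ≤ 8 * r / δ := by
      rw [div_le_div_iff₀ hden hδ]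
      have e : t₀ + r - (t₀ - r) = 2 * r := by ring
      rw [e]
      have h5 : (1 + η₁) * lam * (2 * r) + 1 ≤ 21 / 10 * (lam * r) + 1 := by
        have : (1 + η₁) * lam * (2 * r) ≤ 21 / 20 * lam * (2 * r) := by gcongr; linarith
        linarith
      have h6 : 8 * r * (19 / 20 * lam) ≤ 8 * r * ((1 - η₁) * lam) := by gcongr; linarith
      have h7 : (21 / 10 * (lam * r) + 1) * δ ≤ 8 * r * (19 / 20 * lam) := by
        have h8 : (lam * r) * δ ≤ lam * r * 1 := by gcongr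
        nlinarith
      calc ((1 + η₁) * lam * (2 * r) + 1) * δ ≤ (21 / 10 * (lam * r) + 1) * δ := by gcongr
        _ ≤ _ := h7.trans h6
    calc ((1 + η₁) * |D (M + 1) t₀| * (t₀ + r - (t₀ - r)) + 1) / ((1 - η₁) * |D (M + 1) t₀|) *
          (2 * A / k) ≤ 8 * r / δ * (2 * A / k) := by gcongr
      _ = 2 * r * (8 * A / (k * δ)) := by field_simp
  -- conclusion
  set G : Finset ℕ := (Finset.range N).filter (fun i => A ≤ |Vr k (Y (M + 1) (a i))|) with hG
  have hfin : {t | t ∈ s ∧ (Y (M + 1) t, Y (M + 2) t) ∈ E} ⊆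
      (⋃ i ∈ G, {t | t ∈ Icc (a i) (a (i + 1)) ∧ (Y (M + 1) t, Y (M + 2) t) ∈ E}) ∪
      {t | t ∈ s ∧ |Vr k (Y (M + 1) t)| ≤ 2 * A} := by
    rintro t ⟨hts, htE⟩
    have h1 := hcover hts
    simp only [mem_iUnion, Finset.mem_range, exists_prop] at h1
    obtain ⟨i, hi, hti⟩ := h1
    by_cases hAi : A ≤ |Vr k (Y (M + 1) (a i))|
    · left
      simp only [mem_iUnion, exists_prop]
      exact ⟨i, Finset.mem_filter.2 ⟨Finset.mem_range.2 hi, hAi⟩, hti, htE⟩
    · right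
      push Not at hAi
      refine ⟨hts, ?_⟩
      have h2 := hVvar i hi t hti
      have h3 : |Vr k (Y (M + 1) t)| ≤ |Vr k (Y (M + 1) t) - Vr k (Y (M + 1) (a i))| +
          |Vr k (Y (M + 1) (a i))| := by
        calc |Vr k (Y (M + 1) t)| = |(Vr k (Y (M + 1) t) - Vr k (Y (M + 1) (a i))) +
              Vr k (Y (M + 1) (a i))| := by ring_nf
          _ ≤ _ := abs_add_le _ _
      linarith
  calc volume {t | t ∈ s ∧ (Y (M + 1) t, Y (M + 2) t) ∈ E}
      ≤ volume ((⋃ i ∈ G, {t | t ∈ Icc (a i) (a (i + 1)) ∧ (Y (M + 1) t, Y (M + 2) t) ∈ E}) ∪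
        {t | t ∈ s ∧ |Vr k (Y (M + 1) t)| ≤ 2 * A}) := measure_mono hfin
    _ ≤ volume (⋃ i ∈ G, {t | t ∈ Icc (a i) (a (i + 1)) ∧ (Y (M + 1) t, Y (M + 2) t) ∈ E}) +
        volume {t | t ∈ s ∧ |Vr k (Y (M + 1) t)| ≤ 2 * A} := measure_union_le _ _
    _ ≤ ∑ i ∈ G, ENNReal.ofReal ((2 * ε + 16 / (A * w)) * p) +
        ENNReal.ofReal (2 * r * (8 * A / (k * δ))) := by
        refine add_le_add ((measure_biUnion_finset_le _ _).trans (Finset.sum_le_sum ?_)) hbad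
        intro i hi
        obtain ⟨h1, h2⟩ := Finset.mem_filter.1 hi
        exact hgood i (Finset.mem_range.1 h1) h2
    _ ≤ ENNReal.ofReal (N * ((2 * ε + 16 / (A * w)) * p)) +
        ENNReal.ofReal (2 * r * (8 * A / (k * δ))) := by
        refine add_le_add ?_ le_rfl
        rw [Finset.sum_const, nsmul_eq_mul, ENNReal.ofReal_mul (p := (N : ℝ)) (by positivity),
          ENNReal.ofReal_natCast]
        gcongr
        calc G.card ≤ (Finset.range N).card := Finset.card_filter_le _ _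
          _ = N := Finset.card_range N
    _ = ENNReal.ofReal (2 * r * (2 * ε + 16 / (A * w) + 8 * A / (k * δ))) := by
        rw [← ENNReal.ofReal_add (by positivity) (by positivity)]
        congr 1
        have : (N : ℝ) * p = 2 * r := by rw [hp]; field_simp
        calc (N : ℝ) * ((2 * ε + 16 / (A * w)) * p) + 2 * r * (8 * A / (k * δ))
            = (N * p) * (2 * ε + 16 / (A * w)) + 2 * r * (8 * A / (k * δ)) := by ring
          _ = _ := by rw [this]; ring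

end Crest.Agent.R128.Fresh
end

-- ▼ part R128/FreshFin
section

/-!
# Fresh cells for the orbit curves `t ↦ y k c n t` (row 128, label P1)
-/

set_option autoImplicit false

open Set MeasureTheory Metric
open scoped NNReal ENNReal

namespace Crest.Agent.R128.Fresh

open Crest.Agent.R128.CellA Crest.Agent.R128.CellB Crest.Agent.R128.Cell

theorem UnitCurve.mono {κ κ' : ℝ≥0} (h : κ ≤ κ') {g : ℝ → ℝ} {a : ℝ} (hg : UnitCurve κ g a) :
    UnitCurve κ' g a := by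
  unfold UnitCurve at *
  exact hg.weaken h

theorem UCBound.mono {κ κ' : ℝ≥0} (h : κ ≤ κ') {E : Set (ℝ × ℝ)} {ε : ℝ} (hE : UCBound κ' E ε) :
    UCBound κ E ε := fun g a hg => hE g a (hg.mono h)

/-- `u = k ^ (1/24)`: all thresholds are powers of `u`. -/
theorem lap_transfer_u {u : ℝ} (hu : 2000 ≤ u) {t₀ r : ℝ} (hr : 0 < r) {Y D : ℕ → ℝ → ℝ}
    (h : RO (u ^ 24) (Icc (t₀ - r) (t₀ + r)) Y D) {M : ℕ} {η₁ : ℝ} (hη₁ : 0 ≤ η₁)
    (hη₁' : η₁ ≤ 1 / 20)
    (hNA : NearAff (Y (M + 1)) (D (M + 1)) (Icc (t₀ - r) (t₀ + r)) (D (M + 1) t₀) η₁)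
    (hσ : ∀ t ∈ Icc (t₀ - r) (t₀ + r), |D M t| ≤ 1 / 4 * |D (M + 1) t₀|)
    (hsize : 1 / u ^ 9 ≤ |D (M + 1) t₀| * r)
    {E : Set (ℝ × ℝ)} (hE : MeasurableSet E) {ε : ℝ} (hε : 0 ≤ ε)
    (hUC : UCBound (Real.toNNReal (1 / u ^ 12)) E ε) :
    volume {t | t ∈ Icc (t₀ - r) (t₀ + r) ∧ (Y (M + 1) t, Y (M + 2) t) ∈ E} ≤
      ENNReal.ofReal (2 * r * (2 * ε + 24 / u)) := by
  have hu0 : 0 < u := by linarith
  have hu1 : 1 ≤ u := by linarith
  have hk : 1 ≤ u ^ 24 := one_le_pow₀ hu1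
  have h12 : (1 : ℝ) ≤ u ^ 12 := one_le_pow₀ hu1
  have hA : (80 : ℝ) ≤ u ^ 13 := by
    calc (80 : ℝ) ≤ u := by linarith
      _ = u ^ 1 := by ring
      _ ≤ u ^ 13 := pow_le_pow_right₀ hu1 (by norm_num)
  have hUC' : UCBound (Real.toNNReal (2 * (5 / u ^ 13))) E ε := by
    refine hUC.mono (Real.toNNReal_le_toNNReal ?_)
    rw [← mul_div_assoc, div_le_div_iff₀ (by positivity) (by positivity)]
    have : u ^ 13 = u * u ^ 12 := by ring
    rw [this]
    nlinarith [pow_pos hu0 12]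
  have := lap_transfer (k := u ^ 24) hk hr h hη₁ hη₁' (δ := 1 / u ^ 9) (w := 1 / u ^ 12)
    (A := u ^ 13) (by positivity) (by positivity) (by
      refine one_div_le_one_div_of_le (by positivity) ?_
      exact pow_le_pow_right₀ hu1 (by norm_num)) (by
      rw [div_le_one (by positivity)]; exact one_le_pow₀ hu1) hA (by
      have e : 44 * u ^ 24 * (1 / u ^ 12) = 44 * u ^ 12 := by field_simp
      rw [e, le_div_iff₀ (by norm_num)]
      have : u ^ 13 = u * u ^ 12 := by ring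
      rw [this]
      nlinarith [pow_pos hu0 12]) hNA hσ hsize hE hε hUC'
  refine this.trans (ENNReal.ofReal_le_ofReal ?_)
  have e1 : 16 / (u ^ 13 * (1 / u ^ 12)) = 16 / u := by field_simp
  have e2 : 8 * u ^ 13 / (u ^ 24 * (1 / u ^ 9)) = 8 / u ^ 2 := by field_simp
  rw [e1, e2]
  have h3 : 8 / u ^ 2 ≤ 8 / u := by
    apply div_le_div_of_nonneg_left (by norm_num) hu0
    nlinarith
  have h4 : 16 / u + 8 / u = 24 / u := by ring
  have h5 : 2 * ε + 16 / u + 8 / u ^ 2 ≤ 2 * ε + 24 / u := by linarith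
  gcongr







end Crest.Agent.R128.Fresh
end

-- ▼ part R128/LocD
section

/-!
# Row 128, node LOC-D (helper106): equidistribution of the next digits on a fresh cell

Unit curves are Lipschitz graphs; the property "few bad digits" is carried one step of the map
backwards (`ucb_step`), and to fresh cells by `lap_transfer_u`.
-/

set_option autoImplicit false

open Set MeasureTheory Metric
open scoped NNReal ENNReal

namespace Crest.Agent.R128.LocD

open Crest.Agent.R128.CellA Crest.Agent.R128.Fresh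

/-- the function of the map -/
noncomputable def fr (k x : ℝ) : ℝ := 2 * x + k * Real.sin (2 * Real.pi * x)

/-- one step on pairs of successive positions -/
noncomputable def st (k : ℝ) (p : ℝ × ℝ) : ℝ × ℝ := (p.2, fr k p.2 - p.1)

theorem hasDerivAt_fr (k x : ℝ) : HasDerivAt (fr k) (Vr k x) x := by
  unfold fr Vr
  have h1 : HasDerivAt (fun x : ℝ => 2 * Real.pi * x) (2 * Real.pi) x := by
    simpa using (hasDerivAt_id x).const_mul (2 * Real.pi)
  have h2 := (h1.sin).const_mul k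
  have h3 : HasDerivAt (fun x : ℝ => 2 * x) 2 x := by
    simpa using (hasDerivAt_id x).const_mul (2 : ℝ)
  have h4 := h3.add h2
  have e : 2 + 2 * Real.pi * k * Real.cos (2 * Real.pi * x) =
      2 + k * (Real.cos (2 * Real.pi * x) * (2 * Real.pi)) := by ring
  rw [e]
  exact h4

/-- Lipschitz images. -/
theorem volume_lip_image {G : ℝ → ℝ} {K : ℝ≥0} (hG : LipschitzWith K G) (S : Set ℝ) :
    volume (G '' S) ≤ K * volume S := by
  have h := hG.hausdorffMeasure_image_le (d := 1) (by norm_num) S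
  rw [MeasureTheory.hausdorffMeasure_real] at h
  simpa using h

/-- one piece: slope `V` up to the factor `1 ± θ` -/
theorem piece {E : Set (ℝ × ℝ)} {κ : ℝ≥0} {ε : ℝ} (hε : 0 ≤ ε) (hE : UCBound κ E ε)
    {h : ℝ → ℝ} {a w V θ : ℝ} (hw : 0 ≤ w) (hV : V ≠ 0) (hθ0 : 0 ≤ θ) (hθ : θ < 1)
    (hκ : 1 / ((1 - θ) * |V|) ≤ κ)
    (hs : ∀ x ∈ Icc a (a + w), ∀ y ∈ Icc a (a + w), |h x - h y - V * (x - y)| ≤ θ * |V| * |x - y|) :
    volume {x | x ∈ Icc a (a + w) ∧ (x, h x) ∈ E} ≤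
      ENNReal.ofReal (((1 + θ) * |V| * w + 1) * ε / ((1 - θ) * |V|)) := by
  classical
  have hVp : 0 < |V| := abs_pos.2 hV
  set P := Icc a (a + w) with hP
  set c := (1 - θ) * |V| with hc
  have hc0 : 0 < c := mul_pos (by linarith) hVp
  have haP : a ∈ P := ⟨le_rfl, by linarith⟩
  have hlo : ∀ x ∈ P, ∀ y ∈ P, c * |x - y| ≤ |h x - h y| := by
    intro x hx y hy
    have h1 := hs x hx y hy
    have h2 := abs_sub_abs_le_abs_sub (V * (x - y)) (V * (x - y) - (h x - h y))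
    have h3 : V * (x - y) - (V * (x - y) - (h x - h y)) = h x - h y := by ring
    have h4 : |V * (x - y) - (h x - h y)| = |h x - h y - V * (x - y)| := abs_sub_comm _ _
    rw [h3, h4, abs_mul] at h2
    have h5 : c * |x - y| = |V| * |x - y| - θ * |V| * |x - y| := by rw [hc]; ring
    linarith
  have hinj : InjOn h P := by
    intro x hx y hy hxy
    have h1 := hlo x hx y hy
    rw [hxy, sub_self, abs_zero] at h1
    have h2 : |x - y| ≤ 0 := by
      by_contra hcon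
      push Not at hcon
      have := mul_pos hc0 hcon
      linarith
    have h3 := abs_nonneg (x - y)
    have h4 : |x - y| = 0 := le_antisymm h2 h3
    linarith [abs_eq_zero.1 h4]
  set K : ℝ≥0 := Real.toNNReal (1 / c) with hK
  have hKr : (K : ℝ) = 1 / c := Real.coe_toNNReal _ (by positivity)
  have hG0 : LipschitzOnWith K (Function.invFunOn h P) (h '' P) := by
    refine LipschitzOnWith.of_dist_le_mul ?_
    rintro _ ⟨x, hx, rfl⟩ _ ⟨y, hy, rfl⟩
    have e1 : Function.invFunOn h P (h x) = x :=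
      hinj (Function.invFunOn_mem ⟨x, hx, rfl⟩) hx (Function.invFunOn_eq ⟨x, hx, rfl⟩)
    have e2 : Function.invFunOn h P (h y) = y :=
      hinj (Function.invFunOn_mem ⟨y, hy, rfl⟩) hy (Function.invFunOn_eq ⟨y, hy, rfl⟩)
    rw [e1, e2, Real.dist_eq, Real.dist_eq, hKr, one_div, ← div_eq_inv_mul, le_div_iff₀ hc0]
    have := hlo x hx y hy
    linarith
  obtain ⟨G, hG, hGe⟩ := hG0.extend_real
  have hGh : ∀ x ∈ P, G (h x) = x := by
    intro x hx
    rw [← hGe ⟨x, hx, rfl⟩]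
    exact hinj (Function.invFunOn_mem ⟨x, hx, rfl⟩) hx (Function.invFunOn_eq ⟨x, hx, rfl⟩)
  -- the interval containing the image
  set L := (1 + θ) * |V| * w with hL
  have hL0 : 0 ≤ L := by positivity
  obtain ⟨b, hb⟩ : ∃ b : ℝ, ∀ x ∈ P, h x ∈ Icc b (b + L) := by
    rcases lt_or_gt_of_ne hV with hneg | hpos
    · refine ⟨h a - L, ?_⟩
      intro x hx
      have h1 := abs_le.1 (hs x hx a haP)
      have h2 : |x - a| = x - a := abs_of_nonneg (by linarith [hx.1])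
      rw [h2] at h1
      have h3 : |V| = -V := abs_of_neg hneg
      have h4 : x - a ≤ w := by linarith [hx.2]
      have h5 : 0 ≤ x - a := by linarith [hx.1]
      have h6 : 0 ≤ (1 - θ) * |V| * (x - a) := mul_nonneg hc0.le h5
      have h7 : (1 + θ) * |V| * (x - a) ≤ L := by
        rw [hL]; gcongr
      rw [h3] at h1 h6 h7
      constructor
      · nlinarith
      · nlinarith
    · refine ⟨h a, ?_⟩
      intro x hx
      have h1 := abs_le.1 (hs x hx a haP)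
      have h2 : |x - a| = x - a := abs_of_nonneg (by linarith [hx.1])
      rw [h2] at h1
      have h3 : |V| = V := abs_of_pos hpos
      have h4 : x - a ≤ w := by linarith [hx.2]
      have h5 : 0 ≤ x - a := by linarith [hx.1]
      have h6 : 0 ≤ (1 - θ) * |V| * (x - a) := mul_nonneg hc0.le h5
      have h7 : (1 + θ) * |V| * (x - a) ≤ L := by
        rw [hL]; gcongr
      rw [h3] at h1 h6 h7
      constructor
      · nlinarith
      · nlinarith
  set N := ⌈L⌉₊ with hN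
  have hN1 : L ≤ N := Nat.le_ceil _
  have hN2 : (N : ℝ) ≤ L + 1 := (Nat.ceil_lt_add_one hL0).le
  set S : Set ℝ := {y | y ∈ Icc b (b + L) ∧ (G y, y) ∈ E} with hS
  have hsub : {x | x ∈ P ∧ (x, h x) ∈ E} ⊆ G '' S := by
    rintro x ⟨hx, hxE⟩
    exact ⟨h x, ⟨hb x hx, by rw [hGh x hx]; exact hxE⟩, hGh x hx⟩
  have hSN : S ⊆ (⋃ j ∈ Finset.range N, {y | y ∈ Icc (b + j) (b + j + 1) ∧ (G y, y) ∈ E}) ∪ {b + L} := by
    rintro y ⟨hy, hyE⟩
    rcases eq_or_lt_of_le hy.2 with h1 | h1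
    · right; exact h1
    · left
      simp only [mem_iUnion, Finset.mem_range, exists_prop]
      have h0 : 0 ≤ y - b := by linarith [hy.1]
      refine ⟨⌊y - b⌋₊, ?_, ⟨?_, ?_⟩, hyE⟩
      · have h3 : (⌊y - b⌋₊ : ℝ) ≤ y - b := Nat.floor_le h0
        have h4 : y - b < N := by linarith
        exact_mod_cast lt_of_le_of_lt h3 h4
      · have h3 : (⌊y - b⌋₊ : ℝ) ≤ y - b := Nat.floor_le h0
        linarith
      · have h3 := Nat.lt_floor_add_one (y - b)
        linarith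
  have hGκ : ∀ j, UnitCurve κ G j := by
    intro j
    refine (hG.lipschitzOnWith).weaken ?_
    rw [← NNReal.coe_le_coe, hKr]
    exact hκ
  have hvS : volume S ≤ ENNReal.ofReal (N * ε) := by
    calc volume S ≤ volume ((⋃ j ∈ Finset.range N, {y | y ∈ Icc (b + j) (b + j + 1) ∧ (G y, y) ∈ E}) ∪
          {b + L}) := measure_mono hSN
      _ ≤ volume (⋃ j ∈ Finset.range N, {y | y ∈ Icc (b + j) (b + j + 1) ∧ (G y, y) ∈ E}) +
          volume {b + L} := measure_union_le _ _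
      _ = volume (⋃ j ∈ Finset.range N, {y | y ∈ Icc (b + j) (b + j + 1) ∧ (G y, y) ∈ E}) := by
          rw [Real.volume_singleton, add_zero]
      _ ≤ ∑ j ∈ Finset.range N, volume {y | y ∈ Icc (b + j) (b + j + 1) ∧ (G y, y) ∈ E} :=
          measure_biUnion_finset_le _ _
      _ ≤ ∑ j ∈ Finset.range N, ENNReal.ofReal ε := Finset.sum_le_sum fun j _ => hE G _ (hGκ _)
      _ = ENNReal.ofReal (N * ε) := by
          rw [Finset.sum_const, Finset.card_range, nsmul_eq_mul, ENNReal.ofReal_mul (by positivity),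
            ENNReal.ofReal_natCast]
  calc volume {x | x ∈ P ∧ (x, h x) ∈ E} ≤ volume (G '' S) := measure_mono hsub
    _ ≤ K * volume S := volume_lip_image hG S
    _ ≤ K * ENNReal.ofReal (N * ε) := by gcongr
    _ = ENNReal.ofReal (1 / c * (N * ε)) := by
        rw [ENNReal.ofReal_mul (p := 1 / c) (by positivity)]; rfl
    _ ≤ ENNReal.ofReal ((L + 1) * ε / c) := by
        refine ENNReal.ofReal_le_ofReal ?_
        rw [one_div, ← div_eq_inv_mul]
        gcongr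

/-- few near critical positions on a unit interval -/
theorem volume_Vr_unit {k : ℝ} (hk : 1 ≤ k) {r : ℝ} (hr : 0 ≤ r) (a : ℝ) :
    volume {x | x ∈ Icc a (a + 1) ∧ |Vr k x| ≤ r} ≤ ENNReal.ofReal (2 * (r / k)) := by
  have h1 := measure_periodic_inter_uIcc_le (A := {x : ℝ | |Vr k x| ≤ r}) (by
    intro x; simp only [mem_ofPred_eq, Vr_add_one]) a (a + 1)
  rw [uIcc_of_le (by linarith : a ≤ a + 1)] at h1
  have h2 := volume_Vr_small hk hr
  have h3 : |a + 1 - a| + 1 = 2 := by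
    rw [show a + 1 - a = 1 by ring]; norm_num
  rw [h3] at h1
  calc volume {x | x ∈ Icc a (a + 1) ∧ |Vr k x| ≤ r}
      ≤ volume ({x : ℝ | |Vr k x| ≤ r} ∩ Icc a (a + 1)) := by
        refine measure_mono ?_
        rintro x ⟨h1, h2⟩
        exact ⟨h2, h1⟩
    _ ≤ ENNReal.ofReal 2 * volume ({x : ℝ | |Vr k x| ≤ r} ∩ Ico 0 1) := h1
    _ ≤ ENNReal.ofReal 2 * ENNReal.ofReal (r / k) := by gcongr
    _ = ENNReal.ofReal (2 * (r / k)) := by rw [ENNReal.ofReal_mul (by norm_num)]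

/-- the mean value bound for `fr` -/
theorem fr_sub {k : ℝ} (hk : 0 ≤ k) {a w : ℝ} {x y : ℝ} (hx : x ∈ Icc a (a + w))
    (hy : y ∈ Icc a (a + w)) :
    |fr k x - fr k y - Vr k a * (x - y)| ≤ 40 * k * w * |x - y| := by
  have h1 : ∀ z ∈ Icc a (a + w), HasDerivWithinAt (fun z => fr k z - Vr k a * z)
      (Vr k z - Vr k a) (Icc a (a + w)) z := by
    intro z _
    have h2 : HasDerivAt (fun z : ℝ => Vr k a * z) (Vr k a) z := by
      simpa using (hasDerivAt_id z).const_mul (Vr k a)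
    exact ((hasDerivAt_fr k z).sub h2).hasDerivWithinAt
  have h3 : ∀ z ∈ Icc a (a + w), ‖Vr k z - Vr k a‖ ≤ 40 * k * w := by
    intro z hz
    rw [Real.norm_eq_abs]
    refine (abs_Vr_sub_le hk z a).trans ?_
    have : |z - a| ≤ w := by
      rw [abs_of_nonneg (by linarith [hz.1])]; linarith [hz.2]
    gcongr
  have h4 := (convex_Icc a (a + w)).norm_image_sub_le_of_norm_hasDerivWithin_le h1 h3 hy hx
  rw [Real.norm_eq_abs, Real.norm_eq_abs] at h4
  have e : fr k x - fr k y - Vr k a * (x - y) = fr k x - Vr k a * x - (fr k y - Vr k a * y) := by ring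
  rw [e]
  exact h4

set_option maxHeartbeats 1000000 in
/-- **One step back on unit curves.** -/
theorem ucb_step {u : ℝ} (hu : 2000000 ≤ u) {E : Set (ℝ × ℝ)} {ε : ℝ} (hε : 0 ≤ ε) (hε1 : ε ≤ 1)
    (hE : UCBound (Real.toNNReal (1 / u ^ 12)) E ε) :
    UCBound (Real.toNNReal (1 / u ^ 12)) (st (u ^ 24) ⁻¹' E) (ε + 1000 / u) := by
  classical
  intro g a hg
  have hu0 : 0 < u := by linarith
  have hu1 : 1 ≤ u := by linarith
  have hk : 1 ≤ u ^ 24 := one_le_pow₀ hu1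
  have hk0 : 0 ≤ u ^ 24 := by positivity
  have h12 : (1 : ℝ) ≤ u ^ 12 := one_le_pow₀ hu1
  have e13 : u ^ 13 = u * u ^ 12 := by ring
  set N := ⌈u ^ 12⌉₊ with hN
  have hN1 : u ^ 12 ≤ N := Nat.le_ceil _
  have hN2 : (N : ℝ) ≤ 2 * u ^ 12 := by
    have := (Nat.ceil_lt_add_one (by positivity : 0 ≤ u ^ 12)).le
    linarith
  have hNr : (0 : ℝ) < N := by linarith
  set w : ℝ := 1 / N with hw
  have hw0 : 0 < w := by positivity
  have hNw : (N : ℝ) * w = 1 := by rw [hw]; field_simp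
  have hw1 : w ≤ 1 / u ^ 12 := one_div_le_one_div_of_le (by positivity) hN1
  have hw2 : 1 / (2 * u ^ 12) ≤ w := one_div_le_one_div_of_le hNr hN2
  set h : ℝ → ℝ := fun x => fr (u ^ 24) x - g x with hh
  set x₀ : ℕ → ℝ := fun i => a + i * w with hx₀
  have hpc : ∀ i < N, Icc (x₀ i) (x₀ i + w) ⊆ Icc a (a + 1) := by
    intro i hi x hx
    have h1 : (i : ℝ) + 1 ≤ N := by exact_mod_cast hi
    have h2 : 0 ≤ (i : ℝ) * w := by positivity
    have h3 : ((i : ℝ) + 1) * w ≤ 1 := by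
      calc ((i : ℝ) + 1) * w ≤ N * w := by gcongr
        _ = 1 := hNw
    simp only [hx₀] at hx
    constructor
    · linarith [hx.1]
    · nlinarith [hx.2]
  have hcover : Icc a (a + 1) ⊆ (⋃ i ∈ Finset.range N, Icc (x₀ i) (x₀ i + w)) := by
    intro x hx
    simp only [mem_iUnion, Finset.mem_range, exists_prop]
    rcases eq_or_lt_of_le hx.2 with h1 | h1
    · refine ⟨N - 1, by
        have : 0 < N := by exact_mod_cast hNr
        omega, ?_, ?_⟩
      · have h2 : ((N - 1 : ℕ) : ℝ) ≤ N := by exact_mod_cast Nat.sub_le N 1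
        simp only [hx₀]
        have : ((N - 1 : ℕ) : ℝ) * w ≤ N * w := by gcongr
        linarith
      · have h3 : ((N - 1 : ℕ) : ℝ) = N - 1 := by
          rw [Nat.cast_sub (by
            have : 0 < N := by exact_mod_cast hNr
            omega)]; simp
        simp only [hx₀]
        rw [h3]
        have : ((N : ℝ) - 1) * w + w = N * w := by ring
        linarith
    · have h2 : 0 ≤ (x - a) / w := div_nonneg (by linarith [hx.1]) hw0.le
      have h3 : (⌊(x - a) / w⌋₊ : ℝ) ≤ (x - a) / w := Nat.floor_le h2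
      refine ⟨⌊(x - a) / w⌋₊, ?_, ?_, ?_⟩
      · have h4 : (x - a) / w < N := by
          rw [div_lt_iff₀ hw0, hNw]; linarith
        exact_mod_cast lt_of_le_of_lt h3 h4
      · simp only [hx₀]
        rw [le_div_iff₀ hw0] at h3
        linarith
      · have h4 := Nat.lt_floor_add_one ((x - a) / w)
        simp only [hx₀]
        rw [div_lt_iff₀ hw0] at h4
        linarith
  have hgL : ∀ x ∈ Icc a (a + 1), ∀ y ∈ Icc a (a + 1), |g x - g y| ≤ 1 * |x - y| := by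
    intro x hx y hy
    have h1 := hg.dist_le_mul x hx y hy
    rw [Real.dist_eq, Real.dist_eq, Real.coe_toNNReal _ (by positivity)] at h1
    refine h1.trans ?_
    gcongr
    rw [div_le_one (by positivity)]; exact h12
  -- good pieces
  have hgood : ∀ i < N, u ^ 13 ≤ |Vr (u ^ 24) (x₀ i)| →
      volume {x | x ∈ Icc (x₀ i) (x₀ i + w) ∧ (x, h x) ∈ E} ≤ ENNReal.ofReal (w * (ε + 900 / u)) := by
    intro i hi hA
    set V := Vr (u ^ 24) (x₀ i) with hVdef
    have hVpos : 0 < |V| := lt_of_lt_of_le (by positivity) hA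
    set θ : ℝ := 41 / u with hθ
    have hθ0 : 0 ≤ θ := by positivity
    have hθ1 : θ ≤ 1 / 2 := by
      rw [hθ, div_le_div_iff₀ hu0 (by norm_num)]; linarith
    have hp := piece (E := E) (κ := Real.toNNReal (1 / u ^ 12)) hε hE (h := h) (a := x₀ i) (w := w)
      (V := V) (θ := θ) hw0.le (abs_pos.1 hVpos) hθ0 (by linarith) (by
        rw [Real.coe_toNNReal _ (by positivity)]
        refine one_div_le_one_div_of_le (by positivity) ?_
        calc u ^ 12 ≤ 1 / 2 * u ^ 13 := by rw [e13]; nlinarith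
          _ ≤ (1 - θ) * |V| := mul_le_mul (by linarith) hA (by positivity) (by linarith)) (by
        intro x hx y hy
        have h1 := fr_sub hk0 hx hy
        have h2 := hgL x (hpc i hi hx) y (hpc i hi hy)
        have h3 : h x - h y - V * (x - y) =
            (fr (u ^ 24) x - fr (u ^ 24) y - V * (x - y)) - (g x - g y) := by
          simp only [hh]; ring
        rw [h3]
        refine (abs_sub _ _).trans ((add_le_add h1 h2).trans ?_)
        have h4 : 40 * u ^ 24 * w ≤ 40 * u ^ 12 := by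
          calc 40 * u ^ 24 * w ≤ 40 * u ^ 24 * (1 / u ^ 12) := by gcongr
            _ = 40 * u ^ 12 := by field_simp
        have h5 : 41 * u ^ 12 ≤ θ * |V| := by
          calc 41 * u ^ 12 = θ * u ^ 13 := by rw [hθ]; field_simp
            _ ≤ θ * |V| := by gcongr
        have h6 := abs_nonneg (x - y)
        have h7 : 40 * u ^ 24 * w + 1 ≤ θ * |V| := by linarith
        calc 40 * u ^ 24 * w * |x - y| + 1 * |x - y| = (40 * u ^ 24 * w + 1) * |x - y| := by ring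
          _ ≤ θ * |V| * |x - y| := by gcongr)
    refine hp.trans (ENNReal.ofReal_le_ofReal ?_)
    have hden : 0 < (1 - θ) * |V| := mul_pos (by linarith) hVpos
    rw [div_le_iff₀ hden]
    -- ((1+θ)|V| w + 1) ε ≤ w (ε + 900/u) (1-θ)|V|
    have hA2 : u ≤ w * |V| * 2 := by
      calc u = 1 / (2 * u ^ 12) * u ^ 13 * 2 := by rw [e13]; field_simp
        _ ≤ w * |V| * 2 := by gcongr
    set z := w * |V| with hz
    have hz0 : 0 < z := by positivity
    have e1 : ((1 + θ) * |V| * w + 1) * ε = (1 + θ) * z * ε + ε := by rw [hz]; ring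
    have e2 : w * (ε + 900 / u) * ((1 - θ) * |V|) = (1 - θ) * z * ε + (1 - θ) * z * (900 / u) := by
      rw [hz]; ring
    rw [e1, e2]
    have h1 : ε ≤ 2 * z / u := by
      rw [le_div_iff₀ hu0]; nlinarith
    have h2 : 2 * θ * z * ε ≤ 82 * (z / u) := by
      calc 2 * θ * z * ε ≤ 2 * θ * z * 1 := by gcongr
        _ = 82 * (z / u) := by rw [hθ]; ring
    have h3 : 1 / 2 * z * (900 / u) ≤ (1 - θ) * z * (900 / u) := by gcongr; linarith
    have h4 : 1 / 2 * z * (900 / u) = 450 * (z / u) := by ring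
    have h5 : 0 ≤ z / u := by positivity
    have h6 : 2 * z / u = 2 * (z / u) := by ring
    nlinarith
  -- bad pieces
  have hVvar : ∀ i < N, ∀ x ∈ Icc (x₀ i) (x₀ i + w), |Vr (u ^ 24) x| ≤ |Vr (u ^ 24) (x₀ i)| + 40 * u ^ 12 := by
    intro i hi x hx
    have h1 := abs_Vr_sub_le hk0 x (x₀ i)
    have h2 : |x - x₀ i| ≤ w := by
      rw [abs_of_nonneg (by linarith [hx.1])]; linarith [hx.2]
    have h3 : |Vr (u ^ 24) x| ≤ |Vr (u ^ 24) x - Vr (u ^ 24) (x₀ i)| + |Vr (u ^ 24) (x₀ i)| := by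
      calc |Vr (u ^ 24) x| = |(Vr (u ^ 24) x - Vr (u ^ 24) (x₀ i)) + Vr (u ^ 24) (x₀ i)| := by ring_nf
        _ ≤ _ := abs_add_le _ _
    have h4 : 40 * u ^ 24 * |x - x₀ i| ≤ 40 * u ^ 12 := by
      calc 40 * u ^ 24 * |x - x₀ i| ≤ 40 * u ^ 24 * (1 / u ^ 12) := by
            gcongr; exact h2.trans hw1
        _ = 40 * u ^ 12 := by field_simp
    linarith
  have hbad := volume_Vr_unit hk (r := 2 * u ^ 13) (by positivity) a
  set G : Finset ℕ := (Finset.range N).filter (fun i => u ^ 13 ≤ |Vr (u ^ 24) (x₀ i)|) with hG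
  have hfin : {x | x ∈ Icc a (a + 1) ∧ (g x, x) ∈ st (u ^ 24) ⁻¹' E} ⊆
      (⋃ i ∈ G, {x | x ∈ Icc (x₀ i) (x₀ i + w) ∧ (x, h x) ∈ E}) ∪
      {x | x ∈ Icc a (a + 1) ∧ |Vr (u ^ 24) x| ≤ 2 * u ^ 13} := by
    rintro x ⟨hx, hxE⟩
    have h1 := hcover hx
    simp only [mem_iUnion, Finset.mem_range, exists_prop] at h1
    obtain ⟨i, hi, hxi⟩ := h1
    by_cases hA : u ^ 13 ≤ |Vr (u ^ 24) (x₀ i)|
    · left
      simp only [mem_iUnion, exists_prop]
      refine ⟨i, Finset.mem_filter.2 ⟨Finset.mem_range.2 hi, hA⟩, hxi, ?_⟩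
      exact hxE
    · right
      refine ⟨hx, ?_⟩
      push Not at hA
      have h2 := hVvar i hi x hxi
      have h3 : 40 * u ^ 12 ≤ u ^ 13 := by rw [e13]; nlinarith
      linarith
  calc volume {x | x ∈ Icc a (a + 1) ∧ (g x, x) ∈ st (u ^ 24) ⁻¹' E}
      ≤ volume ((⋃ i ∈ G, {x | x ∈ Icc (x₀ i) (x₀ i + w) ∧ (x, h x) ∈ E}) ∪
        {x | x ∈ Icc a (a + 1) ∧ |Vr (u ^ 24) x| ≤ 2 * u ^ 13}) := measure_mono hfin
    _ ≤ volume (⋃ i ∈ G, {x | x ∈ Icc (x₀ i) (x₀ i + w) ∧ (x, h x) ∈ E}) +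
        volume {x | x ∈ Icc a (a + 1) ∧ |Vr (u ^ 24) x| ≤ 2 * u ^ 13} := measure_union_le _ _
    _ ≤ ∑ i ∈ G, ENNReal.ofReal (w * (ε + 900 / u)) +
        ENNReal.ofReal (2 * (2 * u ^ 13 / u ^ 24)) := by
        refine add_le_add ((measure_biUnion_finset_le _ _).trans (Finset.sum_le_sum ?_)) hbad
        intro i hi
        obtain ⟨h1, h2⟩ := Finset.mem_filter.1 hi
        exact hgood i (Finset.mem_range.1 h1) h2
    _ ≤ ENNReal.ofReal (N * (w * (ε + 900 / u))) + ENNReal.ofReal (2 * (2 * u ^ 13 / u ^ 24)) := by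
        refine add_le_add ?_ le_rfl
        rw [Finset.sum_const, nsmul_eq_mul, ENNReal.ofReal_mul (p := (N : ℝ)) (by positivity),
          ENNReal.ofReal_natCast]
        gcongr
        calc G.card ≤ (Finset.range N).card := Finset.card_filter_le _ _
          _ = N := Finset.card_range N
    _ = ENNReal.ofReal (N * (w * (ε + 900 / u)) + 2 * (2 * u ^ 13 / u ^ 24)) := by
        rw [← ENNReal.ofReal_add (by positivity) (by positivity)]
    _ ≤ ENNReal.ofReal (ε + 1000 / u) := by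
        refine ENNReal.ofReal_le_ofReal ?_
        have h1 : (N : ℝ) * (w * (ε + 900 / u)) = ε + 900 / u := by
          rw [← mul_assoc, hNw, one_mul]
        have h2 : 2 * (2 * u ^ 13 / u ^ 24) = 4 / u ^ 11 := by field_simp; norm_num
        have h3 : 4 / u ^ 11 ≤ 4 / u := by
          apply div_le_div_of_nonneg_left (by norm_num) hu0
          calc u = u ^ 1 := by ring
            _ ≤ u ^ 11 := pow_le_pow_right₀ hu1 (by norm_num)
        have h4 : (1000 : ℝ) / u = 900 / u + 100 / u := by ring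
        have h5 : 4 / u ≤ 100 / u := by gcongr; norm_num
        rw [h1, h2, h4]
        linarith

/-- the set of pairs whose `j`-th next digit has a small cosine -/
def Bd (k κ₀ : ℝ) (j : ℕ) : Set (ℝ × ℝ) :=
  {p | |Real.cos (2 * Real.pi * ((st k)^[j] p).2)| < κ₀}

theorem measurable_st (k : ℝ) : Measurable (st k) := by
  unfold st fr
  fun_prop


theorem ucb_zero {k κ₀ : ℝ} (hκ₀ : 0 < κ₀) (hκ₁ : κ₀ ≤ 1) (κ : ℝ≥0) :
    UCBound κ (Bd k κ₀ 0) (20 * κ₀) := by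
  intro g a _
  have h1 := volume_Vr_unit (k := 1 / κ₀) (by rw [le_div_iff₀ hκ₀]; linarith) (r := 10) (by norm_num) a
  refine (measure_mono ?_).trans (h1.trans (ENNReal.ofReal_le_ofReal ?_))
  · rintro x ⟨hx, hxB⟩
    refine ⟨hx, ?_⟩
    have h2 : |Real.cos (2 * Real.pi * x)| < κ₀ := hxB
    unfold Vr
    have h3 := Real.pi_lt_d2
    have h4 := Real.pi_pos
    calc |2 + 2 * Real.pi * (1 / κ₀) * Real.cos (2 * Real.pi * x)|
        ≤ |(2 : ℝ)| + |2 * Real.pi * (1 / κ₀) * Real.cos (2 * Real.pi * x)| := abs_add_le _ _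
      _ = 2 + 2 * Real.pi * (1 / κ₀) * |Real.cos (2 * Real.pi * x)| := by
          rw [abs_mul, abs_of_nonneg (by positivity : 0 ≤ 2 * Real.pi * (1 / κ₀)),
            abs_of_pos (by norm_num : (0 : ℝ) < 2)]
      _ ≤ 2 + 2 * Real.pi * (1 / κ₀) * κ₀ := by gcongr
      _ = 2 + 2 * Real.pi := by field_simp
      _ ≤ 10 := by linarith
  · have : 2 * (10 / (1 / κ₀)) = 20 * κ₀ := by field_simp; norm_num
    rw [this]





end Crest.Agent.R128.LocD
end

-- ▼ part R128/LocD2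
section

/-!
# Row 128, node LOC-D, second part (helper106): nice points of a cell, for `LocA0.CO` families

No recursion for the positions is needed: it holds up to constants, and translations do not matter.
-/

set_option autoImplicit false

open Set MeasureTheory Metric
open scoped NNReal ENNReal

namespace Crest.Agent.R128.LocD

open Crest.Agent.R128.CellA Crest.Agent.R128.Fresh Crest.Agent.R128.LocA
open Crest.Agent.R128.Cell Crest.Agent.R128.CellB

/-- translation of the second coordinate -/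
def tr (c : ℝ) (p : ℝ × ℝ) : ℝ × ℝ := (p.1, p.2 + c)

theorem ucb_tr {κ : ℝ≥0} {E : Set (ℝ × ℝ)} {ε : ℝ} (hE : UCBound κ E ε) (c : ℝ) :
    UCBound κ (tr c ⁻¹' E) ε := by
  intro g a hg
  have h1 := hE (fun x => g (x - c)) (a + c) (by
    intro x hx y hy
    have h := hg (show x - c ∈ Icc a (a + 1) from ⟨by linarith [hx.1], by linarith [hx.2]⟩)
      (show y - c ∈ Icc a (a + 1) from ⟨by linarith [hy.1], by linarith [hy.2]⟩)
    have e : edist (x - c) (y - c) = edist x y := by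
      rw [edist_dist, edist_dist, Real.dist_eq, Real.dist_eq]
      congr 2
      ring
    rw [e] at h
    exact h)
  have h2 : {x | x ∈ Icc a (a + 1) ∧ (g x, x) ∈ tr c ⁻¹' E} =
      (fun x => x + c) ⁻¹' {x | x ∈ Icc (a + c) (a + c + 1) ∧ (g (x - c), x) ∈ E} := by
    ext x
    simp only [mem_ofPred_eq, mem_preimage, tr, mem_Icc, add_sub_cancel_right]
    constructor
    · rintro ⟨⟨h3, h4⟩, h5⟩
      exact ⟨⟨by linarith, by linarith⟩, h5⟩
    · rintro ⟨⟨h3, h4⟩, h5⟩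
      exact ⟨⟨by linarith, by linarith⟩, h5⟩
  rw [h2, measure_preimage_add_right]
  exact h1

/-- bad pairs for the map with constants -/
def Bdc (k κ₀ : ℝ) : (ℕ → ℝ) → ℕ → Set (ℝ × ℝ)
  | _, 0 => {p | |Real.cos (2 * Real.pi * p.2)| < κ₀}
  | c, j + 1 => st k ⁻¹' (tr (c 0) ⁻¹' Bdc k κ₀ (fun i => c (i + 1)) j)

theorem measurableSet_Bdc (k κ₀ : ℝ) (c : ℕ → ℝ) (j : ℕ) : MeasurableSet (Bdc k κ₀ c j) := by
  induction j generalizing c with
  | zero =>
    unfold Bdc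
    exact measurableSet_lt (by fun_prop) measurable_const
  | succ j ih =>
    unfold Bdc
    refine (measurable_st k) ?_
    have h : Measurable (tr (c 0)) := by unfold tr; fun_prop
    exact h (ih _)

theorem ucb_Bdc {u : ℝ} (hu : 2000000 ≤ u) {κ₀ : ℝ} (hκ₀ : 0 < κ₀) (hκ₁ : κ₀ ≤ 1 / 100)
    (c : ℕ → ℝ) (j : ℕ) (hj : j ≤ 100) :
    UCBound (Real.toNNReal (1 / u ^ 12)) (Bdc (u ^ 24) κ₀ c j) (20 * κ₀ + j * (1000 / u)) := by
  have hu0 : 0 < u := by linarith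
  induction j generalizing c with
  | zero =>
    have h := ucb_zero (k := u ^ 24) hκ₀ (by linarith) (Real.toNNReal (1 / u ^ 12))
    have e : 20 * κ₀ + ((0 : ℕ) : ℝ) * (1000 / u) = 20 * κ₀ := by simp
    rw [e]
    exact h
  | succ j ih =>
    have ih' := ucb_tr (ih (fun i => c (i + 1)) (by omega)) (c 0)
    have hj' : (j : ℝ) ≤ 100 := by exact_mod_cast (by omega : j ≤ 100)
    have h1 : 1000 / u ≤ 1 / 2000 := by
      rw [div_le_div_iff₀ hu0 (by norm_num)]; linarith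
    have h2 : 20 * κ₀ + j * (1000 / u) ≤ 1 := by
      have : (j : ℝ) * (1000 / u) ≤ 100 * (1 / 2000) := by gcongr
      linarith
    have h3 := ucb_step hu (by positivity) h2 ih'
    have e2 : 20 * κ₀ + (j : ℝ) * (1000 / u) + 1000 / u = 20 * κ₀ + ((j + 1 : ℕ) : ℝ) * (1000 / u) := by
      push_cast; ring
    rw [← e2]
    exact h3

theorem mem_Bdc {k κ₀ : ℝ} {Y : ℕ → ℝ → ℝ} {t : ℝ} {c : ℕ → ℝ}
    (hY : ∀ n, Y (n + 2) t = fr k (Y (n + 1) t) - Y n t + c n) (n j : ℕ) :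
    (Y n t, Y (n + 1) t) ∈ Bdc k κ₀ (fun i => c (n + i)) j ↔
      |Real.cos (2 * Real.pi * Y (n + 1 + j) t)| < κ₀ := by
  induction j generalizing n with
  | zero => exact Iff.rfl
  | succ j ih =>
    have h := ih (n + 1)
    have e1 : n + 1 + 1 + j = n + 1 + (j + 1) := by omega
    rw [e1] at h
    rw [← h]
    have e2 : (fun i => c (n + (i + 1))) = fun i => c (n + 1 + i) := by
      funext i; congr 1; omega
    have e3 : tr (c (n + 0)) (st k (Y n t, Y (n + 1) t)) = (Y (n + 1) t, Y (n + 1 + 1) t) := by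
      have h2 : Y (n + 1 + 1) t = fr k (Y (n + 1) t) - Y n t + c n := hY n
      rw [h2]
      rfl
    change tr (c (n + 0)) (st k (Y n t, Y (n + 1) t)) ∈ Bdc k κ₀ (fun i => c (n + (i + 1))) j ↔ _
    rw [e3, e2]

/-- bad digits on a fresh cell, constants allowed in the recursion of the positions -/
theorem bad_digit_c {u : ℝ} (hu : 2000000 ≤ u) {t₀ r : ℝ} (hr : 0 < r) {Y D : ℕ → ℝ → ℝ}
    (h : RO (u ^ 24) (Icc (t₀ - r) (t₀ + r)) Y D) {c : ℕ → ℝ}
    (hY : ∀ n, ∀ t ∈ Icc (t₀ - r) (t₀ + r), Y (n + 2) t = fr (u ^ 24) (Y (n + 1) t) - Y n t + c n)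
    {M : ℕ} {η₁ : ℝ} (hη₁ : 0 ≤ η₁) (hη₁' : η₁ ≤ 1 / 20)
    (hNA : NearAff (Y (M + 1)) (D (M + 1)) (Icc (t₀ - r) (t₀ + r)) (D (M + 1) t₀) η₁)
    (hσ : ∀ t ∈ Icc (t₀ - r) (t₀ + r), |D M t| ≤ 1 / 4 * |D (M + 1) t₀|)
    (hsize : 1 / u ^ 9 ≤ |D (M + 1) t₀| * r)
    {κ₀ : ℝ} (hκ₀ : 0 < κ₀) (hκ₁ : κ₀ ≤ 1 / 100) {j : ℕ} (hj : j ≤ 100) :
    volume {t | t ∈ Icc (t₀ - r) (t₀ + r) ∧ |Real.cos (2 * Real.pi * Y (M + 2 + j) t)| < κ₀} ≤
      ENNReal.ofReal (2 * r * (40 * κ₀ + (2000 * j + 24) / u)) := by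
  have hu0 : 0 < u := by linarith
  have h1 := lap_transfer_u (by linarith : (2000 : ℝ) ≤ u) hr h hη₁ hη₁' hNA hσ hsize
    (measurableSet_Bdc (u ^ 24) κ₀ (fun i => c (M + 1 + i)) j) (by positivity)
    (ucb_Bdc hu hκ₀ hκ₁ _ j hj)
  refine (measure_mono ?_).trans (h1.trans (ENNReal.ofReal_le_ofReal ?_))
  · rintro t ⟨ht, hc⟩
    refine ⟨ht, ?_⟩
    have := (mem_Bdc (k := u ^ 24) (κ₀ := κ₀) (Y := Y) (t := t) (c := c) (fun n => hY n t ht) (M + 1) j).2
    exact this hc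
  · refine mul_le_mul_of_nonneg_left (le_of_eq ?_) (by positivity)
    ring

/-- all bad digits -/
theorem bad_digits_c {u : ℝ} (hu : 10 ^ 9 ≤ u) {t₀ r : ℝ} (hr : 0 < r) {Y D : ℕ → ℝ → ℝ}
    (h : RO (u ^ 24) (Icc (t₀ - r) (t₀ + r)) Y D) {c : ℕ → ℝ}
    (hY : ∀ n, ∀ t ∈ Icc (t₀ - r) (t₀ + r), Y (n + 2) t = fr (u ^ 24) (Y (n + 1) t) - Y n t + c n)
    {M : ℕ} {η₁ : ℝ} (hη₁ : 0 ≤ η₁) (hη₁' : η₁ ≤ 1 / 20)
    (hNA : NearAff (Y (M + 1)) (D (M + 1)) (Icc (t₀ - r) (t₀ + r)) (D (M + 1) t₀) η₁)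
    (hσ : ∀ t ∈ Icc (t₀ - r) (t₀ + r), |D M t| ≤ 1 / 4 * |D (M + 1) t₀|)
    (hsize : 1 / u ^ 9 ≤ |D (M + 1) t₀| * r) {n : ℕ} (hn : n ≤ 20) :
    volume {t | t ∈ Icc (t₀ - r) (t₀ + r) ∧
        ∃ j < n, |Real.cos (2 * Real.pi * Y (M + 2 + j) t)| < 1 / 10000} ≤
      ENNReal.ofReal (2 * r * (1 / 10)) := by
  have hu0 : (0 : ℝ) < u := by linarith [show (0 : ℝ) < 10 ^ 9 by norm_num]
  have hsub : {t | t ∈ Icc (t₀ - r) (t₀ + r) ∧
      ∃ j < n, |Real.cos (2 * Real.pi * Y (M + 2 + j) t)| < 1 / 10000} ⊆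
      ⋃ j ∈ Finset.range n, {t | t ∈ Icc (t₀ - r) (t₀ + r) ∧
        |Real.cos (2 * Real.pi * Y (M + 2 + j) t)| < 1 / 10000} := by
    rintro t ⟨ht, j, hj, hc⟩
    simp only [mem_iUnion, Finset.mem_range, exists_prop]
    exact ⟨j, hj, ht, hc⟩
  refine (measure_mono hsub).trans ((measure_biUnion_finset_le _ _).trans ?_)
  calc ∑ j ∈ Finset.range n, volume {t | t ∈ Icc (t₀ - r) (t₀ + r) ∧
        |Real.cos (2 * Real.pi * Y (M + 2 + j) t)| < 1 / 10000}
      ≤ ∑ j ∈ Finset.range n, ENNReal.ofReal (2 * r * (1 / 200)) := by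
        refine Finset.sum_le_sum fun j hj => ?_
        have hjn : j < n := Finset.mem_range.1 hj
        refine (bad_digit_c (by linarith [show (2000000 : ℝ) ≤ 10 ^ 9 by norm_num]) hr h hY hη₁ hη₁'
          hNA hσ hsize (κ₀ := 1 / 10000) (by norm_num)
          (by norm_num) (by omega : j ≤ 100)).trans (ENNReal.ofReal_le_ofReal ?_)
        refine mul_le_mul_of_nonneg_left ?_ (by positivity)
        have hj20 : (j : ℝ) ≤ 20 := by exact_mod_cast (by omega : j ≤ 20)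
        have h3 : (2000 * (j : ℝ) + 24) / u ≤ 1 / 2000 := by
          rw [div_le_div_iff₀ hu0 (by norm_num)]
          have : (10 : ℝ) ^ 9 ≤ u := hu
          norm_num at this
          nlinarith
        norm_num at h3 ⊢
        linarith
    _ = ENNReal.ofReal (n * (2 * r * (1 / 200))) := by
        rw [Finset.sum_const, Finset.card_range, nsmul_eq_mul,
          ENNReal.ofReal_mul (p := (n : ℝ)) (by positivity), ENNReal.ofReal_natCast]
    _ ≤ ENNReal.ofReal (2 * r * (1 / 10)) := by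
        refine ENNReal.ofReal_le_ofReal ?_
        have hn20 : (n : ℝ) ≤ 20 := by exact_mod_cast hn
        nlinarith

/-- real form of a complex family -/
theorem RO_of_CO {k : ℝ} {S : Set ℂ} {Y D : ℕ → ℂ → ℂ} (h : CO k S Y D) {s : Set ℝ}
    (hs : ∀ t ∈ s, (t : ℂ) ∈ S) :
    RO k s (fun n t => (Y n (t : ℂ)).re) (fun n t => (D n (t : ℂ)).re) := by
  constructor
  · intro n t ht
    exact (h.deriv n t (hs t ht)).real_of_complex.hasDerivWithinAt
  · intro n t ht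
    have h1 := h.step n t (hs t ht)
    have h2 : Y (n + 1) (t : ℂ) = (((Y (n + 1) (t : ℂ)).re : ℝ) : ℂ) := by
      apply Complex.ext
      · simp
      · simp [h.real (n + 1) t]
    rw [h1, h2, cV_ofReal, Complex.sub_re, Complex.re_ofReal_mul, V_coe]
    rfl

theorem norm_D_real {k : ℝ} {S : Set ℂ} {Y D : ℕ → ℂ → ℂ} (h : CO k S Y D) (n : ℕ) (t : ℝ) :
    ‖D n (t : ℂ)‖ = |(D n (t : ℂ)).re| := by
  have h2 : D n (t : ℂ) = (((D n (t : ℂ)).re : ℝ) : ℂ) := by
    apply Complex.ext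
    · simp
    · simp [h.realD n t]
  rw [h2, Complex.norm_real, Real.norm_eq_abs, Complex.ofReal_re]

theorem vv_real {k : ℝ} {S : Set ℂ} {Y D : ℕ → ℂ → ℂ} (h : CO k S Y D) (n : ℕ) (t : ℝ) :
    vv k Y n (t : ℂ) = |Vr k (Y n (t : ℂ)).re| := by
  have h2 : Y n (t : ℂ) = (((Y n (t : ℂ)).re : ℝ) : ℂ) := by
    apply Complex.ext
    · simp
    · simp [h.real n t]
  unfold vv
  rw [h2, cV_ofReal, V_coe, Complex.norm_real, Real.norm_eq_abs, Complex.ofReal_re]
  rfl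

/-- the recursion of the positions holds up to constants -/
theorem exists_const {k : ℝ} {s : Set ℝ} (hs : Convex ℝ s) {Y D : ℕ → ℝ → ℝ} (h : RO k s Y D)
    {t₀ : ℝ} (ht₀ : t₀ ∈ s) :
    ∃ c : ℕ → ℝ, ∀ n, ∀ t ∈ s, Y (n + 2) t = fr k (Y (n + 1) t) - Y n t + c n := by
  refine ⟨fun n => Y (n + 2) t₀ - (fr k (Y (n + 1) t₀) - Y n t₀), ?_⟩
  intro n t ht
  have h1 : ∀ z ∈ s, HasDerivWithinAt (fun z => Y (n + 2) z - (fr k (Y (n + 1) z) - Y n z)) 0 s z := by
    intro z hz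
    have h2 := (hasDerivAt_fr k (Y (n + 1) z)).comp_hasDerivWithinAt z (h.deriv (n + 1) z hz)
    have h3 := (h.deriv (n + 2) z hz).sub (h2.sub (h.deriv n z hz))
    rw [h.step n z hz, sub_self] at h3
    exact h3
  have h4 := hs.norm_image_sub_le_of_norm_hasDerivWithin_le (C := 0) h1 (by simp) ht₀ ht
  rw [zero_mul] at h4
  have h5 := norm_le_zero_iff.1 h4
  simp only at h5 ⊢
  linarith

/-- **Nice points of a cell** (form used by LocA, helper595): `M = n0 + jS` is the index before the exit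
curve; the cell is `[a,b]`, `b - a = ρ`, the base point is any real `t₀` of the cell. -/
theorem nice_points {k : ℝ} (hk : 10 ^ 240 ≤ k) {Y D : ℕ → ℂ → ℂ} {t₀ ρ a b : ℝ} (hρ : 0 < ρ)
    (hab : b - a = ρ) (hat : a ≤ t₀) (htb : t₀ ≤ b)
    (co : CO k (ball (t₀ : ℂ) (2 * ρ)) Y D) {M : ℕ}
    (close : ∀ t ∈ ball (t₀ : ℂ) (2 * ρ), ‖D (M + 1) t - D (M + 1) t₀‖ ≤ 1 / 100 * ‖D (M + 1) t₀‖)
    (prev : ∀ t ∈ ball (t₀ : ℂ) (2 * ρ), ‖D M t‖ ≤ 1 / 5 * ‖D (M + 1) t₀‖)
    (size : k ^ (-(7 / 20) : ℝ) ≤ ‖D (M + 1) t₀‖ * ρ) :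
    volume {t : ℝ | t ∈ Icc a b ∧ ¬ (k ^ (3 / 5 : ℝ) ≤ vv k Y (M + 1) t ∧
      ∀ i, 1 ≤ i → i ≤ 5 → 1 / 10 ^ 4 * k ≤ vv k Y (M + 1 + i) t)} ≤ ENNReal.ofReal (ρ / 8) := by
  have hk0 : 0 < k := by
    have : (0 : ℝ) < 10 ^ 240 := by positivity
    linarith
  have hk1 : 1 ≤ k := by
    have : (1 : ℝ) ≤ 10 ^ 240 := one_le_pow₀ (by norm_num)
    linarith
  set u : ℝ := k ^ (1 / 24 : ℝ) with hu
  have hu24 : u ^ 24 = k := by
    rw [hu, ← Real.rpow_natCast, ← Real.rpow_mul hk0.le]; norm_num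
  have hu10 : (10 : ℝ) ^ 10 ≤ u := by
    rw [hu]
    have h1 : ((10 : ℝ) ^ 240) ^ (1 / 24 : ℝ) ≤ k ^ (1 / 24 : ℝ) :=
      Real.rpow_le_rpow (by positivity) hk (by norm_num)
    have h2 : ((10 : ℝ) ^ 240) ^ (1 / 24 : ℝ) = 10 ^ 10 := by
      rw [← Real.rpow_natCast, ← Real.rpow_natCast, ← Real.rpow_mul (by norm_num)]; norm_num
    rw [← h2]; exact h1
  have hu0 : 0 < u := lt_of_lt_of_le (by positivity) hu10
  have hu1 : 1 ≤ u := by
    have : (1 : ℝ) ≤ 10 ^ 10 := by norm_num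
    linarith
  -- the real family at the midpoint
  set mid : ℝ := (a + b) / 2 with hmid
  set r : ℝ := ρ / 2 with hr
  have hr0 : 0 < r := by positivity
  have hI : Icc (mid - r) (mid + r) = Icc a b := by
    congr 1
    · rw [hmid, hr]; linarith
    · rw [hmid, hr]; linarith
  have hball : ∀ t ∈ Icc a b, (t : ℂ) ∈ ball (t₀ : ℂ) (2 * ρ) := by
    intro t ht
    rw [mem_ball, Complex.dist_eq, ← Complex.ofReal_sub, Complex.norm_real, Real.norm_eq_abs]
    rw [abs_lt]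
    constructor <;> linarith [ht.1, ht.2]
  have hmidI : mid ∈ Icc a b := ⟨by rw [hmid]; linarith, by rw [hmid]; linarith⟩
  have ht₀I : t₀ ∈ Icc a b := ⟨hat, htb⟩
  set Yr : ℕ → ℝ → ℝ := fun n t => (Y n (t : ℂ)).re with hYr
  set Dr : ℕ → ℝ → ℝ := fun n t => (D n (t : ℂ)).re with hDr
  have hRO0 : RO k (Icc a b) Yr Dr := RO_of_CO co hball
  have hRO : RO (u ^ 24) (Icc (mid - r) (mid + r)) Yr Dr := by rw [hu24, hI]; exact hRO0
  obtain ⟨c, hc⟩ := exists_const (convex_Icc a b) hRO0 hmidI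
  set L := ‖D (M + 1) (t₀ : ℂ)‖ with hL
  have hL0 : 0 < L := by
    have h1 : 0 < k ^ (-(7 / 20) : ℝ) := Real.rpow_pos_of_pos hk0 _
    by_contra hcon
    push Not at hcon
    have : L * ρ ≤ 0 := mul_nonpos_of_nonpos_of_nonneg hcon hρ.le
    linarith
  have hDre : ∀ t ∈ Icc a b, |Dr (M + 1) t - Dr (M + 1) t₀| ≤ 1 / 100 * L := by
    intro t ht
    have h1 := close t (hball t ht)
    refine le_trans ?_ h1
    have h2 := Complex.abs_re_le_norm (D (M + 1) (t : ℂ) - D (M + 1) (t₀ : ℂ))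
    rw [Complex.sub_re] at h2
    exact h2
  have hLt : |Dr (M + 1) t₀| = L := (norm_D_real co (M + 1) t₀).symm
  have hLm : 99 / 100 * L ≤ |Dr (M + 1) mid| := by
    have h1 := hDre mid hmidI
    have h2 := abs_sub_abs_le_abs_sub (Dr (M + 1) t₀) (Dr (M + 1) mid)
    rw [abs_sub_comm (Dr (M + 1) t₀)] at h2
    linarith
  have hDne : Dr (M + 1) mid ≠ 0 := abs_pos.1 (lt_of_lt_of_le (by positivity) hLm)
  have hNA : NearAff (Yr (M + 1)) (Dr (M + 1)) (Icc (mid - r) (mid + r)) (Dr (M + 1) mid) (1 / 40) := by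
    rw [hI]
    refine ⟨fun t ht => hRO0.deriv (M + 1) t ht, ?_⟩
    intro t ht
    have h1 := hDre t ht
    have h2 := hDre mid hmidI
    have h3 : |Dr (M + 1) t - Dr (M + 1) mid| ≤ 1 / 100 * L + 1 / 100 * L := by
      have : Dr (M + 1) t - Dr (M + 1) mid =
          (Dr (M + 1) t - Dr (M + 1) t₀) - (Dr (M + 1) mid - Dr (M + 1) t₀) := by ring
      rw [this]
      exact (abs_sub _ _).trans (add_le_add h1 h2)
    linarith
  have hσ : ∀ t ∈ Icc (mid - r) (mid + r), |Dr M t| ≤ 1 / 4 * |Dr (M + 1) mid| := by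
    intro t ht
    rw [hI] at ht
    have h1 := prev t (hball t ht)
    have h2 : |Dr M t| = ‖D M (t : ℂ)‖ := (norm_D_real co M t).symm
    rw [h2]
    linarith
  have hsz1 : u ^ (-(42 / 5) : ℝ) = k ^ (-(7 / 20) : ℝ) := by
    rw [hu, ← Real.rpow_mul hk0.le]; norm_num
  have hsize : 1 / u ^ 9 ≤ |Dr (M + 1) mid| * r := by
    have h1 : 1 / u ^ 9 * 4 ≤ k ^ (-(7 / 20) : ℝ) := by
      rw [← hsz1]
      have h2 : u ^ (-(42 / 5) : ℝ) = 1 / u ^ 9 * u ^ (3 / 5 : ℝ) := by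
        rw [← Real.rpow_natCast, one_div, ← Real.rpow_neg hu0.le, ← Real.rpow_add hu0]; norm_num
      rw [h2]
      have h3 : (4 : ℝ) ≤ u ^ (3 / 5 : ℝ) := by
        calc (4 : ℝ) ≤ ((10 : ℝ) ^ 10) ^ (3 / 5 : ℝ) := by
              rw [← Real.rpow_natCast, ← Real.rpow_mul (by norm_num)]; norm_num
          _ ≤ u ^ (3 / 5 : ℝ) := Real.rpow_le_rpow (by positivity) hu10 (by norm_num)
      gcongr
    have h2 : 99 / 100 * L * (ρ / 2) ≤ |Dr (M + 1) mid| * r := by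
      rw [hr]; gcongr
    have h3 : 0 < L * ρ := by positivity
    nlinarith
  have hbad := bad_digits_c (u := u) (by linarith [show (10 : ℝ) ^ 9 ≤ 10 ^ 10 by norm_num]) hr0 hRO
    (c := c) (by intro n t ht; rw [hI] at ht; rw [hu24]; exact hc n t ht) (η₁ := 1 / 40) (by norm_num)
    (by norm_num) hNA hσ hsize (n := 5) (by norm_num)
  -- the exit digit
  have hexit : volume {t | t ∈ Icc a b ∧ |Vr k (Yr (M + 1) t)| < k ^ (3 / 5 : ℝ)} ≤
      ENNReal.ofReal (ρ / 100) := by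
    set A : ℝ := k ^ (3 / 5 : ℝ) with hA
    have hA0 : 0 ≤ A := Real.rpow_nonneg hk0.le _
    have hV : Measurable (Vr k) := by
      unfold Vr; fun_prop
    have hms : MeasurableSet {x : ℝ | |Vr k x| ≤ A} := measurableSet_le hV.abs measurable_const
    have hper : ∀ x, x ∈ {x : ℝ | |Vr k x| ≤ A} ↔ x + 1 ∈ {x : ℝ | |Vr k x| ≤ A} := by
      intro x; simp only [mem_ofPred_eq, Vr_add_one]
    rw [hI] at hNA
    have h1 := hNA.equidistribution (by linarith : a < b) hDne (by norm_num : (1 / 40 : ℝ) < 1) hms hper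
    have h2 := volume_Vr_small hk1 (r := A) hA0
    have hkA : A / k ≤ k ^ (-(2 / 5) : ℝ) := by
      rw [hA, div_le_iff₀ hk0]
      nth_rewrite 3 [← Real.rpow_one k]
      rw [← Real.rpow_add hk0]; norm_num
    have h3 : ((1 + 1 / 40) * |Dr (M + 1) mid| * (b - a) + 1) / ((1 - 1 / 40) * |Dr (M + 1) mid|) * (A / k) ≤
        ρ / 100 := by
      set l := |Dr (M + 1) mid| with hl
      have hl0 : 0 < l := abs_pos.2 hDne
      have hlρ : k ^ (-(7 / 20) : ℝ) / 2 ≤ l * ρ := by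
        have : 99 / 100 * L * ρ ≤ l * ρ := by gcongr
        nlinarith [mul_pos hL0 hρ]
      have hq0 : 0 < k ^ (-(7 / 20) : ℝ) := Real.rpow_pos_of_pos hk0 _
      have h4 : ((1 + 1 / 40) * l * (b - a) + 1) / ((1 - 1 / 40) * l) ≤ ρ * (6 * k ^ (7 / 20 : ℝ)) := by
        rw [div_le_iff₀ (by positivity), hab]
        have h5 : k ^ (7 / 20 : ℝ) * k ^ (-(7 / 20) : ℝ) = 1 := by
          rw [← Real.rpow_add hk0]; norm_num
        have h6 : 1 ≤ k ^ (7 / 20 : ℝ) := Real.one_le_rpow hk1 (by norm_num)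
        have h7 : 1 ≤ 2 * (l * ρ) * k ^ (7 / 20 : ℝ) := by
          calc (1 : ℝ) = k ^ (7 / 20 : ℝ) * k ^ (-(7 / 20) : ℝ) := h5.symm
            _ ≤ k ^ (7 / 20 : ℝ) * (2 * (l * ρ)) := by gcongr; linarith
            _ = _ := by ring
        have h8 : l * ρ ≤ l * ρ * k ^ (7 / 20 : ℝ) := le_mul_of_one_le_right (by positivity) h6
        nlinarith
      calc ((1 + 1 / 40) * l * (b - a) + 1) / ((1 - 1 / 40) * l) * (A / k)
          ≤ ρ * (6 * k ^ (7 / 20 : ℝ)) * k ^ (-(2 / 5) : ℝ) := by gcongr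
        _ = ρ * (6 * (k ^ (7 / 20 : ℝ) * k ^ (-(2 / 5) : ℝ))) := by ring
        _ = ρ * (6 * k ^ (-(1 / 20) : ℝ)) := by
            rw [← Real.rpow_add hk0]; norm_num
        _ ≤ ρ * (1 / 100) := by
            have h9 : k ^ (-(1 / 20) : ℝ) ≤ 1 / 1000 := by
              rw [Real.rpow_neg hk0.le, inv_eq_one_div]
              refine one_div_le_one_div_of_le (by norm_num) ?_
              calc (1000 : ℝ) ≤ ((10 : ℝ) ^ 240) ^ (1 / 20 : ℝ) := by
                    rw [← Real.rpow_natCast, ← Real.rpow_mul (by norm_num)]; norm_num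
                _ ≤ k ^ (1 / 20 : ℝ) := Real.rpow_le_rpow (by positivity) hk (by norm_num)
            gcongr
            linarith
        _ = ρ / 100 := by ring
    calc volume {t | t ∈ Icc a b ∧ |Vr k (Yr (M + 1) t)| < A}
        ≤ volume (Icc a b ∩ Yr (M + 1) ⁻¹' {x : ℝ | |Vr k x| ≤ A}) := by
          refine measure_mono ?_
          rintro t ⟨ht, h⟩
          exact ⟨ht, h.le⟩
      _ ≤ _ := h1
      _ ≤ ENNReal.ofReal (((1 + 1 / 40) * |Dr (M + 1) mid| * (b - a) + 1) /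
            ((1 - 1 / 40) * |Dr (M + 1) mid|)) * ENNReal.ofReal (A / k) := by gcongr
      _ = ENNReal.ofReal (((1 + 1 / 40) * |Dr (M + 1) mid| * (b - a) + 1) /
            ((1 - 1 / 40) * |Dr (M + 1) mid|) * (A / k)) := by
          rw [← ENNReal.ofReal_mul]
          rw [hab]
          positivity
      _ ≤ ENNReal.ofReal (ρ / 100) := ENNReal.ofReal_le_ofReal h3
  -- conclusion
  have hsub : {t : ℝ | t ∈ Icc a b ∧ ¬ (k ^ (3 / 5 : ℝ) ≤ vv k Y (M + 1) t ∧
      ∀ i, 1 ≤ i → i ≤ 5 → 1 / 10 ^ 4 * k ≤ vv k Y (M + 1 + i) t)} ⊆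
      {t | t ∈ Icc a b ∧ |Vr k (Yr (M + 1) t)| < k ^ (3 / 5 : ℝ)} ∪
      {t | t ∈ Icc (mid - r) (mid + r) ∧
        ∃ j < 5, |Real.cos (2 * Real.pi * Yr (M + 2 + j) t)| < 1 / 10000} := by
    rintro t ⟨ht, hn⟩
    by_cases h1 : k ^ (3 / 5 : ℝ) ≤ vv k Y (M + 1) t
    · right
      refine ⟨by rw [hI]; exact ht, ?_⟩
      by_contra hcon
      push Not at hcon
      apply hn
      refine ⟨h1, ?_⟩
      intro i hi1 hi5
      have h2 := hcon (i - 1) (by omega)
      rw [show M + 2 + (i - 1) = M + 1 + i by omega] at h2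
      rw [vv_real co]
      change 1 / 10 ^ 4 * k ≤ |Vr k (Yr (M + 1 + i) t)|
      set x := Yr (M + 1 + i) t with hx
      unfold Vr
      have h3 : |2 * Real.pi * k * Real.cos (2 * Real.pi * x)| - |(2 : ℝ)| ≤
          |2 + 2 * Real.pi * k * Real.cos (2 * Real.pi * x)| := by
        have := abs_sub_abs_le_abs_sub (2 * Real.pi * k * Real.cos (2 * Real.pi * x)) (-2)
        rw [abs_neg] at this
        have e : 2 * Real.pi * k * Real.cos (2 * Real.pi * x) - -2 =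
            2 + 2 * Real.pi * k * Real.cos (2 * Real.pi * x) := by ring
        rwa [e] at this
      rw [abs_mul, abs_of_nonneg (by positivity : 0 ≤ 2 * Real.pi * k),
        abs_of_pos (by norm_num : (0 : ℝ) < 2)] at h3
      have h4 : 2 * Real.pi * k * (1 / 10000) ≤ 2 * Real.pi * k * |Real.cos (2 * Real.pi * x)| := by
        gcongr
      have h5 := Real.pi_gt_three
      have h6 : 6 * k * (1 / 10000) ≤ 2 * Real.pi * k * (1 / 10000) := by
        have : 6 * k ≤ 2 * Real.pi * k := by nlinarith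
        linarith
      have h7 : (10 : ℝ) ^ 10 ≤ k := by
        have : (10 : ℝ) ^ 10 ≤ 10 ^ 240 := pow_le_pow_right₀ (by norm_num) (by norm_num)
        linarith
      norm_num at h7 ⊢
      linarith
    · left
      push Not at h1
      rw [vv_real co] at h1
      exact ⟨ht, h1⟩
  calc volume _ ≤ volume ({t | t ∈ Icc a b ∧ |Vr k (Yr (M + 1) t)| < k ^ (3 / 5 : ℝ)} ∪
      {t | t ∈ Icc (mid - r) (mid + r) ∧
        ∃ j < 5, |Real.cos (2 * Real.pi * Yr (M + 2 + j) t)| < 1 / 10000}) := measure_mono hsub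
    _ ≤ ENNReal.ofReal (ρ / 100) + ENNReal.ofReal (2 * r * (1 / 10)) :=
        (measure_union_le _ _).trans (add_le_add hexit hbad)
    _ = ENNReal.ofReal (ρ / 100 + 2 * r * (1 / 10)) := by
        rw [← ENNReal.ofReal_add (by positivity) (by positivity)]
    _ ≤ ENNReal.ofReal (ρ / 8) := by
        refine ENNReal.ofReal_le_ofReal ?_
        rw [hr]; linarith

end Crest.Agent.R128.LocD
private theorem rz_731fce3eb1 : type_of% @_root_.Crest.Agent.R128.LocD.Bdc.eq_def := @_root_.Crest.Agent.R128.LocD.Bdc.eq_def -- L49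
end

-- ▼ part R128/LocSel
section

/-! Row 128, V5 (helper13): selection of the pair of exit times of the two sides (pure real numbers),
for helper595's LocA.  Sorry free. -/

set_option autoImplicit false

namespace Crest.Agent.R128.LocSel

set_option maxHeartbeats 1000000 in
/-- the scaled form (`ρ = 1`) -/
theorem select1 {k A δ : ℝ} {a b : ℕ → ℝ} (hk : 10 ^ 100 ≤ k) (hA : 10 ^ 40 * k ≤ A ^ 2)
    (hA0 : 10 ^ 40 ≤ A) (hδ : 0 < δ) (hδ1 : δ ≤ 1) (hAδ : 1 ≤ A * δ)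
    (ha0 : δ / 2 ≤ a 0) (ha0' : a 0 ≤ 20 * k * δ) (hb0 : δ / 2 ≤ b 0) (hb0' : b 0 ≤ 20 * k * δ)
    (ha1 : A / 2 * a 0 ≤ a 1) (hb1 : A / 2 * b 0 ≤ b 1)
    (ha : ∀ j, 1 ≤ j → j ≤ 5 → k / 10 ^ 5 * a j ≤ a (j + 1))
    (hb : ∀ j, 1 ≤ j → j ≤ 5 → k / 10 ^ 5 * b j ≤ b (j + 1))
    (ha' : ∀ j ≤ 5, a (j + 1) ≤ 11 * k * a j) (hb' : ∀ j ≤ 5, b (j + 1) ≤ 11 * k * b j) :
    ∃ i j, 3 ≤ i ∧ i ≤ 6 ∧ 3 ≤ j ∧ j ≤ 6 ∧
      ((a i ≤ b j ∧ b j ≤ 4 * Real.sqrt k * a i) ∨ (b j ≤ a i ∧ a i ≤ 4 * Real.sqrt k * b j)) ∧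
      k ≤ a i ∧ k ≤ b j ∧ a i ≤ k ^ 8 ∧ b j ≤ k ^ 8 := by
  have hk0 : 0 < k := lt_of_lt_of_le (by positivity) hk
  have hk1 : 1 ≤ k := le_trans (by norm_num) hk
  have hA0' : 0 < A := lt_of_lt_of_le (by positivity) hA0
  have hs0 : 0 < Real.sqrt k := Real.sqrt_pos.2 hk0
  have hs1 : 1 ≤ Real.sqrt k := by rw [Real.one_le_sqrt]; exact hk1
  have hss : Real.sqrt k * Real.sqrt k = k := Real.mul_self_sqrt hk0.le
  have hsk : Real.sqrt k ≤ k := by nlinarith only [hss, hs1]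
  -- `A ≥ 10^20 √k`
  have hAs : 10 ^ 20 * Real.sqrt k ≤ A := by
    refine le_of_sq_le_sq (a := 10 ^ 20 * Real.sqrt k) ?_ hA0'.le
    calc (10 ^ 20 * Real.sqrt k) ^ 2 = 10 ^ 40 * (Real.sqrt k * Real.sqrt k) := by ring
      _ = 10 ^ 40 * k := by rw [hss]
      _ ≤ A ^ 2 := hA
  -- lower bounds
  have low : ∀ c : ℕ → ℝ, δ / 2 ≤ c 0 → A / 2 * c 0 ≤ c 1 →
      (∀ j, 1 ≤ j → j ≤ 5 → k / 10 ^ 5 * c j ≤ c (j + 1)) →
      A * δ / 4 ≤ c 1 ∧ k / 10 ^ 5 * (A * δ / 4) ≤ c 2 ∧ k ^ 2 / 10 ^ 10 * (A * δ / 4) ≤ c 3 ∧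
      k ^ 3 / 10 ^ 15 * (A * δ / 4) ≤ c 4 ∧ k ^ 4 / 10 ^ 20 * (A * δ / 4) ≤ c 5 ∧
      k ^ 5 / 10 ^ 25 * (A * δ / 4) ≤ c 6 := by
    intro c h0 h1 h
    have e1 : A * δ / 4 ≤ c 1 := by
      calc A * δ / 4 = A / 2 * (δ / 2) := by ring
        _ ≤ A / 2 * c 0 := by gcongr
        _ ≤ c 1 := h1
    have st : ∀ j x, 1 ≤ j → j ≤ 5 → x ≤ c j → k / 10 ^ 5 * x ≤ c (j + 1) := by
      intro j x hj hj' hx
      exact le_trans (by gcongr) (h j hj hj')
    have e2 := st 1 _ le_rfl (by norm_num) e1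
    have e3 := st 2 _ (by norm_num) (by norm_num) e2
    have e4 := st 3 _ (by norm_num) (by norm_num) e3
    have e5 := st 4 _ (by norm_num) (by norm_num) e4
    have e6 := st 5 _ (by norm_num) (by norm_num) e5
    refine ⟨e1, e2, ?_, ?_, ?_, ?_⟩
    · exact le_trans (le_of_eq (by ring)) e3
    · exact le_trans (le_of_eq (by ring)) e4
    · exact le_trans (le_of_eq (by ring)) e5
    · exact le_trans (le_of_eq (by ring)) e6
  -- upper bounds
  have up : ∀ c : ℕ → ℝ, c 0 ≤ 20 * k * δ → (∀ j ≤ 5, c (j + 1) ≤ 11 * k * c j) →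
      c 2 ≤ 2420 * k ^ 3 * δ ∧ c 3 ≤ 26620 * k ^ 4 * δ ∧ c 4 ≤ 292820 * k ^ 5 * δ := by
    intro c h0 h
    have st : ∀ j x, j ≤ 5 → c j ≤ x → c (j + 1) ≤ 11 * k * x := by
      intro j x hj hx
      exact (h j hj).trans (by gcongr)
    have e1 := st 0 _ (by norm_num) h0
    have e2 := st 1 _ (by norm_num) e1
    have e3 := st 2 _ (by norm_num) e2
    have e4 := st 3 _ (by norm_num) e3
    refine ⟨?_, ?_, ?_⟩
    · exact e2.trans (le_of_eq (by ring))
    · exact e3.trans (le_of_eq (by ring))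
    · exact e4.trans (le_of_eq (by ring))
  obtain ⟨la1, la2, la3, la4, la5, la6⟩ := low a ha0 ha1 ha
  obtain ⟨lb1, lb2, lb3, lb4, lb5, lb6⟩ := low b hb0 hb1 hb
  obtain ⟨ua2, ua3, ua4⟩ := up a ha0' ha'
  obtain ⟨ub2, ub3, ub4⟩ := up b hb0' hb'
  have hkk : (1:ℝ) ≤ k / 10 ^ 5 := by
    rw [le_div_iff₀ (by positivity)]
    exact le_trans (by norm_num) hk
  have ha4 : k ≤ a 4 := by
    refine le_trans ?_ la4
    have h1 : (4 * 10 ^ 15 : ℝ) * k ≤ k ^ 3 := by
      have h0 : (4 * 10 ^ 15 : ℝ) ≤ k := le_trans (by norm_num) hk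
      calc (4 * 10 ^ 15 : ℝ) * k ≤ k * k := by gcongr
        _ = k ^ 2 := by ring
        _ ≤ k ^ 3 := pow_le_pow_right₀ hk1 (by norm_num)
    calc k = (4 * 10 ^ 15 * k) / 10 ^ 15 * (1 / 4) := by ring
      _ ≤ k ^ 3 / 10 ^ 15 * (A * δ / 4) := by gcongr
  have hb3 : k ≤ b 3 := by
    refine le_trans ?_ lb3
    have h1 : (4 * 10 ^ 10 : ℝ) * k ≤ k ^ 2 := by
      have h0 : (4 * 10 ^ 10 : ℝ) ≤ k := le_trans (by norm_num) hk
      calc (4 * 10 ^ 10 : ℝ) * k ≤ k * k := by gcongr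
        _ = k ^ 2 := by ring
    calc k = (4 * 10 ^ 10 * k) / 10 ^ 10 * (1 / 4) := by ring
      _ ≤ k ^ 2 / 10 ^ 10 * (A * δ / 4) := by gcongr
  have hbmono : ∀ j, 3 ≤ j → j ≤ 5 → k ≤ b j → k ≤ b (j + 1) := by
    intro j h3 h5 h1
    calc k = 1 * k := (one_mul k).symm
      _ ≤ k / 10 ^ 5 * b j := by gcongr
      _ ≤ b (j + 1) := hb j (by omega) h5
  have hb4 := hbmono 3 le_rfl (by norm_num) hb3
  have hb5 := hbmono 4 (by norm_num) (by norm_num) hb4
  have hb6 := hbmono 5 (by norm_num) le_rfl hb5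
  have hk8 : ∀ c : ℝ, c ≤ 292820 * k ^ 5 * δ → 4 * Real.sqrt k * c ≤ k ^ 8 := by
    intro c hc
    have h1 : (4 * 292820 : ℝ) ≤ k := le_trans (by norm_num) hk
    calc 4 * Real.sqrt k * c ≤ 4 * Real.sqrt k * (292820 * k ^ 5 * δ) := by gcongr
      _ ≤ 4 * k * (292820 * k ^ 5 * 1) := by gcongr
      _ = (4 * 292820) * k ^ 6 := by ring
      _ ≤ k * k ^ 6 := by gcongr
      _ = k ^ 7 := by ring
      _ ≤ k ^ 8 := pow_le_pow_right₀ hk1 (by norm_num)
  have ha48 : a 4 ≤ k ^ 8 := by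
    have h1 := hk8 _ ua4
    have h2 : a 4 ≤ 4 * Real.sqrt k * a 4 :=
      le_mul_of_one_le_left (hk0.le.trans ha4) (by linarith only [hs1])
    exact h2.trans h1
  -- `b 2 < a 4`, `b 3` is not too big, `a 4 ≤ b 6`
  have h24 : b 3 ≤ 4 * Real.sqrt k * a 4 := by
    calc b 3 ≤ 26620 * k ^ 4 * δ := ub3
      _ = 26620 * (k ^ 3 * (Real.sqrt k * Real.sqrt k)) * δ := by rw [hss]; ring
      _ ≤ 10 ^ 5 * (k ^ 3 * (Real.sqrt k * Real.sqrt k)) * δ := by gcongr; norm_num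
      _ = 4 * Real.sqrt k * (k ^ 3 / 10 ^ 15 * ((10 ^ 20 * Real.sqrt k) * δ / 4)) := by ring
      _ ≤ 4 * Real.sqrt k * (k ^ 3 / 10 ^ 15 * (A * δ / 4)) := by gcongr
      _ ≤ 4 * Real.sqrt k * a 4 := by gcongr
  have h46 : a 4 ≤ b 6 := by
    calc a 4 ≤ 292820 * k ^ 5 * δ := ua4
      _ ≤ (10 ^ 40 / (4 * 10 ^ 25)) * k ^ 5 * δ := by gcongr; norm_num
      _ = k ^ 5 / 10 ^ 25 * (10 ^ 40 * δ / 4) := by ring
      _ ≤ k ^ 5 / 10 ^ 25 * (A * δ / 4) := by gcongr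
      _ ≤ b 6 := lb6
  have step : ∀ j, 3 ≤ j → j ≤ 5 → b j < a 4 → a 4 ≤ b (j + 1) → k ≤ b j → k ≤ b (j + 1) →
      ∃ i j, 3 ≤ i ∧ i ≤ 6 ∧ 3 ≤ j ∧ j ≤ 6 ∧
      ((a i ≤ b j ∧ b j ≤ 4 * Real.sqrt k * a i) ∨ (b j ≤ a i ∧ a i ≤ 4 * Real.sqrt k * b j)) ∧
      k ≤ a i ∧ k ≤ b j ∧ a i ≤ k ^ 8 ∧ b j ≤ k ^ 8 := by
    intro j h3 h5 hlt hle h1 h1'
    rcases le_or_gt (b (j + 1)) (4 * Real.sqrt k * a 4) with h | h
    · exact ⟨4, j + 1, by norm_num, by norm_num, by omega, by omega, Or.inl ⟨hle, h⟩, ha4, h1',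
        ha48, h.trans (hk8 _ ua4)⟩
    · refine ⟨4, j, by norm_num, by norm_num, h3, by omega, Or.inr ⟨hlt.le, ?_⟩, ha4, h1, ha48,
        hlt.le.trans ha48⟩
      have h2 := hb' j h5
      have h4 : 4 * Real.sqrt k * a 4 ≤ 11 * (Real.sqrt k * Real.sqrt k) * b j := by
        rw [hss]; linarith only [h, h2]
      have h6 : Real.sqrt k * (4 * a 4) ≤ Real.sqrt k * (11 * Real.sqrt k * b j) := by
        calc Real.sqrt k * (4 * a 4) = 4 * Real.sqrt k * a 4 := by ring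
          _ ≤ 11 * (Real.sqrt k * Real.sqrt k) * b j := h4
          _ = Real.sqrt k * (11 * Real.sqrt k * b j) := by ring
      have h7 : 4 * a 4 ≤ 11 * Real.sqrt k * b j := le_of_mul_le_mul_left h6 hs0
      have h8 : 0 ≤ Real.sqrt k * b j := mul_nonneg hs0.le (hk0.le.trans h1)
      linarith only [h7, h8]
  rcases lt_or_ge (b 3) (a 4) with h3 | h3
  · rcases lt_or_ge (b 4) (a 4) with h4 | h4
    · rcases lt_or_ge (b 5) (a 4) with h5 | h5
      · exact step 5 (by norm_num) le_rfl h5 h46 hb5 hb6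
      · exact step 4 (by norm_num) (by norm_num) h4 h5 hb4 hb5
    · exact step 3 le_rfl (by norm_num) h3 h4 hb3 hb4
  · exact ⟨4, 3, by norm_num, by norm_num, by norm_num, by norm_num, Or.inl ⟨h3, h24⟩, ha4, hb3,
      ha48, h24.trans (hk8 _ ua4)⟩

/-- **Selection of the pair of exit times**, with the lower bound `k / ρ`. -/
theorem select_k {k A δ ρ : ℝ} {a b : ℕ → ℝ} (hk : 10 ^ 100 ≤ k) (hA : 10 ^ 40 * k ≤ A ^ 2)
    (hA0 : 10 ^ 40 ≤ A) (hδ : 0 < δ) (hδ1 : δ ≤ 1) (hAδ : 1 ≤ A * δ) (hρ : 0 < ρ)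
    (ha0 : δ / 2 ≤ a 0 * ρ) (ha0' : a 0 * ρ ≤ 20 * k * δ)
    (hb0 : δ / 2 ≤ b 0 * ρ) (hb0' : b 0 * ρ ≤ 20 * k * δ)
    (ha1 : A / 2 * a 0 ≤ a 1) (hb1 : A / 2 * b 0 ≤ b 1)
    (ha : ∀ j, 1 ≤ j → j ≤ 5 → k / 10 ^ 5 * a j ≤ a (j + 1))
    (hb : ∀ j, 1 ≤ j → j ≤ 5 → k / 10 ^ 5 * b j ≤ b (j + 1))
    (ha' : ∀ j ≤ 5, a (j + 1) ≤ 11 * k * a j) (hb' : ∀ j ≤ 5, b (j + 1) ≤ 11 * k * b j) :
    ∃ i j, 3 ≤ i ∧ i ≤ 6 ∧ 3 ≤ j ∧ j ≤ 6 ∧
      ((a i ≤ b j ∧ b j ≤ 4 * Real.sqrt k * a i) ∨ (b j ≤ a i ∧ a i ≤ 4 * Real.sqrt k * b j)) ∧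
      k ≤ a i * ρ ∧ k ≤ b j * ρ ∧ a i * ρ ≤ k ^ 8 ∧ b j * ρ ≤ k ^ 8 := by
  have key : ∀ x y z : ℝ, x * y ≤ z → x * (y * ρ) ≤ z * ρ := by
    intro x y z h
    rw [← mul_assoc]
    exact mul_le_mul_of_nonneg_right h hρ.le
  obtain ⟨i, j, h1, h2, h3, h4, h5, h6, h7, h8, h9⟩ := select1 (a := fun n => a n * ρ)
    (b := fun n => b n * ρ) hk hA hA0 hδ hδ1 hAδ ha0 ha0' hb0 hb0'
    (key _ _ _ ha1) (key _ _ _ hb1) (fun j h1 h2 => key _ _ _ (ha j h1 h2))
    (fun j h1 h2 => key _ _ _ (hb j h1 h2))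
    (fun j h => by
      have := mul_le_mul_of_nonneg_right (ha' j h) hρ.le
      show a (j + 1) * ρ ≤ 11 * k * (a j * ρ)
      linarith [mul_assoc (11 * k) (a j) ρ])
    (fun j h => by
      have := mul_le_mul_of_nonneg_right (hb' j h) hρ.le
      show b (j + 1) * ρ ≤ 11 * k * (b j * ρ)
      linarith [mul_assoc (11 * k) (b j) ρ])
  refine ⟨i, j, h1, h2, h3, h4, ?_, h6, h7, h8, h9⟩
  · rcases h5 with ⟨h5, h5'⟩ | ⟨h5, h5'⟩
    · left
      refine ⟨le_of_mul_le_mul_right h5 hρ, le_of_mul_le_mul_right ?_ hρ⟩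
      calc b j * ρ ≤ 4 * Real.sqrt k * (a i * ρ) := h5'
        _ = 4 * Real.sqrt k * a i * ρ := by ring
    · right
      refine ⟨le_of_mul_le_mul_right h5 hρ, le_of_mul_le_mul_right ?_ hρ⟩
      calc a i * ρ ≤ 4 * Real.sqrt k * (b j * ρ) := h5'
        _ = 4 * Real.sqrt k * b j * ρ := by ring


end Crest.Agent.R128.LocSel
end

-- ▼ part R128/LocA4

/-!
# LocA, from the base point to the set of good centres (row 128, helper595)
-/

set_option autoImplicit false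

open MeasureTheory Metric Set
open Crest.Agent.R128 Crest.Agent.R128.Cell Crest.Agent.R128.CellB

namespace Crest.Agent.R128.LocA

theorem sideSum : SideSum := by
  intro k A ρ r0 R b σ d v rr jS i hk hA0 hA hρ hr0 hR hR0 hb hRb hi hi6 hJ hd hg hv hv' hrr h0 hσ
  exact LocNum.side_sum hk hA0 hA hρ hr0 hR hR0 hb hRb hi hi6 hJ hd hg hv hv' hrr h0 hσ

/-- base data of one side at the (very fresh) point `t₀`: `n0 + 1` = foot index, `M + 1` regular
digits after it, half length `r` of the cell -/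
structure Base (k c : ℝ) (s : Bool) (n0 M : ℕ) (t₀ r0 r : ℝ) : Prop where
  r0_pos : 0 < r0
  r_pos : 0 < r
  close : ∀ t ∈ ball (t₀ : ℂ) (2 * r0),
    ‖Loc.D k c s (n0 + 1) t - Loc.D k c s (n0 + 1) t₀‖ ≤ 1 / 2500 * ‖Loc.D k c s (n0 + 1) t₀‖
  prev : ∀ t ∈ ball (t₀ : ℂ) (2 * r0), ‖Loc.D k c s n0 t‖ ≤ 99 / 100 * ‖Loc.D k c s (n0 + 1) t₀‖
  ne : Loc.D k c s (n0 + 1) t₀ ≠ 0
  small : 10 ^ 11 * k * (‖Loc.D k c s (n0 + 1) t₀‖ * r0) ≤ k ^ (3 / 5 : ℝ)
  old : 10 ^ 11 * k * (‖Loc.D k c s (n0 + 1) t₀‖ * r) ≤ (‖Loc.D k c s (n0 + 1) t₀‖ * r0) ^ 3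
  lower : 1 ≤ k ^ 61 * (‖Loc.D k c s (n0 + 1) t₀‖ * (2 * r))
  dig : ∀ j < M, k ^ (2 / 3 : ℝ) ≤ ‖cV k (Loc.Y k c s (n0 + 1 + j) t₀)‖
  big : k ^ (-(7 / 20) : ℝ) ≤ ‖Loc.D k c s (n0 + 1 + M) t₀‖ * (2 * r)

/-- the basic parameter `u = k^(1/60)` -/
structure UU (k u : ℝ) : Prop where
  u_large : 10 ^ 16 ≤ u
  k_eq : k = u ^ 60
  e23 : k ^ (2 / 3 : ℝ) = u ^ 40
  e35 : k ^ (3 / 5 : ℝ) = u ^ 36
  e720 : k ^ (-(7 / 20) : ℝ) = 1 / u ^ 21
  sq : Real.sqrt k = u ^ 30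

theorem exists_u {k : ℝ} (hk : 10 ^ 1000 ≤ k) : ∃ u, UU k u := by
  have hk0 : 0 < k := lt_of_lt_of_le (by positivity) hk
  have hu0 : 0 < k ^ (1 / 60 : ℝ) := Real.rpow_pos_of_pos hk0 _
  have h60 : (k ^ (1 / 60 : ℝ)) ^ 60 = k := by
    rw [← Real.rpow_natCast, ← Real.rpow_mul hk0.le]; norm_num
  refine ⟨k ^ (1 / 60 : ℝ), ?_, h60.symm, ?_, ?_, ?_, ?_⟩
  · have h1 : ((10 : ℝ) ^ 960) ^ (1 / 60 : ℝ) ≤ k ^ (1 / 60 : ℝ) := by
      refine Real.rpow_le_rpow (by positivity) (le_trans ?_ hk) (by norm_num)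
      exact pow_le_pow_right₀ (by norm_num) (by norm_num)
    have h2 : ((10 : ℝ) ^ 960) ^ (1 / 60 : ℝ) = 10 ^ 16 := by
      rw [← Real.rpow_natCast, ← Real.rpow_natCast, ← Real.rpow_mul (by norm_num)]; norm_num
    rw [← h2]; exact h1
  · rw [← Real.rpow_natCast, ← Real.rpow_mul hk0.le]; norm_num
  · rw [← Real.rpow_natCast, ← Real.rpow_mul hk0.le]; norm_num
  · rw [one_div, ← Real.rpow_natCast, ← Real.rpow_mul hk0.le, ← Real.rpow_neg hk0.le]; norm_num
  · rw [Real.sqrt_eq_rpow, ← Real.rpow_natCast, ← Real.rpow_mul hk0.le]; norm_num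

section num
variable {k u : ℝ}

theorem UU.u_pos (h : UU k u) : 0 < u := lt_of_lt_of_le (by positivity) h.u_large

theorem UU.pow_ge (h : UU k u) (n : ℕ) : (10 : ℝ) ^ (16 * n) ≤ u ^ n := by
  rw [pow_mul]
  exact pow_le_pow_left₀ (by positivity) h.u_large n

theorem UU.numB (h : UU k u) {ρ : ℝ} (hρ : 0 < ρ) : NumB k (u ^ 36) (1 / u ^ 21) ρ := by
  have hu0 := h.u_pos
  have hk := h.k_eq
  constructor
  · rw [hk]
    refine le_trans ?_ (h.pow_ge 60)
    exact pow_le_pow_right₀ (by norm_num) (by norm_num)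
  · rw [h.sq, hk]
    have h1 : (10 : ℝ) ^ 60 ≤ u ^ 30 :=
      le_trans (pow_le_pow_right₀ (by norm_num) (by norm_num)) (h.pow_ge 30)
    calc (10 : ℝ) ^ 60 * (u ^ 60) ^ 2 * u ^ 30 ≤ u ^ 30 * (u ^ 60) ^ 2 * u ^ 30 := by gcongr
      _ = (u ^ 36) ^ 5 := by ring
  · rw [hk]
    have h1 : (10 : ℝ) ^ 40 ≤ u ^ 12 :=
      le_trans (pow_le_pow_right₀ (by norm_num) (by norm_num)) (h.pow_ge 12)
    calc (10 : ℝ) ^ 40 * u ^ 60 ≤ u ^ 12 * u ^ 60 := by gcongr
      _ = (u ^ 36) ^ 2 := by ring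
  · rw [hk, le_div_iff₀ (by positivity)]
    have h1 : (10 : ℝ) ^ 4 ≤ u ^ 24 :=
      le_trans (pow_le_pow_right₀ (by norm_num) (by norm_num)) (h.pow_ge 24)
    calc u ^ 36 * 10 ^ 4 ≤ u ^ 36 * u ^ 24 := by gcongr
      _ = u ^ 60 := by ring
  · exact le_trans (pow_le_pow_right₀ (by norm_num) (by norm_num)) (h.pow_ge 36)
  · positivity
  · rw [div_le_one (by positivity)]
    exact one_le_pow₀ (by linarith [h.u_large])
  · rw [mul_one_div, one_le_div (by positivity)]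
    exact pow_le_pow_right₀ (by linarith [h.u_large]) (by norm_num)
  · exact hρ

end num

section base
variable {k c u : ℝ} {s : Bool} {n0 M : ℕ} {t₀ r0 r : ℝ}

theorem Base.start (h : UU k u) (B : Base k c s n0 M t₀ r0 r) {J : ℕ} (hJ : J ≤ M) :
    Start k (Loc.Y k c s) (Ds k c s) n0 t₀ (2 * r0) (1 / 1000) (u ^ 40) J := by
  have hu0 := h.u_pos
  have hr0 := B.r0_pos
  refine ⟨co_loc k c s _, ⟨fun t ht => ?_, fun t ht => ?_⟩, by linarith, ?_, ?_, fun j hj => ?_⟩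
  · rw [norm_Ds_sub, norm_Ds]
    refine (B.close t ht).trans ?_
    gcongr
    norm_num
  · rw [norm_Ds, norm_Ds]
    refine (B.prev t ht).trans ?_
    have := norm_nonneg (Loc.D k c s (n0 + 1) t₀)
    linarith
  · rw [← norm_pos_iff, norm_Ds]
    exact norm_pos_iff.mpr B.ne
  · rw [norm_Ds]
    have h1 := B.small
    rw [h.e35] at h1
    have h2 : u ^ 36 ≤ u ^ 40 := pow_le_pow_right₀ (by linarith [h.u_large]) (by norm_num)
    have h3 : 0 ≤ k * (‖Loc.D k c s (n0 + 1) t₀‖ * r0) := by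
      have : 0 ≤ k := by rw [h.k_eq]; positivity
      positivity
    nlinarith
  · have := B.dig j (by omega)
    rw [h.e23] at this
    exact this

theorem Base.r_le (h : UU k u) (B : Base k c s n0 M t₀ r0 r) :
    10 ^ 11 * k * r ≤ r0 ∧ ‖Loc.D k c s (n0 + 1) t₀‖ * r0 ≤ 1 := by
  have hu0 := h.u_pos
  have hr0 := B.r0_pos
  have hd0 : 0 < ‖Loc.D k c s (n0 + 1) t₀‖ := norm_pos_iff.mpr B.ne
  have hk0 : 0 < k := by rw [h.k_eq]; positivity
  have h1 := B.small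
  rw [h.e35] at h1
  have h2 : u ^ 36 ≤ k := by
    rw [h.k_eq]
    exact pow_le_pow_right₀ (by linarith [h.u_large]) (by norm_num)
  have h3 : ‖Loc.D k c s (n0 + 1) t₀‖ * r0 ≤ 1 := by
    have h4 : k * (10 ^ 11 * (‖Loc.D k c s (n0 + 1) t₀‖ * r0)) ≤ k * 1 := by linarith
    have h5 := le_of_mul_le_mul_left h4 hk0
    have h6 : 0 < ‖Loc.D k c s (n0 + 1) t₀‖ * r0 := by positivity
    linarith
  refine ⟨?_, h3⟩
  have h7 : (‖Loc.D k c s (n0 + 1) t₀‖ * r0) ^ 3 ≤ ‖Loc.D k c s (n0 + 1) t₀‖ * r0 := by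
    calc (‖Loc.D k c s (n0 + 1) t₀‖ * r0) ^ 3
        = (‖Loc.D k c s (n0 + 1) t₀‖ * r0) ^ 2 * (‖Loc.D k c s (n0 + 1) t₀‖ * r0) := by ring
      _ ≤ 1 ^ 2 * (‖Loc.D k c s (n0 + 1) t₀‖ * r0) := by gcongr
      _ = _ := by ring
  have h8 := B.old.trans h7
  have h9 : ‖Loc.D k c s (n0 + 1) t₀‖ * (10 ^ 11 * k * r) ≤ ‖Loc.D k c s (n0 + 1) t₀‖ * r0 := by
    linarith
  exact le_of_mul_le_mul_left h9 hd0

theorem Base.chain0 (h : UU k u) (B : Base k c s n0 M t₀ r0 r) {J : ℕ} (hJ : J ≤ M)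
    (hJ100 : J ≤ 100) :
    (∀ j ≤ J, NA (Loc.Y k c s) (Ds k c s) (n0 + j) t₀
        (rad k (Loc.Y k c s) (Ds k c s) n0 (2 * r0) t₀ j) (1 / 100) ∧
      0 < ‖Ds k c s (n0 + 1 + j) t₀‖ ∧ 0 < rad k (Loc.Y k c s) (Ds k c s) n0 (2 * r0) t₀ j) ∧
    (∀ j < J, rad k (Loc.Y k c s) (Ds k c s) n0 (2 * r0) t₀ (j + 1) ≤
        rad k (Loc.Y k c s) (Ds k c s) n0 (2 * r0) t₀ j ∧
      (vv k (Loc.Y k c s) (n0 + 1 + j) t₀ - 1) * ‖Ds k c s (n0 + 1 + j) t₀‖ ≤
        ‖Ds k c s (n0 + 1 + (j + 1)) t₀‖ ∧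
      ‖Ds k c s (n0 + 1 + (j + 1)) t₀‖ ≤
        (vv k (Loc.Y k c s) (n0 + 1 + j) t₀ + 1) * ‖Ds k c s (n0 + 1 + j) t₀‖ ∧
      ∀ t ∈ ball (t₀ : ℂ) (rad k (Loc.Y k c s) (Ds k c s) n0 (2 * r0) t₀ (j + 1)),
        ‖Ds k c s (n0 + 1 + j) t‖ ≤
          2 / vv k (Loc.Y k c s) (n0 + 1 + j) t₀ * ‖Ds k c s (n0 + 1 + (j + 1)) t₀‖) := by
  have N := h.numB one_pos
  have hk := N.k_large
  have hu0 := h.u_pos
  refine chain (by linarith) ?_ (by positivity) hJ100 (B.start h hJ)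
  have h1 := N.A2
  have h2 : (u ^ 36) ^ 2 ≤ (u ^ 40) ^ 2 := by
    have : 1 ≤ u := by linarith [h.u_large]
    gcongr
    norm_num
  have hk0 : 0 < k := by linarith
  nlinarith

/-- growth along the regular digits of the base point -/
theorem Base.growth (h : UU k u) (B : Base k c s n0 M t₀ r0 r) {J : ℕ} (hJ : J ≤ M)
    (hJ100 : J ≤ 100) : ∀ j ≤ J,
    (u ^ 40 / 2) ^ j * ‖Ds k c s (n0 + 1) t₀‖ ≤ ‖Ds k c s (n0 + 1 + j) t₀‖ := by
  obtain ⟨-, c2⟩ := B.chain0 h hJ hJ100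
  have hu0 := h.u_pos
  have S := B.start h hJ
  have h40 : 10 ^ 60 ≤ u ^ 40 :=
    le_trans (pow_le_pow_right₀ (by norm_num) (by norm_num)) (h.pow_ge 40)
  intro j
  induction j with
  | zero => intro _; simp
  | succ j ih =>
    intro hj
    have h1 := ih (by omega)
    have h2 := (c2 j (by omega)).2.1
    have h3 := S.dig j (by omega)
    calc (u ^ 40 / 2) ^ (j + 1) * ‖Ds k c s (n0 + 1) t₀‖
        = u ^ 40 / 2 * ((u ^ 40 / 2) ^ j * ‖Ds k c s (n0 + 1) t₀‖) := by ring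
      _ ≤ (vv k (Loc.Y k c s) (n0 + 1 + j) t₀ - 1) * ‖Ds k c s (n0 + 1 + j) t₀‖ := by
          refine mul_le_mul ?_ h1 (by positivity) (by linarith)
          linarith
      _ ≤ _ := h2

/-- the exit index -/
theorem Base.exists_exit (h : UU k u) (B : Base k c s n0 M t₀ r0 r) :
    ∃ jS ≤ M, 1 ≤ jS ∧ jS ≤ 92 ∧ (∀ j < jS, ‖Ds k c s (n0 + 1 + j) t₀‖ * (2 * r) < 1 / u ^ 21) ∧
      1 / u ^ 21 ≤ ‖Ds k c s (n0 + 1 + jS) t₀‖ * (2 * r) := by
  classical
  have hu0 := h.u_pos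
  have hr := B.r_pos
  have hex : ∃ j, 1 / u ^ 21 ≤ ‖Ds k c s (n0 + 1 + j) t₀‖ * (2 * r) := by
    refine ⟨M, ?_⟩
    rw [norm_Ds, ← h.e720]
    exact B.big
  have hfind := Nat.find_spec hex
  have hmin : ∀ j < Nat.find hex, ‖Ds k c s (n0 + 1 + j) t₀‖ * (2 * r) < 1 / u ^ 21 :=
    fun j hj => not_le.mp (Nat.find_min hex hj)
  have hM : Nat.find hex ≤ M := by
    apply Nat.find_min' hex
    rw [norm_Ds, ← h.e720]
    exact B.big
  refine ⟨Nat.find hex, hM, ?_, ?_, hmin, hfind⟩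
  · by_contra hcon
    have h0 : Nat.find hex = 0 := by omega
    rw [h0] at hfind
    obtain ⟨h1, h2⟩ := B.r_le h
    rw [norm_Ds] at hfind
    have hd0 : 0 < ‖Loc.D k c s (n0 + 1) t₀‖ := norm_pos_iff.mpr B.ne
    have hk0 : 0 < k := by rw [h.k_eq]; positivity
    have h3 : ‖Loc.D k c s (n0 + 1) t₀‖ * (10 ^ 11 * k * r) ≤ 1 :=
      (mul_le_mul_of_nonneg_left h1 hd0.le).trans h2
    simp only [add_zero] at hfind
    rw [div_le_iff₀ (by positivity)] at hfind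
    have h4 : u ^ 21 ≤ k := by
      rw [h.k_eq]
      exact pow_le_pow_right₀ (by linarith [h.u_large]) (by norm_num)
    have h5 : ‖Loc.D k c s (n0 + 1) t₀‖ * (2 * r) * u ^ 21 ≤
        ‖Loc.D k c s (n0 + 1) t₀‖ * (2 * r) * k := by gcongr
    nlinarith
  · by_contra hcon
    have h92 : 92 < Nat.find hex := by omega
    have h1 := hmin 92 h92
    have h2 := B.growth h (J := 92) (by omega) (by norm_num) 92 le_rfl
    have h3 := B.lower
    rw [norm_Ds] at h2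
    have hd0 : 0 < ‖Loc.D k c s (n0 + 1) t₀‖ := norm_pos_iff.mpr B.ne
    have h4 : (u ^ 40 / 2) ^ 92 * (‖Loc.D k c s (n0 + 1) t₀‖ * (2 * r)) < 1 / u ^ 21 := by
      refine lt_of_le_of_lt ?_ h1
      calc (u ^ 40 / 2) ^ 92 * (‖Loc.D k c s (n0 + 1) t₀‖ * (2 * r))
          = (u ^ 40 / 2) ^ 92 * ‖Loc.D k c s (n0 + 1) t₀‖ * (2 * r) := by ring
        _ ≤ _ := by gcongr
    have h5 : 1 / u ^ 21 ≤ 1 := by
      rw [div_le_one (by positivity)]
      exact one_le_pow₀ (by linarith [h.u_large])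
    have h6 : u ^ 20 / 2 ^ 92 * (k ^ 61 * (‖Loc.D k c s (n0 + 1) t₀‖ * (2 * r))) < 1 := by
      have e : (u ^ 40 / 2) ^ 92 = u ^ 20 / 2 ^ 92 * k ^ 61 := by
        rw [h.k_eq, div_pow, ← pow_mul, ← pow_mul, div_mul_eq_mul_div, ← pow_add]
      rw [e] at h4
      calc _ = u ^ 20 / 2 ^ 92 * k ^ 61 * (‖Loc.D k c s (n0 + 1) t₀‖ * (2 * r)) := by ring
        _ < 1 / u ^ 21 := h4
        _ ≤ 1 := h5
    have h7 : (1 : ℝ) ≤ u ^ 20 / 2 ^ 92 := by
      rw [one_le_div (by positivity)]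
      refine le_trans ?_ (h.pow_ge 20)
      calc (2 : ℝ) ^ 92 ≤ 10 ^ 92 := by gcongr; norm_num
        _ ≤ 10 ^ (16 * 20) := pow_le_pow_right₀ (by norm_num) (by norm_num)
    have h8 : 1 * 1 ≤ u ^ 20 / 2 ^ 92 * (k ^ 61 * (‖Loc.D k c s (n0 + 1) t₀‖ * (2 * r))) := by
      gcongr
    linarith

/-- the radii at the base point are large until the exit -/
theorem Base.rad_ge (h : UU k u) (B : Base k c s n0 M t₀ r0 r) {jS : ℕ} (hM : jS ≤ M)
    (hb : ∀ j < jS, ‖Ds k c s (n0 + 1 + j) t₀‖ * (2 * r) < 1 / u ^ 21) (hpos : ∀ j < jS,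
      0 < ‖Ds k c s (n0 + 1 + j) t₀‖) : ∀ j ≤ jS,
    4 * r ≤ rad k (Loc.Y k c s) (Ds k c s) n0 (2 * r0) t₀ j := by
  have hu0 := h.u_pos
  have hr := B.r_pos
  have hk0 : 0 < k := by rw [h.k_eq]; positivity
  have h1 := (B.r_le h).1
  have hk1 : 1 ≤ k := by
    rw [h.k_eq]; exact one_le_pow₀ (by linarith [h.u_large])
  have h2 : 4 * r ≤ 2 * r0 := by nlinarith
  intro j hj
  cases j with
  | zero => exact h2
  | succ j =>
    simp only [rad]
    refine le_min h2 ?_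
    have hp := hpos j (by omega)
    have hbj := hb j (by omega)
    have hd := (B.start h hM).dig j (by omega)
    rw [le_div_iff₀ (by positivity)]
    have h3 : 4 * r * (k * ‖Ds k c s (n0 + 1 + j) t₀‖) ≤ 2 * k * (1 / u ^ 21) := by
      have : 4 * r * (k * ‖Ds k c s (n0 + 1 + j) t₀‖) =
        2 * k * (‖Ds k c s (n0 + 1 + j) t₀‖ * (2 * r)) := by ring
      rw [this]
      gcongr
    refine h3.trans ?_
    have h4 : 2 * k * (1 / u ^ 21) = 2 * u ^ 39 := by
      rw [h.k_eq]; field_simp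
    rw [h4]
    have h5 : 1 / 10 ^ 10 * u ^ 40 ≤ 1 / 10 ^ 10 * vv k (Loc.Y k c s) (n0 + 1 + j) t₀ := by gcongr
    refine le_trans ?_ h5
    have h6 : 2 * u ^ 39 * 10 ^ 10 ≤ u ^ 40 := by
      have := h.u_large
      calc 2 * u ^ 39 * 10 ^ 10 = u ^ 39 * (2 * 10 ^ 10) := by ring
        _ ≤ u ^ 39 * u := by gcongr; linarith
        _ = u ^ 40 := by ring
    linarith

theorem vv_le10 (hk : 1 ≤ k) (m : ℕ) (x : ℝ) : vv k (Loc.Y k c s) m (x : ℂ) ≤ 10 * k := by
  rw [LocD.vv_real (co_loc k c s univ) m x]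
  exact Fresh.abs_Vr_le hk _

end base

end Crest.Agent.R128.LocA
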