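import Crest.Agent.R128.LocA4

-- ▼ part R128/LocA5
section

/-!
# LocA, the set of good centres (row 128, helper595)
-/

set_option autoImplicit false

open MeasureTheory Metric Set
open Crest.Agent.R128 Crest.Agent.R128.Cell Crest.Agent.R128.CellB

namespace Crest.Agent.R128.LocA

variable {k c u : ℝ} {s : Bool} {n0 M jS : ℕ} {t₀ r0 r t₁ : ℝ}

/-- one side is good at `t₁` -/
def Nice (k c : ℝ) (s : Bool) (n0 jS : ℕ) (t : ℝ) : Prop :=
  k ^ (3 / 5 : ℝ) ≤ vv k (Loc.Y k c s) (n0 + jS + 1) t ∧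
    ∀ i, 1 ≤ i → i ≤ 5 → 1 / 10 ^ 4 * k ≤ vv k (Loc.Y k c s) (n0 + jS + 1 + i) t

/-- exit data of one side at the base point -/
structure ExitAt (k c u : ℝ) (s : Bool) (n0 M jS : ℕ) (t₀ r : ℝ) : Prop where
  le_M : jS ≤ M
  one_le : 1 ≤ jS
  le92 : jS ≤ 92
  before : ∀ j < jS, ‖Ds k c s (n0 + 1 + j) t₀‖ * (2 * r) < 1 / u ^ 21
  at_exit : 1 / u ^ 21 ≤ ‖Ds k c s (n0 + 1 + jS) t₀‖ * (2 * r)

theorem Base.exit (h : UU k u) (B : Base k c s n0 M t₀ r0 r) :
    ∃ jS, ExitAt k c u s n0 M jS t₀ r := by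
  obtain ⟨jS, h1, h2, h3, h4, h5⟩ := B.exists_exit h
  exact ⟨jS, ⟨h1, h2, h3, h4, h5⟩⟩

theorem mem_ball_of_abs {t₀ t₁ ρ : ℝ} (h : |t₁ - t₀| < ρ) : (t₁ : ℂ) ∈ ball (t₀ : ℂ) ρ := by
  rw [mem_ball, Complex.dist_eq, ← Complex.ofReal_sub, Complex.norm_real, Real.norm_eq_abs]
  exact h

/-- measure of the not nice points of one side -/
theorem Base.nice_measure (h : UU k u) (hk : 10 ^ 240 ≤ k) (B : Base k c s n0 M t₀ r0 r)
    (E : ExitAt k c u s n0 M jS t₀ r) :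
    volume {t : ℝ | t ∈ Icc (t₀ - r) (t₀ + r) ∧ ¬ Nice k c s n0 jS t} ≤
      ENNReal.ofReal (2 * r / 8) := by
  have hr := B.r_pos
  obtain ⟨c1, c2⟩ := B.chain0 h E.le_M (by have := E.le92; omega)
  have hrad := B.rad_ge h E.le_M E.before (fun j hj => (c1 j hj.le).2.1)
  have hu0 := h.u_pos
  have := LocD.nice_points (k := k) hk (Y := Loc.Y k c s) (D := Ds k c s) (t₀ := t₀) (ρ := 2 * r)
    (a := t₀ - r) (b := t₀ + r) (by linarith) (by ring) (by linarith) (by linarith)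
    (co_loc k c s _) (M := n0 + jS) (fun t ht => by
      refine (c1 jS le_rfl).1.close t (ball_subset_ball ?_ ht)
      have := hrad jS le_rfl
      linarith) (fun t ht => by
      obtain ⟨j, hj⟩ : ∃ j, jS = j + 1 := ⟨jS - 1, by have := E.one_le; omega⟩
      have h2 := (c2 j (by omega)).2.2.2 t (ball_subset_ball (by
        have := hrad (j + 1) (by omega)
        linarith) ht)
      have e1 : n0 + jS = n0 + 1 + j := by omega
      have e2 : n0 + jS + 1 = n0 + 1 + (j + 1) := by omega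
      rw [e2, e1]
      refine h2.trans ?_
      have hv := (B.start h E.le_M).dig j (by omega)
      have h40 : 10 ≤ u ^ 40 := le_trans (by norm_num)
        (le_trans (pow_le_pow_right₀ (by norm_num : (1:ℝ) ≤ 10) (by norm_num : 1 ≤ 16 * 40))
          (h.pow_ge 40))
      have hv10 : 10 ≤ vv k (Loc.Y k c s) (n0 + 1 + j) t₀ := h40.trans hv
      have h5 : 2 / vv k (Loc.Y k c s) (n0 + 1 + j) t₀ ≤ 1 / 5 := by
        rw [div_le_div_iff₀ (by linarith) (by norm_num)]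
        linarith
      gcongr) (by
      have e2 : n0 + jS + 1 = n0 + 1 + jS := by omega
      rw [e2, h.e720]
      exact E.at_exit)
  exact this

/-- `SideOK` at a nice point of the cell -/
theorem Base.sideOK (h : UU k u) (B : Base k c s n0 M t₀ r0 r)
    (E : ExitAt k c u s n0 M jS t₀ r) (ht₁ : |t₁ - t₀| ≤ r) (hN : Nice k c s n0 jS t₁) :
    SideOK k c s n0 jS r0 (2 * r) (1 / u ^ 21) (u ^ 36) t₁ := by
  have hr := B.r_pos
  have hr0 := B.r0_pos
  have hu0 := h.u_pos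
  have hk0 : 0 < k := by rw [h.k_eq]; positivity
  have hk1 : 1 ≤ k := by
    rw [h.k_eq]; exact one_le_pow₀ (by linarith [h.u_large])
  obtain ⟨c1, c2⟩ := B.chain0 h E.le_M (by have := E.le92; omega)
  have hrad := B.rad_ge h E.le_M E.before (fun j hj => (c1 j hj.le).2.1)
  obtain ⟨hrr, hdr⟩ := B.r_le h
  have hrr0 : r < r0 := by nlinarith
  have N := h.numB (ρ := 2 * r) (by linarith)
  have hd0 : 0 < ‖Loc.D k c s (n0 + 1) t₀‖ := norm_pos_iff.mpr B.ne
  have hS := B.start h E.le_M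
  -- value at `t₁`
  have hmem : (t₁ : ℂ) ∈ ball (t₀ : ℂ) (2 * r0) := mem_ball_of_abs (by linarith)
  have hc1 := B.close t₁ hmem
  have hlow : (1 - 1 / 2500) * ‖Loc.D k c s (n0 + 1) t₀‖ ≤ ‖Loc.D k c s (n0 + 1) t₁‖ := by
    have := norm_sub_norm_le (Loc.D k c s (n0 + 1) t₀) (Loc.D k c s (n0 + 1) t₁)
    rw [norm_sub_rev] at this
    linarith
  have hupp : ‖Loc.D k c s (n0 + 1) t₁‖ ≤ (1 + 1 / 2500) * ‖Loc.D k c s (n0 + 1) t₀‖ := by
    have := norm_sub_norm_le (Loc.D k c s (n0 + 1) t₁) (Loc.D k c s (n0 + 1) t₀)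
    linarith
  have hsubset : ball (t₁ : ℂ) r0 ⊆ ball (t₀ : ℂ) (2 * r0) := by
    apply ball_subset_ball'
    rw [Complex.dist_eq, ← Complex.ofReal_sub, Complex.norm_real, Real.norm_eq_abs]
    linarith
  have hmem4 : ∀ j ≤ jS, (t₁ : ℂ) ∈
      ball (t₀ : ℂ) (rad k (Loc.Y k c s) (Ds k c s) n0 (2 * r0) t₀ j) := by
    intro j hj
    refine mem_ball_of_abs ?_
    have := hrad j hj
    linarith
  -- regular digits at `t₁`
  have hdig : ∀ j < jS, u ^ 36 ≤ vv k (Loc.Y k c s) (n0 + 1 + j) t₁ := by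
    intro j hj
    have hv := hS.dig j hj
    have hNA := (c1 j hj.le).1.mono (c2 j hj).1
    have e : n0 + j + 1 = n0 + 1 + j := by omega
    have h1 := digit_var hk1 (co_loc k c s _) hNA (by norm_num) le_rfl
      (vv_le hk1 (co_loc k c s univ) (n0 + j + 1) t₀) (by
        rw [e]
        have h7 : rad k (Loc.Y k c s) (Ds k c s) n0 (2 * r0) t₀ (j + 1) ≤
            1 / 10 ^ 10 * vv k (Loc.Y k c s) (n0 + 1 + j) t₀ /
              (k * ‖Ds k c s (n0 + 1 + j) t₀‖) := by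
          simp only [rad]; exact min_le_right _ _
        have hp := (c1 j hj.le).2.1
        rw [le_div_iff₀ (by positivity)] at h7
        nlinarith) (hmem4 (j + 1) hj)
    rw [e] at h1
    have h2 : vv k (Loc.Y k c s) (n0 + 1 + j) t₀ - vv k (Loc.Y k c s) (n0 + 1 + j) t₁ ≤
        1 / 10 ^ 5 * vv k (Loc.Y k c s) (n0 + 1 + j) t₀ := by
      refine le_trans ?_ h1
      unfold vv
      rw [norm_sub_rev]
      exact norm_sub_norm_le _ _
    have h3 : 2 * u ^ 36 ≤ u ^ 40 := by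
      have h4 : (2 : ℝ) ≤ u ^ 4 := le_trans (by norm_num)
        (le_trans (pow_le_pow_right₀ (by norm_num : (1:ℝ) ≤ 10) (by norm_num : 1 ≤ 16 * 4))
          (h.pow_ge 4))
      calc 2 * u ^ 36 ≤ u ^ 4 * u ^ 36 := by gcongr
        _ = u ^ 40 := by ring
    have h5 : 0 ≤ u ^ 36 := by positivity
    linarith
  have hmac : ∀ i, 1 ≤ i → i ≤ 5 → k / 10 ^ 4 ≤ vv k (Loc.Y k c s) (n0 + 1 + (jS + i)) t₁ := by
    intro i hi1 hi5
    have := hN.2 i hi1 hi5
    have e : n0 + jS + 1 + i = n0 + 1 + (jS + i) := by omega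
    rw [e] at this
    linarith
  -- sizes at the exit
  have hex := (c1 jS le_rfl).1.close t₁ (hmem4 jS le_rfl)
  have eX : n0 + jS + 1 = n0 + 1 + jS := by omega
  rw [eX] at hex
  have hexl : 99 / 100 * ‖Ds k c s (n0 + 1 + jS) t₀‖ ≤ ‖Ds k c s (n0 + 1 + jS) t₁‖ := by
    have := norm_sub_norm_le (Ds k c s (n0 + 1 + jS) t₀) (Ds k c s (n0 + 1 + jS) t₁)
    rw [norm_sub_rev] at this
    linarith
  have hexu : ‖Ds k c s (n0 + 1 + jS) t₁‖ ≤ 101 / 100 * ‖Ds k c s (n0 + 1 + jS) t₀‖ := by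
    have := norm_sub_norm_le (Ds k c s (n0 + 1 + jS) t₁) (Ds k c s (n0 + 1 + jS) t₀)
    linarith
  refine ⟨⟨co_loc k c s _, ⟨fun t ht => ?_, fun t ht => ?_⟩, hr0, ?_, ?_, ?_⟩, hmac, ?_, ?_, ?_, ?_⟩
  · rw [norm_Ds_sub, norm_Ds]
    have h1 := B.close t (hsubset ht)
    have h2 : ‖Loc.D k c s (n0 + 1) t - Loc.D k c s (n0 + 1) t₁‖ ≤
        ‖Loc.D k c s (n0 + 1) t - Loc.D k c s (n0 + 1) t₀‖ +
        ‖Loc.D k c s (n0 + 1) t₁ - Loc.D k c s (n0 + 1) t₀‖ := by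
      have e : Loc.D k c s (n0 + 1) t - Loc.D k c s (n0 + 1) t₁ =
        (Loc.D k c s (n0 + 1) t - Loc.D k c s (n0 + 1) t₀) -
        (Loc.D k c s (n0 + 1) t₁ - Loc.D k c s (n0 + 1) t₀) := by ring
      rw [e]; exact norm_sub_le _ _
    linarith
  · rw [norm_Ds, norm_Ds]
    have h1 := B.prev t (hsubset ht)
    linarith
  · rw [← norm_pos_iff, norm_Ds]
    linarith
  · rw [norm_Ds]
    have h1 := B.small
    rw [h.e35] at h1
    have h3 : k * (‖Loc.D k c s (n0 + 1) t₁‖ * r0) ≤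
        k * ((1 + 1 / 2500) * ‖Loc.D k c s (n0 + 1) t₀‖ * r0) := by gcongr
    have h4 : 0 ≤ k * (‖Loc.D k c s (n0 + 1) t₀‖ * r0) := by positivity
    nlinarith
  · intro j hj
    rcases lt_trichotomy j jS with hlt | heq | hgt
    · exact hdig j hlt
    · have := hN.1
      rw [h.e35, eX] at this
      rw [heq]; exact this
    · have := hmac (j - jS) (by omega) (by omega)
      have e : jS + (j - jS) = j := by omega
      rw [e] at this
      exact N.A_le.trans this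
  · have h1 := E.at_exit
    have h2 : 99 / 100 * (‖Ds k c s (n0 + 1 + jS) t₀‖ * (2 * r)) ≤
        ‖Ds k c s (n0 + 1 + jS) t₁‖ * (2 * r) := by
      calc _ = (99 / 100 * ‖Ds k c s (n0 + 1 + jS) t₀‖) * (2 * r) := by ring
        _ ≤ _ := by gcongr
    have h3 := N.δ_pos
    linarith
  · obtain ⟨j, hj⟩ : ∃ j, jS = j + 1 := ⟨jS - 1, by have := E.one_le; omega⟩
    have h1 := (c2 j (by omega)).2.2.1
    have h2 := E.before j (by omega)
    have h3 := vv_le10 (c := c) (s := s) hk1 (n0 + 1 + j) t₀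
    rw [← hj] at h1
    have h4 : ‖Ds k c s (n0 + 1 + jS) t₀‖ * (2 * r) ≤ 11 * k * (1 / u ^ 21) := by
      calc ‖Ds k c s (n0 + 1 + jS) t₀‖ * (2 * r)
          ≤ ((vv k (Loc.Y k c s) (n0 + 1 + j) t₀ + 1) * ‖Ds k c s (n0 + 1 + j) t₀‖) * (2 * r) := by
            gcongr
        _ = (vv k (Loc.Y k c s) (n0 + 1 + j) t₀ + 1) * (‖Ds k c s (n0 + 1 + j) t₀‖ * (2 * r)) := by
            ring
        _ ≤ (11 * k) * (1 / u ^ 21) := by
            refine mul_le_mul (by linarith) h2.le (by positivity) (by positivity)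
    have h5 : ‖Ds k c s (n0 + 1 + jS) t₁‖ * (2 * r) ≤
        101 / 100 * (‖Ds k c s (n0 + 1 + jS) t₀‖ * (2 * r)) := by
      calc _ ≤ (101 / 100 * ‖Ds k c s (n0 + 1 + jS) t₀‖) * (2 * r) := by gcongr
        _ = _ := by ring
    have h6 : 0 < k * (1 / u ^ 21) := by positivity
    linarith
  · rw [norm_Ds]
    have h1 := B.old
    have h2 : k * (‖Loc.D k c s (n0 + 1) t₁‖ * (2 * r)) ≤
        k * ((1 + 1 / 2500) * ‖Loc.D k c s (n0 + 1) t₀‖ * (2 * r)) := by gcongr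
    have h3 : ((1 - 1 / 2500) * ‖Loc.D k c s (n0 + 1) t₀‖ * r0) ^ 3 ≤
        (‖Loc.D k c s (n0 + 1) t₁‖ * r0) ^ 3 := by
      refine pow_le_pow_left₀ (by positivity) ?_ 3
      gcongr
    have h4 : ((1 - 1 / 2500) * ‖Loc.D k c s (n0 + 1) t₀‖ * r0) ^ 3 =
        (1 - 1 / 2500) ^ 3 * (‖Loc.D k c s (n0 + 1) t₀‖ * r0) ^ 3 := by ring
    have h5 : (1 / 2 : ℝ) ≤ (1 - 1 / 2500) ^ 3 := by norm_num
    have h6 : 0 ≤ (‖Loc.D k c s (n0 + 1) t₀‖ * r0) ^ 3 := by positivity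
    have h7 : 1 / 2 * (‖Loc.D k c s (n0 + 1) t₀‖ * r0) ^ 3 ≤
        (1 - 1 / 2500) ^ 3 * (‖Loc.D k c s (n0 + 1) t₀‖ * r0) ^ 3 := by gcongr
    have h8 : 0 ≤ k * (‖Loc.D k c s (n0 + 1) t₀‖ * r) := by positivity
    nlinarith
  · have := E.le92
    omega

end Crest.Agent.R128.LocA
end

-- ▼ part R128/LocA6

/-!
# LocA, final theorem (row 128, helper595)
-/

set_option autoImplicit false

open MeasureTheory Metric Set
open Crest.Agent.R128 Crest.Agent.R128.Cell Crest.Agent.R128.CellB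

namespace Crest.Agent.R128.LocA

variable {k c u : ℝ} {s : Bool} {n0 M jS : ℕ} {t₀ r0 r t₁ ρ δ A : ℝ}

/-- slopes up to the exit are at most the slope at the exit -/
theorem SideOK.mon (N : NumB k A δ ρ) (S : SideOK k c s n0 jS r0 ρ δ A t₁) {i : ℕ} (hi2 : 2 ≤ i)
    (hi6 : i ≤ 6) (hb : 1 ≤ ‖Ds k c s (n0 + 1 + (jS + i)) t₁‖ * ρ) {t : ℂ}
    (ht : ‖t - t₁‖ < k / (10 ^ 19 * ‖Ds k c s (n0 + 1 + (jS + i)) t₁‖)) :
    ∀ j ≤ jS + i, ‖Ds k c s (n0 + 1 + j) t‖ ≤ 3 / 2 * ‖Ds k c s (n0 + 1 + (jS + i)) t₁‖ := by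
  have hrad := S.rad_ge N hi2 hi6 hb
  obtain ⟨c1, c2⟩ := S.chain' N
  have hA := N.A_pos
  have hanti : ∀ m, ∀ j, j + m = jS + i → rad k (Loc.Y k c s) (Ds k c s) n0 r0 t₁ (jS + i) ≤
      rad k (Loc.Y k c s) (Ds k c s) n0 r0 t₁ j ∧
      ‖Ds k c s (n0 + 1 + j) t₁‖ ≤ ‖Ds k c s (n0 + 1 + (jS + i)) t₁‖ := by
    intro m
    induction m with
    | zero =>
      intro j hj
      have : j = jS + i := by omega
      rw [this]
      exact ⟨le_rfl, le_rfl⟩
    | succ m ih =>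
      intro j hj
      obtain ⟨h1, h2⟩ := ih (j + 1) (by omega)
      refine ⟨h1.trans (c2 j (by omega)).1, le_trans ?_ h2⟩
      have h3 := (c2 j (by omega)).2.1
      have h4 := S.start.dig j (by omega)
      have h5 := (c1 j (by omega)).2.1
      nlinarith
  intro j hj
  obtain ⟨h1, h2⟩ := hanti (jS + i - j) j (by omega)
  have h3 := (c1 j (by omega)).1.close t (by
    rw [mem_ball, dist_eq_norm]
    exact lt_of_lt_of_le ht (hrad.trans h1))
  have e : n0 + j + 1 = n0 + 1 + j := by omega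
  rw [e] at h3
  have h4 : ‖Ds k c s (n0 + 1 + j) t‖ ≤ ‖Ds k c s (n0 + 1 + j) t - Ds k c s (n0 + 1 + j) t₁‖ +
      ‖Ds k c s (n0 + 1 + j) t₁‖ := by
    calc ‖Ds k c s (n0 + 1 + j) t‖ =
        ‖(Ds k c s (n0 + 1 + j) t - Ds k c s (n0 + 1 + j) t₁) + Ds k c s (n0 + 1 + j) t₁‖ := by
          rw [sub_add_cancel]
      _ ≤ _ := norm_add_le _ _
  have h5 := norm_nonneg (Ds k c s (n0 + 1 + (jS + i)) t₁)
  linarith

/-- output at a good centre `m`: the cell and the sizes of all slopes between the foot and the exit -/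
structure Out (k c : ℝ) (n0 : Bool → ℕ) (m R lam : ℝ) (s : Bool) (n n' : ℕ) (q0 q1 q2 : ℝ) :
    Prop where
  cell : Loc.Cell3 k c s n n' m R lam CC q0 q1 q2
  lam_le : |lam| ≤ CC * Real.sqrt k
  foot : n0 s + 4 ≤ n
  foot' : n0 (!s) + 4 ≤ n'
  mon : ∀ i, n0 s + 1 ≤ i → i ≤ n + 1 → ∀ t ∈ ball (m : ℂ) (4 / R), ‖Loc.D k c s i t‖ ≤ 2 * R
  mon' : ∀ i, n0 (!s) + 1 ≤ i → i ≤ n' + 1 → ∀ t ∈ ball (m : ℂ) (4 / R),
    ‖Loc.D k c (!s) i t‖ ≤ 2 * |lam| * R

theorem out_of_pair (N : NumB k A δ ρ) (hρ1 : ρ ≤ 1) {n0 jS : Bool → ℕ} {r0 : Bool → ℝ}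
    (S : ∀ s, SideOK k c s (n0 s) (jS s) (r0 s) ρ δ A t₁) (hj1 : ∀ s, 1 ≤ jS s) {ε : ℝ}
    (old : ∃ p0 p1 p2 : ℝ, ∀ z ∈ ball (t₁ : ℂ) (4 * ρ / k),
      ‖Loc.cont k c true (n0 true + 1) (n0 false + 1) z -
        (p0 + p1 * (z - t₁) + p2 * (z - t₁) ^ 2)‖ ≤ ε)
    (hε : 10 ^ 3 * k ^ 17 * ε ≤ ρ ^ 2) (s : Bool) {i j : ℕ} (hi3 : 3 ≤ i) (hi6 : i ≤ 6) (hj3 : 3 ≤ j)
    (hj6 : j ≤ 6)
    (hab : ‖Ds k c s (n0 s + 1 + (jS s + i)) t₁‖ ≤ ‖Ds k c (!s) (n0 (!s) + 1 + (jS (!s) + j)) t₁‖)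
    (hba : ‖Ds k c (!s) (n0 (!s) + 1 + (jS (!s) + j)) t₁‖ ≤
      4 * Real.sqrt k * ‖Ds k c s (n0 s + 1 + (jS s + i)) t₁‖)
    (hlo : k ≤ ‖Ds k c s (n0 s + 1 + (jS s + i)) t₁‖ * ρ)
    (hhi : ‖Ds k c s (n0 s + 1 + (jS s + i)) t₁‖ * ρ ≤ k ^ 8) :
    ∃ (n n' : ℕ) (R lam q0 q1 q2 : ℝ), k ≤ R * ρ ∧ R * ρ ≤ k ^ 8 ∧
      Out k c n0 t₁ R lam s n n' q0 q1 q2 := by
  obtain ⟨lam, q0, q1, q2, hl, hc⟩ := cell3 sideSum N hρ1 S old hε s hi3 hi6 hj3 hj6 hab hba hlo hhi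
  have hk := N.k_large
  have hk0 : 0 < k := by linarith
  have hρ := N.ρ_pos
  set R := ‖Ds k c s (n0 s + 1 + (jS s + i)) t₁‖ with hRd
  set b := ‖Ds k c (!s) (n0 (!s) + 1 + (jS (!s) + j)) t₁‖ with hbd
  have hR0 : 0 < R := (((S s).chain' N).1 (jS s + i) (by omega)).2.1
  have hb0 : 0 < b := lt_of_lt_of_le hR0 hab
  have hRρ : 1 ≤ R * ρ := by linarith
  have hbρ : 1 ≤ b * ρ := hRρ.trans (by gcongr)
  have hsq : Real.sqrt k * Real.sqrt k = k := Real.mul_self_sqrt hk0.le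
  have hsq0 : 0 < Real.sqrt k := Real.sqrt_pos.mpr hk0
  have hsqL : 10 ^ 60 ≤ Real.sqrt k := by
    rw [show (10 : ℝ) ^ 60 = Real.sqrt ((10 ^ 60) ^ 2) by
      rw [Real.sqrt_sq (by positivity)]]
    apply Real.sqrt_le_sqrt
    norm_num at hk ⊢
    linarith
  have h4R : 4 / R ≤ k / (10 ^ 19 * R) := by
    rw [div_le_div_iff₀ hR0 (by positivity)]
    have : 4 * 10 ^ 19 ≤ k := by norm_num at hk ⊢; linarith
    calc 4 * (10 ^ 19 * R) = (4 * 10 ^ 19) * R := by ring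
      _ ≤ k * R := by gcongr
  have h4b : 4 / R ≤ k / (10 ^ 19 * b) := by
    rw [div_le_div_iff₀ hR0 (by positivity)]
    calc 4 * (10 ^ 19 * b) ≤ 4 * (10 ^ 19 * (4 * Real.sqrt k * R)) := by gcongr
      _ = (16 * 10 ^ 19) * (Real.sqrt k * R) := by ring
      _ ≤ Real.sqrt k * (Real.sqrt k * R) := by
          gcongr
          norm_num at hsqL ⊢
          linarith
      _ = k * R := by rw [← mul_assoc, hsq]
  refine ⟨n0 s + (jS s + i), n0 (!s) + (jS (!s) + j), R, lam, q0, q1, q2, hlo, hhi,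
    ⟨hc, hl, ?_, ?_, ?_, ?_⟩⟩
  · have := hj1 s; omega
  · have := hj1 (!s); omega
  · intro l hl1 hl2 t ht
    have ht' : ‖t - t₁‖ < 4 / R := by rw [← dist_eq_norm]; exact mem_ball.mp ht
    have := (S s).mon N (i := i) (by omega) hi6 hRρ (lt_of_lt_of_le ht' h4R) (l - (n0 s + 1))
      (by omega)
    rw [norm_Ds] at this
    have e : n0 s + 1 + (l - (n0 s + 1)) = l := by omega
    rw [e, ← hRd] at this
    linarith
  · intro l hl1 hl2 t ht
    have ht' : ‖t - t₁‖ < 4 / R := by rw [← dist_eq_norm]; exact mem_ball.mp ht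
    have := (S (!s)).mon N (i := j) (by omega) hj6 hbρ (lt_of_lt_of_le ht' h4b)
      (l - (n0 (!s) + 1)) (by omega)
    rw [norm_Ds] at this
    have e : n0 (!s) + 1 + (l - (n0 (!s) + 1)) = l := by omega
    rw [e, ← hbd] at this
    have hlamb : b ≤ 11 / 10 * (|lam| * R) := by
      -- from the cell: `‖D t₁ - lam R‖ ≤ ...`
      have h1 := hc.fast t₁ (mem_ball_self (by positivity))
      have e2 : n0 (!s) + (jS (!s) + j) + 1 = n0 (!s) + 1 + (jS (!s) + j) := by omega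
      rw [e2] at h1
      have h2 : b ≤ ‖Loc.D k c (!s) (n0 (!s) + 1 + (jS (!s) + j)) t₁ - (lam * R : ℝ)‖ +
          ‖((lam * R : ℝ) : ℂ)‖ := by
        rw [hbd, norm_Ds]
        calc _ = ‖(Loc.D k c (!s) (n0 (!s) + 1 + (jS (!s) + j)) t₁ - (lam * R : ℝ)) +
            ((lam * R : ℝ) : ℂ)‖ := by rw [sub_add_cancel]
          _ ≤ _ := norm_add_le _ _
      have h3 : ‖((lam * R : ℝ) : ℂ)‖ = |lam| * R := by
        rw [Complex.norm_real, Real.norm_eq_abs, abs_mul, abs_of_pos hR0]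
      rw [h3] at h2
      have h4 : CC * |lam| ^ 2 * R / k ≤ 1 / 10 * (|lam| * R) := by
        rw [div_le_iff₀ hk0]
        have h5 : CC * |lam| ≤ 1 / 10 * k := by
          have h6 : CC * |lam| ≤ CC * (CC * Real.sqrt k) := by
            have : 0 ≤ CC := by unfold CC; positivity
            gcongr
          refine h6.trans ?_
          have h7 : CC * (CC * Real.sqrt k) = (CC * CC) * Real.sqrt k := by ring
          rw [h7]
          have h8 : CC * CC ≤ 1 / 10 * Real.sqrt k := by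
            unfold CC
            norm_num at hsqL ⊢
            linarith
          calc (CC * CC) * Real.sqrt k ≤ (1 / 10 * Real.sqrt k) * Real.sqrt k := by gcongr
            _ = 1 / 10 * k := by rw [mul_assoc, hsq]
        calc CC * |lam| ^ 2 * R = (CC * |lam|) * (|lam| * R) := by ring
          _ ≤ (1 / 10 * k) * (|lam| * R) := by gcongr
          _ = _ := by ring
      linarith
    have h9 : 0 ≤ |lam| * R := by positivity
    nlinarith

/-- **LocA**: from the base data of both sides at `t₀` to a large set of good centres -/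
theorem locA4 {k : ℝ} (hk : 10 ^ 1000 ≤ k) {c t₀ r : ℝ} (hr1 : 2 * r ≤ 1) {n0 M : Bool → ℕ}
    {r0 : Bool → ℝ} (B : ∀ s, Base k c s (n0 s) (M s) t₀ (r0 s) r)
    (old : ∃ p0 p1 p2 : ℝ, ∀ z ∈ ball (t₀ : ℂ) (2 * r),
      ‖Loc.cont k c true (n0 true + 1) (n0 false + 1) z -
        (p0 + p1 * (z - t₀) + p2 * (z - t₀) ^ 2)‖ ≤ r ^ 2 / k ^ 18) :
    ∃ N : Set ℝ, N ⊆ Icc (t₀ - r) (t₀ + r) ∧ ENNReal.ofReal r ≤ volume N ∧
      ∀ m ∈ N, ∃ (s : Bool) (n n' : ℕ) (R lam q0 q1 q2 : ℝ), k ≤ R * (2 * r) ∧ R * (2 * r) ≤ k ^ 8 ∧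
        Out k c n0 m R lam s n n' q0 q1 q2 := by
  obtain ⟨u, h⟩ := exists_u hk
  have hk240 : (10 : ℝ) ^ 240 ≤ k := le_trans (pow_le_pow_right₀ (by norm_num) (by norm_num)) hk
  have hr := (B true).r_pos
  have hu0 := h.u_pos
  have hk0 : 0 < k := lt_of_lt_of_le (by positivity) hk
  have hk1 : 1 ≤ k := le_trans (one_le_pow₀ (by norm_num)) hk
  have hk100 : (10 : ℝ) ^ 100 ≤ k := le_trans (pow_le_pow_right₀ (by norm_num) (by norm_num)) hk
  have hk6 : (1000000 : ℝ) ≤ k := le_trans (by norm_num) hk100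
  clear hk
  have N := h.numB (ρ := 2 * r) (by linarith)
  choose jS E using fun s => (B s).exit h
  -- the good set
  set I : Set ℝ := Icc (t₀ - r) (t₀ + r) with hI
  set X : Bool → Set ℝ := fun s => {t : ℝ | t ∈ I ∧ ¬ Nice k c s (n0 s) (jS s) t} with hX
  set G : Set ℝ := {t | t ∈ I ∧ Nice k c true (n0 true) (jS true) t ∧
    Nice k c false (n0 false) (jS false) t} with hG
  refine ⟨G, fun t ht => ht.1, ?_, ?_⟩
  · have h1 := (B true).nice_measure h hk240 (E true)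
    have h2 := (B false).nice_measure h hk240 (E false)
    have hcov : I ⊆ G ∪ (X true ∪ X false) := by
      intro t ht
      by_cases ha : Nice k c true (n0 true) (jS true) t
      · by_cases hb : Nice k c false (n0 false) (jS false) t
        · exact Or.inl ⟨ht, ha, hb⟩
        · exact Or.inr (Or.inr ⟨ht, hb⟩)
      · exact Or.inr (Or.inl ⟨ht, ha⟩)
    have h3 : ENNReal.ofReal (2 * r) ≤ volume G + (ENNReal.ofReal (2 * r / 8) +
        ENNReal.ofReal (2 * r / 8)) := by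
      calc ENNReal.ofReal (2 * r) = volume I := by
            rw [hI, Real.volume_Icc]; congr 1; ring
        _ ≤ volume (G ∪ (X true ∪ X false)) := measure_mono hcov
        _ ≤ volume G + volume (X true ∪ X false) := measure_union_le _ _
        _ ≤ volume G + (volume (X true) + volume (X false)) := by
            gcongr
            exact measure_union_le _ _
        _ ≤ _ := by gcongr
    have h4 : ENNReal.ofReal (2 * r / 8) + ENNReal.ofReal (2 * r / 8) = ENNReal.ofReal (r / 2) := by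
      rw [← ENNReal.ofReal_add (by positivity) (by positivity)]
      congr 1; ring
    rw [h4] at h3
    have h5 : ENNReal.ofReal (3 / 2 * r) + ENNReal.ofReal (r / 2) ≤ volume G +
        ENNReal.ofReal (r / 2) := by
      rw [← ENNReal.ofReal_add (by positivity) (by positivity)]
      refine le_trans (le_of_eq ?_) h3
      congr 1; ring
    have h6 : ENNReal.ofReal (3 / 2 * r) ≤ volume G :=
      (ENNReal.add_le_add_iff_right ENNReal.ofReal_ne_top).mp h5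
    exact le_trans (ENNReal.ofReal_le_ofReal (by linarith)) h6
  · clear hk240
    rintro m ⟨hmI, hnt, hnf⟩
    have hmr : |m - t₀| ≤ r := by
      rw [abs_le]; constructor <;> linarith [hmI.1, hmI.2]
    have hN : ∀ s, Nice k c s (n0 s) (jS s) m := by
      intro s
      cases s with
      | true => exact hnt
      | false => exact hnf
    have S : ∀ s, SideOK k c s (n0 s) (jS s) (r0 s) (2 * r) (1 / u ^ 21) (u ^ 36) m := fun s =>
      (B s).sideOK h (E s) hmr (hN s)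
    -- the old content around `m`
    obtain ⟨p0, p1, p2, hp⟩ := old
    have hold : ∃ p0 p1 p2 : ℝ, ∀ z ∈ ball (m : ℂ) (4 * (2 * r) / k),
        ‖Loc.cont k c true (n0 true + 1) (n0 false + 1) z -
          (p0 + p1 * (z - m) + p2 * (z - m) ^ 2)‖ ≤ r ^ 2 / k ^ 18 := by
      refine ⟨p0 + p1 * (m - t₀) + p2 * (m - t₀) ^ 2, p1 + 2 * p2 * (m - t₀), p2, fun z hz => ?_⟩
      have hz' : z ∈ ball (t₀ : ℂ) (2 * r) := by
        rw [mem_ball] at hz ⊢
        have h1 : dist (m : ℂ) (t₀ : ℂ) ≤ r := by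
          rw [Complex.dist_eq, ← Complex.ofReal_sub, Complex.norm_real, Real.norm_eq_abs]
          exact hmr
        have h2 : 4 * (2 * r) / k ≤ r := by
          rw [div_le_iff₀ hk0]
          nlinarith
        have h3 := dist_triangle z (m : ℂ) (t₀ : ℂ)
        linarith
      have h1 := hp z hz'
      have e : Loc.cont k c true (n0 true + 1) (n0 false + 1) z -
          (((p0 + p1 * (m - t₀) + p2 * (m - t₀) ^ 2 : ℝ) : ℂ) +
            ((p1 + 2 * p2 * (m - t₀) : ℝ) : ℂ) * (z - m) + (p2 : ℂ) * (z - m) ^ 2) =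
          Loc.cont k c true (n0 true + 1) (n0 false + 1) z -
          (p0 + p1 * (z - t₀) + p2 * (z - t₀) ^ 2) := by
        push_cast
        ring
      rw [e]
      exact h1
    have hε : 10 ^ 3 * k ^ 17 * (r ^ 2 / k ^ 18) ≤ (2 * r) ^ 2 := by
      rw [mul_div_assoc', div_le_iff₀ (by positivity)]
      have h1 : (10 : ℝ) ^ 3 ≤ k := le_trans (by norm_num) hk6
      calc (10 : ℝ) ^ 3 * k ^ 17 * r ^ 2 ≤ k * k ^ 17 * r ^ 2 := by gcongr
        _ = r ^ 2 * k ^ 18 := by ring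
        _ ≤ (2 * r) ^ 2 * k ^ 18 := by
            gcongr
            nlinarith
    -- the pair
    have cht := (S true).chain' N
    have chf := (S false).chain' N
    have hA60 := N.A_pos
    have key1 : ∀ s, (u ^ 36) / 2 * ‖Ds k c s (n0 s + 1 + (jS s + 0)) m‖ ≤
        ‖Ds k c s (n0 s + 1 + (jS s + 1)) m‖ := by
      intro s
      have h1 := (((S s).chain' N).2 (jS s) (by omega)).2.1
      have h2 := (S s).start.dig (jS s) (by omega)
      have e : n0 s + 1 + (jS s + 1) = n0 s + 1 + (jS s + 1) := rfl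
      refine le_trans ?_ h1
      simp only [add_zero]
      gcongr
      linarith
    have key2 : ∀ s, ∀ j, 1 ≤ j → j ≤ 5 → k / 10 ^ 5 * ‖Ds k c s (n0 s + 1 + (jS s + j)) m‖ ≤
        ‖Ds k c s (n0 s + 1 + (jS s + (j + 1))) m‖ := by
      intro s j hj1 hj5
      have h1 := (((S s).chain' N).2 (jS s + j) (by omega)).2.1
      have h2 := (S s).mac j hj1 hj5
      have e : n0 s + 1 + (jS s + j + 1) = n0 s + 1 + (jS s + (j + 1)) := by omega
      rw [e] at h1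
      refine le_trans ?_ h1
      gcongr
      have h3 : k / 10 ^ 5 + 1 ≤ k / 10 ^ 4 := by
        clear hk100
        linarith
      linarith
    have key3 : ∀ s, ∀ j ≤ 5, ‖Ds k c s (n0 s + 1 + (jS s + (j + 1))) m‖ ≤
        11 * k * ‖Ds k c s (n0 s + 1 + (jS s + j)) m‖ := by
      intro s j hj5
      have h1 := (((S s).chain' N).2 (jS s + j) (by omega)).2.2.1
      have h2 := vv_le10 (c := c) (s := s) hk1 (n0 s + 1 + (jS s + j)) m
      have e : n0 s + 1 + (jS s + j + 1) = n0 s + 1 + (jS s + (j + 1)) := by omega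
      rw [e] at h1
      refine h1.trans ?_
      gcongr
      linarith
    obtain ⟨i, j, hi3, hi6, hj3, hj6, hpair, hka, hkb, ha8, hb8⟩ :=
      LocSel.select_k (k := k) (A := u ^ 36) (δ := 1 / u ^ 21) (ρ := 2 * r)
        (a := fun j => ‖Ds k c true (n0 true + 1 + (jS true + j)) m‖)
        (b := fun j => ‖Ds k c false (n0 false + 1 + (jS false + j)) m‖)
        hk100 N.A2
        (le_trans (pow_le_pow_right₀ (by norm_num) (by norm_num)) N.A_pos) N.δ_pos N.δ_le N.Aδ N.ρ_pos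
        (by simpa using (S true).lo) (by simpa using (S true).hi)
        (by simpa using (S false).lo) (by simpa using (S false).hi)
        (key1 true) (key1 false) (key2 true) (key2 false) (key3 true) (key3 false)
    rcases hpair with ⟨h1, h2⟩ | ⟨h1, h2⟩
    · obtain ⟨n, n', R, lam, q0, q1, q2, g1, g2, g3⟩ := out_of_pair N hr1 S (fun s => (E s).one_le)
        hold hε true hi3 hi6 hj3 hj6 h1 h2 hka ha8
      exact ⟨true, n, n', R, lam, q0, q1, q2, g1, g2, g3⟩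
    · obtain ⟨n, n', R, lam, q0, q1, q2, g1, g2, g3⟩ := out_of_pair N hr1 S (fun s => (E s).one_le)
        hold hε false hj3 hj6 hi3 hi6 h1 h2 hkb hb8
      exact ⟨false, n, n', R, lam, q0, q1, q2, g1, g2, g3⟩

end Crest.Agent.R128.LocA
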