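import Mathlib
import Crest.Agent.R128.Acc
import Crest.Agent.R128.Boot
import Crest.Agent.R128.TreeSum

-- ▼ part R128/Fin
section

/-! Row 128: final glue (helper415): measurability of the tips, truncated heights, the bootstrap and
the fibre form. Sorry free. -/

set_option autoImplicit false
open MeasureTheory Filter Topology Finset
open scoped ENNReal
open Crest.AnalysisR.StandardFamily

namespace Crest.Agent.R128.Fin

open Crest.Agent.R128 Crest.Agent.R128.Acc

theorem continuous_act_Mn (k : ℝ) (m : ℕ) :
    Continuous fun q : Tor × (ℝ × ℝ) => act (Mn k m q.1) q.2 := by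
  have h : ∀ i j, Continuous fun q : Tor × (ℝ × ℝ) => Mn k m q.1 i j := fun i j =>
    ((continuous_Mn k m).comp continuous_fst).matrix_elem i j
  unfold act
  fun_prop (disch := assumption)





/-- `L_H` -/
noncomputable def L (k : ℝ) (N H : ℕ) : ℝ := ∑ l ∈ Icc 1 H, NT k (l * Real.log k) N

/-- truncated height of the tip at `z` in levels (zero if `z` is not a tip of height `1`) -/
noncomputable def ht (k : ℝ) (N H : ℕ) (z : Tor) : ℝ≥0∞ :=
  ∑ l ∈ Icc 1 H, {z | TIP k (l * Real.log k) N z}.indicator (fun _ => (1 : ℝ≥0∞)) z










end Crest.Agent.R128.Fin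
end

-- ▼ part R128/Meas

/-!
Row 128, node V-MEAS (helper862): measurability layer of MASTER v2.  Small lemmas only:
continuity/measurability of the cocycle objects, closure of measurable predicates, first violations,
counting functions with `z`-dependent finite index sets, the reversor `Prod.swap`.
-/

set_option autoImplicit false

open MeasureTheory Filter Topology Finset
open scoped ENNReal
open Crest.Agent.R128 Crest.Agent.R128.Acc Crest.Agent.R128.TreeSum

namespace Crest.Agent.R128.Meas

/-! ### continuity of the basic objects -/

theorem continuous_act_Mn (k : ℝ) (m : ℕ) (v : ℝ × ℝ) :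
    Continuous fun z : Tor => act (Mn k m z) v :=
  (Crest.Agent.R128.Fin.continuous_act_Mn k m).comp (continuous_id.prodMk continuous_const)



theorem continuous_norm_W (k : ℝ) (m : ℕ) (v : ℝ × ℝ) :
    Continuous fun z : Tor => ‖act (Mn k m z) v‖ :=
  (continuous_act_Mn k m v).norm

theorem continuous_T_iter (k : ℝ) (m : ℕ) : Continuous (T k)^[m] := (continuous_T k).iterate m


theorem continuous_V_iter (k : ℝ) (m : ℕ) : Continuous fun z : Tor => V k ((T k)^[m] z).2 :=
  (continuous_V k).comp (continuous_snd.comp (continuous_T_iter k m))






/-! ### measurable predicates -/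

section Pred

variable {α : Type*} [MeasurableSpace α]

theorem ms_forall {ι : Sort*} [Countable ι] {p : ι → α → Prop}
    (h : ∀ i, MeasurableSet {z | p i z}) : MeasurableSet {z | ∀ i, p i z} := by
  rw [Set.ofPred_forall]
  exact MeasurableSet.iInter h

theorem ms_exists {ι : Sort*} [Countable ι] {p : ι → α → Prop}
    (h : ∀ i, MeasurableSet {z | p i z}) : MeasurableSet {z | ∃ i, p i z} := by
  rw [Set.ofPred_exists]
  exact MeasurableSet.iUnion h

theorem ms_and {p q : α → Prop} (hp : MeasurableSet {z | p z}) (hq : MeasurableSet {z | q z}) :
    MeasurableSet {z | p z ∧ q z} := hp.inter hq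





theorem ms_const_imp {r : Prop} {q : α → Prop} (hq : r → MeasurableSet {z | q z}) :
    MeasurableSet {z | r → q z} := by
  by_cases h : r
  · simpa [h] using hq h
  · simp [h]

theorem ms_const_and {r : Prop} {q : α → Prop} (hq : r → MeasurableSet {z | q z}) :
    MeasurableSet {z | r ∧ q z} := by
  by_cases h : r
  · simpa [h] using hq h
  · simp [h]

theorem ms_le {f g : α → ℝ} (hf : Measurable f) (hg : Measurable g) :
    MeasurableSet {z | f z ≤ g z} := measurableSet_le hf hg

theorem ms_lt {f g : α → ℝ} (hf : Measurable f) (hg : Measurable g) :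
    MeasurableSet {z | f z < g z} := measurableSet_lt hf hg







/-! ### counting functions -/








end Pred

/-! ### the reversor -/






theorem volume_swap {A : Set Tor} (hA : MeasurableSet A) :
    (volume : Measure Tor) (Prod.swap ⁻¹' A) = volume A :=
  mp_swap.measure_preimage hA.nullMeasurableSet




/-! ### lines and curves -/





/-! ### comparisons of the growth functions -/








end Crest.Agent.R128.Meas
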