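import Mathlib
import Crest.Agent.R128.CoreI
import Crest.Agent.R128.BVP7
import Crest.Agent.R128.ValNum
import Crest.Agent.R128.Lam0D
import Crest.Agent.R128.Good
import Crest.Agent.R128.Meas
import Crest.Agent.R128.Align
import Crest.Agent.R128.Skel
import Crest.Agent.R128.LocG
import Crest.Agent.R128.CellB
import Crest.Agent.R128.LocDef

-- ▼ part R128/CoreAsm
section

/-!
Row 128, node V3-CORE: assembly of `CoreStmt2` and `CoreStmt` from `ShadowStmt` and `CohStmt`.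
-/

set_option autoImplicit false

open Finset

namespace Crest.Agent.R128.Core

open Crest.Agent.R128.TreeSum Crest.Agent.R128.BVP Crest.Agent.R128.Lam0

/-- the orbit is matched to itself -/
theorem Seg.refl {k X a b : ℝ} {n' n L : ℕ} (S : Seg k X a b n' n L) : Mt k a b n a b where
  right := rfl
  box := by
    intro m hm
    rw [sub_self, abs_zero]
    have := (S.val.lw_pos (Finset.mem_Icc.mp hm).2).le
    positivity

/-- the matched start is a `1/8`-Lipschitz function of the left boundary value -/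
theorem Mt.lip {k X a b : ℝ} {n' n L : ℕ} (hk : (10 : ℝ) ^ 30 ≤ k) (S : Seg k X a b n' n L)
    {l s l' s' : ℝ} (h : Mt k a b n l s) (h' : Mt k a b n l' s') : |s - s'| ≤ 1 / 8 * |l - l'| := by
  obtain ⟨hb19, hbk, -⟩ := base_facts hk
  have hk0 : 0 < k := lt_of_lt_of_le (by positivity) hk
  have hM := M_le hk0
  have hn : 35 ≤ n := S.hL35.trans S.hLn
  have V := S.val
  have h1 : (1 : ℕ) ∈ Icc 1 n := Finset.mem_Icc.mpr ⟨le_rfl, by omega⟩
  have hbox : ∀ {l s : ℝ}, Mt k a b n l s → ∀ m ∈ Icc 1 n, |xorb k l s m - xorb k a b m| ≤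
      2 * Val.lw n (pk k a b) (qk (dig k a b) n) m := by
    intro l s h m hm
    have h2 := h.box m hm
    have := (V.lw_pos (Finset.mem_Icc.mp hm).2).le
    linarith
  have hd := Val.diff_orb (f := fk k) (Vd := Vk k) (M := 4 * Real.pi ^ 2 * k) (c := 2) (ε := 1 / 4)
    (by positivity) (by norm_num) le_rfl (by nlinarith) (NL_fk hk0.le) (xorb k a b) V
    (xorb k l' s') (xorb k l s) (xorb_orb k l' s' n) (xorb_orb k l s n) (hbox h') (hbox h) 1 h1
  have h2 := hd.1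
  rw [h.right, h'.right, sub_self, abs_zero, mul_zero, zero_add] at h2
  have h3 : xorb k l s 1 - xorb k l' s' 1 = s - s' := rfl
  have h4 : xorb k l s 0 - xorb k l' s' 0 = l - l' := rfl
  rw [h3, h4] at h2
  have h5 := V.lamB.c 1 (by norm_num)
  have h6 := V.clean_ex (by have := S.hL35; omega : 0 < L)
  rw [V.ex_zero, zero_add, zero_add] at h6
  have h7 : (k ^ (2 / 3 : ℝ) / 2) ^ (-Val.ex (k ^ (2 / 3 : ℝ) / 2) (pk k a b) 1) ≤
      (k ^ (2 / 3 : ℝ) / 2) ^ (-1 : ℝ) :=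
    Real.rpow_le_rpow_of_exponent_le (le_trans (by norm_num) hb19) (by linarith)
  have h8 : (k ^ (2 / 3 : ℝ) / 2) ^ (-1 : ℝ) ≤ 1 / 1000 := by
    rw [Real.rpow_neg_one, inv_eq_one_div]
    exact one_div_le_one_div_of_le (by norm_num) (le_trans (by norm_num) hb19)
  have h9 := abs_nonneg (l - l')
  have h10 := (V.lw_pos (by omega : 1 ≤ n)).le
  nlinarith

/-- coherence in the case `n1 ≤ n2` -/
theorem coh_aux {k X : ℝ}
    (hS : ∀ (a b : ℝ) (n' n L : ℕ), Adm k X a b n' → Seg k X a b n' n L → ∀ l s0 : ℝ, |l - a| ≤ 1 →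
      Mt k a b n l s0 → ∀ s, |s - s0| ≤ 2 * X ^ (-(3 / 2) : ℝ) → ∀ m ≤ n',
      nf k a b m ≤ 2 * nf k l s m ∧ nf k l s m ≤ 2 * nf k a b m)
    (hC : ∀ (a1 b1 a2 b2 : ℝ) (n1' n2' n1 n2 L1 L2 : ℕ),
      Adm k X a1 b1 n1' → Adm k X a2 b2 n2' → Seg k X a1 b1 n1' n1 L1 → Seg k X a2 b2 n2' n2 L2 →
      n1 ≤ n2 → (∀ m ≤ n1, nf k a1 b1 m ≤ 4 * nf k a2 b2 m ∧ nf k a2 b2 m ≤ 4 * nf k a1 b1 m) →
      ∀ l s1 s2 ρ : ℝ, |l - a1| ≤ 1 → |l - a2| ≤ 1 → Mt k a1 b1 n1 l s1 → Mt k a2 b2 n2 l s2 →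
      X ^ (-(3 / 2) : ℝ) / 10 ^ 4 ≤ ρ → ρ ≤ 2 * X ^ (-(3 / 2) : ℝ) → |s1 - s2| ≤ ρ →
      (∀ s, |s - s1| ≤ 2 * X ^ (-(3 / 2) : ℝ) → ∀ m ≤ n1, nf k l s m ≤ 2 * nf k a1 b1 m) →
      ∀ l' s1' s2' : ℝ, |l' - a1| ≤ 1 → |l' - a2| ≤ 1 → Mt k a1 b1 n1 l' s1' → Mt k a2 b2 n2 l' s2' →
        |s1' - s2'| ≤ 20 * ρ)
    {a1 b1 a2 b2 : ℝ} {n1' n2' n1 n2 L1 L2 : ℕ}
    (A1 : Adm k X a1 b1 n1') (A2 : Adm k X a2 b2 n2') (S1 : Seg k X a1 b1 n1' n1 L1)
    (S2 : Seg k X a2 b2 n2' n2 L2) (hn : n1 ≤ n2)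
    {l s1 s2 ρ : ℝ} (hl1 : |l - a1| ≤ 1) (hl2 : |l - a2| ≤ 1) (M1 : Mt k a1 b1 n1 l s1)
    (M2 : Mt k a2 b2 n2 l s2) (hρ1 : X ^ (-(3 / 2) : ℝ) / 10 ^ 4 ≤ ρ)
    (hρ2 : ρ ≤ 2 * X ^ (-(3 / 2) : ℝ)) (h12 : |s1 - s2| ≤ ρ)
    {l' s1' s2' : ℝ} (hl1' : |l' - a1| ≤ 1) (hl2' : |l' - a2| ≤ 1) (M1' : Mt k a1 b1 n1 l' s1')
    (M2' : Mt k a2 b2 n2 l' s2') : |s1' - s2'| ≤ 20 * ρ := by
  refine hC a1 b1 a2 b2 n1' n2' n1 n2 L1 L2 A1 A2 S1 S2 hn ?_ l s1 s2 ρ hl1 hl2 M1 M2 hρ1 hρ2 h12 ?_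
    l' s1' s2' hl1' hl2' M1' M2'
  · intro m hm
    have e1 := hS a1 b1 n1' n1 L1 A1 S1 l s1 hl1 M1 s2 (by rw [abs_sub_comm]; linarith) m
      (by have := S1.lt; omega)
    have e2 := hS a2 b2 n2' n2 L2 A2 S2 l s2 hl2 M2 s2 (by
      rw [sub_self, abs_zero]
      have := abs_nonneg (s1 - s2)
      linarith) m (by have := S2.lt; omega)
    constructor
    · linarith [e1.1, e1.2, e2.1, e2.2]
    · linarith [e1.1, e1.2, e2.1, e2.2]
  · intro s hs m hm
    exact (hS a1 b1 n1' n1 L1 A1 S1 l s1 hl1 M1 s hs m (by have := S1.lt; omega)).2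

/-- **Assembly.** -/
theorem core2_of (hS : ShadowStmt) (hC : CohStmt) :
    ∃ K0 : ℝ, ∀ k, K0 ≤ k → ∀ X, k ^ 600 ≤ X → ∃ r, 0 < r ∧ r ≤ 1 ∧ ∃ σ : ℝ → ℝ → ℕ → ℝ → ℝ,
    (∀ a b n', Adm k X a b n' → σ a b n' a = b ∧
      (∀ l l', |l - a| ≤ 1 → |l' - a| ≤ 1 → |σ a b n' l - σ a b n' l'| ≤ 1 / 8 * |l - l'|) ∧
      (∀ l s, |l - a| ≤ 1 → |s - σ a b n' l| ≤ r → ∀ m ≤ n',
        nf k a b m ≤ 2 * nf k l s m ∧ nf k l s m ≤ 2 * nf k a b m)) ∧
    (∀ a b n' a2 b2 n2', Adm k X a b n' → Adm k X a2 b2 n2' → ∀ l l' ρ,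
      |l - a| ≤ 1 → |l - a2| ≤ 1 → |l' - a| ≤ 1 → |l' - a2| ≤ 1 → r / 10 ^ 4 ≤ ρ → ρ ≤ 2 * r →
      |σ a b n' l - σ a2 b2 n2' l| ≤ ρ → |σ a b n' l' - σ a2 b2 n2' l'| ≤ 20 * ρ) := by
  obtain ⟨KS, hS⟩ := hS
  obtain ⟨KC, hC⟩ := hC
  refine ⟨max ((10 : ℝ) ^ 30) (max KS KC), fun k hk X hX => ?_⟩
  have hk30 : (10 : ℝ) ^ 30 ≤ k := (le_max_left _ _).trans hk
  have hkS : KS ≤ k := ((le_max_left _ _).trans (le_max_right _ _)).trans hk
  have hkC : KC ≤ k := ((le_max_right _ _).trans (le_max_right _ _)).trans hk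
  have hk1 : (1 : ℝ) ≤ k := le_trans (by norm_num) hk30
  have hX1 : (1 : ℝ) ≤ X := (one_le_pow₀ hk1).trans hX
  have hX0 : 0 < X := by linarith
  specialize hS k hkS X hX
  specialize hC k hkC X hX
  set r : ℝ := X ^ (-(3 / 2) : ℝ) with hr
  have hr0 : 0 < r := Real.rpow_pos_of_pos hX0 _
  have hr1 : r ≤ 1 := Real.rpow_le_one_of_one_le_of_nonpos hX1 (by norm_num)
  have hex : ∀ (a b : ℝ) (n' : ℕ), ∃ (n L : ℕ) (τ : ℝ → ℝ), Adm k X a b n' →
      Seg k X a b n' n L ∧ ∀ l, |l - a| ≤ 1 → Mt k a b n l (τ l) := by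
    intro a b n'
    by_cases hA : Adm k X a b n'
    · obtain ⟨n, L, hSeg⟩ := seg_of_adm hk30 hX hA
      have h1 : ∀ l, ∃ s, |l - a| ≤ 1 → Mt k a b n l s := by
        intro l
        by_cases hl : |l - a| ≤ 1
        · obtain ⟨c', h2, h3⟩ := matched hk30 hSeg.val hl
          exact ⟨c', fun _ => ⟨h2, h3⟩⟩
        · exact ⟨0, fun h => absurd h hl⟩
      choose τ hτ using h1
      exact ⟨n, L, τ, fun _ => ⟨hSeg, hτ⟩⟩
    · exact ⟨0, 0, fun _ => 0, fun h => absurd h hA⟩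
  choose N Lf σ hσ using hex
  refine ⟨r, hr0, hr1, σ, ?_, ?_⟩
  · intro a b n' hA
    obtain ⟨hSeg, hM⟩ := hσ a b n' hA
    refine ⟨?_, ?_, ?_⟩
    · have h1 := (hM a (by simp)).lip hk30 hSeg hSeg.refl
      rw [sub_self, abs_zero, mul_zero] at h1
      have h2 := abs_nonneg (σ a b n' a - b)
      have h3 : |σ a b n' a - b| = 0 := le_antisymm h1 h2
      rw [abs_eq_zero] at h3
      linarith
    · intro l l' hl hl'
      exact (hM l hl).lip hk30 hSeg (hM l' hl')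
    · intro l s hl hs m hm
      exact hS a b n' (N a b n') (Lf a b n') hA hSeg l (σ a b n' l) hl (hM l hl) s (by linarith) m hm
  · intro a b n' a2 b2 n2' hA hA2 l l' ρ hl1 hl2 hl1' hl2' hρ1 hρ2 h12
    obtain ⟨hSeg, hM⟩ := hσ a b n' hA
    obtain ⟨hSeg2, hM2⟩ := hσ a2 b2 n2' hA2
    rcases le_total (N a b n') (N a2 b2 n2') with h | h
    · exact coh_aux hS hC hA hA2 hSeg hSeg2 h hl1 hl2 (hM l hl1) (hM2 l hl2) hρ1 hρ2 h12 hl1' hl2'
        (hM l' hl1') (hM2 l' hl2')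
    · rw [abs_sub_comm]
      rw [abs_sub_comm] at h12
      exact coh_aux hS hC hA2 hA hSeg2 hSeg h hl2 hl1 (hM2 l hl2) (hM l hl1) hρ1 hρ2 h12 hl2' hl1'
        (hM2 l' hl2') (hM l' hl1')

theorem coreStmt2_of (hS : ShadowStmt) (hC : CohStmt) : CoreStmt2 := by
  obtain ⟨K0, h⟩ := core2_of hS hC
  refine ⟨K0, fun k hk X hX => ?_⟩
  obtain ⟨r, hr0, hr1, σ, h1, h2⟩ := h k hk X hX
  refine ⟨r, hr0, hr1, σ, h1, ?_⟩
  intro a b n' a2 b2 n2' hA hA2 l l' ρ hl1 hl2 hl1' hl2' hρ1 hρ2 h12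
  have h3 := h2 a b n' a2 b2 n2' hA hA2 l l' ρ hl1 hl2 hl1' hl2' hρ1 hρ2 h12
  have h4 : 0 ≤ ρ := (abs_nonneg _).trans h12
  linarith


end Crest.Agent.R128.Core
end

-- ▼ part R128/CoreA
section

/-!
Row 128, node V3-CORE, coherence half (COH): two matched orbits which are close for one left boundary value
are close for every left boundary value.
-/

set_option autoImplicit false

open Finset

namespace Crest.Agent.R128.CoreA

open Crest.Agent.R128.TreeSum Crest.Agent.R128.BVP Crest.Agent.R128.Val Crest.Agent.R128.Lam0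

/-! ### the derivative of the orbit in the second initial value -/

theorem hasDerivAt_xorb (k l : ℝ) : ∀ m : ℕ, ∀ s : ℝ,
    HasDerivAt (fun s => xorb k l s m) (pk k l s m) s ∧
      HasDerivAt (fun s => xorb k l s (m + 1)) (pk k l s (m + 1)) s := by
  intro m
  induction m with
  | zero =>
    intro s
    exact ⟨hasDerivAt_const s l, hasDerivAt_id s⟩
  | succ m ih =>
    intro s
    obtain ⟨h1, h2⟩ := ih s
    refine ⟨h2, ?_⟩
    have h3 : HasDerivAt (fk k ∘ fun s => xorb k l s (m + 1))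
        (Vk k (xorb k l s (m + 1)) * pk k l s (m + 1)) s :=
      HasDerivAt.comp (h₂ := fk k) s (hasDerivAt_fk k (xorb k l s (m + 1))) h2
    exact h3.sub h1

/-- mean value form -/
theorem xorb_sub_le {k l s1 s2 C : ℝ} {m : ℕ} (h : ∀ s ∈ Set.uIcc s1 s2, |pk k l s m| ≤ C) :
    |xorb k l s2 m - xorb k l s1 m| ≤ C * |s2 - s1| := by
  have h := (convex_uIcc s1 s2).norm_image_sub_le_of_norm_hasDerivWithin_le
    (f := fun s => xorb k l s m) (f' := fun s => pk k l s m) (C := C)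
    (fun s _ => (hasDerivAt_xorb k l m s).1.hasDerivWithinAt)
    (fun s hs => by rw [Real.norm_eq_abs]; exact h s hs)
    Set.left_mem_uIcc Set.right_mem_uIcc
  simpa [Real.norm_eq_abs] using h

/-! ### the box lemma -/

variable {n L : ℕ} {a p q : ℕ → ℝ} {b : ℝ}

/-- the weighted Green sum for a weight with the bounds `LamB` -/
theorem hsrx (V : Valid b L n a p q) {lx : ℕ → ℝ} (hlx : LamB b n (ex b p) lx)
    (hle : ∀ m ≤ n, lw n p q m ≤ lx m) {M : ℝ} (hM0 : 0 ≤ M) {m : ℕ} (hm : m ∈ Icc 1 n) :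
    ∑ j ∈ Icc 1 n, |K n p q m j| * (M * lx j) * rh n p j ≤ 21 * M / b ^ 2 * rh n p m := by
  have hb0 : 0 < b := V.expo.b0
  have hD := V.Dpos
  have hm' := Finset.mem_Icc.mp hm
  have e2 : b ^ (-2 : ℝ) = 1 / b ^ 2 := by
    rw [Real.rpow_neg hb0.le, Real.rpow_two, one_div]
  have s1 : lx m * ∑ j ∈ Icc 1 m, W p (j - 1) ^ 2 * lx j ≤ 10 / b ^ 2 * W p (m - 1) := by
    have h := sum1 V.expo hlx hm
    rw [e2, ← V.W_eq (by omega)] at h
    have : ∑ j ∈ Icc 1 m, W p (j - 1) ^ 2 * lx j =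
        ∑ j ∈ Icc 1 m, (b ^ ex b p (j - 1)) ^ 2 * lx j := by
      apply Finset.sum_congr rfl
      intro j hj
      rw [Finset.mem_Icc] at hj
      rw [V.W_eq (by omega)]
    rw [this]
    calc _ ≤ 10 * (1 / b ^ 2) * W p (m - 1) := h
      _ = _ := by ring
  have s2 : ∑ j ∈ Icc 1 n, lx j ^ 2 * W p (j - 1) ≤ 11 / b ^ 2 := by
    have h := sum2 V.expo hlx
    rw [e2] at h
    have : ∑ j ∈ Icc 1 n, lx j ^ 2 * W p (j - 1) =
        ∑ j ∈ Icc 1 n, lx j ^ 2 * b ^ ex b p (j - 1) := by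
      apply Finset.sum_congr rfl
      intro j hj
      rw [Finset.mem_Icc] at hj
      rw [V.W_eq (by omega)]
    rw [this]
    calc _ ≤ 11 * (1 / b ^ 2) := h
      _ = _ := by ring
  have hWm := W_nonneg p (m - 1)
  -- pointwise
  have hpt : ∀ j ∈ Icc 1 n, |K n p q m j| * (M * lx j) * rh n p j ≤
      (if j ≤ m then M / |p (n + 1)| * (lx m * (W p (j - 1) ^ 2 * lx j)) else 0) +
        M * rh n p m * (lx j ^ 2 * W p (j - 1)) := by
    intro j hj
    rw [Finset.mem_Icc] at hj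
    have hlj := hlx.pos j hj.2
    have hlm := hlx.pos m hm'.2
    have hrm := (V.rh_pos hm).le
    have hWj := W_nonneg p (j - 1)
    have hr : 0 ≤ rh n p j := (V.rh_pos (Finset.mem_Icc.mpr hj)).le
    rcases Nat.lt_or_ge m j with h | h
    · rw [if_neg (by omega), zero_add]
      have h1 := V.K_right h
      have h2 := abs_le_W_pred p hm'.1
      have h0 := hle j hj.2
      have h3 := (V.lw_pos hj.2).le
      calc |K n p q m j| * (M * lx j) * rh n p j
          ≤ (W p (m - 1) * lx j) * (M * lx j) * rh n p j := by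
            have : |K n p q m j| ≤ W p (m - 1) * lx j :=
              h1.trans (mul_le_mul h2 h0 h3 hWm)
            gcongr
        _ = M * rh n p m * (lx j ^ 2 * W p (j - 1)) := by
            unfold rh
            ring
    · rw [if_pos h]
      have h1 := V.K_left h
      have h2 := abs_le_W_pred p hj.1
      have h0 := hle m hm'.2
      have h3 : |K n p q m j| * (M * lx j) * rh n p j ≤
          M / |p (n + 1)| * (lx m * (W p (j - 1) ^ 2 * lx j)) := by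
        calc |K n p q m j| * (M * lx j) * rh n p j
            ≤ (lx m * W p (j - 1)) * (M * lx j) * rh n p j := by
              have : |K n p q m j| ≤ lx m * W p (j - 1) :=
                h1.trans (mul_le_mul h0 h2 (abs_nonneg _) hlm)
              gcongr
          _ = _ := by
              unfold rh
              ring
      have h4 : 0 ≤ M * rh n p m * (lx j ^ 2 * W p (j - 1)) := by positivity
      linarith
  refine (Finset.sum_le_sum hpt).trans ?_
  rw [Finset.sum_add_distrib, ← Finset.mul_sum, ← Finset.sum_filter]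
  have hf : (Icc 1 n).filter (fun j => j ≤ m) = Icc 1 m := by
    ext j
    simp only [Finset.mem_filter, Finset.mem_Icc]
    omega
  rw [hf, ← Finset.mul_sum, ← Finset.mul_sum]
  have hrm := (V.rh_pos hm).le
  have t1 : M / |p (n + 1)| * (lx m * ∑ j ∈ Icc 1 m, W p (j - 1) ^ 2 * lx j) ≤
      10 * M / b ^ 2 * rh n p m := by
    calc M / |p (n + 1)| * (lx m * ∑ j ∈ Icc 1 m, W p (j - 1) ^ 2 * lx j)
        ≤ M / |p (n + 1)| * (10 / b ^ 2 * W p (m - 1)) := by gcongr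
      _ = 10 * M / b ^ 2 * rh n p m := by unfold rh; ring
  have t2 : M * rh n p m * ∑ j ∈ Icc 1 n, lx j ^ 2 * W p (j - 1) ≤
      11 * M / b ^ 2 * rh n p m := by
    calc M * rh n p m * ∑ j ∈ Icc 1 n, lx j ^ 2 * W p (j - 1)
        ≤ M * rh n p m * (11 / b ^ 2) := by gcongr
      _ = _ := by ring
  have t5 : 21 * M / b ^ 2 * rh n p m = 10 * M / b ^ 2 * rh n p m + 11 * M / b ^ 2 * rh n p m := by
    ring
  linarith

/-- the two pointwise bounds for the linear weight -/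
theorem lin_left (V : Valid b L n a p q) {m j : ℕ} (hm : m ∈ Icc 1 n) (hj : 1 ≤ j) (hjm : j ≤ m) :
    lw n p q m * W p (j - 1) ^ 3 ≤ 2 * b ^ (9 : ℝ) * W p (j - 1) ^ (105 / 100 : ℝ) * W p (m - 1) := by
  have hb0 : 0 < b := V.expo.b0
  rw [Finset.mem_Icc] at hm
  have h1 := V.lamB.g m hm.2
  have hu := V.expo.up (m - 1) (by omega)
  have hd := V.expo.dn (m - 1) (by omega)
  rw [Nat.sub_add_cancel hm.1] at hu hd
  have hv := V.expo.v2 (j - 1) (m - 1) (by omega) (by omega)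
  have hn := V.expo.nonneg (m := j - 1) (by omega)
  rw [V.W_eq (m := j - 1) (by omega), V.W_eq (m := m - 1) (by omega)]
  set u := ex b p (m - 1)
  set v := ex b p (j - 1)
  have e3 : (b ^ v) ^ 3 = b ^ (3 * v) := by
    rw [← Real.rpow_natCast (b ^ v) 3, ← Real.rpow_mul hb0.le]
    congr 1
    push_cast
    ring
  have e4 : (b ^ v) ^ (105 / 100 : ℝ) = b ^ (105 / 100 * v) := by
    rw [← Real.rpow_mul hb0.le]
    congr 1
    ring
  rw [e3, e4]
  calc lw n p q m * b ^ (3 * v) ≤ 2 * b ^ (6 - 97 / 100 * ex b p m) * b ^ (3 * v) := by gcongr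
    _ = 2 * b ^ (6 - 97 / 100 * ex b p m + 3 * v) := by
      rw [mul_assoc, ← Real.rpow_add hb0]
    _ ≤ 2 * b ^ (9 + 105 / 100 * v + u) := by
      have : b ^ (6 - 97 / 100 * ex b p m + 3 * v) ≤ b ^ (9 + 105 / 100 * v + u) := by
        apply V.expo.mono
        linarith
      gcongr
    _ = 2 * b ^ (9 : ℝ) * b ^ (105 / 100 * v) * b ^ u := by
      rw [Real.rpow_add hb0, Real.rpow_add hb0]
      ring

theorem lin_right (V : Valid b L n a p q) {j : ℕ} (hj : j ∈ Icc 1 n) :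
    lw n p q j * W p (j - 1) ^ 2 ≤ 2 * b ^ (9 : ℝ) * W p (j - 1) ^ (105 / 100 : ℝ) := by
  have hb0 : 0 < b := V.expo.b0
  rw [Finset.mem_Icc] at hj
  have h1 := V.lamB.g j hj.2
  have hu := V.expo.up (j - 1) (by omega)
  have hd := V.expo.dn (j - 1) (by omega)
  rw [Nat.sub_add_cancel hj.1] at hu hd
  have hn := V.expo.nonneg (m := j - 1) (by omega)
  rw [V.W_eq (m := j - 1) (by omega)]
  set v := ex b p (j - 1)
  have e3 : (b ^ v) ^ 2 = b ^ (2 * v) := by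
    rw [← Real.rpow_natCast (b ^ v) 2, ← Real.rpow_mul hb0.le]
    congr 1
    push_cast
    ring
  have e4 : (b ^ v) ^ (105 / 100 : ℝ) = b ^ (105 / 100 * v) := by
    rw [← Real.rpow_mul hb0.le]
    congr 1
    ring
  rw [e3, e4]
  calc lw n p q j * b ^ (2 * v) ≤ 2 * b ^ (6 - 97 / 100 * ex b p j) * b ^ (2 * v) := by gcongr
    _ = 2 * b ^ (6 - 97 / 100 * ex b p j + 2 * v) := by
      rw [mul_assoc, ← Real.rpow_add hb0]
    _ ≤ 2 * b ^ (9 + 105 / 100 * v) := by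
      have : b ^ (6 - 97 / 100 * ex b p j + 2 * v) ≤ b ^ (9 + 105 / 100 * v) := by
        apply V.expo.mono
        linarith
      gcongr
    _ = 2 * b ^ (9 : ℝ) * b ^ (105 / 100 * v) := by
      rw [Real.rpow_add hb0]
      ring

/-- the weighted Green sum for the linear weight `R W (j-1)`, crude bound -/
theorem hsr_lin (V : Valid b L n a p q) {M R Λ : ℝ} (hM0 : 0 ≤ M) (hR : 0 ≤ R)
    (hΛ : ∀ j ∈ Icc 1 n, W p (j - 1) ≤ Λ) {m : ℕ} (hm : m ∈ Icc 1 n) :
    ∑ j ∈ Icc 1 n, |K n p q m j| * (M * (R * W p (j - 1))) * rh n p j ≤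
      n * (M * R * (2 * b ^ (9 : ℝ) * Λ ^ (105 / 100 : ℝ))) * rh n p m := by
  have hb0 : 0 < b := V.expo.b0
  have hD := V.Dpos
  have hm' := Finset.mem_Icc.mp hm
  have hrm := (V.rh_pos hm).le
  have hWm := W_nonneg p (m - 1)
  have hpt : ∀ j ∈ Icc 1 n, |K n p q m j| * (M * (R * W p (j - 1))) * rh n p j ≤
      M * R * (2 * b ^ (9 : ℝ) * Λ ^ (105 / 100 : ℝ)) * rh n p m := by
    intro j hj
    have hjΛ := hΛ j hj
    have hj' := Finset.mem_Icc.mp hj
    have hWj := W_nonneg p (j - 1)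
    have hr : 0 ≤ rh n p j := (V.rh_pos hj).le
    have hpow : W p (j - 1) ^ (105 / 100 : ℝ) ≤ Λ ^ (105 / 100 : ℝ) :=
      Real.rpow_le_rpow hWj hjΛ (by norm_num)
    rcases Nat.lt_or_ge m j with h | h
    · have h1 := V.K_right h
      have h2 := abs_le_W_pred p hm'.1
      have h3 := (V.lw_pos hj'.2).le
      have h4 := lin_right V hj
      calc |K n p q m j| * (M * (R * W p (j - 1))) * rh n p j
          ≤ (W p (m - 1) * lw n p q j) * (M * (R * W p (j - 1))) * rh n p j := by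
            have : |K n p q m j| ≤ W p (m - 1) * lw n p q j :=
              h1.trans (mul_le_mul_of_nonneg_right h2 h3)
            gcongr
        _ = M * R * (lw n p q j * W p (j - 1) ^ 2) * rh n p m := by
            unfold rh
            ring
        _ ≤ M * R * (2 * b ^ (9 : ℝ) * W p (j - 1) ^ (105 / 100 : ℝ)) * rh n p m := by
            gcongr
        _ ≤ _ := by gcongr
    · have h1 := V.K_left h
      have h2 := abs_le_W_pred p hj'.1
      have h3 := (V.lw_pos hm'.2).le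
      have h4 := lin_left V hm hj'.1 h
      calc |K n p q m j| * (M * (R * W p (j - 1))) * rh n p j
          ≤ (lw n p q m * W p (j - 1)) * (M * (R * W p (j - 1))) * rh n p j := by
            have : |K n p q m j| ≤ lw n p q m * W p (j - 1) :=
              h1.trans (mul_le_mul_of_nonneg_left h2 h3)
            gcongr
        _ = M * R * (lw n p q m * W p (j - 1) ^ 3) / |p (n + 1)| := by
            unfold rh
            ring
        _ ≤ M * R * (2 * b ^ (9 : ℝ) * W p (j - 1) ^ (105 / 100 : ℝ) * W p (m - 1)) / |p (n + 1)| := by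
            gcongr
        _ = M * R * (2 * b ^ (9 : ℝ) * W p (j - 1) ^ (105 / 100 : ℝ)) * rh n p m := by
            unfold rh
            ring
        _ ≤ _ := by gcongr
  refine (Finset.sum_le_sum hpt).trans ?_
  rw [Finset.sum_const, Nat.card_Icc, nsmul_eq_mul]
  apply le_of_eq
  rw [Nat.add_sub_cancel]
  ring

/-- two orbits in a box around a valid orbit with the same left boundary value -/
theorem box_diff {f Vd : ℝ → ℝ} {M : ℝ} (hM0 : 0 ≤ M) (hNL : NL f Vd M) (x : ℕ → ℝ)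
    (V : Valid b L n (fun m => Vd (x m)) p q) (w : ℕ → ℝ)
    (hsr : ∀ m ∈ Icc 1 n, ∑ j ∈ Icc 1 n, |K n p q m j| * (M * w j) * rh n p j ≤ 1 / 4 * rh n p m)
    (y z : ℕ → ℝ) (hy : Orb n f y) (hz : Orb n f z) (h0 : z 0 = y 0)
    (hyx : ∀ m ∈ Icc 1 n, |y m - x m| ≤ w m) (hzx : ∀ m ∈ Icc 1 n, |z m - x m| ≤ w m) :
    |z 1 - y 1| ≤ 2 * (|z (n + 1) - y (n + 1)| / |p (n + 1)|) := by
  have h1n : 1 ∈ Icc 1 n := by
    have := V.hL
    have := V.hLn
    rw [Finset.mem_Icc]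
    omega
  set C0 : ℝ := ∑ i ∈ Icc 1 n, |q i / p (n + 1)| / rh n p i with hC0
  have hC0n : 0 ≤ C0 := Finset.sum_nonneg fun i hi => div_nonneg (abs_nonneg _) (V.rh_pos hi).le
  have hql : ∀ m ∈ Icc 1 n, |q m / p (n + 1)| ≤ C0 * rh n p m := by
    intro m hm
    have h1 : |q m / p (n + 1)| / rh n p m ≤ C0 :=
      Finset.single_le_sum (f := fun i => |q i / p (n + 1)| / rh n p i)
        (fun i hi => div_nonneg (abs_nonneg _) (V.rh_pos hi).le) hm
    rwa [div_le_iff₀ (V.rh_pos hm)] at h1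
  have h := orb_diff hM0 hNL x V.J w (rh n p) (fun m => C0 * rh n p m) (1 / 4) le_rfl
    (fun m hm => V.rh_pos hm) (fun m hm => V.p_le_rh hm) hql hsr (by
      intro m hm
      have h1 := mul_le_mul_of_nonneg_left (hsr m hm) hC0n
      have e : ∑ j ∈ Icc 1 n, |K n p q m j| * (M * w j) * (C0 * rh n p j) =
          C0 * ∑ j ∈ Icc 1 n, |K n p q m j| * (M * w j) * rh n p j := by
        rw [Finset.mul_sum]
        apply Finset.sum_congr rfl
        intro j _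
        ring
      rw [e]
      linarith) y z hy hz hyx hzx 1 h1n
  have h2 := h.1
  rw [h0, sub_self, abs_zero, mul_zero, add_zero] at h2
  have e : rh n p 1 = 1 / |p (n + 1)| := by
    unfold rh
    rw [Nat.sub_self, W_zero V.J]
  rw [e] at h2
  calc |z 1 - y 1| ≤ 2 * (1 / |p (n + 1)| * |z (n + 1) - y (n + 1)|) := h2
    _ = _ := by ring

/-! ### matched orbits -/

theorem lamB_max {n1 n2 L1 L2 : ℕ} {a1 a2 p1 p2 q1 q2 : ℕ → ℝ} (h12 : n1 ≤ n2)
    (V1 : Valid b L1 n1 a1 p1 q1) (V2 : Valid b L2 n2 a2 p2 q2)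
    (hcmp : ∀ m ≤ n1, N p1 m ≤ 4 * N p2 m) :
    LamB b n1 (ex b p1) (fun j => max (lw n1 p1 q1 j) (lw n2 p2 q2 j / 6)) := by
  have hb0 : 0 < b := V1.expo.b0
  have hn1 := V1.expo.hn
  have hW : ∀ m ≤ n1, b ^ ex b p1 m ≤ 6 * b ^ ex b p2 m := by
    intro m hm
    rw [← V1.W_eq hm, ← V2.W_eq (hm.trans h12)]
    have h1 := W_le_N p1 m
    have h2 := hcmp m hm
    have h3 := N_le_W p2 m
    linarith
  have hinv : ∀ m ≤ n1, b ^ (-ex b p2 m) ≤ 6 * b ^ (-ex b p1 m) := by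
    intro m hm
    have h1 := hW m hm
    rw [Real.rpow_neg hb0.le, Real.rpow_neg hb0.le]
    have p1' : 0 < b ^ ex b p1 m := Real.rpow_pos_of_pos hb0 _
    have p2' : 0 < b ^ ex b p2 m := Real.rpow_pos_of_pos hb0 _
    rw [inv_eq_one_div, inv_eq_one_div, mul_one_div, div_le_div_iff₀ p2' p1']
    linarith
  refine ⟨?_, ?_, ?_⟩
  · intro m hm
    exact le_max_of_le_left (V1.lw_pos hm).le
  · intro m hm
    apply max_le (V1.lamB.c m hm)
    have h1 := V2.lamB.c m hm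
    have h2 := hinv m (by omega)
    linarith
  · intro m hm
    apply max_le (V1.lamB.g m hm)
    have h1 := V2.lamB.g m (hm.trans h12)
    have h2 := hinv m hm
    have e1 : ∀ v : ℝ, b ^ (6 - 97 / 100 * v) = b ^ (6 : ℝ) * (b ^ (-v)) ^ (97 / 100 : ℝ) := by
      intro v
      rw [← Real.rpow_mul hb0.le, ← Real.rpow_add hb0]
      congr 1
      ring
    have h3 : (b ^ (-ex b p2 m)) ^ (97 / 100 : ℝ) ≤ 6 * (b ^ (-ex b p1 m)) ^ (97 / 100 : ℝ) := by
      calc (b ^ (-ex b p2 m)) ^ (97 / 100 : ℝ) ≤ (6 * b ^ (-ex b p1 m)) ^ (97 / 100 : ℝ) :=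
            Real.rpow_le_rpow (Real.rpow_nonneg hb0.le _) h2 (by norm_num)
        _ = (6 : ℝ) ^ (97 / 100 : ℝ) * (b ^ (-ex b p1 m)) ^ (97 / 100 : ℝ) :=
            Real.mul_rpow (by norm_num) (Real.rpow_nonneg hb0.le _)
        _ ≤ (6 : ℝ) ^ (1 : ℝ) * (b ^ (-ex b p1 m)) ^ (97 / 100 : ℝ) := by
            apply mul_le_mul_of_nonneg_right _ (by positivity)
            exact Real.rpow_le_rpow_of_exponent_le (by norm_num) (by norm_num)
        _ = _ := by rw [Real.rpow_one]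
    rw [e1] at h1
    rw [e1]
    have h6 : 0 ≤ b ^ (6 : ℝ) := by positivity
    have h7 := mul_le_mul_of_nonneg_left h3 h6
    linarith

/-- value of the second weight one step after the first crossing -/
theorem lw_next {n1 n2 L2 : ℕ} {a2 p2 q2 : ℕ → ℝ} (h12 : n1 < n2)
    (V2 : Valid b L2 n2 a2 p2 q2) {Y : ℝ} (hY : 0 < Y) (hbig : Y ≤ N p2 n1) :
    lw n2 p2 q2 (n1 + 1) ≤ 2 * b ^ (8 : ℝ) * Y ^ (-(97 / 100) : ℝ) := by
  have hb0 : 0 < b := V2.expo.b0
  have h1 := V2.lamB.g (n1 + 1) (by omega)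
  have hd := V2.expo.dn n1 h12
  have hn := V2.expo.nonneg (m := n1) h12.le
  have hW : Y ≤ b ^ ex b p2 n1 := by
    rw [← V2.W_eq h12.le]
    exact hbig.trans (N_le_W p2 n1)
  have e1 : b ^ (8 - 97 / 100 * ex b p2 n1) = b ^ (8 : ℝ) * (b ^ ex b p2 n1) ^ (-(97 / 100) : ℝ) := by
    rw [← Real.rpow_mul hb0.le, ← Real.rpow_add hb0]
    congr 1
    ring
  have h2 : b ^ (6 - 97 / 100 * ex b p2 (n1 + 1)) ≤ b ^ (8 - 97 / 100 * ex b p2 n1) := by
    apply V2.expo.mono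
    linarith
  have h3 : (b ^ ex b p2 n1) ^ (-(97 / 100) : ℝ) ≤ Y ^ (-(97 / 100) : ℝ) :=
    Real.rpow_le_rpow_of_nonpos hY hW (by norm_num)
  calc lw n2 p2 q2 (n1 + 1) ≤ 2 * b ^ (6 - 97 / 100 * ex b p2 (n1 + 1)) := h1
    _ ≤ 2 * b ^ (8 - 97 / 100 * ex b p2 n1) := by linarith
    _ = 2 * b ^ (8 : ℝ) * (b ^ ex b p2 n1) ^ (-(97 / 100) : ℝ) := by rw [e1]; ring
    _ ≤ _ := by gcongr

/-- **COHERENCE** -/
theorem coh_stmt : Core.CohStmt := by
  refine ⟨(10 : ℝ) ^ 30, ?_⟩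
  intro k hk X hX a1 b1 a2 b2 n1' n2' n1 n2 L1 L2 hA1 hA2 hS1 hS2 h12 hcmp l s1 s2 ρ _ _ hM1 hM2
    hρ1 hρ2 hs hfield l' s1' s2' _ _ hM1' hM2'
  obtain ⟨hb19, hbk, hbk2⟩ := Core.base_facts hk
  have hk0 : 0 < k := lt_of_lt_of_le (by positivity) hk
  have hk1 : (1 : ℝ) ≤ k := le_trans (by norm_num) hk
  have hX0 : 0 < X := lt_of_lt_of_le (by positivity) hX
  have hX1 : 1 ≤ X := le_trans (one_le_pow₀ hk1) hX
  set b : ℝ := k ^ (2 / 3 : ℝ) / 2 with hb
  have hb0 : 0 < b := lt_of_lt_of_le (by positivity) hb19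
  have hbk' : b ≤ k := by
    by_contra hc
    push Not at hc
    have : k ^ 2 < b ^ 2 := pow_lt_pow_left₀ hc hk0.le (by norm_num)
    linarith
  have V1 := hS1.val
  have V2 := hS2.val
  set x1 := xorb k a1 b1 with hx1
  set x2 := xorb k a2 b2 with hx2
  set p1 := pk k a1 b1 with hp1
  set p2 := pk k a2 b2 with hp2
  set q1 := Core.qk (Core.dig k a1 b1) n1 with hq1
  set q2 := Core.qk (Core.dig k a2 b2) n2 with hq2
  have hn35 : 35 ≤ n1 := V1.hL.trans V1.hLn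
  set M : ℝ := 4 * Real.pi ^ 2 * k with hM
  have hM0 : 0 ≤ M := by positivity
  have hM40 : M ≤ 40 * k := Core.M_le hk0
  have hρ0 : 0 < ρ := lt_of_lt_of_le (by positivity) hρ1
  have hr0 : 0 < X ^ (-(3 / 2) : ℝ) := by positivity
  -- powers of k in terms of powers of X
  have hkX : k ≤ X ^ (1 / 600 : ℝ) := by
    have h1 : (k ^ 600) ^ (1 / 600 : ℝ) ≤ X ^ (1 / 600 : ℝ) :=
      Real.rpow_le_rpow (by positivity) hX (by norm_num)
    have h2 : (k ^ 600) ^ (1 / 600 : ℝ) = k := by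
      rw [← Real.rpow_natCast, ← Real.rpow_mul hk0.le]
      norm_num
    linarith
  have hkpow : ∀ i : ℕ, k ^ i ≤ X ^ ((i : ℝ) / 600) := by
    intro i
    calc k ^ i ≤ (X ^ (1 / 600 : ℝ)) ^ i := pow_le_pow_left₀ hk0.le hkX i
      _ = X ^ ((i : ℝ) / 600) := by
        rw [← Real.rpow_natCast, ← Real.rpow_mul hX0.le]
        congr 1
        ring
  have hX25 : (10 : ℝ) ^ 30 ≤ X ^ (2 / 5 : ℝ) := by
    have h1 := hkpow 1
    have h2 : X ^ (((1 : ℕ) : ℝ) / 600) ≤ X ^ (2 / 5 : ℝ) :=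
      Real.rpow_le_rpow_of_exponent_le hX1 (by norm_num)
    rw [pow_one] at h1
    linarith
  -- the segment between s1 and s2
  have hseg : ∀ s ∈ Set.uIcc s1 s2, |s - s1| ≤ 2 * X ^ (-(3 / 2) : ℝ) := by
    intro s hs'
    have h1 : |s - s1| ≤ |s2 - s1| := Set.abs_sub_left_of_mem_uIcc hs'
    rw [abs_sub_comm s2 s1] at h1
    linarith
  have hdiv : ∀ m, m ≤ n1 → |xorb k l s2 (m + 1) - xorb k l s1 (m + 1)| ≤ 2 * ρ * N p1 m := by
    intro m hm
    have hN0 : 0 ≤ N p1 m := N_nonneg p1 m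
    have h1 := xorb_sub_le (k := k) (l := l) (s1 := s1) (s2 := s2) (m := m + 1)
      (C := 2 * nf k a1 b1 m) (by
        intro s hs'
        have h2 := hfield s (hseg s hs') m hm
        have h3 : |pk k l s (m + 1)| ≤ nf k l s m := le_max_right _ _
        linarith)
    have h2 : |s2 - s1| ≤ ρ := by rw [abs_sub_comm]; exact hs
    have h3 : 0 ≤ 2 * nf k a1 b1 m := by
      have : 0 ≤ nf k a1 b1 m := hN0
      linarith
    calc |xorb k l s2 (m + 1) - xorb k l s1 (m + 1)| ≤ 2 * nf k a1 b1 m * |s2 - s1| := h1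
      _ ≤ 2 * nf k a1 b1 m * ρ := mul_le_mul_of_nonneg_left h2 h3
      _ = 2 * ρ * N p1 m := by
        show 2 * nf k a1 b1 m * ρ = 2 * ρ * nf k a1 b1 m
        ring
  -- the weights
  have hcmpN : ∀ m ≤ n1, N p1 m ≤ 4 * N p2 m := fun m hm => (hcmp m hm).1
  set lx : ℕ → ℝ := fun j => max (lw n1 p1 q1 j) (lw n2 p2 q2 j / 6) with hlx
  have hLB : LamB b n1 (ex b p1) lx := lamB_max h12 V1 V2 hcmpN
  set w : ℕ → ℝ := fun j => 20 * lx j + 2 * ρ * W p1 (j - 1) with hw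
  have hsr : ∀ m ∈ Icc 1 n1, ∑ j ∈ Icc 1 n1, |K n1 p1 q1 m j| * (M * w j) * rh n1 p1 j ≤
      1 / 4 * rh n1 p1 m := by
    intro m hm
    have hrm := (V1.rh_pos hm).le
    have h1 := hsrx V1 hLB (fun m _ => le_max_left _ _) (M := 20 * M) (by positivity) hm
    have hΛ : ∀ j ∈ Icc 1 n1, W p1 (j - 1) ≤ 3 / 2 * X := by
      intro j hj
      rw [Finset.mem_Icc] at hj
      have h2 := W_le_N p1 (j - 1)
      have h3 := hS1.small (j - 1) (by omega)
      have h4 : N p1 (j - 1) < X := h3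
      linarith
    have h2 := hsr_lin V1 (M := M) (R := 2 * ρ) hM0 (by positivity) hΛ hm
    have e : ∑ j ∈ Icc 1 n1, |K n1 p1 q1 m j| * (M * w j) * rh n1 p1 j =
        ∑ j ∈ Icc 1 n1, |K n1 p1 q1 m j| * (20 * M * lx j) * rh n1 p1 j +
        ∑ j ∈ Icc 1 n1, |K n1 p1 q1 m j| * (M * (2 * ρ * W p1 (j - 1))) * rh n1 p1 j := by
      rw [← Finset.sum_add_distrib]
      apply Finset.sum_congr rfl
      intro j _
      simp only [hw]
      ring
    rw [e]
    -- first constant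
    have c1 : 21 * (20 * M) / b ^ 2 ≤ 1 / 8 := by
      rw [div_le_iff₀ (by positivity)]
      norm_num at hbk ⊢
      linarith
    -- second constant
    have c2 : (n1 : ℝ) * (M * (2 * ρ) * (2 * b ^ (9 : ℝ) * (3 / 2 * X) ^ (105 / 100 : ℝ))) ≤ 1 / 8 := by
      -- the number of steps
      have hn1 : (n1 : ℝ) ≤ X ^ (1 / 200 : ℝ) := by
        obtain ⟨i, hi, hi2⟩ := V1.V3 n1 V1.hLn le_rfl
        have h3 : N p1 i ≤ k * X := hA1.2.2 i (lt_of_le_of_lt hi hS1.lt)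
        have h4 : N p1 i ≤ X ^ 2 := by
          have h5 : k ≤ X := by
            have h6 := hkpow 1
            rw [pow_one] at h6
            have h7 : X ^ (((1 : ℕ) : ℝ) / 600) ≤ X ^ (1 : ℝ) :=
              Real.rpow_le_rpow_of_exponent_le hX1 (by norm_num)
            rw [Real.rpow_one] at h7
            linarith
          nlinarith
        calc (n1 : ℝ) ≤ (N p1 i) ^ (1 / 400 : ℝ) := hi2
          _ ≤ (X ^ 2) ^ (1 / 400 : ℝ) := Real.rpow_le_rpow (N_nonneg p1 i) h4 (by norm_num)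
          _ = X ^ (1 / 200 : ℝ) := by
            rw [← Real.rpow_natCast, ← Real.rpow_mul hX0.le]
            norm_num
      have hb9 : b ^ (9 : ℝ) ≤ k ^ 9 := by
        have h3 : b ^ (9 : ℝ) = b ^ 9 := by exact_mod_cast Real.rpow_natCast b 9
        rw [h3]
        exact pow_le_pow_left₀ hb0.le hbk' 9
      have hX105 : (3 / 2 * X) ^ (105 / 100 : ℝ) ≤ 4 * X ^ (105 / 100 : ℝ) := by
        rw [Real.mul_rpow (by norm_num) hX0.le]
        have h3 : (3 / 2 : ℝ) ^ (105 / 100 : ℝ) ≤ (3 / 2 : ℝ) ^ (2 : ℝ) :=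
          Real.rpow_le_rpow_of_exponent_le (by norm_num) (by norm_num)
        have h4 : (3 / 2 : ℝ) ^ (2 : ℝ) ≤ 4 := by
          rw [Real.rpow_two]
          norm_num
        have h5 : 0 ≤ X ^ (105 / 100 : ℝ) := by positivity
        exact mul_le_mul_of_nonneg_right (h3.trans h4) h5
      have hk10 := hkpow 10
      have hMk : M * (2 * ρ) ≤ 160 * k * X ^ (-(3 / 2) : ℝ) := by
        calc M * (2 * ρ) ≤ (40 * k) * (2 * (2 * X ^ (-(3 / 2) : ℝ))) := by gcongr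
          _ = _ := by ring
      calc (n1 : ℝ) * (M * (2 * ρ) * (2 * b ^ (9 : ℝ) * (3 / 2 * X) ^ (105 / 100 : ℝ)))
          ≤ X ^ (1 / 200 : ℝ) * (160 * k * X ^ (-(3 / 2) : ℝ) *
              (2 * k ^ 9 * (4 * X ^ (105 / 100 : ℝ)))) := by
            gcongr
        _ = 1280 * (k ^ 10 * (X ^ (1 / 200 : ℝ) * X ^ (-(3 / 2) : ℝ) * X ^ (105 / 100 : ℝ))) := by
            ring
        _ ≤ 1280 * (X ^ (((10 : ℕ) : ℝ) / 600) *
              (X ^ (1 / 200 : ℝ) * X ^ (-(3 / 2) : ℝ) * X ^ (105 / 100 : ℝ))) := by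
            gcongr
        _ = 1280 * X ^ ((((10 : ℕ) : ℝ) / 600) + (1 / 200 + (-(3 / 2)) + 105 / 100)) := by
            rw [← Real.rpow_add hX0, ← Real.rpow_add hX0, ← Real.rpow_add hX0]
        _ ≤ 1280 * X ^ (-(2 / 5) : ℝ) := by
            have : X ^ ((((10 : ℕ) : ℝ) / 600) + (1 / 200 + (-(3 / 2)) + 105 / 100)) ≤
                X ^ (-(2 / 5) : ℝ) :=
              Real.rpow_le_rpow_of_exponent_le hX1 (by norm_num)
            gcongr
        _ ≤ 1 / 8 := by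
            rw [Real.rpow_neg hX0.le, ← div_eq_mul_inv, div_le_iff₀ (by positivity)]
            norm_num at hX25 ⊢
            linarith
    have c1' := mul_le_mul_of_nonneg_right c1 hrm
    have c2' := mul_le_mul_of_nonneg_right c2 hrm
    linarith
  -- box of the two orbits at l'
  have hx2x1 : ∀ m ∈ Icc 1 n1, |x2 m - x1 m| ≤
      3 / 2 * lw n2 p2 q2 m + 2 * ρ * W p1 (m - 1) + 3 / 2 * lw n1 p1 q1 m := by
    intro m hm
    have hm' := Finset.mem_Icc.mp hm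
    have h1 := hM1.box m hm
    have h2 := hM2.box m (Finset.mem_Icc.mpr ⟨hm'.1, hm'.2.trans h12⟩)
    have h3 := hdiv (m - 1) (by omega)
    rw [Nat.sub_add_cancel hm'.1] at h3
    have h4 := N_le_W p1 (m - 1)
    have h5 : 2 * ρ * N p1 (m - 1) ≤ 2 * ρ * W p1 (m - 1) :=
      mul_le_mul_of_nonneg_left h4 (by positivity)
    rw [abs_le] at h1 h2 h3 ⊢
    constructor
    · linarith [h1.1, h1.2, h2.1, h2.2, h3.1, h3.2]
    · linarith [h1.1, h1.2, h2.1, h2.2, h3.1, h3.2]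
  have hlx1 : ∀ m, lw n1 p1 q1 m ≤ lx m := fun m => le_max_left _ _
  have hlx2 : ∀ m, lw n2 p2 q2 m ≤ 6 * lx m := fun m => by
    have : lw n2 p2 q2 m / 6 ≤ lx m := le_max_right _ _
    linarith
  have hbox1 : ∀ m ∈ Icc 1 n1, |xorb k l' s1' m - x1 m| ≤ w m := by
    intro m hm
    have hm' := Finset.mem_Icc.mp hm
    have h1 := hM1'.box m hm
    have h2 := hlx1 m
    have h3 : 0 ≤ 2 * ρ * W p1 (m - 1) := mul_nonneg (by positivity) (W_nonneg _ _)
    have h4 := hLB.pos m hm'.2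
    simp only [hw]
    linarith
  have hbox2 : ∀ m ∈ Icc 1 n1, |xorb k l' s2' m - x1 m| ≤ w m := by
    intro m hm
    have hm' := Finset.mem_Icc.mp hm
    have h1 := hM2'.box m (Finset.mem_Icc.mpr ⟨hm'.1, hm'.2.trans h12⟩)
    have h2 := hx2x1 m hm
    have h3 := hlx1 m
    have h4 := hlx2 m
    have h5 := hLB.pos m hm'.2
    simp only [hw]
    rw [abs_le] at h1 h2 ⊢
    constructor
    · linarith [h1.1, h1.2, h2.1, h2.2]
    · linarith [h1.1, h1.2, h2.1, h2.2]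
  have hfin := box_diff hM0 (NL_fk hk0.le) x1 V1 w hsr (xorb k l' s1') (xorb k l' s2')
    (xorb_orb k l' s1' n1) (xorb_orb k l' s2' n1) rfl hbox1 hbox2
  -- the right boundary values
  have hP : X ≤ |p1 (n1 + 1)| := hS1.pn1
  have hP0 : 0 < |p1 (n1 + 1)| := lt_of_lt_of_le hX0 hP
  have hNn : N p1 n1 = |p1 (n1 + 1)| := by
    apply max_eq_right
    have := hS1.pn
    linarith
  have hend1 : |xorb k l s2 (n1 + 1) - xorb k l s1 (n1 + 1)| ≤ 2 * ρ * |p1 (n1 + 1)| := by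
    have := hdiv n1 le_rfl
    rwa [hNn] at this
  have hend2 : |xorb k l' s2' (n1 + 1) - xorb k l s2 (n1 + 1)| ≤ ρ * |p1 (n1 + 1)| := by
    rcases Nat.eq_or_lt_of_le h12 with h | h
    · have e1 := hM2.right
      have e2 := hM2'.right
      rw [← h] at e1 e2
      rw [e1, e2, sub_self, abs_zero]
      positivity
    · have hmem : n1 + 1 ∈ Icc 1 n2 := Finset.mem_Icc.mpr ⟨by omega, h⟩
      have h1 := hM2.box (n1 + 1) hmem
      have h2 := hM2'.box (n1 + 1) hmem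
      have hbig : X / 4 ≤ N p2 n1 := by
        have h3 := hcmpN n1 le_rfl
        rw [hNn] at h3
        linarith
      have h3 := lw_next h V2 (Y := X / 4) (by positivity) hbig
      have h4 : (X / 4) ^ (-(97 / 100) : ℝ) ≤ 4 * X ^ (-(97 / 100) : ℝ) := by
        rw [Real.div_rpow hX0.le (by norm_num)]
        have h5 : (4 : ℝ) ^ (-(97 / 100) : ℝ) = ((4 : ℝ) ^ (97 / 100 : ℝ))⁻¹ :=
          Real.rpow_neg (by norm_num) _
        rw [h5, div_inv_eq_mul]
        have h6 : (4 : ℝ) ^ (97 / 100 : ℝ) ≤ (4 : ℝ) ^ (1 : ℝ) :=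
          Real.rpow_le_rpow_of_exponent_le (by norm_num) (by norm_num)
        rw [Real.rpow_one] at h6
        have h7 : 0 ≤ X ^ (-(97 / 100) : ℝ) := by positivity
        nlinarith
      have hb8 : b ^ (8 : ℝ) ≤ X ^ (((8 : ℕ) : ℝ) / 600) := by
        have h5 : b ^ (8 : ℝ) = b ^ 8 := by exact_mod_cast Real.rpow_natCast b 8
        rw [h5]
        exact (pow_le_pow_left₀ hb0.le hbk' 8).trans (hkpow 8)
      have h5 : lw n2 p2 q2 (n1 + 1) ≤ 8 * X ^ (-(9 / 10) : ℝ) := by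
        calc lw n2 p2 q2 (n1 + 1) ≤ 2 * b ^ (8 : ℝ) * (X / 4) ^ (-(97 / 100) : ℝ) := h3
          _ ≤ 2 * X ^ (((8 : ℕ) : ℝ) / 600) * (4 * X ^ (-(97 / 100) : ℝ)) := by gcongr
          _ = 8 * (X ^ (((8 : ℕ) : ℝ) / 600) * X ^ (-(97 / 100) : ℝ)) := by ring
          _ = 8 * X ^ ((((8 : ℕ) : ℝ) / 600) + -(97 / 100)) := by rw [← Real.rpow_add hX0]
          _ ≤ 8 * X ^ (-(9 / 10) : ℝ) := by
            have : X ^ ((((8 : ℕ) : ℝ) / 600) + -(97 / 100)) ≤ X ^ (-(9 / 10) : ℝ) :=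
              Real.rpow_le_rpow_of_exponent_le hX1 (by norm_num)
            linarith
      have h6 : |xorb k l' s2' (n1 + 1) - xorb k l s2 (n1 + 1)| ≤ 3 * lw n2 p2 q2 (n1 + 1) := by
        rw [abs_le] at h1 h2 ⊢
        constructor
        · linarith [h1.1, h1.2, h2.1, h2.2]
        · linarith [h1.1, h1.2, h2.1, h2.2]
      have h7 : 24 * X ^ (-(9 / 10) : ℝ) ≤ ρ * X := by
        have e1 : X ^ (-(3 / 2) : ℝ) * X = X ^ (-(9 / 10) : ℝ) * X ^ (2 / 5 : ℝ) := by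
          conv_lhs => rw [← Real.rpow_one X, ← Real.rpow_mul hX0.le, ← Real.rpow_add hX0]
          rw [← Real.rpow_add hX0]
          norm_num
        have h8 : X ^ (-(3 / 2) : ℝ) / 10 ^ 4 * X ≤ ρ * X :=
          mul_le_mul_of_nonneg_right hρ1 hX0.le
        have h9 : X ^ (-(3 / 2) : ℝ) / 10 ^ 4 * X = X ^ (-(9 / 10) : ℝ) * X ^ (2 / 5 : ℝ) / 10 ^ 4 := by
          rw [← e1]
          ring
        have h10 : 0 ≤ X ^ (-(9 / 10) : ℝ) := by positivity
        have h11 := mul_le_mul_of_nonneg_left hX25 h10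
        norm_num at h11 h9 h8 ⊢
        linarith
      have h8 : ρ * X ≤ ρ * |p1 (n1 + 1)| := mul_le_mul_of_nonneg_left hP hρ0.le
      linarith
  have hend3 : xorb k l' s1' (n1 + 1) = xorb k l s1 (n1 + 1) := by
    rw [hM1'.right, hM1.right]
  have hend : |xorb k l' s2' (n1 + 1) - xorb k l' s1' (n1 + 1)| ≤ 3 * ρ * |p1 (n1 + 1)| := by
    rw [hend3]
    rw [abs_le] at hend1 hend2 ⊢
    constructor
    · linarith [hend1.1, hend1.2, hend2.1, hend2.2]
    · linarith [hend1.1, hend1.2, hend2.1, hend2.2]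
  have hfin2 : |s2' - s1'| ≤ 2 * (3 * ρ) := by
    have h1 : |xorb k l' s2' (n1 + 1) - xorb k l' s1' (n1 + 1)| / |p1 (n1 + 1)| ≤ 3 * ρ := by
      rw [div_le_iff₀ hP0]
      exact hend
    have h2 : |xorb k l' s2' 1 - xorb k l' s1' 1| = |s2' - s1'| := rfl
    rw [h2] at hfin
    linarith
  rw [abs_sub_comm]
  linarith

end Crest.Agent.R128.CoreA
end

-- ▼ part R128/GMeas
section

/-!
# Row 128, node V5-G-MEAS (helper365)

The good event `Good.G k L n` is a Borel set: it is a countable union (over the feet `w, w'` and the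
run lengths `M, M'`) of intersections of an open condition, finitely or countably many conditions
which are measurable in `y`, and the projection of a compact subset of
`Tor × [n log 2, n log 2 + 2 log k] × [-1,1]²` (depth and initial data of the tip field).
-/

set_option autoImplicit false

open MeasureTheory Filter Topology
open Crest.Agent.R128 Crest.Agent.R128.AlignMn Crest.Agent.R128.DictY Crest.Agent.R128.Lam0
open Crest.Agent.R128.Good

namespace Crest.Agent.R128.GMeas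

open Crest.Agent.R128.Align (sol sol_zero sol_one sol_add_two eq_sol)

/-- projection of a closed set along a compact set -/
theorem isClosed_ex {Y P : Type*} [TopologicalSpace Y] [CompactSpace Y] [T2Space Y]
    [TopologicalSpace P] {K : Set P} (hK : IsCompact K) {C : Set (Y × P)} (hC : IsClosed C) :
    IsClosed {y | ∃ p ∈ K, (y, p) ∈ C} := by
  have h1 : IsCompact ((Set.univ ×ˢ K) ∩ C) := (isCompact_univ.prod hK).inter_right hC
  have h2 := (h1.image continuous_fst).isClosed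
  convert h2 using 1
  ext y
  constructor
  · rintro ⟨p, hp, hc⟩
    exact ⟨(y, p), ⟨⟨trivial, hp⟩, hc⟩, rfl⟩
  · rintro ⟨⟨y', p⟩, ⟨⟨_, hp⟩, hc⟩, rfl⟩
    exact ⟨p, hp, hc⟩

/-- solutions depend continuously on digits and initial data -/
theorem continuous_sol {X : Type*} [TopologicalSpace X] {a : ℕ → X → ℝ}
    (ha : ∀ n, Continuous (a n)) {u v : X → ℝ} (hu : Continuous u) (hv : Continuous v) (n : ℕ) :
    Continuous fun x => sol (fun i => a i x) (u x) (v x) n := by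
  have key : ∀ n, (Continuous fun x => sol (fun i => a i x) (u x) (v x) n) ∧
      Continuous fun x => sol (fun i => a i x) (u x) (v x) (n + 1) := by
    intro n
    induction n with
    | zero => exact ⟨hu, hv⟩
    | succ n ih =>
      refine ⟨ih.2, ?_⟩
      have e : (fun x => sol (fun i => a i x) (u x) (v x) (n + 1 + 1)) = fun x =>
          a (n + 1) x * sol (fun i => a i x) (u x) (v x) (n + 1) -
            sol (fun i => a i x) (u x) (v x) n := by
        funext x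
        rw [sol_add_two]
      rw [e]
      exact ((ha (n + 1)).mul ih.2).sub ih.1
  exact (key n).1

theorem continuous_Rev (k : ℝ) : Continuous (Rev k) := by
  have h1 : Continuous fun z : Tor => (z.2 + z.2 + sk k z.2 - z.1, z.2) :=
    (((continuous_snd.add continuous_snd).add ((continuous_sk k).comp continuous_snd)).sub
      continuous_fst).prodMk continuous_snd
  exact h1

theorem ap_eq (k : ℝ) (z : Tor) (n : ℕ) : ap k z n = V k ((T k)^[n] z).2 := by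
  unfold ap dz
  rw [Crest.Agent.R128.Two.Tz_natCast]

theorem continuous_ap (k : ℝ) (n : ℕ) : Continuous fun z : Tor => ap k z n := by
  have e : (fun z : Tor => ap k z n) = fun z => V k ((T k)^[n] z).2 := by
    funext z
    exact ap_eq k z n
  rw [e]
  exact Meas.continuous_V_iter k n

/-! ### the parts of `Side` -/

/-- the part which only depends on `y` -/
def VR (k : ℝ) (L w M : ℕ) (y : Tor) : Prop :=
  CVal k L (((T k)^[w] y).swap) (w - 1) ∧
    ∀ n, w ≤ n → n ≤ w + M → k ^ ((2 : ℝ) / 3) ≤ |ap k y n|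

/-- the part which only depends on the field (the numerical constants of `Side` are parameters, so
that this file does not depend on their values) -/
def FC (cl cf k ρ : ℝ) (w M : ℕ) (x : ℕ → ℝ) : Prop :=
  |x 0| = 1 ∧ |x 1| ≤ 1 ∧ Real.exp (-ρ - cl * Real.log k) ≤ max |x (w - 1)| |x w| ∧
    max |x (w - 1)| |x w| ≤ Real.exp (-ρ) ∧
    max |x (w + M - 1)| |x (w + M)| ≤ Real.exp (-ρ - cf * Real.log k)

theorem side_iff (k : ℝ) (L : ℕ) : ∃ (cl cf : ℝ) (cM : ℕ), ∀ (ρ : ℝ) (y : Tor) (x : ℕ → ℝ)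
    (w M : ℕ), Side k L ρ y x w M ↔ (L < w ∧ M ≤ cM) ∧ VR k L w M y ∧ FC cl cf k ρ w M x ∧
      ∀ n, x (n + 2) = ap k y (n + 1) * x (n + 1) - x n := by
  refine ⟨_, _, _, fun ρ y x w M => ⟨fun h => ⟨⟨h.hw, h.hM⟩, ⟨h.val, h.run⟩,
    ⟨h.x0, h.x1, h.lo, h.hi, h.fin⟩, h.xrec⟩, ?_⟩⟩
  rintro ⟨⟨h1, h2⟩, ⟨h3, h4⟩, ⟨h5, h6, h7, h8, h9⟩, h10⟩
  exact ⟨h1, h3, h10, h5, h6, h7, h8, h2, h4, h9⟩

theorem measurableSet_CVal (k : ℝ) (L n : ℕ) : MeasurableSet {z : Tor | CVal k L z n} := by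
  have e : {z : Tor | CVal k L z n} = {z : Tor |
      (∀ m, m < L → m < n → k ^ ((2 : ℝ) / 3) ≤ |V k ((T k)^[m] z).2|) ∧
      (∀ i j, L ≤ i → i ≤ j → j ≤ n → ‖fld k z i‖ ^ 99 ≤ ‖fld k z j‖ ^ 100) ∧
      (∀ j, L ≤ j → j ≤ n → ∃ i, L ≤ i ∧ i ≤ j ∧ (j : ℝ) ^ 400 ≤ ‖fld k z i‖)} := by
    ext z
    constructor
    · intro h
      exact ⟨h.cl, h.v2, h.v3⟩
    · rintro ⟨h1, h2, h3⟩
      exact ⟨h1, h2, h3⟩
  rw [e]
  have hf : ∀ i, Continuous fun z : Tor => ‖fld k z i‖ := fun i =>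
    Meas.continuous_norm_W k i (0, 1)
  refine Meas.ms_and ?_ (Meas.ms_and ?_ ?_)
  · exact Meas.ms_forall fun m => Meas.ms_const_imp fun _ => Meas.ms_const_imp fun _ =>
      Meas.ms_le measurable_const (Meas.continuous_V_iter k m).abs.measurable
  · exact Meas.ms_forall fun i => Meas.ms_forall fun j => Meas.ms_const_imp fun _ =>
      Meas.ms_const_imp fun _ => Meas.ms_const_imp fun _ =>
      Meas.ms_le ((hf i).pow 99).measurable ((hf j).pow 100).measurable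
  · exact Meas.ms_forall fun j => Meas.ms_const_imp fun _ => Meas.ms_const_imp fun _ =>
      Meas.ms_exists fun i => Meas.ms_const_and fun _ => Meas.ms_const_and fun _ =>
      Meas.ms_le measurable_const (hf i).measurable

theorem measurableSet_VR (k : ℝ) (L w M : ℕ) : MeasurableSet {y : Tor | VR k L w M y} := by
  refine Meas.ms_and ?_ ?_
  · have hc : Continuous fun y : Tor => ((T k)^[w] y).swap :=
      continuous_swap.comp (Meas.continuous_T_iter k w)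
    exact hc.measurable (measurableSet_CVal k L (w - 1))
  · exact Meas.ms_forall fun n => Meas.ms_const_imp fun _ => Meas.ms_const_imp fun _ =>
      Meas.ms_le measurable_const (continuous_ap k n).abs.measurable

/-- closedness of the field conditions -/
theorem isClosed_FC {X : Type*} [TopologicalSpace X] (cl cf k : ℝ) (w M : ℕ) {ρ : X → ℝ}
    (hρ : Continuous ρ) {x : X → ℕ → ℝ} (hx : ∀ n, Continuous fun q => x q n) :
    IsClosed {q : X | FC cl cf k (ρ q) w M (x q)} := by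
  have e : {q : X | FC cl cf k (ρ q) w M (x q)} = {q | |x q 0| = 1} ∩ ({q | |x q 1| ≤ 1} ∩
      ({q | Real.exp (-(ρ q) - cl * Real.log k) ≤ max |x q (w - 1)| |x q w|} ∩
      ({q | max |x q (w - 1)| |x q w| ≤ Real.exp (-(ρ q))} ∩
      {q | max |x q (w + M - 1)| |x q (w + M)| ≤ Real.exp (-(ρ q) - cf * Real.log k)}))) := by
    ext q
    exact Iff.rfl
  rw [e]
  have ha : ∀ n, Continuous fun q => |x q n| := fun n => (hx n).abs
  refine IsClosed.inter (isClosed_eq (ha 0) continuous_const) (IsClosed.inter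
    (isClosed_le (ha 1) continuous_const) (IsClosed.inter (isClosed_le ?_ ((ha (w - 1)).max (ha w)))
    (IsClosed.inter (isClosed_le ((ha (w - 1)).max (ha w)) ?_)
    (isClosed_le ((ha (w + M - 1)).max (ha (w + M))) ?_))))
  · exact Real.continuous_exp.comp (hρ.neg.sub continuous_const)
  · exact Real.continuous_exp.comp hρ.neg
  · exact Real.continuous_exp.comp (hρ.neg.sub continuous_const)

/-- the closed condition on `(y, ρ, a0, a1)` -/
def CC (cl cf k : ℝ) (w M w' M' : ℕ) : Set (Tor × (ℝ × ℝ × ℝ)) :=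
  {q | FC cl cf k q.2.1 w M (sol (fun i => ap k q.1 i) q.2.2.1 q.2.2.2) ∧
    FC cl cf k q.2.1 w' M'
      (sol (fun i => ap k (Rev k q.1) i) q.2.2.1 (V k q.1.2 * q.2.2.1 - q.2.2.2))}

theorem isClosed_CC (cl cf k : ℝ) (w M w' M' : ℕ) : IsClosed (CC cl cf k w M w' M') := by
  have hρ : Continuous fun q : Tor × (ℝ × ℝ × ℝ) => q.2.1 := continuous_fst.comp continuous_snd
  have h0 : Continuous fun q : Tor × (ℝ × ℝ × ℝ) => q.2.2.1 :=
    continuous_fst.comp (continuous_snd.comp continuous_snd)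
  have h1 : Continuous fun q : Tor × (ℝ × ℝ × ℝ) => q.2.2.2 :=
    continuous_snd.comp (continuous_snd.comp continuous_snd)
  have hV : Continuous fun q : Tor × (ℝ × ℝ × ℝ) => V k q.1.2 :=
    (continuous_V k).comp (continuous_snd.comp continuous_fst)
  have hA : IsClosed {q : Tor × (ℝ × ℝ × ℝ) |
      FC cl cf k q.2.1 w M (sol (fun i => ap k q.1 i) q.2.2.1 q.2.2.2)} :=
    isClosed_FC cl cf k w M hρ fun n => continuous_sol
      (a := fun i (q : Tor × (ℝ × ℝ × ℝ)) => ap k q.1 i)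
      (fun i => (continuous_ap k i).comp continuous_fst) h0 h1 n
  have hB : IsClosed {q : Tor × (ℝ × ℝ × ℝ) | FC cl cf k q.2.1 w' M'
      (sol (fun i => ap k (Rev k q.1) i) q.2.2.1 (V k q.1.2 * q.2.2.1 - q.2.2.2))} :=
    isClosed_FC cl cf k w' M' hρ fun n => continuous_sol
      (a := fun i (q : Tor × (ℝ × ℝ × ℝ)) => ap k (Rev k q.1) i)
      (fun i => (continuous_ap k i).comp ((continuous_Rev k).comp continuous_fst)) h0
      ((hV.mul h0).sub h1) n
  exact hA.inter hB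

/-- the compact box of parameters -/
def KK (k : ℝ) (n : ℕ) : Set (ℝ × ℝ × ℝ) :=
  Set.Icc ((n : ℝ) * Real.log 2) (n * Real.log 2 + 2 * Real.log k) ×ˢ
    (Set.Icc (-1 : ℝ) 1 ×ˢ Set.Icc (-1 : ℝ) 1)

theorem isCompact_KK (k : ℝ) (n : ℕ) : IsCompact (KK k n) :=
  isCompact_Icc.prod (isCompact_Icc.prod isCompact_Icc)

/-- description of the good event -/
theorem mem_G_iff (k : ℝ) (L n : ℕ) : ∃ (cl cf : ℝ) (cM : ℕ), ∀ y : Tor,
    y ∈ G k L n ↔ |V k y.2| < 2 ∧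
    ∃ w M w' M' : ℕ, (L < w ∧ M ≤ cM) ∧ (L < w' ∧ M' ≤ cM) ∧ VR k L w M y ∧
      VR k L w' M' (Rev k y) ∧ ∃ p ∈ KK k n, (y, p) ∈ CC cl cf k w M w' M' := by
  obtain ⟨cl, cf, cM, hs⟩ := side_iff k L
  refine ⟨cl, cf, cM, fun y => ?_⟩
  constructor
  · rintro ⟨hV, ρ, h1, h2, xp, xm, w, M, w', M', hp, hm, h0, h3⟩
    rw [hs] at hp hm
    obtain ⟨a1, a2, a3, a4⟩ := hp
    obtain ⟨b1, b2, b3, b4⟩ := hm
    have ep : xp = sol (fun i => ap k y i) (xp 0) (xp 1) := by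
      funext j
      exact eq_sol (a := fun i => ap k y i) (s := xp) (N := j) (fun m _ => a4 m) j le_rfl
    have em : xm = sol (fun i => ap k (Rev k y) i) (xp 0) (V k y.2 * xp 0 - xp 1) := by
      funext j
      have h5 := eq_sol (a := fun i => ap k (Rev k y) i) (s := xm) (N := j) (fun m _ => b4 m) j
        le_rfl
      rw [h5, h0, ← h0]
      congr 1
      linarith
    refine ⟨hV, w, M, w', M', a1, b1, a2, b2, (ρ, xp 0, xp 1), ⟨⟨h1, h2⟩, ?_, ?_⟩, ?_, ?_⟩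
    · exact abs_le.1 a3.1.le
    · exact abs_le.1 a3.2.1
    · show FC cl cf k ρ w M (sol (fun i => ap k y i) (xp 0) (xp 1))
      rw [← ep]
      exact a3
    · show FC cl cf k ρ w' M'
        (sol (fun i => ap k (Rev k y) i) (xp 0) (V k y.2 * xp 0 - xp 1))
      rw [← em]
      exact b3
  · rintro ⟨hV, w, M, w', M', a1, b1, a2, b2, ⟨ρ, u, v⟩, ⟨⟨h1, h2⟩, _⟩, hc, hc'⟩
    refine ⟨hV, ρ, h1, h2, sol (fun i => ap k y i) u v,
      sol (fun i => ap k (Rev k y) i) u (V k y.2 * u - v), w, M, w', M', ?_, ?_, ?_, ?_⟩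
    · rw [hs]
      exact ⟨a1, a2, hc, fun n => sol_add_two _ _ _ n⟩
    · rw [hs]
      exact ⟨b1, b2, hc', fun n => sol_add_two _ _ _ n⟩
    · rw [sol_zero, sol_zero]
    · rw [sol_zero, sol_one, sol_one]
      ring

/-- **the good event is a Borel set** -/
theorem measurableSet_G (k : ℝ) (L n : ℕ) : MeasurableSet (G k L n) := by
  obtain ⟨cl, cf, cM, hG⟩ := mem_G_iff k L n
  have e : G k L n = {y : Tor | |V k y.2| < 2 ∧
      ∃ w M w' M' : ℕ, (L < w ∧ M ≤ cM) ∧ (L < w' ∧ M' ≤ cM) ∧ VR k L w M y ∧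
      VR k L w' M' (Rev k y) ∧ ∃ p ∈ KK k n, (y, p) ∈ CC cl cf k w M w' M'} := by
    ext y
    exact hG y
  rw [e]
  refine Meas.ms_and ?_ ?_
  · exact Meas.ms_lt ((continuous_V k).comp continuous_snd).abs.measurable measurable_const
  refine Meas.ms_exists fun w => Meas.ms_exists fun M => Meas.ms_exists fun w' =>
    Meas.ms_exists fun M' => Meas.ms_const_and fun _ => Meas.ms_const_and fun _ =>
    Meas.ms_and (measurableSet_VR k L w M) (Meas.ms_and ?_ ?_)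
  · exact (continuous_Rev k).measurable (measurableSet_VR k L w' M')
  · exact (isClosed_ex (isCompact_KK k n) (isClosed_CC cl cf k w M w' M')).measurableSet







/-! ### symmetry under the reversor -/




end Crest.Agent.R128.GMeas
end

-- ▼ part R128/V5Fin
section

/-!
# Row 128, node V5-FINAL (helper183)

`Skel.V5` (fresh tips) from the area estimate (284's `LocG.area`) and the bridge `Brid` (root
contour: run of fresh levels `⟹` good event `G k n` of the dyadic level `n`): counting.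
-/

set_option autoImplicit false
open MeasureTheory Filter Topology Set
open scoped ENNReal NNReal

namespace Crest.Agent.R128.V5Fin

open Crest.Agent.R128 Crest.Agent.R128.Acc Crest.Agent.R128.Skel Crest.Agent.R128.Close
  Crest.Agent.R128.PayArea Crest.Agent.R128.Iter

theorem ceil_mul_le {x lg : ℝ} (hx : 0 ≤ x) (hlg : 0 < lg) : (⌈x / lg⌉₊ : ℝ) * lg ≤ x + lg := by
  have h1 := (Nat.ceil_lt_add_one (a := x / lg) (div_nonneg hx hlg.le)).le
  have h2 := mul_le_mul_of_nonneg_right h1 hlg.le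
  have h3 : (x / lg + 1) * lg = x + lg := by
    field_simp
  rwa [h3] at h2

theorem le_ceil_mul {x lg : ℝ} (hlg : 0 < lg) : x ≤ (⌈x / lg⌉₊ : ℝ) * lg := by
  have := Nat.le_ceil (x / lg)
  rwa [div_le_iff₀ hlg] at this

/-- the bridge at one dyadic level: a run of `A + 1` consecutive fresh levels `l, l-1, .., l-A` of the
first top `t`, with depth of `l` in `[n log 2, n log 2 + 2 log k]` -/
def Brid (k : ℝ) (L0 A X : ℕ) (G : ℕ → Set Tor) : Prop :=
  ∀ (N : ℕ) (z : Tor) (t n l : ℕ), (X : ℝ) * Real.log k ≤ n * Real.log 2 →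
    n * Real.log 2 ≤ bz k z t - l * Real.log k →
    bz k z t - l * Real.log k ≤ n * Real.log 2 + 2 * Real.log k →
    A ≤ l → bz k z t ≤ 2 * ((l : ℝ) - A) * Real.log k →
    (∀ s, s ≤ A → ¬ nf k L0 N z t (l - s)) → (T k)^[t] z ∈ G n

/-- separation of the grid (in dyadic levels) -/
noncomputable def gs (k : ℝ) (E A : ℕ) : ℕ := ⌈((E : ℝ) + A + 2) * Real.log k / Real.log 2⌉₊

/-- first level of the grid -/
noncomputable def ns (k : ℝ) (A Q : ℕ) : ℕ := ⌈((Q : ℝ) + A) * Real.log k / Real.log 2⌉₊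

/-- the grid -/
noncomputable def grid (k : ℝ) (E A Q : ℕ) : Finset ℕ :=
  (Finset.range (Q / (E + A + 3))).image (fun i => ns k A Q + gs k E A * i)

section grid

variable {k : ℝ} {E A Q : ℕ}

theorem lg_pos : 0 < Real.log 2 := Real.log_pos (by norm_num)

theorem lg_le (hk : 2 ≤ k) : Real.log 2 ≤ Real.log k := Real.log_le_log (by norm_num) hk

theorem gs_ge : ((E : ℝ) + A + 2) * Real.log k ≤ gs k E A * Real.log 2 := le_ceil_mul lg_pos

theorem gs_le (hk : 2 ≤ k) : (gs k E A : ℝ) * Real.log 2 ≤ ((E : ℝ) + A + 3) * Real.log k := by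
  have hκ : 0 < Real.log k := lt_of_lt_of_le lg_pos (lg_le hk)
  have h := ceil_mul_le (x := ((E : ℝ) + A + 2) * Real.log k) (by positivity) lg_pos
  have h2 := lg_le hk
  unfold gs
  linarith

theorem ns_ge : ((Q : ℝ) + A) * Real.log k ≤ ns k A Q * Real.log 2 := le_ceil_mul lg_pos

theorem ns_le (hk : 2 ≤ k) : (ns k A Q : ℝ) * Real.log 2 ≤ ((Q : ℝ) + A + 1) * Real.log k := by
  have hκ : 0 < Real.log k := lt_of_lt_of_le lg_pos (lg_le hk)
  have h := ceil_mul_le (x := ((Q : ℝ) + A) * Real.log k) (by positivity) lg_pos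
  have h2 := lg_le hk
  unfold ns
  linarith

theorem gs_pos (hk : 2 ≤ k) : 0 < gs k E A := by
  have hκ : 0 < Real.log k := lt_of_lt_of_le lg_pos (lg_le hk)
  have h1 : (0 : ℝ) < gs k E A * Real.log 2 := lt_of_lt_of_le (by positivity) gs_ge
  have h2 : (0 : ℝ) < gs k E A := (mul_pos_iff_of_pos_right lg_pos).1 h1
  exact_mod_cast h2

theorem card_grid (hk : 2 ≤ k) : (grid k E A Q).card = Q / (E + A + 3) := by
  have hinj : Function.Injective (fun i : ℕ => ns k A Q + gs k E A * i) := by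
    intro a b hab
    simp only [Nat.add_left_cancel_iff] at hab
    exact Nat.eq_of_mul_eq_mul_left (gs_pos hk) hab
  unfold grid
  rw [Finset.card_image_of_injective _ hinj, Finset.card_range]

theorem grid_ge {n : ℕ} (hn : n ∈ grid k E A Q) :
    ((Q : ℝ) + A) * Real.log k ≤ n * Real.log 2 := by
  unfold grid at hn
  rw [Finset.mem_image] at hn
  obtain ⟨i, -, rfl⟩ := hn
  push_cast
  have h0 : (0 : ℝ) ≤ gs k E A * i * Real.log 2 :=
    mul_nonneg (mul_nonneg (Nat.cast_nonneg _) (Nat.cast_nonneg _)) lg_pos.le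
  have h1 := ns_ge (k := k) (A := A) (Q := Q)
  linarith

theorem grid_le {n : ℕ} (hk : 2 ≤ k) (hn : n ∈ grid k E A Q) :
    (n : ℝ) * Real.log 2 ≤ (2 * (Q : ℝ) + A + 1) * Real.log k := by
  have hκ : 0 < Real.log k := lt_of_lt_of_le lg_pos (lg_le hk)
  unfold grid at hn
  rw [Finset.mem_image] at hn
  obtain ⟨i, hi, rfl⟩ := hn
  rw [Finset.mem_range] at hi
  push_cast
  have h1 := ns_le (k := k) (A := A) (Q := Q) hk
  have h2 := gs_le (k := k) (E := E) (A := A) hk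
  have hi0 : (0 : ℝ) ≤ i := Nat.cast_nonneg _
  have h3 : ((E : ℝ) + A + 3) * i ≤ Q := by
    have h4 : (E + A + 3) * i ≤ Q := by
      calc (E + A + 3) * i ≤ (E + A + 3) * (Q / (E + A + 3)) := Nat.mul_le_mul_left _ hi.le
        _ ≤ Q := Nat.mul_div_le _ _
    exact_mod_cast h4
  have h5 : (gs k E A : ℝ) * i * Real.log 2 ≤ Q * Real.log k := by
    calc (gs k E A : ℝ) * i * Real.log 2 = (gs k E A * Real.log 2) * i := by ring
      _ ≤ (((E : ℝ) + A + 3) * Real.log k) * i := mul_le_mul_of_nonneg_right h2 hi0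
      _ = (((E : ℝ) + A + 3) * i) * Real.log k := by ring
      _ ≤ Q * Real.log k := mul_le_mul_of_nonneg_right h3 hκ.le
  linarith

theorem grid_sep {i j : ℕ} (hi : i ∈ grid k E A Q) (hj : j ∈ grid k E A Q)
    (hij : i < j) : i + gs k E A ≤ j := by
  unfold grid at hi hj
  rw [Finset.mem_image] at hi hj
  obtain ⟨a, -, rfl⟩ := hi
  obtain ⟨b, -, rfl⟩ := hj
  have hab : a < b := by
    by_contra hc
    push Not at hc
    have := Nat.mul_le_mul_left (gs k E A) hc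
    omega
  have h1 : gs k E A * (a + 1) ≤ gs k E A * b := Nat.mul_le_mul_left _ hab
  have h2 : gs k E A * (a + 1) = gs k E A * a + gs k E A := by ring
  omega

end grid

set_option maxHeartbeats 2000000 in
open Classical in
/-- **Counting.** A top with a fresh block is a good point for most of the levels of the grid. -/
theorem sub_many {k : ℝ} {L0 A X E R Q : ℕ} {η : ℝ} {G : ℕ → Set Tor} (hk : 2 ≤ k)
    (hη : 0 < η) (hR : 2 * ((E : ℝ) + A + 3) ≤ η * R) (hQ : 2 * (E + A + 3) + 2 ≤ Q) (hX : X ≤ Q)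
    (hbr : Brid k L0 A X G) {z : Tor} {t N : ℕ} (hF : FBR k L0 R N z t Q) :
    (T k)^[t] z ∈ {z : Tor | |V k z.2| ≤ 2} ∩ Many η G (grid k E A Q) := by
  obtain ⟨hmt, hcard⟩ := hF
  set κ : ℝ := Real.log k with hκ
  set lg : ℝ := Real.log 2 with hlg
  have hlg0 : 0 < lg := lg_pos
  have hlgκ : lg ≤ κ := lg_le hk
  have hκ0 : 0 < κ := lt_of_lt_of_le hlg0 hlgκ
  set β : ℝ := bz k z t with hβ
  set c : ℕ := ⌈β / κ⌉₊ with hc
  have hA0 : (0 : ℝ) ≤ A := Nat.cast_nonneg _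
  have hE0 : (0 : ℝ) ≤ E := Nat.cast_nonneg _
  have hQr : 2 * ((E : ℝ) + A + 3) + 2 ≤ Q := by exact_mod_cast hQ
  have hmc : 16 * Q ≤ c := hmt.trans mt_le
  have hcβ : (c : ℝ) * κ < β + κ := by
    have hpos : 0 < β / κ := by
      by_contra hcon
      push Not at hcon
      have h0 : c = 0 := Nat.ceil_eq_zero.2 hcon
      omega
    have h1 := Nat.ceil_lt_add_one hpos.le
    have h2 := mul_lt_mul_of_pos_right h1 hκ0
    have h3 : (β / κ + 1) * κ = β + κ := by field_simp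
    rwa [h3] at h2
  have hβc : β ≤ c * κ := by
    have h1 := Nat.le_ceil (β / κ)
    rwa [div_le_iff₀ hκ0] at h1
  have hmcr : 16 * (Q : ℝ) ≤ c := by exact_mod_cast hmc
  have hβ16 : (16 * (Q : ℝ) - 1) * κ < β := by nlinarith
  refine ⟨?_, ?_⟩
  · -- near critical
    have h1 : mt (bz k z) κ N t ≠ 0 := by omega
    obtain ⟨l, hl⟩ := comp_of_mt_pos h1
    exact crit_of_comp hl
  · -- the level used for `n`
    set lf : ℕ → ℕ := fun n => ⌊(β - n * lg) / κ⌋₊ with hlf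
    have hl1 : ∀ n ∈ grid k E A Q, (lf n : ℝ) * κ ≤ β - n * lg ∧ β - n * lg < (lf n + 1) * κ := by
      intro n hn
      have h1 := grid_le hk hn
      have h2 : 0 ≤ (β - n * lg) / κ := by
        apply div_nonneg _ hκ0.le
        nlinarith
      have h3 := Nat.floor_le h2
      have h4 := Nat.lt_floor_add_one ((β - n * lg) / κ)
      rw [le_div_iff₀ hκ0] at h3
      rw [div_lt_iff₀ hκ0] at h4
      exact ⟨h3, h4⟩
    have hAl : ∀ n ∈ grid k E A Q, A ≤ lf n := by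
      intro n hn
      obtain ⟨h1, h2⟩ := hl1 n hn
      have h3 := grid_le hk hn
      have h4 : (A : ℝ) * κ < (lf n + 1) * κ := by nlinarith
      have h5 : (A : ℝ) < lf n + 1 := lt_of_mul_lt_mul_right h4 hκ0.le
      have h6 : A < lf n + 1 := by exact_mod_cast h5
      omega
    -- depth bounds
    have hdep1 : ∀ n ∈ grid k E A Q, lf n + (Q + A) ≤ c := by
      intro n hn
      obtain ⟨h1, h2⟩ := hl1 n hn
      have h3 := grid_ge hn
      have h4 : ((lf n : ℝ) + (Q + A)) * κ ≤ c * κ := by nlinarith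
      have h5 := le_of_mul_le_mul_right h4 hκ0
      exact_mod_cast h5
    have hdep2 : ∀ n ∈ grid k E A Q, c < lf n + (2 * Q + A + 3) := by
      intro n hn
      obtain ⟨h1, h2⟩ := hl1 n hn
      have h3 := grid_le hk hn
      have h4 : (c : ℝ) * κ < ((lf n : ℝ) + (2 * Q + A + 3)) * κ := by nlinarith
      have h5 := lt_of_mul_lt_mul_right h4 hκ0.le
      exact_mod_cast h5
    set good : Finset ℕ := (grid k E A Q).filter (fun n => (T k)^[t] z ∈ G n) with hgood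
    set bad : Finset ℕ := (grid k E A Q).filter (fun n => ¬ ((T k)^[t] z ∈ G n)) with hbad
    have hsum : good.card + bad.card = (grid k E A Q).card :=
      Finset.card_filter_add_card_filter_not _
    refine ⟨good, Finset.filter_subset _ _, ?_, fun i hi => (Finset.mem_filter.1 hi).2⟩
    have hex : ∀ n ∈ bad, ∃ s, s ≤ A ∧ nf k L0 N z t (lf n - s) := by
      intro n hn
      rw [hbad, Finset.mem_filter] at hn
      by_contra hcon
      push Not at hcon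
      apply hn.2
      obtain ⟨h1, h2⟩ := hl1 n hn.1
      have h3 := grid_le hk hn.1
      have h4 := grid_ge hn.1
      have hXr : (X : ℝ) ≤ Q := by exact_mod_cast hX
      refine hbr N z t n (lf n) ?_ ?_ ?_ (hAl n hn.1) ?_ hcon
      · nlinarith
      · linarith
      · nlinarith
      · nlinarith
    choose! sf hs1 hs2 using hex
    set rf : ℕ → ℕ := fun n => c - (lf n - sf n) with hrf
    have hinj : Set.InjOn rf (bad : Set ℕ) := by
      intro a ha b hb hab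
      by_contra hne
      have ha' : a ∈ grid k E A Q := (Finset.mem_filter.1 (Finset.mem_coe.1 ha)).1
      have hb' : b ∈ grid k E A Q := (Finset.mem_filter.1 (Finset.mem_coe.1 hb)).1
      have ha1 := hdep1 a ha'
      have hb1 := hdep1 b hb'
      have hsa := hs1 a ha
      have hsb := hs1 b hb
      have hAa := hAl a ha'
      have hAb := hAl b hb'
      have hab' : c - (lf a - sf a) = c - (lf b - sf b) := hab
      have h1 : lf a - sf a = lf b - sf b := by omega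
      have h2 : lf a ≤ lf b + A := by omega
      have h3 : lf b ≤ lf a + A := by omega
      have h2r : (lf a : ℝ) ≤ lf b + A := by exact_mod_cast h2
      have h3r : (lf b : ℝ) ≤ lf a + A := by exact_mod_cast h3
      obtain ⟨ka, kb⟩ := hl1 a ha'
      obtain ⟨kc, kd⟩ := hl1 b hb'
      have hgs := gs_ge (k := k) (E := E) (A := A)
      rcases lt_or_gt_of_ne hne with h | h
      · have h4 := grid_sep ha' hb' h
        have h5 : (a : ℝ) + gs k E A ≤ b := by exact_mod_cast h4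
        have h6 : ((a : ℝ) + gs k E A) * lg ≤ b * lg := mul_le_mul_of_nonneg_right h5 hlg0.le
        have h7 : (lf a : ℝ) * κ ≤ (lf b + A) * κ := mul_le_mul_of_nonneg_right h2r hκ0.le
        have h8 : 0 ≤ (E : ℝ) * κ := mul_nonneg hE0 hκ0.le
        nlinarith
      · have h4 := grid_sep hb' ha' h
        have h5 : (b : ℝ) + gs k E A ≤ a := by exact_mod_cast h4
        have h6 : ((b : ℝ) + gs k E A) * lg ≤ a * lg := mul_le_mul_of_nonneg_right h5 hlg0.le
        have h7 : (lf b : ℝ) * κ ≤ (lf a + A) * κ := mul_le_mul_of_nonneg_right h3r hκ0.le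
        have h8 : 0 ≤ (E : ℝ) * κ := mul_nonneg hE0 hκ0.le
        nlinarith
    have hbadc : bad.card ≤
        ((Finset.Ico Q (16 * Q)).filter (fun r => nf k L0 N z t (lv k z t r))).card := by
      rw [← Finset.card_image_of_injOn hinj]
      apply Finset.card_le_card
      intro r hr
      rw [Finset.mem_image] at hr
      obtain ⟨n, hn, rfl⟩ := hr
      have hn' : n ∈ grid k E A Q := (Finset.mem_filter.1 hn).1
      have h1 := hdep1 n hn'
      have h2 := hdep2 n hn'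
      have h3 := hs1 n hn
      have h4 := hAl n hn'
      rw [Finset.mem_filter, Finset.mem_Ico]
      refine ⟨⟨?_, ?_⟩, ?_⟩
      · show Q ≤ c - (lf n - sf n)
        omega
      · show c - (lf n - sf n) < 16 * Q
        omega
      · have h5 : lv k z t (rf n) = lf n - sf n := by
          show c - (c - (lf n - sf n)) = lf n - sf n
          omega
        rw [h5]
        exact hs2 n hn
    -- arithmetic
    have hcg : (grid k E A Q).card = Q / (E + A + 3) := card_grid hk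
    have hB0 : 0 < E + A + 3 := by omega
    have hM2 : (Q : ℝ) ≤ ((Q / (E + A + 3) : ℕ) : ℝ) * (2 * ((E : ℝ) + A + 3)) := by
      have h1 : Q < (E + A + 3) * (Q / (E + A + 3) + 1) := by
        simpa using Nat.lt_mul_div_succ Q hB0
      have h2 : (Q : ℝ) < ((E : ℝ) + A + 3) * (((Q / (E + A + 3) : ℕ) : ℝ) + 1) := by
        exact_mod_cast h1
      nlinarith
    have hRb : (R : ℝ) * bad.card ≤ Q := by
      have h1 : R * bad.card ≤ Q := (Nat.mul_le_mul_left R hbadc).trans hcard.le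
      exact_mod_cast h1
    have hbM : (bad.card : ℝ) ≤ η * ((Q / (E + A + 3) : ℕ) : ℝ) := by
      have hRpos : (0 : ℝ) < R := by
        have h1 : 0 < η * R := lt_of_lt_of_le (by positivity) hR
        exact (mul_pos_iff_of_pos_left hη).1 h1
      have h2 : (R : ℝ) * bad.card ≤ R * (η * ((Q / (E + A + 3) : ℕ) : ℝ)) := by
        calc (R : ℝ) * bad.card ≤ Q := hRb
          _ ≤ ((Q / (E + A + 3) : ℕ) : ℝ) * (2 * ((E : ℝ) + A + 3)) := hM2
          _ ≤ ((Q / (E + A + 3) : ℕ) : ℝ) * (η * R) :=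
              mul_le_mul_of_nonneg_left hR (Nat.cast_nonneg _)
          _ = R * (η * ((Q / (E + A + 3) : ℕ) : ℝ)) := by ring
      exact le_of_mul_le_mul_left h2 hRpos
    have h6 : (good.card : ℝ) + bad.card = ((Q / (E + A + 3) : ℕ) : ℝ) := by
      rw [← hcg]; exact_mod_cast hsum
    rw [hcg]
    linarith

/-- the power of two of the separation -/
theorem pow_gs {k : ℝ} {E A : ℕ} (hk : 2 ≤ k) : k ^ E ≤ 2 ^ gs k E A := by
  have hκ : 0 < Real.log k := lt_of_lt_of_le lg_pos (lg_le hk)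
  have h1 := gs_ge (k := k) (E := E) (A := A)
  have hA0 : (0 : ℝ) ≤ A := Nat.cast_nonneg _
  rw [← Real.log_le_log_iff (by positivity) (by positivity), Real.log_pow, Real.log_pow]
  nlinarith

/-- **V5 for one `L0`** (all constants may depend on `L0`). -/
theorem v5_L {L0 : ℕ} {G : ℝ → ℕ → Set Tor}
    (H : ∃ η θ : ℝ, 0 < η ∧ 0 < θ ∧ θ < 1 ∧ ∃ (A E X : ℕ) (k₁ : ℝ), ∀ k, k₁ ≤ k →
      (∀ g : ℕ, k ^ E ≤ 2 ^ g → ∀ P : Finset ℕ, (∀ i ∈ P, ∀ j ∈ P, i < j → i + g ≤ j) →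
        (∀ n ∈ P, (X : ℝ) * Real.log k ≤ n * Real.log 2) →
        volume ({z : Tor | |V k z.2| ≤ 2} ∩ Many η (G k) P) ≤
          ENNReal.ofReal (2 / k * θ ^ P.card)) ∧
      Brid k L0 A X (G k)) :
    ∃ R Q1 : ℕ, ∃ C θ : ℝ, 0 < C ∧ 0 < θ ∧ θ < 1 ∧ ∃ k₁ : ℝ,
      ∀ k, k₁ ≤ k → ∀ Q : ℕ, Q1 ≤ Q →
      volume {y : Tor | ∃ z t N, (T k)^[t] z = y ∧ FBR k L0 R N z t Q} ≤
        ENNReal.ofReal (C / k * θ ^ Q) := by
  obtain ⟨η, θ, hη, hθ0, hθ1, A, E, X, k₁, H⟩ := H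
  have hB : (0 : ℝ) < 2 * ((E : ℝ) + A + 3) := by positivity
  refine ⟨⌈2 * ((E : ℝ) + A + 3) / η⌉₊, max X (2 * (E + A + 3) + 2), 2,
    θ ^ (1 / (2 * ((E : ℝ) + A + 3))), by norm_num, by positivity,
    Real.rpow_lt_one hθ0.le hθ1 (by positivity), max k₁ 2, ?_⟩
  intro k hk Q hQ
  obtain ⟨harea, hbr⟩ := H k ((le_max_left _ _).trans hk)
  have hk2 : 2 ≤ k := (le_max_right _ _).trans hk
  have hκ : 0 < Real.log k := lt_of_lt_of_le lg_pos (lg_le hk2)
  have hXQ : X ≤ Q := (le_max_left _ _).trans hQ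
  have hBQ : 2 * (E + A + 3) + 2 ≤ Q := (le_max_right _ _).trans hQ
  have hR : 2 * ((E : ℝ) + A + 3) ≤ η * (⌈2 * ((E : ℝ) + A + 3) / η⌉₊ : ℕ) := by
    have h1 := Nat.le_ceil (2 * ((E : ℝ) + A + 3) / η)
    rw [div_le_iff₀ hη] at h1
    linarith
  have hsub : {y : Tor | ∃ z t N, (T k)^[t] z = y ∧
      FBR k L0 ⌈2 * ((E : ℝ) + A + 3) / η⌉₊ N z t Q} ⊆
      {z : Tor | |V k z.2| ≤ 2} ∩ Many η (G k) (grid k E A Q) := by
    rintro y ⟨z, t, N, rfl, hF⟩
    exact sub_many hk2 hη hR hBQ hXQ hbr hF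
  have hQr : (X : ℝ) ≤ Q := by exact_mod_cast hXQ
  have hA0 : (0 : ℝ) ≤ A := Nat.cast_nonneg _
  refine (measure_mono hsub).trans ((harea (gs k E A) (pow_gs hk2) (grid k E A Q)
    (fun i hi j hj hij => grid_sep hi hj hij) ?_).trans ?_)
  · intro n hn
    refine le_trans ?_ (grid_ge hn)
    exact mul_le_mul_of_nonneg_right (by linarith) hκ.le
  · apply ENNReal.ofReal_le_ofReal
    apply mul_le_mul_of_nonneg_left _ (by positivity)
    rw [card_grid hk2, ← Real.rpow_natCast, ← Real.rpow_natCast, ← Real.rpow_mul hθ0.le]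
    apply Real.rpow_le_rpow_of_exponent_ge hθ0 hθ1.le
    rw [div_mul_eq_mul_div, one_mul, div_le_iff₀ hB]
    have hB0 : 0 < E + A + 3 := by omega
    have h1 : Q < (E + A + 3) * (Q / (E + A + 3) + 1) := by
      simpa using Nat.lt_mul_div_succ Q hB0
    have h2 : (Q : ℝ) < ((E : ℝ) + A + 3) * (((Q / (E + A + 3) : ℕ) : ℝ) + 1) := by
      exact_mod_cast h1
    have h3 : 2 * ((E : ℝ) + A + 3) + 2 ≤ Q := by exact_mod_cast hBQ
    nlinarith

/-- **V5** from 398's `LocA`, 548's `LocB`, measurability and the bridge. -/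
theorem v5 (hB : Loc.LocB) (hA : ∃ L1 : ℕ, ∀ L0, L1 ≤ L0 → Good.LocA L0)
    (hM : ∃ L1 : ℕ, ∀ L0, L1 ≤ L0 → ∃ k₁ : ℝ, ∀ k, k₁ ≤ k → ∀ n, MeasurableSet (Good.G k L0 n))
    (hbr : ∃ L1 : ℕ, ∀ L0, L1 ≤ L0 → ∃ (A X : ℕ) (k₁ : ℝ), ∀ k, k₁ ≤ k →
      Brid k L0 A X (Good.G k L0)) : Skel.V5 := by
  obtain ⟨L1, hA⟩ := hA
  obtain ⟨L2, hM⟩ := hM
  obtain ⟨L3, hbr⟩ := hbr
  refine ⟨max (max L1 L2) L3, ?_⟩
  intro L0 hL0
  obtain ⟨C1, -, hA'⟩ := hA L0 ((le_max_left _ _).trans ((le_max_left _ _).trans hL0))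
  obtain ⟨k2, hM'⟩ := hM L0 ((le_max_right _ _).trans ((le_max_left _ _).trans hL0))
  obtain ⟨A, X, k3, hbr'⟩ := hbr L0 ((le_max_right _ _).trans hL0)
  obtain ⟨η, θ, hη, -, hθ0, hθ1, H⟩ := LocG.area C1 hB
  obtain ⟨k1, H⟩ := H L0 hA'
  refine v5_L (G := fun k => Good.G k L0) ⟨η, θ, hη, hθ0, hθ1, A, 80, X, max (max k1 k2) k3, ?_⟩
  intro k hk
  have hk1 : k1 ≤ k := (le_max_left _ _).trans ((le_max_left _ _).trans hk)
  have hk2 : k2 ≤ k := (le_max_right _ _).trans ((le_max_left _ _).trans hk)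
  have hk3 : k3 ≤ k := (le_max_right _ _).trans hk
  refine ⟨fun g hg P hP _ => H k hk1 (hM' k hk2) g hg P hP, hbr' k hk3⟩

/-- **V5** (measurability by 365's `GMeas`). -/
theorem v5_final (hB : Loc.LocB) (hA : ∃ L1 : ℕ, ∀ L0, L1 ≤ L0 → Good.LocA L0)
    (hbr : ∃ L1 : ℕ, ∀ L0, L1 ≤ L0 → ∃ (A X : ℕ) (k₁ : ℝ), ∀ k, k₁ ≤ k →
      Brid k L0 A X (Good.G k L0)) : Skel.V5 :=
  v5 hB hA ⟨0, fun L0 _ => ⟨0, fun k _ n => GMeas.measurableSet_G k L0 n⟩⟩ hbr

end Crest.Agent.R128.V5Fin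
end

-- ▼ part R128/Nice
section

set_option autoImplicit false

open Metric Set
open Crest.Agent.R128 Crest.Agent.R128.Cell Crest.Agent.R128.CellB

/-!
Row 128 (helper223): steps of a unit cell through a regular digit and through a nice digit
(`|V| ≥ κ k`), used for the local roughness statement.
-/

namespace Crest.Agent.R128.Nice

/-- the centre `t₁` has an un-stretched disc of radius `R` up to time `n + 1` whose image at time
`n + 1` has size at least `a₀`. -/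
structure UC (k c : ℝ) (n : ℕ) (t₁ R a₀ : ℝ) : Prop where
  hR : 0 < R
  ha : 0 < a₀
  uns : unst k (c : ℂ) (n + 1) (t₁ : ℂ) R
  big : a₀ ≤ ‖yd k (c : ℂ) (n + 1) (t₁ : ℂ)‖ * R
  prev : ‖yd k (c : ℂ) n (t₁ : ℂ)‖ ≤ ‖yd k (c : ℂ) (n + 1) (t₁ : ℂ)‖

variable {k c t₁ R a₀ W : ℝ} {n : ℕ}

theorem UC.pos (h : UC k c n t₁ R a₀) : 0 < ‖yd k (c : ℂ) (n + 1) (t₁ : ℂ)‖ := by
  have h1 := h.hR
  have h2 := h.ha
  have h3 := h.big
  by_contra hc
  push Not at hc
  nlinarith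



/-- the constant `(32 CV + 64 CL + 32)` -/
noncomputable def CK (k : ℝ) : ℝ := 32 * CV k + 64 * CL k + 32


/-- numerical bound of `CK` -/
theorem CK_le {k : ℝ} (hk : 1 ≤ k) : CK k ≤ 2 * 10 ^ 6 * k := by
  unfold CK CV CL
  rw [abs_of_nonneg (by linarith : (0:ℝ) ≤ k)]
  have hpi := Real.pi_lt_d2
  have hpi0 := Real.pi_pos
  have he : Real.exp (2 * Real.pi) ≤ 560 := by
    have h1 : 2 * Real.pi ≤ 6.3 := by linarith
    have h2 : Real.exp (2 * Real.pi) ≤ Real.exp 6.3 := Real.exp_le_exp.2 h1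
    have h3 : Real.exp (6.3 : ℝ) = Real.exp (0.9) ^ 7 := by
      rw [← Real.exp_nat_mul]; norm_num
    have h4 : Real.exp (0.9 : ℝ) ≤ 2.461 := by
      have := Real.exp_bound' (x := 0.9) (by norm_num) (by norm_num) (n := 6) (by norm_num)
      refine this.trans ?_
      simp [Finset.sum_range_succ, Nat.factorial]
      norm_num
    rw [h3] at h2
    refine h2.trans ?_
    calc Real.exp (0.9 : ℝ) ^ 7 ≤ 2.461 ^ 7 := pow_le_pow_left₀ (Real.exp_pos _).le h4 7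
      _ ≤ 560 := by norm_num
  have he0 := Real.exp_pos (2 * Real.pi)
  have h5 : Real.pi ^ 2 ≤ 9.9225 := by nlinarith
  have h6 : 2 * Real.pi * k * Real.exp (2 * Real.pi) ≤ 3528 * k := by
    have : 2 * Real.pi * Real.exp (2 * Real.pi) ≤ 3528 := by nlinarith
    nlinarith
  have h7 : 4 * Real.pi ^ 2 * k * Real.exp (2 * Real.pi) ≤ 22227 * k := by
    have : 4 * Real.pi ^ 2 * Real.exp (2 * Real.pi) ≤ 22227 := by nlinarith
    nlinarith
  nlinarith


end Crest.Agent.R128.Nice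
end

-- ▼ part R128/LocBX2

/-!
# Row 128, node V5-LOC-B (second implementation, helper197): `RA → LocB`
-/

set_option autoImplicit false

open Metric MeasureTheory Set
open Crest.Agent.R128 Crest.Agent.R128.Cell Crest.Agent.R128.CellB Crest.Agent.R128.CellDy
open Crest.Agent.R128.Loc

namespace Crest.Agent.R128.LocBX2

/-! ### differentiability and real points -/

theorem differentiable_sdC (k c : ℝ) (s : Bool) : Differentiable ℂ (sdC k c s) := by
  cases s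
  · have : sdC k c false = fun z : ℂ => (kap k c : ℂ) - z := by funext z; simp [sdC]
    rw [this]
    exact (differentiable_const _).sub differentiable_id
  · have : sdC k c true = fun z : ℂ => z := by funext z; simp [sdC]
    rw [this]
    exact differentiable_id

theorem differentiable_Y (k c : ℝ) (s : Bool) (n : ℕ) : Differentiable ℂ (Y k c s n) :=
  (differentiable_y k c n).comp (differentiable_sdC k c s)

theorem differentiable_dg (k c : ℝ) (s : Bool) (n : ℕ) : Differentiable ℂ fun z => dg k c s z n := by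
  have h : Differentiable ℂ (cV k) := fun z => (hasDerivAt_cV k z).differentiableAt
  exact h.comp (differentiable_Y k c s n)

theorem differentiable_P (k c : ℝ) (s : Bool) (n : ℕ) :
    Differentiable ℂ fun z => Align.P (dg k c s z) n := by
  induction n using Nat.strong_induction_on with
  | _ n ih =>
    match n with
    | 0 => exact differentiable_const _
    | 1 => exact differentiable_const _
    | n + 2 =>
      have h1 := ih (n + 1) (by omega)
      have h2 := ih n (by omega)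
      exact ((differentiable_dg k c s (n + 1)).mul h1).sub h2

theorem D_add_two (k c : ℝ) (s : Bool) (n : ℕ) (z : ℂ) :
    D k c s (n + 2) z = dg k c s z (n + 1) * D k c s (n + 1) z - D k c s n z := by
  unfold D dg Y
  rw [yd_add_two]

theorem differentiable_D (k c : ℝ) (s : Bool) (n : ℕ) : Differentiable ℂ (D k c s n) := by
  induction n using Nat.strong_induction_on with
  | _ n ih =>
    match n with
    | 0 => exact differentiable_const _
    | 1 => exact differentiable_const _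
    | n + 2 =>
      have h1 := ih (n + 1) (by omega)
      have h2 := ih n (by omega)
      have e : D k c s (n + 2) = fun z => dg k c s z (n + 1) * D k c s (n + 1) z - D k c s n z := by
        funext z; exact D_add_two k c s n z
      rw [e]
      exact ((differentiable_dg k c s (n + 1)).mul h1).sub h2

theorem differentiableAt_mu (k c : ℝ) (s : Bool) (n : ℕ) {z : ℂ} (h : D k c s n z ≠ 0) :
    DifferentiableAt ℂ (fun z => mu k c s n z) z := by
  have e : (fun z => mu k c s n z) = fun z => -(Align.P (dg k c s z) n) / D k c s n z := by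
    funext z
    unfold mu Align.mu
    rw [Q_dg]
  rw [e]
  exact ((differentiable_P k c s n).differentiableAt.neg).div
    (differentiable_D k c s n).differentiableAt h

theorem im_Y (k c : ℝ) (s : Bool) (n : ℕ) (t : ℝ) : (Y k c s n (t : ℂ)).im = 0 := by
  cases s
  · have : Y k c false n (t : ℂ) = y k c n (((kap k c - t : ℝ)) : ℂ) := by
      unfold Y sdC; push_cast; simp
    rw [this]
    exact im_y_ofReal k c n _
  · have : Y k c true n (t : ℂ) = y k c n ((t : ℝ) : ℂ) := by unfold Y sdC; simp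
    rw [this]
    exact im_y_ofReal k c n _

theorem hasDerivAt_Y (k c : ℝ) (s : Bool) (n : ℕ) (z : ℂ) :
    ∃ g : ℂ, HasDerivAt (Y k c s n) g z ∧ ‖g‖ = ‖D k c s n z‖ := by
  cases s
  · exact ⟨_, hasDerivAt_Y_false k c n z, norm_neg _⟩
  · exact ⟨_, hasDerivAt_Y_true k c n z, rfl⟩

theorem Y_sub_le {k c : ℝ} {s : Bool} {n : ℕ} {t u B : ℝ}
    (h : ∀ x ∈ Set.uIcc u t, ‖D k c s n (x : ℂ)‖ ≤ B) :
    ‖Y k c s n (t : ℂ) - Y k c s n (u : ℂ)‖ ≤ B * |t - u| := by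
  choose g hg1 hg2 using hasDerivAt_Y k c s n
  have hd : ∀ x ∈ Set.uIcc u t, HasDerivWithinAt (fun x : ℝ => Y k c s n (x : ℂ)) (g x)
      (Set.uIcc u t) x := by
    intro x _
    exact (hg1 (x : ℂ)).comp_ofReal.hasDerivWithinAt
  have hb : ∀ x ∈ Set.uIcc u t, ‖g (x : ℂ)‖ ≤ B := fun x hx => by rw [hg2]; exact h x hx
  have := (convex_uIcc u t).norm_image_sub_le_of_norm_hasDerivWithin_le hd hb
    Set.left_mem_uIcc Set.right_mem_uIcc
  rwa [Real.norm_eq_abs] at this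

theorem CV_CL_le {k : ℝ} (hk : 1 ≤ k) : CV k ≤ 10 ^ 5 * k ∧ CL k ≤ 10 ^ 5 * k := by
  have h := Nice.CK_le hk
  have h1 := CL_nonneg k
  have h2 := CV_ge k
  unfold Nice.CK at h
  constructor <;> linarith

theorem norm_dg_le {k : ℝ} (hk : 1 ≤ k) (c : ℝ) (s : Bool) (n : ℕ) (t : ℝ) :
    ‖dg k c s (t : ℂ) n‖ ≤ 10 ^ 5 * k := by
  refine (norm_cV_le k ?_).trans (CV_CL_le hk).1
  rw [im_Y, abs_zero]
  norm_num

theorem norm_dg_sub_le {k : ℝ} (hk : 1 ≤ k) (c : ℝ) (s : Bool) (n : ℕ) (t u : ℝ) :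
    ‖dg k c s (t : ℂ) n - dg k c s (u : ℂ) n‖ ≤
      10 ^ 5 * k * ‖Y k c s n (t : ℂ) - Y k c s n (u : ℂ)‖ := by
  refine (norm_cV_sub_le k (z := Y k c s n (t : ℂ)) (w := Y k c s n (u : ℂ)) ?_ ?_).trans ?_
  · rw [im_Y, abs_zero]; norm_num
  · rw [im_Y, abs_zero]; norm_num
  · exact mul_le_mul_of_nonneg_right (CV_CL_le hk).2 (norm_nonneg _)

/-- Cauchy estimate -/
theorem lip {f : ℂ → ℂ} {m R E : ℝ} (hR : 0 < R)
    (hd : ∀ z ∈ ball (m : ℂ) (4 / R), DifferentiableAt ℂ f z)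
    (hb : ∀ z ∈ ball (m : ℂ) (4 / R), ‖f z‖ ≤ E)
    {x y : ℂ} (hx : ‖x - m‖ ≤ 3 / R) (hy : ‖y - m‖ ≤ 3 / R) :
    ‖f x - f y‖ ≤ 2 * R * E * ‖x - y‖ := by
  have h34 : 3 / R + 1 / (2 * R) < 4 / R := by
    rw [← sub_pos]
    have : 4 / R - (3 / R + 1 / (2 * R)) = 1 / (2 * R) := by field_simp; ring
    rw [this]
    positivity
  have hsub : ∀ z ∈ closedBall (m : ℂ) (3 / R), closedBall z (1 / (2 * R)) ⊆ ball (m : ℂ) (4 / R) := by
    intro z hz w hw
    rw [mem_closedBall] at hz hw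
    rw [mem_ball]
    exact ((dist_triangle w z m).trans (by linarith)).trans_lt h34
  have hcb : closedBall (m : ℂ) (3 / R) ⊆ ball (m : ℂ) (4 / R) := fun z hz =>
    hsub z hz (mem_closedBall_self (by positivity))
  refine (convex_closedBall (m : ℂ) (3 / R)).norm_image_sub_le_of_norm_hasDerivWithin_le
    (f := f) (f' := deriv f) (fun z hz => ((hd z (hcb hz)).hasDerivAt).hasDerivWithinAt)
    (fun z hz => ?_) ?_ ?_
  · have h1 : ‖deriv f z‖ ≤ E / (1 / (2 * R)) := by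
      refine Complex.norm_deriv_le_of_forall_mem_sphere_norm_le (by positivity) ?_ ?_
      · refine DifferentiableOn.diffContOnCl ?_
        rw [closure_ball z (by positivity)]
        intro w hw
        exact (hd w (hsub z hz hw)).differentiableWithinAt
      · intro w hw
        exact hb w (hsub z hz (sphere_subset_closedBall hw))
    refine h1.trans (le_of_eq ?_)
    field_simp
  · rwa [mem_closedBall, dist_eq_norm]
  · rwa [mem_closedBall, dist_eq_norm]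

/-! ### one side -/

/-- data of one side: `ρ` = slope of the exit digit number `n + 1`, `e = 1 / k` -/
structure Side (k e c : ℝ) (s : Bool) (n : ℕ) (m R ρ : ℝ) : Prop where
  hk : 10 ^ 20 ≤ k
  hke : k * e = 1
  hR : 0 < R
  hρ : 0 < ρ
  hρR : ρ ≤ k / 10 ^ 10 * R
  h1 : ∃ ρ0 : ℝ, |ρ0| = ρ ∧ ∀ z ∈ ball (m : ℂ) (4 / R), ‖D k c s (n + 1) z - (ρ0 : ℝ)‖ ≤ ρ / 2
  h0 : ∀ z ∈ ball (m : ℂ) (4 / R), ‖D k c s n z‖ ≤ ρ / 2

/-- two close points of the cell -/
structure Cls (e m R t u : ℝ) : Prop where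
  ht : |t - m| ≤ 3 / R
  hu : |u - m| ≤ 3 / R
  htu : R * |t - u| ≤ e ^ 6

theorem norm_real {t m B : ℝ} (h : |t - m| ≤ B) : ‖(t : ℂ) - m‖ ≤ B := by
  rw [← Complex.ofReal_sub, Complex.norm_real, Real.norm_eq_abs]
  exact h

theorem mem_ball_real {t m R : ℝ} (hR : 0 < R) (h : |t - m| ≤ 3 / R) :
    (t : ℂ) ∈ ball (m : ℂ) (4 / R) := by
  rw [mem_ball, dist_eq_norm]
  refine (norm_real h).trans_lt ?_
  gcongr
  norm_num

variable {k e c : ℝ} {s : Bool} {n : ℕ} {m R ρ : ℝ}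

theorem Side.e_pos (S : Side k e c s n m R ρ) : 0 < e := by
  have h1 := S.hk
  have h2 := S.hke
  by_contra h
  push Not at h
  nlinarith

theorem Side.e_le (S : Side k e c s n m R ρ) : e ≤ 1 / 10 ^ 20 := by
  have h1 := S.hk
  have h2 := S.hke
  have h3 := S.e_pos
  rw [le_div_iff₀ (by positivity)]
  nlinarith

theorem Side.Q1_le (S : Side k e c s n m R ρ) {z : ℂ} (hz : z ∈ ball (m : ℂ) (4 / R)) :
    ‖D k c s (n + 1) z‖ ≤ 3 / 2 * ρ := by
  obtain ⟨ρ0, h1, h2⟩ := S.h1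
  have h3 := h2 z hz
  have h4 := norm_sub_norm_le (D k c s (n + 1) z) ((ρ0 : ℝ) : ℂ)
  rw [Complex.norm_real, Real.norm_eq_abs, h1] at h4
  linarith

theorem Side.Q1_ge (S : Side k e c s n m R ρ) {z : ℂ} (hz : z ∈ ball (m : ℂ) (4 / R)) :
    ρ / 2 ≤ ‖D k c s (n + 1) z‖ := by
  obtain ⟨ρ0, h1, h2⟩ := S.h1
  have h3 := h2 z hz
  have h4 := norm_sub_norm_le ((ρ0 : ℝ) : ℂ) (D k c s (n + 1) z)
  rw [Complex.norm_real, Real.norm_eq_abs, h1, norm_sub_rev] at h4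
  linarith

theorem Side.Q2_le (S : Side k e c s n m R ρ) {t : ℝ} (ht : |t - m| ≤ 3 / R) :
    ‖D k c s (n + 2) (t : ℂ)‖ ≤ 2 * 10 ^ 5 * k * ρ := by
  have hz := mem_ball_real S.hR ht
  have hk := S.hk
  have hρ := S.hρ
  rw [D_add_two]
  refine (norm_sub_le _ _).trans ?_
  rw [norm_mul]
  have h1 := norm_dg_le (by linarith : 1 ≤ k) c s (n + 1) t
  have h2 := S.Q1_le hz
  have h3 := S.h0 _ hz
  have h4 : ‖dg k c s (t : ℂ) (n + 1)‖ * ‖D k c s (n + 1) (t : ℂ)‖ ≤ 10 ^ 5 * k * (3 / 2 * ρ) :=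
    mul_le_mul h1 h2 (norm_nonneg _) (by positivity)
  nlinarith [mul_le_mul_of_nonneg_right hk hρ.le]

theorem Side.dQ1 (S : Side k e c s n m R ρ) {t u : ℝ} (C : Cls e m R t u) :
    ‖D k c s (n + 1) (t : ℂ) - D k c s (n + 1) (u : ℂ)‖ ≤ ρ * e ^ 6 := by
  obtain ⟨ρ0, h1, h2⟩ := S.h1
  have h := lip (f := fun z => D k c s (n + 1) z - (ρ0 : ℝ)) S.hR
    (fun z _ => ((differentiable_D k c s (n + 1)).differentiableAt).sub_const _) h2
    (norm_real C.ht) (norm_real C.hu)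
  have e1 : (fun z => D k c s (n + 1) z - ((ρ0 : ℝ) : ℂ)) (t : ℂ) -
      (fun z => D k c s (n + 1) z - ((ρ0 : ℝ) : ℂ)) (u : ℂ) =
      D k c s (n + 1) (t : ℂ) - D k c s (n + 1) (u : ℂ) := by
    simp only; ring
  rw [e1, ← Complex.ofReal_sub, Complex.norm_real, Real.norm_eq_abs] at h
  refine h.trans ?_
  have h3 := mul_le_mul_of_nonneg_left C.htu S.hρ.le
  nlinarith

theorem Side.dQ0 (S : Side k e c s n m R ρ) {t u : ℝ} (C : Cls e m R t u) :
    ‖D k c s n (t : ℂ) - D k c s n (u : ℂ)‖ ≤ ρ * e ^ 6 := by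
  have h := lip (f := fun z => D k c s n z) S.hR
    (fun z _ => ((differentiable_D k c s n).differentiableAt)) S.h0
    (norm_real C.ht) (norm_real C.hu)
  rw [← Complex.ofReal_sub, Complex.norm_real, Real.norm_eq_abs] at h
  refine h.trans ?_
  have h3 := mul_le_mul_of_nonneg_left C.htu S.hρ.le
  nlinarith

theorem Cls.seg {t u : ℝ} (C : Cls e m R t u) {x : ℝ} (hx : x ∈ Set.uIcc u t) : |x - m| ≤ 3 / R := by
  have h1 := abs_le.mp C.ht
  have h2 := abs_le.mp C.hu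
  rw [Set.mem_uIcc] at hx
  rw [abs_le]
  rcases hx with h | h <;> constructor <;> linarith [h.1, h.2]

theorem Side.rho_d (S : Side k e c s n m R ρ) {t u : ℝ} (C : Cls e m R t u) :
    ρ * |t - u| ≤ e ^ 5 / 10 ^ 10 := by
  have h1 := mul_le_mul_of_nonneg_right S.hρR (abs_nonneg (t - u))
  have hk : 0 < k := by linarith [S.hk]
  have h2 := mul_le_mul_of_nonneg_left C.htu (by positivity : 0 ≤ k / 10 ^ 10)
  have h3 : k / 10 ^ 10 * e ^ 6 = e ^ 5 / 10 ^ 10 := by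
    have : k / 10 ^ 10 * e ^ 6 = (k * e) * e ^ 5 / 10 ^ 10 := by ring
    rw [this, S.hke, one_mul]
  linarith

theorem Side.dV1 (S : Side k e c s n m R ρ) {t u : ℝ} (C : Cls e m R t u) :
    ‖dg k c s (t : ℂ) (n + 1) - dg k c s (u : ℂ) (n + 1)‖ ≤ e ^ 4 / 1000 := by
  have hk : 0 < k := by linarith [S.hk]
  have h1 := norm_dg_sub_le (by linarith [S.hk] : 1 ≤ k) c s (n + 1) t u
  have h2 := Y_sub_le (k := k) (c := c) (s := s) (n := n + 1) (t := t) (u := u) (B := 3 / 2 * ρ)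
    (fun x hx => S.Q1_le (mem_ball_real S.hR (C.seg hx)))
  have h3 := S.rho_d C
  have h4 := mul_le_mul_of_nonneg_left h2 (by positivity : 0 ≤ 10 ^ 5 * k)
  have h5 := mul_le_mul_of_nonneg_left h3 (by positivity : 0 ≤ 10 ^ 5 * k * (3 / 2))
  have h6 : 10 ^ 5 * k * (3 / 2) * (e ^ 5 / 10 ^ 10) = 3 / 2 / 10 ^ 5 * e ^ 4 := by
    have : 10 ^ 5 * k * (3 / 2) * (e ^ 5 / 10 ^ 10) = 3 / 2 / 10 ^ 5 * ((k * e) * e ^ 4) := by ring
    rw [this, S.hke, one_mul]
  have h7 : 0 < e ^ 4 := pow_pos S.e_pos 4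
  nlinarith

theorem Side.dQ2 (S : Side k e c s n m R ρ) {t u : ℝ} (C : Cls e m R t u) :
    ‖D k c s (n + 2) (t : ℂ) - D k c s (n + 2) (u : ℂ)‖ ≤ ρ * e ^ 4 / 100 := by
  have hk : 0 < k := by linarith [S.hk]
  have hρ := S.hρ
  have he := S.e_pos
  have he1 := S.e_le
  have a1 := S.dV1 C
  have a2 := S.dQ1 C
  have a3 := S.dQ0 C
  have a4 := S.Q1_le (mem_ball_real S.hR C.ht)
  have a5 := norm_dg_le (by linarith [S.hk] : 1 ≤ k) c s (n + 1) u
  have e1 : D k c s (n + 2) (t : ℂ) - D k c s (n + 2) (u : ℂ) =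
      (dg k c s (t : ℂ) (n + 1) - dg k c s (u : ℂ) (n + 1)) * D k c s (n + 1) (t : ℂ) +
      dg k c s (u : ℂ) (n + 1) * (D k c s (n + 1) (t : ℂ) - D k c s (n + 1) (u : ℂ)) -
      (D k c s n (t : ℂ) - D k c s n (u : ℂ)) := by
    rw [D_add_two, D_add_two]; ring
  rw [e1]
  refine (norm_sub_le _ _).trans ?_
  have b1 := norm_add_le ((dg k c s (t : ℂ) (n + 1) - dg k c s (u : ℂ) (n + 1)) * D k c s (n + 1) (t : ℂ))
    (dg k c s (u : ℂ) (n + 1) * (D k c s (n + 1) (t : ℂ) - D k c s (n + 1) (u : ℂ)))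
  rw [norm_mul, norm_mul] at b1
  have b2 : ‖dg k c s (t : ℂ) (n + 1) - dg k c s (u : ℂ) (n + 1)‖ * ‖D k c s (n + 1) (t : ℂ)‖ ≤
      e ^ 4 / 1000 * (3 / 2 * ρ) := mul_le_mul a1 a4 (norm_nonneg _) (by positivity)
  have b3 : ‖dg k c s (u : ℂ) (n + 1)‖ * ‖D k c s (n + 1) (t : ℂ) - D k c s (n + 1) (u : ℂ)‖ ≤
      10 ^ 5 * k * (ρ * e ^ 6) := mul_le_mul a5 a2 (norm_nonneg _) (by positivity)
  have b4 : 10 ^ 5 * k * (ρ * e ^ 6) = 10 ^ 5 * ρ * e ^ 5 := by
    have : 10 ^ 5 * k * (ρ * e ^ 6) = 10 ^ 5 * ρ * ((k * e) * e ^ 5) := by ring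
    rw [this, S.hke, one_mul]
  have c4 : 0 < ρ * e ^ 4 := by positivity
  have c5 : ρ * e ^ 5 ≤ ρ * e ^ 4 * (1 / 10 ^ 20) := by
    have : ρ * e ^ 5 = ρ * e ^ 4 * e := by ring
    rw [this]
    exact mul_le_mul_of_nonneg_left he1 c4.le
  have c6 : ρ * e ^ 6 ≤ ρ * e ^ 4 * (1 / 10 ^ 20) := by
    have : ρ * e ^ 6 = ρ * e ^ 4 * (e * e) := by ring
    rw [this]
    apply mul_le_mul_of_nonneg_left _ c4.le
    nlinarith
  linarith

/-- regular digits at `u` -/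
theorem Side.Q2_ge (S : Side k e c s n m R ρ) {u : ℝ} (hu : |u - m| ≤ 3 / R)
    (h9 : 9 ≤ ‖dg k c s (u : ℂ) (n + 1)‖) : 4 * ρ ≤ ‖D k c s (n + 2) (u : ℂ)‖ := by
  have hz := mem_ball_real S.hR hu
  have hρ := S.hρ
  rw [D_add_two]
  have h1 := norm_sub_norm_le (dg k c s (u : ℂ) (n + 1) * D k c s (n + 1) (u : ℂ)) (D k c s n (u : ℂ))
  rw [norm_mul] at h1
  have h2 := S.Q1_ge hz
  have h3 := S.h0 _ hz
  have h4 : 9 * (ρ / 2) ≤ ‖dg k c s (u : ℂ) (n + 1)‖ * ‖D k c s (n + 1) (u : ℂ)‖ :=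
    mul_le_mul h9 h2 (by positivity) (norm_nonneg _)
  linarith

/-- close points with two regular digits at `u` -/
structure Reg (k e c : ℝ) (s : Bool) (n : ℕ) (m R ρ t u : ℝ) : Prop extends
    Side k e c s n m R ρ, Cls e m R t u where
  r1 : 9 ≤ ‖dg k c s (u : ℂ) (n + 1)‖
  r2 : 9 ≤ ‖dg k c s (u : ℂ) (n + 2)‖

variable {t u : ℝ}

theorem Reg.q_ge (G : Reg k e c s n m R ρ t u) : 4 * ρ ≤ ‖D k c s (n + 2) (u : ℂ)‖ :=
  G.toSide.Q2_ge G.hu G.r1

theorem Reg.dq (G : Reg k e c s n m R ρ t u) :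
    ‖D k c s (n + 2) (t : ℂ) - D k c s (n + 2) (u : ℂ)‖ ≤ ‖D k c s (n + 2) (u : ℂ)‖ * e ^ 4 := by
  have h1 := G.toSide.dQ2 G.toCls
  have h2 := G.q_ge
  have h3 : 0 < e ^ 4 := pow_pos G.toSide.e_pos 4
  have h4 := mul_le_mul_of_nonneg_right h2 h3.le
  have h5 := G.hρ
  nlinarith [mul_pos h5 h3]

theorem Reg.e4 (G : Reg k e c s n m R ρ t u) : e ^ 4 ≤ 1 / 100 := by
  have h1 := G.toSide.e_pos
  have h2 := G.toSide.e_le
  calc e ^ 4 ≤ (1 / 10 ^ 20) ^ 4 := by gcongr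
    _ ≤ 1 / 100 := by norm_num

theorem Reg.q_le (G : Reg k e c s n m R ρ t u) :
    ‖D k c s (n + 2) (t : ℂ)‖ ≤ (101 / 100) * ‖D k c s (n + 2) (u : ℂ)‖ := by
  have h1 := G.dq
  have h2 := norm_sub_norm_le (D k c s (n + 2) (t : ℂ)) (D k c s (n + 2) (u : ℂ))
  have h3 := mul_le_mul_of_nonneg_left G.e4 (norm_nonneg (D k c s (n + 2) (u : ℂ)))
  linarith

theorem Reg.q_ge' (G : Reg k e c s n m R ρ t u) :
    (1 / 2) * ‖D k c s (n + 2) (u : ℂ)‖ ≤ ‖D k c s (n + 2) (t : ℂ)‖ := by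
  have h1 := G.dq
  have h2 := norm_sub_norm_le (D k c s (n + 2) (u : ℂ)) (D k c s (n + 2) (t : ℂ))
  rw [norm_sub_rev] at h2
  have h3 := mul_le_mul_of_nonneg_left G.e4 (norm_nonneg (D k c s (n + 2) (u : ℂ)))
  have h4 := norm_nonneg (D k c s (n + 2) (u : ℂ))
  linarith

theorem Reg.dV2 (G : Reg k e c s n m R ρ t u) :
    ‖dg k c s (t : ℂ) (n + 2) - dg k c s (u : ℂ) (n + 2)‖ ≤ 2 * e ^ 3 := by
  have hk : 0 < k := by linarith [G.hk]
  have h1 := norm_dg_sub_le (by linarith [G.hk] : 1 ≤ k) c s (n + 2) t u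
  have h2 := Y_sub_le (k := k) (c := c) (s := s) (n := n + 2) (t := t) (u := u)
    (B := 2 * 10 ^ 5 * k * ρ) (fun x hx => G.toSide.Q2_le (G.toCls.seg hx))
  have h3 := G.toSide.rho_d G.toCls
  have h4 := mul_le_mul_of_nonneg_left h2 (by positivity : 0 ≤ 10 ^ 5 * k)
  have h5 := mul_le_mul_of_nonneg_left h3 (by positivity : 0 ≤ 10 ^ 5 * k * (2 * 10 ^ 5 * k))
  have h6 : 10 ^ 5 * k * (2 * 10 ^ 5 * k) * (e ^ 5 / 10 ^ 10) = 2 * e ^ 3 := by
    have : 10 ^ 5 * k * (2 * 10 ^ 5 * k) * (e ^ 5 / 10 ^ 10) = 2 * ((k * e) * (k * e) * e ^ 3) := by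
      ring
    rw [this, G.hke]; ring
  nlinarith

theorem Reg.dQ3 (G : Reg k e c s n m R ρ t u) :
    ‖D k c s (n + 3) (t : ℂ) - D k c s (n + 3) (u : ℂ)‖ ≤
      10 ^ 6 * e ^ 3 * ‖D k c s (n + 2) (u : ℂ)‖ := by
  have hk : 0 < k := by linarith [G.hk]
  have hρ := G.hρ
  have he := G.toSide.e_pos
  have he1 := G.toSide.e_le
  set q := ‖D k c s (n + 2) (u : ℂ)‖ with hq
  have a0 := G.q_ge
  rw [← hq] at a0
  have a1 := G.dV2
  have a2 := G.dq
  rw [← hq] at a2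
  have a3 := G.toSide.dQ1 G.toCls
  have a4 := G.q_le
  rw [← hq] at a4
  have a5 := norm_dg_le (by linarith [G.hk] : 1 ≤ k) c s (n + 2) u
  have e1 : D k c s (n + 3) (t : ℂ) - D k c s (n + 3) (u : ℂ) =
      (dg k c s (t : ℂ) (n + 2) - dg k c s (u : ℂ) (n + 2)) * D k c s (n + 2) (t : ℂ) +
      dg k c s (u : ℂ) (n + 2) * (D k c s (n + 2) (t : ℂ) - D k c s (n + 2) (u : ℂ)) -
      (D k c s (n + 1) (t : ℂ) - D k c s (n + 1) (u : ℂ)) := by
    rw [D_add_two k c s (n + 1) (t : ℂ), D_add_two k c s (n + 1) (u : ℂ)]; ring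
  rw [e1]
  refine (norm_sub_le _ _).trans ?_
  have b1 := norm_add_le ((dg k c s (t : ℂ) (n + 2) - dg k c s (u : ℂ) (n + 2)) * D k c s (n + 2) (t : ℂ))
    (dg k c s (u : ℂ) (n + 2) * (D k c s (n + 2) (t : ℂ) - D k c s (n + 2) (u : ℂ)))
  rw [norm_mul, norm_mul] at b1
  have b2 : ‖dg k c s (t : ℂ) (n + 2) - dg k c s (u : ℂ) (n + 2)‖ * ‖D k c s (n + 2) (t : ℂ)‖ ≤
      2 * e ^ 3 * (101 / 100 * q) := mul_le_mul a1 a4 (norm_nonneg _) (by positivity)
  have b3 : ‖dg k c s (u : ℂ) (n + 2)‖ * ‖D k c s (n + 2) (t : ℂ) - D k c s (n + 2) (u : ℂ)‖ ≤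
      10 ^ 5 * k * (q * e ^ 4) := mul_le_mul a5 a2 (norm_nonneg _) (by positivity)
  have b4 : 10 ^ 5 * k * (q * e ^ 4) = 10 ^ 5 * q * e ^ 3 := by
    have : 10 ^ 5 * k * (q * e ^ 4) = 10 ^ 5 * q * ((k * e) * e ^ 3) := by ring
    rw [this, G.hke, one_mul]
  have hq0 : 0 < q := by linarith
  have c4 : 0 < q * e ^ 3 := by positivity
  have c6 : ρ * e ^ 6 ≤ q * e ^ 3 := by
    have h1 : ρ * e ^ 6 = ρ * (e ^ 3 * e ^ 3) := by ring
    rw [h1]
    have h2 : e ^ 3 * e ^ 3 ≤ e ^ 3 * 1 := by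
      apply mul_le_mul_of_nonneg_left _ (by positivity)
      calc e ^ 3 ≤ (1 / 10 ^ 20) ^ 3 := by gcongr
        _ ≤ 1 := by norm_num
    calc ρ * (e ^ 3 * e ^ 3) ≤ q * (e ^ 3 * 1) := by
          apply mul_le_mul _ h2 (by positivity) hq0.le
          linarith
      _ = q * e ^ 3 := by ring
  linarith

theorem Reg.Q3_ge (G : Reg k e c s n m R ρ t u) :
    8 * ‖D k c s (n + 2) (u : ℂ)‖ ≤ ‖D k c s (n + 3) (u : ℂ)‖ := by
  have hz := mem_ball_real G.hR G.hu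
  have hρ := G.hρ
  rw [D_add_two k c s (n + 1)]
  have h1 := norm_sub_norm_le (dg k c s (u : ℂ) (n + 1 + 1) * D k c s (n + 1 + 1) (u : ℂ))
    (D k c s (n + 1) (u : ℂ))
  rw [norm_mul] at h1
  have h2 := G.toSide.Q1_le hz
  have h3 := G.q_ge
  have h4 : 9 * ‖D k c s (n + 2) (u : ℂ)‖ ≤ ‖dg k c s (u : ℂ) (n + 1 + 1)‖ *
      ‖D k c s (n + 1 + 1) (u : ℂ)‖ := mul_le_mul_of_nonneg_right G.r2 (norm_nonneg _)
  linarith

theorem Reg.Q3_ge' (G : Reg k e c s n m R ρ t u) :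
    7 * ‖D k c s (n + 2) (u : ℂ)‖ ≤ ‖D k c s (n + 3) (t : ℂ)‖ := by
  have h1 := G.dQ3
  have h2 := norm_sub_norm_le (D k c s (n + 3) (u : ℂ)) (D k c s (n + 3) (t : ℂ))
  rw [norm_sub_rev] at h2
  have h3 := G.Q3_ge
  have he := G.toSide.e_pos
  have h5 : 10 ^ 6 * e ^ 3 ≤ 1 := by
    calc 10 ^ 6 * e ^ 3 ≤ 10 ^ 6 * (1 / 10 ^ 20) ^ 3 := by
          have := G.toSide.e_le
          gcongr
      _ ≤ 1 := by norm_num
  have h6 := mul_le_mul_of_nonneg_right h5 (norm_nonneg (D k c s (n + 2) (u : ℂ)))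
  linarith

theorem inv_sub_le {a b a' b' : ℂ} (ha : a ≠ 0) (hb : b ≠ 0) (ha' : a' ≠ 0) (hb' : b' ≠ 0) :
    ‖1 / (a * b) - 1 / (a' * b')‖ ≤
      ‖a - a'‖ / (‖a‖ * ‖b‖ * ‖a'‖) + ‖b - b'‖ / (‖b‖ * ‖a'‖ * ‖b'‖) := by
  have h : 1 / (a * b) - 1 / (a' * b') = (a' - a) / (a * b * a') + (b' - b) / (b * a' * b') := by
    field_simp
    ring
  rw [h]
  refine (norm_add_le _ _).trans ?_
  rw [norm_div, norm_div, norm_mul, norm_mul, norm_mul, norm_mul, norm_sub_rev a' a,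
    norm_sub_rev b' b]

/-- variation of the first new content term -/
theorem Reg.T1 (G : Reg k e c s n m R ρ t u) :
    ‖1 / (D k c s (n + 1) (t : ℂ) * D k c s (n + 2) (t : ℂ)) -
      1 / (D k c s (n + 1) (u : ℂ) * D k c s (n + 2) (u : ℂ))‖ ≤ e ^ 4 / ρ ^ 2 := by
  have hρ := G.hρ
  have he := G.toSide.e_pos
  have a1 := G.toSide.Q1_ge (mem_ball_real G.hR G.ht)
  have a2 := G.toSide.Q1_ge (mem_ball_real G.hR G.hu)
  have a3 := G.q_ge
  have a4 := G.q_ge'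
  have n1 : D k c s (n + 1) (t : ℂ) ≠ 0 := norm_pos_iff.mp (by linarith)
  have n2 : D k c s (n + 2) (t : ℂ) ≠ 0 := norm_pos_iff.mp (by linarith)
  have n3 : D k c s (n + 1) (u : ℂ) ≠ 0 := norm_pos_iff.mp (by linarith)
  have n4 : D k c s (n + 2) (u : ℂ) ≠ 0 := norm_pos_iff.mp (by linarith)
  refine (inv_sub_le n1 n2 n3 n4).trans ?_
  have b1 := G.toSide.dQ1 G.toCls
  have b2 := G.toSide.dQ2 G.toCls
  have c1 : ‖D k c s (n + 1) (t : ℂ) - D k c s (n + 1) (u : ℂ)‖ /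
      (‖D k c s (n + 1) (t : ℂ)‖ * ‖D k c s (n + 2) (t : ℂ)‖ * ‖D k c s (n + 1) (u : ℂ)‖) ≤
      (ρ * e ^ 6) / (ρ / 2 * (2 * ρ) * (ρ / 2)) := by
    apply div_le_div₀ (by positivity) b1 (by positivity)
    apply mul_le_mul _ a2 (by positivity) (by positivity)
    apply mul_le_mul a1 (by linarith) (by positivity) (by positivity)
  have c2 : ‖D k c s (n + 2) (t : ℂ) - D k c s (n + 2) (u : ℂ)‖ /
      (‖D k c s (n + 2) (t : ℂ)‖ * ‖D k c s (n + 1) (u : ℂ)‖ * ‖D k c s (n + 2) (u : ℂ)‖) ≤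
      (ρ * e ^ 4 / 100) / (2 * ρ * (ρ / 2) * (4 * ρ)) := by
    apply div_le_div₀ (by positivity) b2 (by positivity)
    apply mul_le_mul _ a3 (by positivity) (by positivity)
    apply mul_le_mul (by linarith) a2 (by positivity) (by positivity)
  have c3 : (ρ * e ^ 6) / (ρ / 2 * (2 * ρ) * (ρ / 2)) = 2 * e ^ 6 / ρ ^ 2 := by
    field_simp
  have c4 : (ρ * e ^ 4 / 100) / (2 * ρ * (ρ / 2) * (4 * ρ)) = e ^ 4 / 400 / ρ ^ 2 := by
    field_simp
    ring
  rw [c3] at c1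
  rw [c4] at c2
  have c5 : 2 * e ^ 6 / ρ ^ 2 + e ^ 4 / 400 / ρ ^ 2 ≤ e ^ 4 / ρ ^ 2 := by
    rw [← add_div]
    gcongr
    have h1 : e ^ 6 ≤ e ^ 4 * (1 / 100) := by
      have : e ^ 6 = e ^ 4 * (e * e) := by ring
      rw [this]
      apply mul_le_mul_of_nonneg_left _ (by positivity)
      have := G.toSide.e_le
      nlinarith
    have h2 : 0 < e ^ 4 := by positivity
    linarith
  linarith

/-- variation of the second new content term -/
theorem Reg.T2 (G : Reg k e c s n m R ρ t u) :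
    ‖1 / (D k c s (n + 2) (t : ℂ) * D k c s (n + 3) (t : ℂ)) -
      1 / (D k c s (n + 2) (u : ℂ) * D k c s (n + 3) (u : ℂ))‖ ≤
      10 ^ 6 * e ^ 3 / ‖D k c s (n + 2) (u : ℂ)‖ ^ 2 := by
  have hρ := G.hρ
  have he := G.toSide.e_pos
  have a3 := G.q_ge
  have a4 := G.q_ge'
  have a5 := G.Q3_ge
  have a6 := G.Q3_ge'
  have b1 := G.dq
  have b2 := G.dQ3
  have n2 : D k c s (n + 2) (t : ℂ) ≠ 0 := norm_pos_iff.mp (by linarith)
  have n4 : D k c s (n + 2) (u : ℂ) ≠ 0 := norm_pos_iff.mp (by linarith)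
  have n1 : D k c s (n + 3) (t : ℂ) ≠ 0 := norm_pos_iff.mp (by linarith)
  have n3 : D k c s (n + 3) (u : ℂ) ≠ 0 := norm_pos_iff.mp (by linarith)
  refine (inv_sub_le n2 n1 n4 n3).trans ?_
  set q := ‖D k c s (n + 2) (u : ℂ)‖ with hq
  have hq0 : 0 < q := by linarith
  have c1 : ‖D k c s (n + 2) (t : ℂ) - D k c s (n + 2) (u : ℂ)‖ /
      (‖D k c s (n + 2) (t : ℂ)‖ * ‖D k c s (n + 3) (t : ℂ)‖ * q) ≤
      (q * e ^ 4) / (1 / 2 * q * (7 * q) * q) := by
    apply div_le_div₀ (by positivity) b1 (by positivity)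
    apply mul_le_mul_of_nonneg_right _ hq0.le
    apply mul_le_mul a4 a6 (by positivity) (norm_nonneg _)
  have c2 : ‖D k c s (n + 3) (t : ℂ) - D k c s (n + 3) (u : ℂ)‖ /
      (‖D k c s (n + 3) (t : ℂ)‖ * q * ‖D k c s (n + 3) (u : ℂ)‖) ≤
      (10 ^ 6 * e ^ 3 * q) / (7 * q * q * (8 * q)) := by
    apply div_le_div₀ (by positivity) b2 (by positivity)
    apply mul_le_mul _ a5 (by positivity) (by positivity)
    apply mul_le_mul_of_nonneg_right a6 hq0.le
  have c3 : (q * e ^ 4) / (1 / 2 * q * (7 * q) * q) = 2 / 7 * e ^ 4 / q ^ 2 := by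
    field_simp
  have c4 : (10 ^ 6 * e ^ 3 * q) / (7 * q * q * (8 * q)) = 10 ^ 6 / 56 * e ^ 3 / q ^ 2 := by
    field_simp
    ring
  rw [c3] at c1
  rw [c4] at c2
  have c5 : 2 / 7 * e ^ 4 / q ^ 2 + 10 ^ 6 / 56 * e ^ 3 / q ^ 2 ≤ 10 ^ 6 * e ^ 3 / q ^ 2 := by
    rw [← add_div]
    gcongr
    have h1 : e ^ 4 ≤ e ^ 3 * (1 / 100) := by
      have : e ^ 4 = e ^ 3 * e := by ring
      rw [this]
      apply mul_le_mul_of_nonneg_left _ (by positivity)
      have := G.toSide.e_le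
      linarith
    have h2 : 0 < e ^ 3 := by positivity
    linarith
  linarith

/-! ### both sides -/

/-- `Align.mu` at two consecutive times -/
theorem mu_succ {k c : ℝ} {s : Bool} {n : ℕ} {z : ℂ} (h0 : D k c s n z ≠ 0)
    (h1 : D k c s (n + 1) z ≠ 0) :
    mu k c s (n + 1) z = mu k c s n z + 1 / (D k c s n z * D k c s (n + 1) z) := by
  have h := Align.mu_succ_sub (a := dg k c s z) (n := n) (by rw [Q_dg]; exact h0)
    (by rw [Q_dg]; exact h1)
  rw [Q_dg, Q_dg] at h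
  unfold mu
  rw [← h]
  ring

theorem cont_succ {k c : ℝ} {s : Bool} {n n' : ℕ} {z : ℂ} (h0 : D k c s n z ≠ 0)
    (h1 : D k c s (n + 1) z ≠ 0) (h0' : D k c (!s) n' z ≠ 0) (h1' : D k c (!s) (n' + 1) z ≠ 0) :
    cont k c s (n + 1) (n' + 1) z = cont k c s n n' z -
      1 / (D k c s n z * D k c s (n + 1) z) - 1 / (D k c (!s) n' z * D k c (!s) (n' + 1) z) := by
  unfold cont
  rw [mu_succ h0 h1, mu_succ h0' h1']
  ring

variable {n' : ℕ} {ρ' : ℝ}

theorem Side.epw (S : Side k e c s n m R ρ) :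
    e ≤ 1 / 10 ^ 20 ∧ e ^ 2 ≤ 1 / 10 ^ 20 ∧ e ^ 3 ≤ 1 / 10 ^ 20 ∧ e ^ 4 ≤ 1 / 10 ^ 20 := by
  have he := S.e_pos
  have he1 := S.e_le
  have h0 : (1 : ℝ) / 10 ^ 20 ≤ 1 := by norm_num
  have he2 : e ^ 2 ≤ 1 / 10 ^ 20 := by nlinarith
  have he3 : e ^ 3 ≤ 1 / 10 ^ 20 := by
    have : e ^ 3 = e ^ 2 * e := by ring
    rw [this]; nlinarith [pow_pos he 2]
  have he4 : e ^ 4 ≤ 1 / 10 ^ 20 := by
    have : e ^ 4 = e ^ 3 * e := by ring
    rw [this]; nlinarith [pow_pos he 3]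
  exact ⟨he1, he2, he3, he4⟩

theorem num1 {k e R r x d a a' : ℝ} (hk : 0 < k) (hR : 0 < R) (he : 0 < e) (hke : k * e = 1)
    (hp : e ≤ 1 / 10 ^ 20 ∧ e ^ 2 ≤ 1 / 10 ^ 20 ∧ e ^ 3 ≤ 1 / 10 ^ 20 ∧ e ^ 4 ≤ 1 / 10 ^ 20)
    (hr : R ≤ r) (hx : 2 * Real.pi * k * R ^ 2 * x ≤ 1 / 8)
    (hd : 2 * Real.pi * k * R ^ 2 * d ≤ 10 * e ^ 4)
    (ha : a ≤ e ^ 4 / R ^ 2) (ha' : a' ≤ e ^ 4 / r ^ 2) :
    2 * Real.pi * k * R ^ 2 * (x + d + a + a') ≤ 1 / 4 := by
  have hpi := Real.pi_pos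
  have hpi4 : Real.pi ≤ 4 := Real.pi_le_four
  obtain ⟨-, -, h3, h4⟩ := hp
  have hke3 : k * e ^ 4 = e ^ 3 := by
    have : k * e ^ 4 = (k * e) * e ^ 3 := by ring
    rw [this, hke, one_mul]
  have i2 : 2 * Real.pi * k * R ^ 2 * (e ^ 4 / R ^ 2) = 2 * Real.pi * (k * e ^ 4) := by
    field_simp
  have gen : ∀ a : ℝ, a ≤ e ^ 4 / R ^ 2 → 2 * Real.pi * k * R ^ 2 * a ≤ 8 * e ^ 3 := by
    intro a ha
    have i1 := mul_le_mul_of_nonneg_left ha (by positivity : 0 ≤ 2 * Real.pi * k * R ^ 2)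
    rw [i2, hke3] at i1
    have := mul_le_mul_of_nonneg_right hpi4 (by positivity : 0 ≤ 2 * e ^ 3)
    linarith
  have g1 := gen a ha
  have g2 := gen a' (ha'.trans (by gcongr))
  have h5 : 2 * Real.pi * k * R ^ 2 * (x + d + a + a') = 2 * Real.pi * k * R ^ 2 * x +
    2 * Real.pi * k * R ^ 2 * d + 2 * Real.pi * k * R ^ 2 * a + 2 * Real.pi * k * R ^ 2 * a' := by ring
  have h6 : (1 : ℝ) / 10 ^ 20 ≤ 1 / 1000 := by norm_num
  linarith

theorem num2 {k e R r x d a a' b b' q q' qt qt' : ℝ} (hk : 0 < k) (hR : 0 < R) (hr : 0 < r)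
    (he : 0 < e) (hke : k * e = 1)
    (hp : e ≤ 1 / 10 ^ 20 ∧ e ^ 2 ≤ 1 / 10 ^ 20 ∧ e ^ 3 ≤ 1 / 10 ^ 20 ∧ e ^ 4 ≤ 1 / 10 ^ 20)
    (hq : 0 < q) (hq' : 0 < q') (hqt : 0 ≤ qt) (hqt' : 0 ≤ qt')
    (m1 : qt ≤ 101 / 100 * q) (m1' : qt' ≤ 101 / 100 * q')
    (m2 : qt ≤ 2 * 10 ^ 5 * k * R) (m2' : qt' ≤ 2 * 10 ^ 5 * k * r)
    (hx0 : 0 ≤ x) (hd0 : 0 ≤ d) (ha0 : 0 ≤ a) (ha0' : 0 ≤ a') (hb0 : 0 ≤ b) (hb0' : 0 ≤ b')
    (hx : 2 * Real.pi * k * (min q q') ^ 2 * x ≤ 1 / 8)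
    (hd : 2 * Real.pi * k * R ^ 2 * d ≤ 10 * e ^ 4)
    (ha : a ≤ e ^ 4 / R ^ 2) (ha' : a' ≤ e ^ 4 / r ^ 2)
    (hb : b ≤ 10 ^ 6 * e ^ 3 / q ^ 2) (hb' : b' ≤ 10 ^ 6 * e ^ 3 / q' ^ 2) :
    2 * Real.pi * k * (min qt qt') ^ 2 * (x + d + a + a' + b + b') ≤ 1 / 4 := by
  have hpi := Real.pi_pos
  have hpi4 : Real.pi ≤ 4 := Real.pi_le_four
  obtain ⟨p1, p2, p3, p4⟩ := hp
  set Mt := min qt qt' with hMt
  set Mu := min q q' with hMu
  have hMt0 : 0 ≤ Mt := le_min hqt hqt'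
  have hMu0 : 0 ≤ Mu := le_min hq.le hq'.le
  have l1 : Mt ≤ 101 / 100 * Mu := by
    rcases le_total q q' with h | h
    · rw [hMu, min_eq_left h]; exact (min_le_left _ _).trans m1
    · rw [hMu, min_eq_right h]; exact (min_le_right _ _).trans m1'
  have l2 : Mt ≤ 2 * 10 ^ 5 * k * R := (min_le_left _ _).trans m2
  have l2' : Mt ≤ 2 * 10 ^ 5 * k * r := (min_le_right _ _).trans m2'
  have l3 : Mt ≤ 101 / 100 * q := (min_le_left _ _).trans m1
  have l3' : Mt ≤ 101 / 100 * q' := (min_le_right _ _).trans m1'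
  set St := 2 * Real.pi * k * Mt ^ 2 with hSt
  have hSt0 : 0 ≤ St := by positivity
  have pw : ∀ x : ℝ, 0 ≤ x → Mt ≤ x → St ≤ 2 * Real.pi * k * x ^ 2 := fun x hx hx' => by
    rw [hSt]; gcongr
  have s0 : St * x ≤ 13 / 100 := by
    have i1 := pw _ (by positivity) l1
    have i2 := mul_le_mul_of_nonneg_right i1 hx0
    have i3 : 2 * Real.pi * k * (101 / 100 * Mu) ^ 2 * x =
      (101 / 100) ^ 2 * (2 * Real.pi * k * Mu ^ 2 * x) := by ring
    rw [i3] at i2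
    have i4 := mul_le_mul_of_nonneg_left hx (by positivity : (0:ℝ) ≤ (101 / 100) ^ 2)
    linarith
  have s1 : St * d ≤ 10 ^ 12 * e ^ 2 := by
    have i1 := mul_le_mul_of_nonneg_right (pw _ (by positivity) l2) hd0
    have i3 : 2 * Real.pi * k * (2 * 10 ^ 5 * k * R) ^ 2 * d =
      4 * 10 ^ 10 * k ^ 2 * (2 * Real.pi * k * R ^ 2 * d) := by ring
    have i4 := mul_le_mul_of_nonneg_left hd (by positivity : 0 ≤ 4 * 10 ^ 10 * k ^ 2)
    have i5 : 4 * 10 ^ 10 * k ^ 2 * (10 * e ^ 4) = 4 * 10 ^ 11 * e ^ 2 := by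
      have : 4 * 10 ^ 10 * k ^ 2 * (10 * e ^ 4) = 4 * 10 ^ 11 * ((k * e) ^ 2 * e ^ 2) := by ring
      rw [this, hke]; ring
    have : 0 < e ^ 2 := by positivity
    linarith
  have gen1 : ∀ r d : ℝ, 0 < r → Mt ≤ 2 * 10 ^ 5 * k * r → 0 ≤ d → d ≤ e ^ 4 / r ^ 2 →
      St * d ≤ 10 ^ 12 * e := by
    intro r d hr hM hd0 hd
    have i1 := mul_le_mul (pw _ (by positivity) hM) hd hd0 (by positivity)
    have i2 : 2 * Real.pi * k * (2 * 10 ^ 5 * k * r) ^ 2 * (e ^ 4 / r ^ 2) =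
      8 * 10 ^ 10 * Real.pi * ((k * e) ^ 3 * e) := by field_simp; ring
    rw [i2, hke] at i1
    have := mul_le_mul_of_nonneg_right hpi4 (by positivity : 0 ≤ 8 * 10 ^ 10 * e)
    linarith
  have s2 := gen1 R _ hR l2 ha0 ha
  have s2' := gen1 r _ hr l2' ha0' ha'
  have gen2 : ∀ r d : ℝ, 0 < r → Mt ≤ 101 / 100 * r → 0 ≤ d → d ≤ 10 ^ 6 * e ^ 3 / r ^ 2 →
      St * d ≤ 10 ^ 7 * e ^ 2 := by
    intro r d hr hM hd0 hd
    have i1 := mul_le_mul (pw _ (by positivity) hM) hd hd0 (by positivity)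
    have i2 : 2 * Real.pi * k * (101 / 100 * r) ^ 2 * (10 ^ 6 * e ^ 3 / r ^ 2) =
      2 * Real.pi * (101 / 100) ^ 2 * 10 ^ 6 * ((k * e) * e ^ 2) := by field_simp
    rw [i2, hke] at i1
    have := mul_le_mul_of_nonneg_right hpi4 (by positivity : 0 ≤ 2 * (101 / 100) ^ 2 * 10 ^ 6 * e ^ 2)
    have : 0 < e ^ 2 := by positivity
    linarith
  have s3 := gen2 q _ hq l3 hb0 hb
  have s3' := gen2 q' _ hq' l3' hb0' hb'
  have h5 : St * (x + d + a + a' + b + b') =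
    St * x + St * d + St * a + St * a' + St * b + St * b' := by ring
  have f1 : 10 ^ 12 * e ≤ 1 / 10 ^ 8 := by linarith
  have f2 : 10 ^ 12 * e ^ 2 ≤ 1 / 10 ^ 8 := by linarith
  have f3 : 10 ^ 7 * e ^ 2 ≤ 1 / 10 ^ 8 := by linarith
  have f4 : (1 : ℝ) / 10 ^ 8 ≤ 1 / 1000 := by norm_num
  linarith

/-- **Perturbation**: alignment at `u` implies (weaker) alignment at `t`. -/
theorem align_of_close {q0 q1 q2 : ℝ} (G : Reg k e c s n m R R t u)
    (G' : Reg k e c (!s) n' m R ρ' t u) (hRρ : R ≤ ρ')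
    (hq : |q0| + |q1| + |q2| ≤ k ^ 2)
    (quad : ∀ z ∈ ball (m : ℂ) (4 / R),
      ‖(2 * Real.pi * k * R ^ 2 : ℝ) * cont k c s (n + 1) (n' + 1) z -
        (q0 + q1 * ((R : ℂ) * (z - m)) + q2 * ((R : ℂ) * (z - m)) ^ 2)‖ ≤ 1 / 16)
    (al1 : (2 * Real.pi * k * R ^ 2) * ‖cont k c s (n + 2) (n' + 2) u‖ ≤ 1 / 8)
    (al2 : (2 * Real.pi * k * (min ‖D k c s (n + 2) u‖ ‖D k c (!s) (n' + 2) u‖) ^ 2) *
      ‖cont k c s (n + 3) (n' + 3) u‖ ≤ 1 / 8) :
    (2 * Real.pi * k * R ^ 2) * ‖cont k c s (n + 2) (n' + 2) t‖ ≤ 1 / 4 ∧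
    (2 * Real.pi * k * (min ‖D k c s (n + 2) t‖ ‖D k c (!s) (n' + 2) t‖) ^ 2) *
      ‖cont k c s (n + 3) (n' + 3) t‖ ≤ 1 / 4 := by
  have hk : 0 < k := by linarith [G.hk]
  have hR := G.hR
  have hρ' := G'.hρ
  have he := G.toSide.e_pos
  have he1 := G.toSide.e_le
  have hke := G.hke
  have hpi := Real.pi_pos
  have hpi4 : Real.pi ≤ 4 := Real.pi_le_four
  -- nonvanishing
  have nz : ∀ x : ℝ, |x - m| ≤ 3 / R → D k c s (n + 1) (x : ℂ) ≠ 0 := fun x hx =>
    norm_pos_iff.mp (by have := G.toSide.Q1_ge (mem_ball_real hR hx); linarith)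
  have nz' : ∀ x : ℝ, |x - m| ≤ 3 / R → D k c (!s) (n' + 1) (x : ℂ) ≠ 0 := fun x hx =>
    norm_pos_iff.mp (by have := G'.toSide.Q1_ge (mem_ball_real hR hx); linarith)
  have g3 := G.q_ge
  have g4 := G.q_ge'
  have g5 := G.Q3_ge
  have g6 := G.Q3_ge'
  have g3' := G'.q_ge
  have g4' := G'.q_ge'
  have g5' := G'.Q3_ge
  have g6' := G'.Q3_ge'
  have n2t : D k c s (n + 2) (t : ℂ) ≠ 0 := norm_pos_iff.mp (by linarith)
  have n2u : D k c s (n + 2) (u : ℂ) ≠ 0 := norm_pos_iff.mp (by linarith)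
  have n3t : D k c s (n + 3) (t : ℂ) ≠ 0 := norm_pos_iff.mp (by linarith)
  have n3u : D k c s (n + 3) (u : ℂ) ≠ 0 := norm_pos_iff.mp (by linarith)
  have n2t' : D k c (!s) (n' + 2) (t : ℂ) ≠ 0 := norm_pos_iff.mp (by linarith)
  have n2u' : D k c (!s) (n' + 2) (u : ℂ) ≠ 0 := norm_pos_iff.mp (by linarith)
  have n3t' : D k c (!s) (n' + 3) (t : ℂ) ≠ 0 := norm_pos_iff.mp (by linarith)
  have n3u' : D k c (!s) (n' + 3) (u : ℂ) ≠ 0 := norm_pos_iff.mp (by linarith)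
  have ct2 := cont_succ (k := k) (c := c) (s := s) (n := n + 1) (n' := n' + 1) (z := (t : ℂ))
    (nz t G.ht) n2t (nz' t G.ht) n2t'
  have cu2 := cont_succ (k := k) (c := c) (s := s) (n := n + 1) (n' := n' + 1) (z := (u : ℂ))
    (nz u G.hu) n2u (nz' u G.hu) n2u'
  have ct3 := cont_succ (k := k) (c := c) (s := s) (n := n + 2) (n' := n' + 2) (z := (t : ℂ))
    n2t n3t n2t' n3t'
  have cu3 := cont_succ (k := k) (c := c) (s := s) (n := n + 2) (n' := n' + 2) (z := (u : ℂ))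
    n2u n3u n2u' n3u'
  -- the old content
  set A : ℝ := 2 * Real.pi * k * R ^ 2 with hA
  have hA0 : 0 < A := by positivity
  have dcont : A * ‖cont k c s (n + 1) (n' + 1) (t : ℂ) - cont k c s (n + 1) (n' + 1) (u : ℂ)‖ ≤
      10 * e ^ 4 := by
    have h1 := lip (f := fun z => (A : ℂ) * cont k c s (n + 1) (n' + 1) z -
        (q0 + q1 * ((R : ℂ) * (z - m)) + q2 * ((R : ℂ) * (z - m)) ^ 2)) hR (E := 1 / 16) (by
      intro z hz
      have a1 : D k c s (n + 1) z ≠ 0 :=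
        norm_pos_iff.mp (by have := G.toSide.Q1_ge hz; linarith)
      have a2 : D k c (!s) (n' + 1) z ≠ 0 :=
        norm_pos_iff.mp (by have := G'.toSide.Q1_ge hz; linarith)
      have a3 : DifferentiableAt ℂ (fun z => cont k c s (n + 1) (n' + 1) z) z :=
        ((differentiableAt_const _).sub (differentiableAt_mu k c s (n + 1) a1)).sub
          (differentiableAt_mu k c (!s) (n' + 1) a2)
      refine (a3.const_mul _).sub ?_
      fun_prop) quad (norm_real G.ht) (norm_real G.hu)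
    have hn : ‖(t : ℂ) - (u : ℂ)‖ = |t - u| := by
      rw [← Complex.ofReal_sub, Complex.norm_real, Real.norm_eq_abs]
    rw [hn] at h1
    set ct := cont k c s (n + 1) (n' + 1) (t : ℂ) with hct
    set cu := cont k c s (n + 1) (n' + 1) (u : ℂ) with hcu
    set x : ℝ := R * (t - m) with hx
    set v : ℝ := R * (u - m) with hv
    have e1 : (A : ℂ) * ct - (q0 + q1 * ((R : ℂ) * ((t : ℂ) - m)) + q2 * ((R : ℂ) * ((t : ℂ) - m)) ^ 2) -
        ((A : ℂ) * cu - (q0 + q1 * ((R : ℂ) * ((u : ℂ) - m)) + q2 * ((R : ℂ) * ((u : ℂ) - m)) ^ 2)) =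
        (A : ℂ) * (ct - cu) - ((q1 * (x - v) + q2 * ((x + v) * (x - v)) : ℝ) : ℂ) := by
      rw [hx, hv]; push_cast; ring
    rw [e1] at h1
    have h2 := norm_sub_norm_le ((A : ℂ) * (ct - cu)) ((q1 * (x - v) + q2 * ((x + v) * (x - v)) : ℝ) : ℂ)
    rw [norm_mul, Complex.norm_real, Complex.norm_real, Real.norm_eq_abs, Real.norm_eq_abs,
      abs_of_pos hA0] at h2
    have hxv : |x - v| ≤ e ^ 6 := by
      have : x - v = R * (t - u) := by rw [hx, hv]; ring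
      rw [this, abs_mul, abs_of_pos hR]
      exact G.htu
    have hxa : |x| ≤ 3 := by
      rw [hx, abs_mul, abs_of_pos hR]
      have := mul_le_mul_of_nonneg_left G.ht hR.le
      rwa [mul_div_cancel₀ _ hR.ne'] at this
    have hva : |v| ≤ 3 := by
      rw [hv, abs_mul, abs_of_pos hR]
      have := mul_le_mul_of_nonneg_left G.hu hR.le
      rwa [mul_div_cancel₀ _ hR.ne'] at this
    have h3 : |q1 * (x - v) + q2 * ((x + v) * (x - v))| ≤ k ^ 2 * (6 * e ^ 6) := by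
      refine (abs_add_le _ _).trans ?_
      rw [abs_mul, abs_mul, abs_mul]
      have i1 : |x + v| ≤ 6 := (abs_add_le _ _).trans (by linarith)
      have i2 : |x + v| * |x - v| ≤ 6 * e ^ 6 := mul_le_mul i1 hxv (abs_nonneg _) (by norm_num)
      have i3 : |q1| * |x - v| ≤ |q1| * (6 * e ^ 6) := by
        apply mul_le_mul_of_nonneg_left _ (abs_nonneg _)
        have : 0 < e ^ 6 := by positivity
        linarith
      have i4 := mul_le_mul_of_nonneg_left i2 (abs_nonneg q2)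
      have i5 : (|q1| + |q2|) * (6 * e ^ 6) ≤ k ^ 2 * (6 * e ^ 6) := by
        apply mul_le_mul_of_nonneg_right _ (by positivity)
        have := abs_nonneg q0
        linarith
      linarith
    have h4 : k ^ 2 * (6 * e ^ 6) = 6 * e ^ 4 := by
      have : k ^ 2 * (6 * e ^ 6) = 6 * ((k * e) * (k * e) * e ^ 4) := by ring
      rw [this, hke]; ring
    have h5 : 2 * R * (1 / 16) * |t - u| ≤ e ^ 6 := by
      have := G.htu
      have h0 : 0 ≤ R * |t - u| := by positivity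
      linarith
    have h6 : e ^ 6 ≤ e ^ 4 := by
      have : e ^ 6 = e ^ 4 * (e * e) := by ring
      rw [this]
      have : e * e ≤ 1 := by nlinarith
      nlinarith [pow_pos he 4]
    have h7 : 0 < e ^ 4 := by positivity
    linarith
  have t1 := G.T1
  have t1' := G'.T1
  have t2 := G.T2
  have t2' := G'.T2
  set dT1 := 1 / (D k c s (n + 1) (t : ℂ) * D k c s (n + 2) (t : ℂ)) -
      1 / (D k c s (n + 1) (u : ℂ) * D k c s (n + 2) (u : ℂ)) with hdT1
  set dT1' := 1 / (D k c (!s) (n' + 1) (t : ℂ) * D k c (!s) (n' + 2) (t : ℂ)) -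
      1 / (D k c (!s) (n' + 1) (u : ℂ) * D k c (!s) (n' + 2) (u : ℂ)) with hdT1'
  set dT2 := 1 / (D k c s (n + 2) (t : ℂ) * D k c s (n + 3) (t : ℂ)) -
      1 / (D k c s (n + 2) (u : ℂ) * D k c s (n + 3) (u : ℂ)) with hdT2
  set dT2' := 1 / (D k c (!s) (n' + 2) (t : ℂ) * D k c (!s) (n' + 3) (t : ℂ)) -
      1 / (D k c (!s) (n' + 2) (u : ℂ) * D k c (!s) (n' + 3) (u : ℂ)) with hdT2'
  set dc := cont k c s (n + 1) (n' + 1) (t : ℂ) - cont k c s (n + 1) (n' + 1) (u : ℂ) with hdc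
  have E2 : cont k c s (n + 2) (n' + 2) (t : ℂ) = cont k c s (n + 2) (n' + 2) (u : ℂ) + dc - dT1 - dT1' := by
    rw [ct2, cu2, hdT1, hdT1', hdc]; ring
  have E3 : cont k c s (n + 3) (n' + 3) (t : ℂ) =
      cont k c s (n + 3) (n' + 3) (u : ℂ) + dc - dT1 - dT1' - dT2 - dT2' := by
    rw [ct3, cu3, E2, hdT2, hdT2']; ring
  have hpw := Side.epw G.toSide
  constructor
  · rw [E2]
    refine (mul_le_mul_of_nonneg_left ((norm_sub_le _ _).trans (add_le_add_left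
      ((norm_sub_le _ _).trans (add_le_add_left (norm_add_le _ _) _)) _)) hA0.le).trans ?_
    exact num1 hk hR he hke hpw hRρ al1 dcont t1 t1'
  · rw [E3]
    refine (mul_le_mul_of_nonneg_left (?_ : _ ≤ ‖cont k c s (n + 3) (n' + 3) (u : ℂ)‖ + ‖dc‖ + ‖dT1‖ +
      ‖dT1'‖ + ‖dT2‖ + ‖dT2'‖) (by positivity)).trans ?_
    · refine (norm_sub_le _ _).trans (add_le_add_left ?_ _)
      refine (norm_sub_le _ _).trans (add_le_add_left ?_ _)
      refine (norm_sub_le _ _).trans (add_le_add_left ?_ _)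
      refine (norm_sub_le _ _).trans (add_le_add_left ?_ _)
      exact norm_add_le _ _
    · exact num2 hk hR hρ' he hke hpw (by linarith) (by linarith) (norm_nonneg _) (norm_nonneg _)
        G.q_le G'.q_le (G.toSide.Q2_le G.ht) (G'.toSide.Q2_le G.ht) (norm_nonneg _) (norm_nonneg _)
        (norm_nonneg _) (norm_nonneg _) (norm_nonneg _) (norm_nonneg _) al2 dcont t1 t1' t2 t2'

/-- a good point: the quadratic polynomial is at most `9 k` there -/
theorem quad_le {q0 q1 q2 : ℝ} (G : Reg k e c s n m R R u u)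
    (G' : Reg k e c (!s) n' m R ρ' u u) (hRρ : R ≤ ρ')
    (quad : ∀ z ∈ ball (m : ℂ) (4 / R),
      ‖(2 * Real.pi * k * R ^ 2 : ℝ) * cont k c s (n + 1) (n' + 1) z -
        (q0 + q1 * ((R : ℂ) * (z - m)) + q2 * ((R : ℂ) * (z - m)) ^ 2)‖ ≤ 1 / 16)
    (al1 : (2 * Real.pi * k * R ^ 2) * ‖cont k c s (n + 2) (n' + 2) u‖ ≤ 1 / 8) :
    |q0 + q1 * (R * (u - m)) + q2 * (R * (u - m)) ^ 2| ≤ 9 * k := by
  have hk : 10 ^ 20 ≤ k := G.hk
  have hR := G.hR
  have hρ' := G'.hρ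
  have hpi := Real.pi_pos
  have hpi4 : Real.pi ≤ 4 := Real.pi_le_four
  have z1 := mem_ball_real hR G.hu
  have a1 := G.toSide.Q1_ge z1
  have a1' := G'.toSide.Q1_ge z1
  have a2 := G.q_ge
  have a2' := G'.q_ge
  have n1 : D k c s (n + 1) (u : ℂ) ≠ 0 := norm_pos_iff.mp (by linarith)
  have n2 : D k c s (n + 2) (u : ℂ) ≠ 0 := norm_pos_iff.mp (by linarith)
  have n1' : D k c (!s) (n' + 1) (u : ℂ) ≠ 0 := norm_pos_iff.mp (by linarith)
  have n2' : D k c (!s) (n' + 2) (u : ℂ) ≠ 0 := norm_pos_iff.mp (by linarith)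
  have cu := cont_succ (k := k) (c := c) (s := s) (n := n + 1) (n' := n' + 1) (z := (u : ℂ)) n1 n2 n1' n2'
  have hq := quad _ z1
  set A : ℝ := 2 * Real.pi * k * R ^ 2 with hA
  have hk0 : 0 < k := by linarith
  have hA0 : 0 < A := by positivity
  set T := 1 / (D k c s (n + 1) (u : ℂ) * D k c s (n + 2) (u : ℂ)) with hT
  set T' := 1 / (D k c (!s) (n' + 1) (u : ℂ) * D k c (!s) (n' + 2) (u : ℂ)) with hT'
  have t1 : ‖T‖ ≤ 1 / (2 * R ^ 2) := by
    rw [hT, norm_div, norm_mul, norm_one]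
    apply one_div_le_one_div_of_le (by positivity)
    calc 2 * R ^ 2 = R / 2 * (4 * R) := by ring
      _ ≤ _ := mul_le_mul a1 a2 (by positivity) (norm_nonneg _)
  have t1' : ‖T'‖ ≤ 1 / (2 * R ^ 2) := by
    rw [hT', norm_div, norm_mul, norm_one]
    apply one_div_le_one_div_of_le (by positivity)
    calc 2 * R ^ 2 ≤ 2 * ρ' ^ 2 := by gcongr
      _ = ρ' / 2 * (4 * ρ') := by ring
      _ ≤ _ := mul_le_mul a1' a2' (by positivity) (norm_nonneg _)
  have hAT : A * (1 / (2 * R ^ 2)) = Real.pi * k := by rw [hA]; field_simp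
  have b1 := mul_le_mul_of_nonneg_left t1 hA0.le
  have b1' := mul_le_mul_of_nonneg_left t1' hA0.le
  rw [hAT] at b1 b1'
  have e1 : cont k c s (n + 1) (n' + 1) (u : ℂ) = cont k c s (n + 2) (n' + 2) (u : ℂ) + T + T' := by
    rw [cu]; ring
  have b2 : ‖cont k c s (n + 1) (n' + 1) (u : ℂ)‖ ≤
      ‖cont k c s (n + 2) (n' + 2) (u : ℂ)‖ + ‖T‖ + ‖T'‖ := by
    rw [e1]
    exact (norm_add_le _ _).trans (add_le_add_left (norm_add_le _ _) _)
  have b3 := mul_le_mul_of_nonneg_left b2 hA0.le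
  have e2 : ((q0 : ℂ) + q1 * ((R : ℂ) * ((u : ℂ) - m)) + q2 * ((R : ℂ) * ((u : ℂ) - m)) ^ 2) =
      ((q0 + q1 * (R * (u - m)) + q2 * (R * (u - m)) ^ 2 : ℝ) : ℂ) := by push_cast; ring
  rw [e2] at hq
  have b4 := norm_sub_norm_le ((q0 + q1 * (R * (u - m)) + q2 * (R * (u - m)) ^ 2 : ℝ) : ℂ)
    ((A : ℂ) * cont k c s (n + 1) (n' + 1) (u : ℂ))
  rw [norm_sub_rev, norm_mul, Complex.norm_real, Complex.norm_real, Real.norm_eq_abs,
    Real.norm_eq_abs, abs_of_pos hA0] at b4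
  have b5 : A * (‖cont k c s (n + 2) (n' + 2) (u : ℂ)‖ + ‖T‖ + ‖T'‖) =
    A * ‖cont k c s (n + 2) (n' + 2) (u : ℂ)‖ + A * ‖T‖ + A * ‖T'‖ := by ring
  have b6 : Real.pi * k ≤ 4 * k := mul_le_mul_of_nonneg_right hpi4 hk0.le
  linarith

/-- a quadratic polynomial which is small at three separated points has small coefficients -/
theorem lagrange {q0 q1 q2 B x y z : ℝ} (hx : |x| ≤ 3) (hy : |y| ≤ 3) (hz : |z| ≤ 3)
    (hxy : 1 / 4 ≤ |x - y|) (hxz : 1 / 4 ≤ |x - z|) (hyz : 1 / 4 ≤ |y - z|)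
    (h1 : |q0 + q1 * x + q2 * x ^ 2| ≤ B) (h2 : |q0 + q1 * y + q2 * y ^ 2| ≤ B)
    (h3 : |q0 + q1 * z + q2 * z ^ 2| ≤ B) : |q0| + |q1| + |q2| ≤ 2209 * B := by
  have d : ∀ a b : ℝ, 1 / 4 ≤ |a - b| → |q0 + q1 * a + q2 * a ^ 2| ≤ B →
      |q0 + q1 * b + q2 * b ^ 2| ≤ B → |q1 + q2 * (a + b)| ≤ 8 * B := by
    intro a b hab ha hb
    have e1 : (q1 + q2 * (a + b)) * (a - b) =
      (q0 + q1 * a + q2 * a ^ 2) - (q0 + q1 * b + q2 * b ^ 2) := by ring
    have e2 : |q1 + q2 * (a + b)| * |a - b| ≤ 2 * B := by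
      rw [← abs_mul, e1]
      exact (abs_sub _ _).trans (by linarith)
    have e3 : |q1 + q2 * (a + b)| * (1 / 4) ≤ |q1 + q2 * (a + b)| * |a - b| :=
      mul_le_mul_of_nonneg_left hab (abs_nonneg _)
    linarith
  have d1 := d x y hxy h1 h2
  have d2 := d x z hxz h1 h3
  have hq2 : |q2| ≤ 64 * B := by
    have e1 : q2 * (y - z) = (q1 + q2 * (x + y)) - (q1 + q2 * (x + z)) := by ring
    have e2 : |q2| * |y - z| ≤ 16 * B := by
      rw [← abs_mul, e1]
      exact (abs_sub _ _).trans (by linarith)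
    have e3 : |q2| * (1 / 4) ≤ |q2| * |y - z| := mul_le_mul_of_nonneg_left hyz (abs_nonneg _)
    linarith
  have hB : 0 ≤ B := (abs_nonneg _).trans h1
  have hq1 : |q1| ≤ 392 * B := by
    have e1 : q1 = (q1 + q2 * (x + y)) - q2 * (x + y) := by ring
    have e2 : |q2 * (x + y)| ≤ 64 * B * 6 := by
      rw [abs_mul]
      exact mul_le_mul hq2 ((abs_add_le _ _).trans (by linarith)) (abs_nonneg _) (by linarith)
    rw [e1]
    exact (abs_sub _ _).trans (by linarith)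
  have hq0 : |q0| ≤ 1753 * B := by
    have e1 : q0 = (q0 + q1 * x + q2 * x ^ 2) - (q1 * x + q2 * x ^ 2) := by ring
    have e2 : |q1 * x| ≤ 392 * B * 3 := by
      rw [abs_mul]; exact mul_le_mul hq1 hx (abs_nonneg _) (by linarith)
    have e3 : |q2 * x ^ 2| ≤ 64 * B * 9 := by
      rw [abs_mul, abs_pow]
      exact mul_le_mul hq2 (by nlinarith [abs_nonneg x]) (by positivity) (by linarith)
    have e4 := abs_add_le (q1 * x) (q2 * x ^ 2)
    rw [e1]
    exact (abs_sub _ _).trans (by linarith)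
  linarith

theorem nine_le {k : ℝ} (hk : 10 ^ 20 ≤ k) : 9 ≤ k ^ (2 / 3 : ℝ) := by
  have h : (27 : ℝ) ^ (2 / 3 : ℝ) = 9 := by
    rw [show (27 : ℝ) = (3 : ℝ) ^ (3 : ℝ) by norm_num, ← Real.rpow_mul (by norm_num)]
    norm_num
  rw [← h]
  exact Real.rpow_le_rpow (by norm_num) (by linarith) (by norm_num)

/-- the two sides of a `Cell3` -/
theorem sides {k c C1 : ℝ} {s : Bool} {n n' : ℕ} {m R lam q0 q1 q2 : ℝ}
    (hk : 10 ^ 20 * (|C1| + 1) ^ 4 ≤ k) (hlam : |lam| ≤ C1 * Real.sqrt k)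
    (C : Cell3 k c s n n' m R lam C1 q0 q1 q2) :
    Side k (1 / k) c s n m R R ∧ Side k (1 / k) c (!s) n' m R (|lam| * R) := by
  have hC := abs_nonneg C1
  have hC1 : (1 : ℝ) ≤ (|C1| + 1) ^ 4 := one_le_pow₀ (by linarith)
  have hk20 : 10 ^ 20 ≤ k := by nlinarith
  have hk0 : 0 < k := by linarith
  have hR : 0 < R := by linarith [C.hR]
  have hl := C.hlam
  set sk := Real.sqrt k with hsk
  have hsk0 : 0 < sk := Real.sqrt_pos.mpr hk0
  have hksk : k = sk * sk := (Real.mul_self_sqrt hk0.le).symm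
  have hC0 : 0 < C1 := by
    by_contra h
    push Not at h
    nlinarith
  have hCa : |C1| = C1 := abs_of_pos hC0
  rw [hCa] at hk hC1
  have hskC : 10 ^ 10 * (C1 + 1) ^ 2 ≤ sk := by
    rw [hsk]
    apply Real.le_sqrt_of_sq_le
    calc (10 ^ 10 * (C1 + 1) ^ 2) ^ 2 = 10 ^ 20 * (C1 + 1) ^ 4 := by ring
      _ ≤ k := hk
  have hsk1 : 10 ^ 10 * C1 ≤ sk := by nlinarith
  have hsk2 : 2 * C1 ^ 2 ≤ sk := by nlinarith
  have hsk3 : 1 ≤ sk := by nlinarith
  have hCk : C1 / k ≤ 1 / 2 := by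
    rw [div_le_iff₀ hk0]
    nlinarith
  have hke : k * (1 / k) = 1 := by field_simp
  constructor
  · refine ⟨hk20, hke, hR, hR, ?_, ?_, ?_⟩
    · have : 1 ≤ k / 10 ^ 10 := by
        rw [le_div_iff₀ (by positivity)]
        linarith
      nlinarith
    · obtain ⟨σ, hσ, h⟩ := C.slow
      refine ⟨σ * R, ?_, fun z hz => (h z hz).trans ?_⟩
      · rcases hσ with rfl | rfl
        · rw [one_mul, abs_of_pos hR]
        · rw [neg_one_mul, abs_neg, abs_of_pos hR]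
      · have : C1 * R / k = C1 / k * R := by ring
        rw [this]
        nlinarith
    · intro z hz
      refine (C.slow0 z hz).trans ?_
      have : C1 * R / k = C1 / k * R := by ring
      rw [this]
      nlinarith
  · have hlR : 0 < |lam| * R := mul_pos (by linarith) hR
    have hCl : C1 * |lam| / k ≤ 1 / 2 := by
      rw [div_le_iff₀ hk0]
      have h1 := mul_le_mul_of_nonneg_left hlam hC0.le
      have h2 := mul_le_mul_of_nonneg_right hsk2 hsk0.le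
      rw [hksk]
      nlinarith
    refine ⟨hk20, hke, hR, hlR, ?_, ?_, ?_⟩
    · apply mul_le_mul_of_nonneg_right _ hR.le
      rw [le_div_iff₀ (by positivity)]
      have h1 := mul_le_mul_of_nonneg_right hsk1 hsk0.le
      have h2 := mul_le_mul_of_nonneg_right hlam (by positivity : (0 : ℝ) ≤ 10 ^ 10)
      nlinarith
    · refine ⟨lam * R, ?_, fun z hz => (C.fast z hz).trans ?_⟩
      · rw [abs_mul, abs_of_pos hR]
      · have : C1 * |lam| ^ 2 * R / k = C1 * |lam| / k * (|lam| * R) := by ring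
        rw [this]
        nlinarith
    · intro z hz
      refine (C.fast0 z hz).trans ?_
      have : C1 * |lam| * R / k = C1 / k * (|lam| * R) := by ring
      rw [this]
      nlinarith

/-- **LocB from RA** -/
theorem locB_of_RA (hRA : RA) : LocB := by
  intro C1
  obtain ⟨c0, hc0, k1, h⟩ := hRA C1
  refine ⟨min c0 1, by positivity, max k1 (10 ^ 20 * (|C1| + 1) ^ 4), ?_⟩
  intro k hk c s n n' m R lam q0 q1 q2 hlam C
  have hk1 : k1 ≤ k := (le_max_left _ _).trans hk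
  have hk2 : 10 ^ 20 * (|C1| + 1) ^ 4 ≤ k := (le_max_right _ _).trans hk
  obtain ⟨S, S'⟩ := sides hk2 hlam C
  have hk20 := S.hk
  have hk0 : 0 < k := by linarith
  have hR := S.hR
  have hRρ : R ≤ |lam| * R := by nlinarith [C.hlam]
  have he6 : 1 / (k ^ 6 * R) ≤ 1 / 8 / R := by
    rw [div_div]
    apply one_div_le_one_div_of_le (by positivity)
    apply mul_le_mul_of_nonneg_right _ hR.le
    calc (8 : ℝ) ≤ k := by linarith
      _ = k ^ 1 := (pow_one k).symm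
      _ ≤ k ^ 6 := pow_le_pow_right₀ (by linarith) (by norm_num)
  have hreg : ∀ t u : ℝ, |t - m| ≤ 3 / R → |u - m| ≤ 3 / R → R * |t - u| ≤ (1 / k) ^ 6 →
      Good3 k c s n n' R u → Reg k (1 / k) c s n m R R t u ∧
        Reg k (1 / k) c (!s) n' m R (|lam| * R) t u := by
    intro t u ht hu htu G
    have h9 := nine_le hk20
    refine ⟨{ S with ht := ht, hu := hu, htu := htu, r1 := h9.trans (G.reg 0 (by norm_num)), r2 := h9.trans (G.reg 1 (by norm_num)) }, { S' with ht := ht, hu := hu, htu := htu, r1 := h9.trans (G.reg' 0 (by norm_num)), r2 := h9.trans (G.reg' 1 (by norm_num)) }⟩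
  rcases le_or_gt (|q0| + |q1| + |q2|) (k ^ 2) with hq | hq
  · -- moderate coefficients
    have h0 := h k hk1 c s n n' m R lam q0 q1 q2 hlam C
    refine (ENNReal.ofReal_le_ofReal ?_).trans (h0.trans (measure_mono ?_))
    · gcongr
      exact min_le_left _ _
    · rintro t ⟨ht, hbad⟩
      refine ⟨ht, fun u hu G => ?_⟩
      have htm : |t - m| ≤ 3 / R := ht.trans (by gcongr; norm_num)
      have hum : |u - m| ≤ 3 / R := by
        have h1 := abs_add_le (u - t) (t - m)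
        rw [sub_add_sub_cancel] at h1
        have h2 : 1 / 8 / R + 2 / R ≤ 3 / R := by
          rw [← add_div]; gcongr; norm_num
        linarith
      have htu : R * |t - u| ≤ (1 / k) ^ 6 := by
        rw [abs_sub_comm]
        have h1 := mul_le_mul_of_nonneg_left hu hR.le
        refine h1.trans (le_of_eq ?_)
        field_simp
      obtain ⟨G1, G2⟩ := hreg t u htm hum htu G
      have := align_of_close G1 G2 hRρ hq C.quad G.al1 G.al2
      rcases hbad with hb | hb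
      · linarith [this.1]
      · linarith [this.2]
  · -- huge coefficients: the good points lie in two small balls
    have key : ∃ u1 u2 : ℝ, ∀ u, |u - m| ≤ 3 / R → Good3 k c s n n' R u →
        |u - u1| ≤ 1 / 4 / R ∨ |u - u2| ≤ 1 / 4 / R := by
      by_contra hcon
      push Not at hcon
      obtain ⟨v1, hv1, g1, -⟩ := hcon 0 0
      obtain ⟨v2, hv2, g2, h21, -⟩ := hcon v1 v1
      obtain ⟨v3, hv3, g3, h31, h32⟩ := hcon v1 v2
      have hx : ∀ v, |v - m| ≤ 3 / R → |R * (v - m)| ≤ 3 := by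
        intro v hv
        rw [abs_mul, abs_of_pos hR]
        have := mul_le_mul_of_nonneg_left hv hR.le
        rwa [mul_div_cancel₀ _ hR.ne'] at this
      have hd : ∀ v w, 1 / 4 / R < |v - w| → 1 / 4 ≤ |R * (v - m) - R * (w - m)| := by
        intro v w hv
        have : R * (v - m) - R * (w - m) = R * (v - w) := by ring
        rw [this, abs_mul, abs_of_pos hR]
        have := mul_le_mul_of_nonneg_left hv.le hR.le
        rwa [mul_div_cancel₀ _ hR.ne'] at this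
      have hqv : ∀ v, |v - m| ≤ 3 / R → Good3 k c s n n' R v →
          |q0 + q1 * (R * (v - m)) + q2 * (R * (v - m)) ^ 2| ≤ 9 * k := by
        intro v hv G
        obtain ⟨G1, G2⟩ := hreg v v hv hv (by rw [sub_self, abs_zero, mul_zero]; positivity) G
        exact quad_le G1 G2 hRρ C.quad G.al1
      have hl := lagrange (hx v2 hv2) (hx v1 hv1) (hx v3 hv3) (hd v2 v1 h21)
        (by rw [abs_sub_comm]; exact hd v3 v2 h32) (by rw [abs_sub_comm]; exact hd v3 v1 h31)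
        (hqv v2 hv2 g2) (hqv v1 hv1 g1) (hqv v3 hv3 g3)
      nlinarith
    obtain ⟨u1, u2, key⟩ := key
    have hsub : Icc (m - 2 / R) (m + 2 / R) \ (Icc (u1 - 3 / 8 / R) (u1 + 3 / 8 / R) ∪
        Icc (u2 - 3 / 8 / R) (u2 + 3 / 8 / R)) ⊆ {t : ℝ | |t - m| ≤ 2 / R ∧
        ∀ u : ℝ, |u - t| ≤ 1 / (k ^ 6 * R) → ¬ Good3 k c s n n' R u} := by
      rintro t ⟨ht, hn⟩
      have ht1 : |t - m| ≤ 2 / R := by
        rw [abs_le]; constructor <;> linarith [ht.1, ht.2]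
      refine ⟨ht1, fun u hu G => hn ?_⟩
      have hum : |u - m| ≤ 3 / R := by
        have h1 := abs_add_le (u - t) (t - m)
        rw [sub_add_sub_cancel] at h1
        have h2 : 1 / 8 / R + 2 / R ≤ 3 / R := by
          rw [← add_div]; gcongr; norm_num
        linarith
      have h3 : 1 / 4 / R + 1 / 8 / R ≤ 3 / 8 / R := by
        rw [← add_div]; gcongr; norm_num
      have h4 := abs_le.mp (hu.trans he6)
      rcases key u hum G with h | h
      · left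
        have h5 := abs_le.mp h
        constructor <;> linarith [h4.1, h4.2, h5.1, h5.2]
      · right
        have h5 := abs_le.mp h
        constructor <;> linarith [h4.1, h4.2, h5.1, h5.2]
    refine le_trans ?_ (measure_mono hsub)
    refine le_trans ?_ le_measure_sdiff
    have hv1 : volume (Icc (m - 2 / R) (m + 2 / R)) = ENNReal.ofReal (4 / R) := by
      rw [Real.volume_Icc]; congr 1; ring
    have hv2 : ∀ v : ℝ, volume (Icc (v - 3 / 8 / R) (v + 3 / 8 / R)) = ENNReal.ofReal (3 / 4 / R) := by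
      intro v
      rw [Real.volume_Icc]; congr 1; ring
    have hv3 : volume (Icc (u1 - 3 / 8 / R) (u1 + 3 / 8 / R) ∪
        Icc (u2 - 3 / 8 / R) (u2 + 3 / 8 / R)) ≤ ENNReal.ofReal (3 / 2 / R) := by
      refine (measure_union_le _ _).trans ?_
      rw [hv2, hv2, ← ENNReal.ofReal_add (by positivity) (by positivity)]
      apply ENNReal.ofReal_le_ofReal
      rw [← add_div]
      gcongr
      norm_num
    calc ENNReal.ofReal (min c0 1 / R) ≤ ENNReal.ofReal (4 / R - 3 / 2 / R) := by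
          apply ENNReal.ofReal_le_ofReal
          rw [← sub_div]
          gcongr
          exact (min_le_right _ _).trans (by norm_num)
      _ = ENNReal.ofReal (4 / R) - ENNReal.ofReal (3 / 2 / R) :=
          ENNReal.ofReal_sub _ (by positivity)
      _ ≤ _ := by rw [hv1]; exact tsub_le_tsub_left hv3 _

end Crest.Agent.R128.LocBX2
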