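import Mathlib
import Crest.Agent.R128.Lam0D
import Crest.Agent.R128.BVP7
import Crest.Agent.R128.Torus
import Crest.Agent.R128.Skel
import Crest.Agent.R128.CoreI

-- ▼ part R128/Lam0C
section

/-!
Row 128, node LAM0 (P3): a point whose field is comparable (factor two) with the field of an orbit with
a strict first violation is in the relaxed drawdown event or in the relaxed long event.
-/

set_option autoImplicit false

open Finset MeasureTheory

namespace Crest.Agent.R128.Lam0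

open Crest.Agent.R128.BVP

/-- the growth of the clean part -/
theorem clean_growth {k : ℝ} (hk : (10:ℝ) ^ 6 ≤ k) {L : ℕ} {a b : ℝ}
    (cl : ∀ m ∈ Icc 1 L, k ^ (2 / 3 : ℝ) ≤ |Vk k (xorb k a b m)|) :
    ∀ m ≤ L, 100 * |pk k a b m| ≤ |pk k a b (m + 1)| ∧ (k ^ (2 / 3 : ℝ) - 1) ^ m ≤ |pk k a b (m + 1)| := by
  have hk0 : (0:ℝ) < k := by linarith [show (0:ℝ) < 10 ^ 6 by norm_num]
  have hc : (10:ℝ) ^ 4 ≤ k ^ (2 / 3 : ℝ) := by
    have h1 : ((10:ℝ) ^ 6) ^ (2 / 3 : ℝ) ≤ k ^ (2 / 3 : ℝ) := Real.rpow_le_rpow (by norm_num) hk (by norm_num)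
    have h2 : ((10:ℝ) ^ 6) ^ (2 / 3 : ℝ) = 10 ^ 4 := by
      rw [← Real.rpow_natCast 10 6, ← Real.rpow_mul (by norm_num), ← Real.rpow_natCast 10 4]
      norm_num
    rwa [h2] at h1
  set c := k ^ (2 / 3 : ℝ) with hcdef
  intro m
  induction m with
  | zero =>
    intro _
    simp [pk]
  | succ m ih =>
    intro hm
    obtain ⟨h1, h2⟩ := ih (by omega)
    have h3 := cl (m + 1) (Finset.mem_Icc.2 ⟨by omega, hm⟩)
    have e : pk k a b (m + 1 + 1) = Vk k (xorb k a b (m + 1)) * pk k a b (m + 1) - pk k a b m := rfl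
    have h4 : |Vk k (xorb k a b (m + 1))| * |pk k a b (m + 1)| - |pk k a b m| ≤ |pk k a b (m + 1 + 1)| := by
      rw [e, ← abs_mul]
      exact abs_sub_abs_le_abs_sub _ _
    have h5 : 0 ≤ |pk k a b m| := abs_nonneg _
    have h6 : 0 ≤ |pk k a b (m + 1)| := abs_nonneg _
    have h7 : c * |pk k a b (m + 1)| ≤ |Vk k (xorb k a b (m + 1))| * |pk k a b (m + 1)| :=
      mul_le_mul_of_nonneg_right h3 h6
    have h8 : (c - 1) * |pk k a b (m + 1)| ≤ |pk k a b (m + 1 + 1)| := by nlinarith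
    refine ⟨?_, ?_⟩
    · have : 100 * |pk k a b (m + 1)| ≤ (c - 1) * |pk k a b (m + 1)| :=
        mul_le_mul_of_nonneg_right (by linarith [show (100:ℝ) + 1 ≤ 10 ^ 4 by norm_num]) h6
      linarith
    · rw [pow_succ, mul_comm]
      exact (mul_le_mul_of_nonneg_left h2 (by linarith [show (1:ℝ) ≤ 10 ^ 4 by norm_num])).trans h8

theorem nf_clean {k : ℝ} (hk : (10:ℝ) ^ 6 ≤ k) {L : ℕ} {a b : ℝ}
    (cl : ∀ m ∈ Icc 1 L, k ^ (2 / 3 : ℝ) ≤ |Vk k (xorb k a b m)|) {m : ℕ} (hm : m ≤ L) :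
    nf k a b m = |pk k a b (m + 1)| := by
  have h := (clean_growth hk cl m hm).1
  have h0 : 0 ≤ |pk k a b m| := abs_nonneg _
  unfold nf
  exact max_eq_right (by linarith)

theorem nf_clean_step {k : ℝ} (hk : (10:ℝ) ^ 6 ≤ k) {L : ℕ} {a b : ℝ}
    (cl : ∀ m ∈ Icc 1 L, k ^ (2 / 3 : ℝ) ≤ |Vk k (xorb k a b m)|) {i j : ℕ} (hij : i < j) (hj : j ≤ L) :
    100 * nf k a b i ≤ nf k a b j := by
  induction j, hij using Nat.le_induction with
  | base =>
    rw [nf_clean hk cl (by omega), nf_clean hk cl hj]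
    exact (clean_growth hk cl (i + 1) hj).1
  | succ j hij ih =>
    have h1 := ih (by omega)
    have h2 : 100 * nf k a b j ≤ nf k a b (j + 1) := by
      rw [nf_clean hk cl (by omega), nf_clean hk cl hj]
      exact (clean_growth hk cl (j + 1) hj).1
    have h3 : 0 ≤ nf k a b i := (abs_nonneg _).trans (le_max_left _ _)
    linarith

theorem pow_601_le {k : ℝ} (hk : (10:ℝ) ^ 6 ≤ k) : k ^ 601 ≤ (k ^ (2 / 3 : ℝ) - 1) ^ 1000 := by
  have hk0 : (0:ℝ) < k := by linarith [show (0:ℝ) < 10 ^ 6 by norm_num]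
  have hk1 : (1:ℝ) ≤ k := by linarith [show (1:ℝ) ≤ 10 ^ 6 by norm_num]
  have h1 : k ^ (601 / 1000 : ℝ) ≤ k ^ (2 / 3 : ℝ) - 1 := by
    have e : k ^ (2 / 3 : ℝ) = k ^ (601 / 1000 : ℝ) * k ^ (197 / 3000 : ℝ) := by
      rw [← Real.rpow_add hk0]
      congr 1
      norm_num
    have h2 : (2:ℝ) ≤ k ^ (197 / 3000 : ℝ) := by
      have h3 : ((10:ℝ) ^ 6) ^ (197 / 3000 : ℝ) ≤ k ^ (197 / 3000 : ℝ) :=
        Real.rpow_le_rpow (by norm_num) hk (by norm_num)
      refine le_trans ?_ h3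
      rw [← Real.rpow_natCast 10 6, ← Real.rpow_mul (by norm_num)]
      have h4 : (10:ℝ) ^ (1 / 3 : ℝ) ≤ (10:ℝ) ^ (((6:ℕ):ℝ) * (197 / 3000)) :=
        Real.rpow_le_rpow_of_exponent_le (by norm_num) (by norm_num)
      refine le_trans ?_ h4
      have h8 : ((2:ℝ) ^ 3) ^ (1 / 3 : ℝ) ≤ (10:ℝ) ^ (1 / 3 : ℝ) :=
        Real.rpow_le_rpow (by norm_num) (by norm_num) (by norm_num)
      have h9 : ((2:ℝ) ^ 3) ^ (1 / 3 : ℝ) = 2 := by
        rw [← Real.rpow_natCast 2 3, ← Real.rpow_mul (by norm_num)]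
        norm_num
      rwa [h9] at h8
    have h5 : (1:ℝ) ≤ k ^ (601 / 1000 : ℝ) := Real.one_le_rpow hk1 (by norm_num)
    rw [e]
    nlinarith
  have h6 : (k ^ (601 / 1000 : ℝ)) ^ 1000 ≤ (k ^ (2 / 3 : ℝ) - 1) ^ 1000 :=
    pow_le_pow_left₀ (Real.rpow_nonneg hk0.le _) h1 1000
  have h7 : (k ^ (601 / 1000 : ℝ)) ^ 1000 = k ^ 601 := by
    rw [← Real.rpow_natCast (k ^ (601 / 1000 : ℝ)) 1000, ← Real.rpow_mul hk0.le, ← Real.rpow_natCast k 601]
    norm_num
  rwa [h7] at h6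

theorem nf_L_big {k : ℝ} (hk : (10:ℝ) ^ 6 ≤ k) {a b : ℝ}
    (cl : ∀ m ∈ Icc 1 1000, k ^ (2 / 3 : ℝ) ≤ |Vk k (xorb k a b m)|) : k ^ 601 ≤ nf k a b 1000 := by
  rw [nf_clean hk cl le_rfl]
  exact (pow_601_le hk).trans (clean_growth hk cl 1000 le_rfl).2

/-- the relaxed drawdown event of class `k ^ D`, with validity up to the violation -/
def DDset (k : ℝ) (M D : ℕ) : Set Tor :=
  {z | ∃ n n', DDn k 1000 M (k ^ D) z n n' ∧ RV k 1000 z (n' - 1)}

/-- the relaxed long event of class `k ^ D` -/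
def LGset (k : ℝ) (D : ℕ) : Set Tor :=
  {z | ∃ e : ℕ, k ^ D ≤ ((2:ℝ) ^ (e + 1)) ^ 400 ∧ ∃ m, LGn k 1000 (2 ^ e) z m}

section classify

variable {k : ℝ} {a b l s : ℝ} {n' D M : ℕ}

theorem nf_nonneg (k a b : ℝ) (m : ℕ) : 0 ≤ nf k a b m := (abs_nonneg _).trans (le_max_left _ _)

theorem classify (hk9 : (10:ℝ) ^ 9 ≤ k) (hM : n' ≤ M) (hn' : 1000 < n') (hsv : SV k 1000 a b n')
    (hbad : (∃ i, 1000 ≤ i ∧ i < n' ∧ nf k a b n' ^ 100 < nf k a b i ^ 99) ∨
      (∀ i, 1000 ≤ i → i < n' → nf k a b i ≤ (n' : ℝ) ^ 400))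
    (hlo : ∃ i < n', k ^ D ≤ nf k a b i) (hhi : ∀ i < n', nf k a b i ≤ k * k ^ D) (hD : 1 ≤ D)
    (hcmp : ∀ m ≤ n', nf k a b m ≤ 2 * nf k l s m ∧ nf k l s m ≤ 2 * nf k a b m) :
    ((l : UnitAddCircle), (s : UnitAddCircle)) ∈ DDset k M (D - 1) ∪ DDset k M D ∪ LGset k D := by
  have hk : (10:ℝ) ^ 6 ≤ k := le_trans (by norm_num) hk9
  have hk0 : (0:ℝ) < k := by linarith [show (0:ℝ) < 10 ^ 6 by norm_num]
  have hk1 : (1:ℝ) ≤ k := by linarith [show (1:ℝ) ≤ 10 ^ 6 by norm_num]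
  set u : ℕ → ℝ := nf k a b with hu
  set v : ℕ → ℝ := nf k l s with hv
  have hfl : ∀ m, ‖fld k ((l : UnitAddCircle), (s : UnitAddCircle)) m‖ = v m := fun m => norm_fld_pk k l s m
  have hL : k ^ 501 ≤ nf k a b 1000 := (pow_le_pow_right₀ hk1 (by norm_num)).trans (nf_L_big hk hsv.cl)
  have hu0 : ∀ m, 0 ≤ u m := fun m => nf_nonneg k a b m
  have hv0 : ∀ m, 0 ≤ v m := fun m => nf_nonneg k l s m
  have h17 : (2:ℝ) ^ 29 ≤ k := le_trans (by norm_num) hk9
  have hbigL : (2:ℝ) ^ 14500 ≤ u 1000 := by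
    refine le_trans ?_ hL
    calc (2:ℝ) ^ 14500 ≤ (2:ℝ) ^ (29 * 501) := pow_le_pow_right₀ (by norm_num) (by norm_num)
      _ = ((2:ℝ) ^ 29) ^ 501 := pow_mul _ _ _
      _ ≤ k ^ 501 := pow_le_pow_left₀ (by norm_num) h17 _
  -- all u i (i in [1000, n')) are large
  have hbig : ∀ i, 1000 ≤ i → i < n' → (2:ℝ) ^ 14300 ≤ u i := by
    intro i hi hin
    have h1 := hsv.v2 1000 i le_rfl hi hin
    have h2 : ((2:ℝ) ^ 14500) ^ 99 ≤ u 1000 ^ 99 := pow_le_pow_left₀ (by positivity) hbigL 99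
    have h3 : ((2:ℝ) ^ 14300) ^ 100 ≤ u i ^ 100 := by
      refine le_trans ?_ (h2.trans h1)
      rw [← pow_mul, ← pow_mul]
      exact pow_le_pow_right₀ (by norm_num) (by norm_num)
    exact le_of_pow_le_pow_left₀ (by norm_num) (hu0 i) h3
  have hupos : ∀ i, 1000 ≤ i → i < n' → 0 < u i := fun i hi hin =>
    lt_of_lt_of_le (by positivity) (hbig i hi hin)
  have hvpos : ∀ i, 1000 ≤ i → i < n' → 0 < v i := fun i hi hin => by
    have := hupos i hi hin
    have := (hcmp i hin.le).1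
    linarith
  have hlog2 : 0 < Real.log 2 := Real.log_pos (by norm_num)
  have hlogu : ∀ i, 1000 ≤ i → i < n' → 14300 * Real.log 2 ≤ Real.log (u i) := by
    intro i hi hin
    have h := Real.log_le_log (by positivity) (hbig i hi hin)
    rw [Real.log_pow] at h
    exact_mod_cast h
  have hlv1 : ∀ i, 1000 ≤ i → i < n' → Real.log (u i) ≤ Real.log 2 + Real.log (v i) := by
    intro i hi hin
    rw [← Real.log_mul (by norm_num) (hvpos i hi hin).ne']
    exact Real.log_le_log (hupos i hi hin) (hcmp i hin.le).1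
  have hlv2 : ∀ i, 1000 ≤ i → i < n' → Real.log (v i) ≤ Real.log 2 + Real.log (u i) := by
    intro i hi hin
    rw [← Real.log_mul (by norm_num) (hupos i hi hin).ne']
    exact Real.log_le_log (hvpos i hi hin) (hcmp i hin.le).2
  -- relaxed validity up to n' - 1
  have hRV : ∀ j0, j0 < n' → RV k 1000 ((l : UnitAddCircle), (s : UnitAddCircle)) j0 := by
    intro j0 hj0
    refine ⟨?_, ?_, ?_⟩
    · rw [hfl]
      have h1 := (hcmp 1000 (by omega)).1
      have h2 : k ^ 501 = k * k ^ 500 := by ring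
      have h3 : 0 < k ^ 500 := by positivity
      have h4 : 2 * k ^ 500 ≤ k * k ^ 500 := mul_le_mul_of_nonneg_right (by linarith [show (2:ℝ) ≤ 10 ^ 6 by norm_num]) h3.le
      have h5 : k * k ^ 500 ≤ u 1000 := h2 ▸ hL
      linarith
    · intro i j hi hij hj
      rw [hfl, hfl]
      have hjn : j < n' := by omega
      have hin : i < n' := by omega
      have hj1 : 1000 ≤ j := by omega
      have h1 := hsv.v2 i j hi hij hjn
      have h2 : 99 * Real.log (u i) ≤ 100 * Real.log (u j) := by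
        have h3 := Real.log_le_log (by have := hupos i hi hin; positivity) h1
        rw [Real.log_pow, Real.log_pow] at h3
        exact_mod_cast h3
      have h4 := hlogu i hi hin
      have h5 := hlv1 j hj1 hjn
      have h6 := hlv2 i hi hin
      have h7 : 89 * Real.log (v i) ≤ 90 * Real.log (v j) := by nlinarith
      have h8 : Real.log (v i ^ 89) ≤ Real.log (v j ^ 90) := by
        rw [Real.log_pow, Real.log_pow]
        exact_mod_cast h7
      exact (Real.log_le_log_iff (by have := hvpos i hi hin; positivity)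
        (by have := hvpos j hj1 hjn; positivity)).1 h8
    · intro j hj hjj
      obtain ⟨i, hi1, hi2, hi3⟩ := hsv.v3 j hj (by omega)
      refine ⟨i, hi1, hi2, ?_⟩
      rw [hfl]
      exact hi3.trans (hcmp i (by omega)).1
  -- u i ≤ max over [1000, n')
  have hclean : ∀ i, i < 1000 → 100 * u i ≤ u 1000 := fun i hi => nf_clean_step hk hsv.cl hi le_rfl
  rcases hbad with hbad | hbad
  · left
    obtain ⟨i0, hi0, hi0n, hdrop⟩ := hbad
    -- first argmax of v on [0, n']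
    obtain ⟨n1, hn1mem, hn1max⟩ := Finset.exists_max_image (Finset.range (n' + 1)) v ⟨0, by simp⟩
    rw [Finset.mem_range] at hn1mem
    have hex : ∃ n, ∀ j ≤ n', v j ≤ v n := ⟨n1, fun j hj => hn1max j (Finset.mem_range.2 (by omega))⟩
    classical
    set n := Nat.find hex with hn
    have hnmax : ∀ j ≤ n', v j ≤ v n := Nat.find_spec hex
    have hnn1 : n ≤ n1 := Nat.find_min' hex (fun j hj => hn1max j (Finset.mem_range.2 (by omega)))
    have hnfirst : ∀ j < n, v j < v n := by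
      intro j hj
      have h1 := Nat.find_min hex hj
      push Not at h1
      obtain ⟨j', hj', h2⟩ := h1
      exact lt_of_lt_of_le h2 (hnmax j' hj')
    have hli0 := hlogu i0 hi0 hi0n
    -- drop
    have hdropv : 102 * Real.log 2 + 102 / 100 * (99 * Real.log (u i0)) ≤ 101 * (Real.log (u i0) - Real.log 2) := by
      nlinarith
    have hvn' : v n' ≤ 2 * u n' := (hcmp n' le_rfl).2
    have hvi0 : Real.log (u i0) ≤ Real.log 2 + Real.log (v n) := by
      have h1 := hlv1 i0 hi0 hi0n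
      have h2 := Real.log_le_log (hvpos i0 hi0 hi0n) (hnmax i0 hi0n.le)
      linarith
    have hvnpos : 0 < v n := lt_of_lt_of_le (hvpos i0 hi0 hi0n) (hnmax i0 hi0n.le)
    have hdr : v n' ^ 102 ≤ v n ^ 101 := by
      rcases (hv0 n').eq_or_lt with h0 | h0
      · rw [← h0]
        simp only [ne_eq, OfNat.ofNat_ne_zero, not_false_eq_true, zero_pow]
        positivity
      · have hun' : 0 < u n' := by linarith
        have h1 : 100 * Real.log (u n') ≤ 99 * Real.log (u i0) := by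
          have h3 := Real.log_le_log (by positivity) hdrop.le
          rw [Real.log_pow, Real.log_pow] at h3
          exact_mod_cast h3
        have h2 : Real.log (v n') ≤ Real.log 2 + Real.log (u n') := by
          rw [← Real.log_mul (by norm_num) hun'.ne']
          exact Real.log_le_log h0 hvn'
        have h3 : Real.log (v n' ^ 102) ≤ Real.log (v n ^ 101) := by
          rw [Real.log_pow, Real.log_pow]
          push_cast
          nlinarith
        exact (Real.log_le_log_iff (by positivity) (by positivity)).1 h3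
    have hvnbig : 14299 * Real.log 2 ≤ Real.log (v n) := by nlinarith
    have hvn1 : 1 < v n := by
      by_contra hcon
      push Not at hcon
      have := Real.log_nonpos hvnpos.le hcon
      nlinarith
    have hlt : n < n' := by
      rcases Nat.lt_or_ge n n' with h | h
      · exact h
      · exfalso
        -- then v n' = v n by maximality
        have hnle : n ≤ n' := by omega
        have e : n = n' := by omega
        rw [← e] at hdr
        have h1 : v n ^ 101 < v n ^ 102 := pow_lt_pow_right₀ hvn1 (by norm_num)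
        linarith
    have hLn : 1000 ≤ n := by
      by_contra hcon
      push Not at hcon
      have h1 := hclean n hcon
      have h2 := (hcmp n (by omega)).2
      have h3 := (hcmp 1000 (by omega)).1
      have h4 := hnmax 1000 (by omega)
      have h5 := hu0 1000
      have h6 : 0 < u 1000 := lt_of_lt_of_le (by positivity) hbigL
      linarith only [h1, h2, h3, h4, h6]
    obtain ⟨il, hil, hlo'⟩ := hlo
    have hvlo : k ^ D ≤ 2 * v n := by
      have h1 := (hcmp il hil.le).1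
      have h2 := hnmax il hil.le
      linarith
    have hvhi : v n ≤ 2 * (k * k ^ D) := by
      have h1 := (hcmp n hlt.le).2
      have h2 := hhi n hlt
      linarith
    have hkD : k ^ D = k * k ^ (D - 1) := by
      rw [← pow_succ']
      congr 1
      omega
    have hkD0 : 0 < k ^ (D - 1) := by positivity
    have hk2 : (2:ℝ) ≤ k := by linarith [show (2:ℝ) ≤ 10 ^ 6 by norm_num]
    have mk : ∀ X : ℝ, X ≤ v n → v n ≤ k ^ 2 * X →
        DDn k 1000 M X ((l : UnitAddCircle), (s : UnitAddCircle)) n n' := by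
      intro X hX1 hX2
      refine ⟨hLn, hlt, hM, ?_, ?_, ?_, ?_, ?_, hRV n hlt⟩
      · intro j hj
        rw [hfl, hfl]
        exact hnfirst j hj
      · intro j hj
        rw [hfl, hfl]
        exact hnmax j hj
      · rw [hfl, hfl]
        exact hdr
      · rw [hfl]
        exact hX1
      · rw [hfl]
        exact hX2
    rcases le_or_gt (v n) (k ^ 2 * k ^ (D - 1)) with hcase | hcase
    · left
      refine ⟨n, n', mk _ ?_ hcase, hRV (n' - 1) (by omega)⟩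
      rw [hkD] at hvlo
      nlinarith only [hvlo, hk2, hkD0]
    · right
      refine ⟨n, n', mk _ ?_ ?_, hRV (n' - 1) (by omega)⟩
      · rw [hkD]
        have h1 : k * k ^ (D - 1) ≤ k ^ 2 * k ^ (D - 1) := by
          apply mul_le_mul_of_nonneg_right _ hkD0.le
          nlinarith only [hk2]
        linarith only [h1, hcase]
      · have h1 : 2 * (k * k ^ D) ≤ k ^ 2 * k ^ D := by
          have h2 : 0 < k ^ D := by positivity
          nlinarith only [hk2, h2, mul_pos hk0 h2]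
        linarith only [h1, hvhi]
  · right
    set e := Nat.log 2 n' with he
    have h1 : 2 ^ e ≤ n' := Nat.pow_log_le_self 2 (by omega)
    have h2 : n' < 2 ^ (e + 1) := Nat.lt_pow_succ_log_self (by norm_num) n'
    refine ⟨e, ?_, n', ?_, ?_, ?_, hRV (n' - 1) (by omega)⟩
    · -- class bound
      obtain ⟨il, hil, hlo'⟩ := hlo
      have h3 : ∃ i, 1000 ≤ i ∧ i < n' ∧ k ^ D ≤ u i := by
        rcases Nat.lt_or_ge il 1000 with h | h
        · refine ⟨1000, le_rfl, hn', ?_⟩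
          have h4 := hclean il h
          have h5 := hu0 il
          linarith only [h4, h5, hlo']
        · exact ⟨il, h, hil, hlo'⟩
      obtain ⟨i, hi1, hi2, hi3⟩ := h3
      refine hi3.trans ((hbad i hi1 hi2).trans ?_)
      apply pow_le_pow_left₀ (Nat.cast_nonneg _)
      exact_mod_cast h2.le
    · exact h1
    · have h3 : 2 ^ (e + 1) = 2 * 2 ^ e := by ring
      omega
    · intro i hi hin
      rw [hfl]
      have h3 := hbad i hi hin
      have h4 := (hcmp i hin.le).2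
      linarith only [h3, h4]

end classify

end Crest.Agent.R128.Lam0
end

-- ▼ part R128/Lam0V
section

/-!
Row 128, node V3 (LAM0, P3): from `CoreStmt`, the measure of the points of a unit curve with clean digits
and a violation of validity is bounded by the areas of the relaxed drawdown events.
-/

set_option autoImplicit false

open MeasureTheory Set
open scoped ENNReal

namespace Crest.Agent.R128.Lam0

open Crest.Agent.R128 Crest.Agent.R128.BVP

theorem measurable_DDn' (k : ℝ) (L N : ℕ) (X : ℝ) (n n' : ℕ) :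
    MeasurableSet {z | DDn k L N X z n n'} := by
  have e : {z | DDn k L N X z n n'} = ⋃ (_ : L ≤ n) (_ : n < n') (_ : n' ≤ N),
      ((⋂ (j : ℕ) (_ : j < n), {z | ‖fld k z j‖ < ‖fld k z n‖}) ∩
      (⋂ (j : ℕ) (_ : j ≤ n'), {z | ‖fld k z j‖ ≤ ‖fld k z n‖}) ∩
      {z | ‖fld k z n'‖ ^ 102 ≤ ‖fld k z n‖ ^ 101} ∩ {z | X ≤ ‖fld k z n‖} ∩
      {z | ‖fld k z n‖ ≤ k ^ 2 * X} ∩ {z | RV k L z n}) := by
    ext z
    simp only [Set.mem_inter_iff, Set.mem_ofPred_eq, Set.mem_iInter, Set.mem_iUnion, exists_prop]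
    constructor
    · rintro ⟨a, b, c, d, e, f, g, h, i⟩
      exact ⟨a, b, c, ⟨⟨⟨⟨⟨d, e⟩, f⟩, g⟩, h⟩, i⟩⟩
    · rintro ⟨a, b, c, ⟨⟨⟨⟨⟨d, e⟩, f⟩, g⟩, h⟩, i⟩⟩
      exact ⟨a, b, c, d, e, f, g, h, i⟩
  rw [e]
  have m := measurable_nf k
  refine MeasurableSet.iUnion fun _ => MeasurableSet.iUnion fun _ => MeasurableSet.iUnion fun _ => ?_
  refine (((((MeasurableSet.iInter fun j => MeasurableSet.iInter fun _ => ?_).inter
    (MeasurableSet.iInter fun j => MeasurableSet.iInter fun _ => ?_)).inter ?_).inter ?_).inter ?_).inter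
    (measurable_RV k L n)
  · exact measurableSet_lt (m j) (m n)
  · exact measurableSet_le (m j) (m n)
  · exact measurableSet_le ((m n').pow_const 102) ((m n).pow_const 101)
  · exact measurableSet_le measurable_const (m n)
  · exact measurableSet_le (m n) measurable_const

theorem measurable_DDset (k : ℝ) (M D : ℕ) : MeasurableSet (DDset k M D) := by
  have e : DDset k M D = ⋃ (n : ℕ) (n' : ℕ),
      ({z | DDn k 1000 M (k ^ D) z n n'} ∩ {z | RV k 1000 z (n' - 1)}) := by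
    ext z
    simp only [DDset, Set.mem_inter_iff, Set.mem_ofPred_eq, Set.mem_iUnion]
  rw [e]
  exact MeasurableSet.iUnion fun n => MeasurableSet.iUnion fun n' =>
    (measurable_DDn' k 1000 M (k ^ D) n n').inter (measurable_RV k 1000 (n' - 1))

theorem measurable_LGset (k : ℝ) (D : ℕ) : MeasurableSet (LGset k D) := by
  have e : LGset k D = ⋃ (e : ℕ) (_ : k ^ D ≤ ((2:ℝ) ^ (e + 1)) ^ 400),
      {z | ∃ m, LGn k 1000 (2 ^ e) z m} := by
    ext z
    simp only [LGset, Set.mem_ofPred_eq, Set.mem_iUnion, exists_prop]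
  rw [e]
  exact MeasurableSet.iUnion fun e => MeasurableSet.iUnion fun _ => measurable_LGn k 1000 (2 ^ e)

/-- measure of the long event of class `D` -/
theorem vol_LGset {k : ℝ} (hk : (10:ℝ) ^ 6 ≤ k) (hk2 : (2:ℝ) ^ 400 ≤ k) {j : ℕ} :
    volume (LGset k (j + 600)) ≤ ENNReal.ofReal (8000 * (1 / k ^ (3 / 2 : ℝ)) * (1 / 2) ^ j) := by
  have hk0 : (0:ℝ) < k := lt_of_lt_of_le (by norm_num) hk
  have hk1 : (1:ℝ) ≤ k := le_trans (by norm_num) hk
  classical
  have hex : ∃ e : ℕ, k ^ (j + 600) ≤ ((2:ℝ) ^ (e + 1)) ^ 400 := by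
    obtain ⟨e, he⟩ := pow_unbounded_of_one_lt (k ^ (j + 600)) (show (1:ℝ) < 2 by norm_num)
    refine ⟨e, he.le.trans ?_⟩
    rw [← pow_mul]
    exact pow_le_pow_right₀ (by norm_num) (by omega)
  set e0 := Nat.find hex with he0
  have hspec : k ^ (j + 600) ≤ ((2:ℝ) ^ (e0 + 1)) ^ 400 := Nat.find_spec hex
  have hmin : ∀ e, k ^ (j + 600) ≤ ((2:ℝ) ^ (e + 1)) ^ 400 → e0 ≤ e := fun e he => Nat.find_min' hex he
  -- e0 is large
  have he0big : 20 ≤ e0 := by
    by_contra hcon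
    push Not at hcon
    have h1 : ((2:ℝ) ^ (e0 + 1)) ^ 400 ≤ ((2:ℝ) ^ 20) ^ 400 :=
      pow_le_pow_left₀ (by positivity) (pow_le_pow_right₀ (by norm_num) (by omega)) 400
    have h2 : ((2:ℝ) ^ 20) ^ 400 = ((2:ℝ) ^ 400) ^ 20 := by rw [← pow_mul, ← pow_mul]
    have h3 : ((2:ℝ) ^ 400) ^ 20 ≤ k ^ 20 := pow_le_pow_left₀ (by positivity) hk2 20
    have h4 : k ^ 20 < k ^ (j + 600) := pow_lt_pow_right₀ (lt_of_lt_of_le (by norm_num) hk) (by omega)
    exact absurd (hspec.trans (h1.trans (h2.le.trans h3))) (not_le.2 h4)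
  have hone : ∀ e, e0 ≤ e → volume {z : Tor | ∃ m, LGn k 1000 (2 ^ e) z m} ≤
      ENNReal.ofReal (2000 * (1 / 2) ^ e) := by
    intro e he
    have h1 := area_LG (k := k) (le_trans (by norm_num) hk) (L := 1000) (M := 2 ^ e) (by norm_num) (by
      have : 2 ^ 20 ≤ 2 ^ e := Nat.pow_le_pow_right (by norm_num) (by omega)
      norm_num at this
      omega)
    have h2 : 2 ^ e / 2 = 2 ^ (e - 1) := by
      have : 2 ^ e = 2 ^ (e - 1) * 2 := by rw [← pow_succ]; congr 1; omega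
      omega
    rw [h2] at h1
    have hne : ((2 ^ (e - 1) : ℕ) : ℝ≥0∞) ≠ 0 := by
      rw [Nat.cast_ne_zero]
      positivity
    have h3 : volume {z : Tor | ∃ m, LGn k 1000 (2 ^ e) z m} ≤ ((1000 : ℕ) : ℝ≥0∞) / ((2 ^ (e - 1) : ℕ) : ℝ≥0∞) := by
      rw [ENNReal.le_div_iff_mul_le (Or.inl hne) (Or.inl (ENNReal.natCast_ne_top _)), mul_comm]
      exact h1
    refine h3.trans ?_
    have h4 : ((1000 : ℕ) : ℝ≥0∞) = ENNReal.ofReal 1000 := by norm_num
    have h5 : ((2 ^ (e - 1) : ℕ) : ℝ≥0∞) = ENNReal.ofReal (2 ^ (e - 1)) := by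
      rw [ENNReal.ofReal_pow (by norm_num)]
      norm_num
    rw [h4, h5, ← ENNReal.ofReal_div_of_pos (by positivity)]
    apply ENNReal.ofReal_le_ofReal
    have h6 : (2:ℝ) ^ e = 2 ^ (e - 1) * 2 := by rw [← pow_succ]; congr 1; omega
    rw [one_div, inv_pow, h6, div_le_iff₀ (by positivity)]
    have h7 : (0:ℝ) < 2 ^ (e - 1) := by positivity
    have h8 : 2000 * ((2:ℝ) ^ (e - 1) * 2)⁻¹ * 2 ^ (e - 1) = 1000 := by
      field_simp
      norm_num
    rw [h8]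
  have hsub : LGset k (j + 600) ⊆ ⋃ i : ℕ, {z : Tor | ∃ m, LGn k 1000 (2 ^ (e0 + i)) z m} := by
    rintro z ⟨e, he, hm⟩
    have h1 := hmin e he
    rw [Set.mem_iUnion]
    refine ⟨e - e0, ?_⟩
    rw [Nat.add_sub_cancel' h1]
    exact hm
  refine (measure_mono hsub).trans ((measure_iUnion_le _).trans ?_)
  have h1 : ∑' i : ℕ, volume {z : Tor | ∃ m, LGn k 1000 (2 ^ (e0 + i)) z m} ≤
      ∑' i : ℕ, ENNReal.ofReal (2000 * (1 / 2) ^ e0 * (1 / 2) ^ i) := by
    apply ENNReal.tsum_le_tsum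
    intro i
    refine (hone (e0 + i) (by omega)).trans (le_of_eq ?_)
    congr 1
    rw [pow_add]
    ring
  refine h1.trans ?_
  have h2 : ∑' i : ℕ, ENNReal.ofReal (2000 * (1 / 2) ^ e0 * (1 / 2) ^ i) =
      ENNReal.ofReal (∑' i : ℕ, 2000 * (1 / 2 : ℝ) ^ e0 * (1 / 2) ^ i) := by
    rw [ENNReal.ofReal_tsum_of_nonneg]
    · intro i; positivity
    · exact (summable_geometric_of_lt_one (by norm_num) (by norm_num)).mul_left _
  rw [h2, tsum_mul_left, tsum_geometric_of_lt_one (by norm_num) (by norm_num)]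
  apply ENNReal.ofReal_le_ofReal
  -- 4000 / 2 ^ e0 ≤ 8000 k ^ (-3/2) 2 ^ (-j)
  have h3 : (k ^ (3 / 2 : ℝ) * 2 ^ j) ≤ 2 ^ (e0 + 1) := by
    have h4 : (k ^ (3 / 2 : ℝ) * 2 ^ j) ^ 400 ≤ ((2:ℝ) ^ (e0 + 1)) ^ 400 := by
      refine le_trans ?_ hspec
      rw [mul_pow, pow_add, mul_comm]
      have h5 : (k ^ (3 / 2 : ℝ)) ^ 400 = k ^ 600 := by
        rw [← Real.rpow_natCast (k ^ (3 / 2 : ℝ)) 400, ← Real.rpow_mul hk0.le, ← Real.rpow_natCast k 600]
        norm_num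
      have h6 : ((2:ℝ) ^ j) ^ 400 ≤ k ^ j := by
        rw [← pow_mul, mul_comm j 400, pow_mul]
        exact pow_le_pow_left₀ (by positivity) hk2 j
      rw [h5]
      exact mul_le_mul_of_nonneg_right h6 (by positivity)
    exact le_of_pow_le_pow_left₀ (by norm_num) (by positivity) h4
  have h7 : 0 < k ^ (3 / 2 : ℝ) * 2 ^ j := by positivity
  have h8 : 1 / (2:ℝ) ^ (e0 + 1) ≤ 1 / (k ^ (3 / 2 : ℝ) * 2 ^ j) := one_div_le_one_div_of_le h7 h3
  have h9 : 8000 * (1 / k ^ (3 / 2 : ℝ)) * (1 / 2) ^ j = 8000 * (1 / (k ^ (3 / 2 : ℝ) * 2 ^ j)) := by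
    rw [one_div_pow]
    field_simp
  have h10 : 2000 * (1 / 2 : ℝ) ^ e0 * (1 - 1 / 2)⁻¹ = 8000 * (1 / (2:ℝ) ^ (e0 + 1)) := by
    rw [one_div_pow, pow_succ]
    field_simp
    norm_num
  rw [h9, h10]
  linarith only [h8]

/-- clean digits at the times `0, …, L-1` -/
def Cln (k : ℝ) (L : ℕ) (z : Tor) : Prop := ∀ m < L, k ^ (2 / 3 : ℝ) ≤ |V k ((T k)^[m] z).2|

/-- validity up to the time `n` (conditions (c2), (c3)) -/
structure Vld (k : ℝ) (L : ℕ) (z : Tor) (n : ℕ) : Prop where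
  v2 : ∀ i j, L ≤ i → i ≤ j → j ≤ n → ‖fld k z i‖ ^ 99 ≤ ‖fld k z j‖ ^ 100
  v3 : ∀ j, L ≤ j → j ≤ n → ∃ i, L ≤ i ∧ i ≤ j ∧ (j : ℝ) ^ 400 ≤ ‖fld k z i‖


/-- strict first failure in terms of real orbits -/
theorem first_failure {k : ℝ} (hk : (10:ℝ) ^ 6 ≤ k) {a b : ℝ} {M : ℕ}
    (hcl : Cln k 1000 ((a : UnitAddCircle), (b : UnitAddCircle)))
    (hbad : ∃ n ≤ M, ¬ Vld k 1000 ((a : UnitAddCircle), (b : UnitAddCircle)) n) :
    ∃ n' ≤ M, 1000 < n' ∧ SV k 1000 a b n' ∧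
      ((∃ i, 1000 ≤ i ∧ i < n' ∧ nf k a b n' ^ 100 < nf k a b i ^ 99) ∨
        (∀ i, 1000 ≤ i → i < n' → nf k a b i ≤ (n' : ℝ) ^ 400)) := by
  classical
  have hk0 : (0:ℝ) < k := lt_of_lt_of_le (by norm_num) hk
  have hk1 : (1:ℝ) ≤ k := le_trans (by norm_num) hk
  set z : Tor := ((a : UnitAddCircle), (b : UnitAddCircle)) with hz
  have hfl : ∀ m, ‖fld k z m‖ = nf k a b m := fun m => norm_fld_pk k a b m
  have cl : ∀ m ∈ Finset.Icc 1 1000, k ^ (2 / 3 : ℝ) ≤ |Vk k (xorb k a b m)| := by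
    intro m hm
    rw [Finset.mem_Icc] at hm
    have h1 := hcl (m - 1) (by omega)
    rw [hz, xorb_T] at h1
    simp only [V_eq_Vk] at h1
    rwa [Nat.sub_add_cancel hm.1] at h1
  have hbig := nf_L_big hk cl
  have hL1 : (1:ℝ) ≤ nf k a b 1000 := (one_le_pow₀ hk1).trans hbig
  obtain ⟨m0, hm0, hm0b⟩ := hbad
  have hex : ∃ n, ¬ Vld k 1000 z n := ⟨m0, hm0b⟩
  set n' := Nat.find hex with hn'
  have hspec : ¬ Vld k 1000 z n' := Nat.find_spec hex
  have hmin : ∀ j < n', Vld k 1000 z j := fun j hj => by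
    have := Nat.find_min hex hj
    push Not at this
    exact this
  have hle : n' ≤ M := (Nat.find_min' hex hm0b).trans hm0
  have hthou : 1000 < n' := by
    by_contra hcon
    push Not at hcon
    apply hspec
    refine ⟨?_, ?_⟩
    · intro i j hi hij hj
      have e1 : i = 1000 := by omega
      have e2 : j = 1000 := by omega
      rw [e1, e2, hfl]
      exact pow_le_pow_right₀ hL1 (by norm_num)
    · intro j hj hjn
      refine ⟨j, hj, le_rfl, ?_⟩
      have e2 : j = 1000 := by omega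
      rw [e2, hfl]
      refine le_trans ?_ hbig
      calc (((1000:ℕ) : ℝ)) ^ 400 ≤ k ^ 400 := by
            apply pow_le_pow_left₀ (by norm_num)
            exact le_trans (by norm_num) hk
        _ ≤ k ^ 601 := pow_le_pow_right₀ hk1 (by norm_num)
  have v2 : ∀ i j, 1000 ≤ i → i ≤ j → j < n' → nf k a b i ^ 99 ≤ nf k a b j ^ 100 := by
    intro i j hi hij hj
    have := (hmin j hj).v2 i j hi hij le_rfl
    rwa [hfl, hfl] at this
  have v3 : ∀ j, 1000 ≤ j → j < n' → ∃ i, 1000 ≤ i ∧ i ≤ j ∧ (j : ℝ) ^ 400 ≤ nf k a b i := by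
    intro j hj hjn
    obtain ⟨i, h1, h2, h3⟩ := (hmin j hjn).v3 j hj le_rfl
    rw [hfl] at h3
    exact ⟨i, h1, h2, h3⟩
  refine ⟨n', hle, hthou, ⟨cl, v2, v3⟩, ?_⟩
  by_cases h2 : ∀ i j, 1000 ≤ i → i ≤ j → j ≤ n' → ‖fld k z i‖ ^ 99 ≤ ‖fld k z j‖ ^ 100
  · -- (c3) fails
    right
    have h3 : ¬ ∀ j, 1000 ≤ j → j ≤ n' → ∃ i, 1000 ≤ i ∧ i ≤ j ∧ (j : ℝ) ^ 400 ≤ ‖fld k z i‖ :=
      fun h3 => hspec ⟨h2, h3⟩
    push Not at h3
    obtain ⟨j, hj1, hj2, hj3⟩ := h3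
    have e : j = n' := by
      rcases Nat.lt_or_ge j n' with h | h
      · exfalso
        obtain ⟨i, h4, h5, h6⟩ := (hmin j h).v3 j hj1 le_rfl
        exact absurd h6 (not_le.2 (hj3 i h4 h5))
      · omega
    intro i hi hin
    have h4 := hj3 i hi (by omega)
    rw [hfl, e] at h4
    exact h4.le
  · left
    push Not at h2
    obtain ⟨i, j, hi, hij, hj, hlt⟩ := h2
    have e : j = n' := by
      rcases Nat.lt_or_ge j n' with h | h
      · exfalso
        exact absurd ((hmin j h).v2 i j hi hij le_rfl) (not_le.2 hlt)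
      · omega
    rw [e, hfl, hfl] at hlt
    rcases Nat.lt_or_ge i n' with h | h
    · exact ⟨i, hi, h, hlt⟩
    · have e' : i = n' := by omega
      rw [e'] at hlt
      have hlt1 : nf k a b n' < 1 := by
        by_contra hcon
        push Not at hcon
        exact absurd (pow_le_pow_right₀ hcon (by norm_num : 99 ≤ 100)) (not_le.2 hlt)
      refine ⟨n' - 1, by omega, by omega, ?_⟩
      have h5 : (1:ℝ) ≤ nf k a b (n' - 1) := by
        have h6 := v2 1000 (n' - 1) le_rfl (by omega) (by omega)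
        have h7 : (1:ℝ) ≤ nf k a b (n' - 1) ^ 100 := (one_le_pow₀ hL1).trans h6
        by_contra hcon
        push Not at hcon
        exact absurd h7 (not_le.2 (pow_lt_one₀ (nf_nonneg _ _ _ _) hcon (by norm_num)))
      calc nf k a b n' ^ 100 < 1 := pow_lt_one₀ (nf_nonneg _ _ _ _) hlt1 (by norm_num)
        _ ≤ _ := one_le_pow₀ h5

theorem exists_class {k : ℝ} (hk : (10:ℝ) ^ 6 ≤ k) {a b : ℝ} {n' : ℕ} (hn' : 1000 < n')
    (hsv : SV k 1000 a b n') : ∃ j : ℕ, (∃ i < n', k ^ (j + 600) ≤ nf k a b i) ∧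
      ∀ i < n', nf k a b i ≤ k * k ^ (j + 600) := by
  have hk0 : (0:ℝ) < k := lt_of_lt_of_le (by norm_num) hk
  have hk1 : (1:ℝ) < k := lt_of_lt_of_le (by norm_num) hk
  obtain ⟨i0, hi0, hmax⟩ := Finset.exists_max_image (Finset.range n') (nf k a b) ⟨0, by simp; omega⟩
  rw [Finset.mem_range] at hi0
  have hL := nf_L_big hk hsv.cl
  have h1 : k ^ 601 ≤ nf k a b i0 := hL.trans (hmax 1000 (Finset.mem_range.2 hn'))
  have h2 : (1:ℝ) ≤ nf k a b i0 / k ^ 600 := by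
    rw [le_div_iff₀ (by positivity), one_mul]
    exact (pow_le_pow_right₀ hk1.le (by norm_num)).trans h1
  obtain ⟨j, hj1, hj2⟩ := exists_nat_pow_near h2 hk1
  refine ⟨j, ⟨i0, hi0, ?_⟩, ?_⟩
  · rw [le_div_iff₀ (by positivity)] at hj1
    rwa [pow_add]
  · intro i hi
    have h3 := hmax i (Finset.mem_range.2 hi)
    rw [div_lt_iff₀ (by positivity)] at hj2
    refine h3.trans (hj2.le.trans (le_of_eq ?_))
    ring


end Crest.Agent.R128.Lam0
end

-- ▼ part R128/Cls287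
section

/-!
# Row 128, node V4 (helper287): classification and sum over the pairs of classes

`v4_of_prod` : `Skel.V4` from helper815's product of strips (`prod_of_core`).
-/

set_option autoImplicit false
open MeasureTheory Filter Topology Finset
open scoped ENNReal NNReal

namespace Crest.Agent.R128.Cls287

open Crest.Agent.R128.BVP Crest.Agent.R128.Lam0

/-! ### growth along regular digits -/

theorem b_facts {k : ℝ} (hk : (10 : ℝ) ^ 30 ≤ k) :
    (10 : ℝ) ^ 19 ≤ k ^ (2 / 3 : ℝ) ∧ k ^ 3 ≤ (k ^ (2 / 3 : ℝ) - 1) ^ 5 := by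
  have hk0 : (0 : ℝ) < k := lt_of_lt_of_le (by norm_num) hk
  have h1 : (10 : ℝ) ^ 19 ≤ k ^ (2 / 3 : ℝ) := by
    calc (10 : ℝ) ^ 19 ≤ (10 : ℝ) ^ 20 := by norm_num
      _ = ((10 : ℝ) ^ 30) ^ (2 / 3 : ℝ) := by
          rw [← Real.rpow_natCast (10 : ℝ) 30, ← Real.rpow_mul (by norm_num), ← Real.rpow_natCast]
          norm_num
      _ ≤ _ := Real.rpow_le_rpow (by positivity) hk (by norm_num)
  refine ⟨h1, ?_⟩
  set b := k ^ (2 / 3 : ℝ) with hb
  have hb3 : b ^ 3 = k ^ 2 := by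
    rw [hb, ← Real.rpow_natCast, ← Real.rpow_mul hk0.le, ← Real.rpow_natCast]
    norm_num
  have h2 : b / 2 ≤ b - 1 := by linarith
  have h3 : (b / 2) ^ 15 ≤ (b - 1) ^ 15 := pow_le_pow_left₀ (by linarith) h2 _
  have h4 : (b / 2) ^ 15 = k ^ 10 / 2 ^ 15 := by
    rw [div_pow, show b ^ 15 = (b ^ 3) ^ 5 by ring, hb3]
    ring
  have h5 : (k ^ 3) ^ 3 ≤ ((b - 1) ^ 5) ^ 3 := by
    rw [← pow_mul, ← pow_mul]
    refine le_trans ?_ h3
    rw [h4, le_div_iff₀ (by positivity)]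
    have : k ^ 9 * 2 ^ 15 ≤ k ^ 9 * k := mul_le_mul_of_nonneg_left
      (le_trans (by norm_num) hk) (by positivity)
    calc k ^ (3 * 3) * 2 ^ 15 = k ^ 9 * 2 ^ 15 := by norm_num
      _ ≤ k ^ 9 * k := this
      _ = k ^ 10 := by ring
  have h6 : 0 ≤ (b - 1) ^ 5 := pow_nonneg (by linarith) _
  exact le_of_pow_le_pow_left₀ (by norm_num) h6 h5

/-- size reached after `j` regular digits -/
theorem grow_big {k : ℝ} (hk : (10 : ℝ) ^ 30 ≤ k) {L : ℕ} {a b : ℝ}
    (cl : ∀ m ∈ Icc 1 L, k ^ (2 / 3 : ℝ) ≤ |Vk k (xorb k a b m)|) {j : ℕ} (hj : j ≤ L) :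
    k ^ (3 * (j / 5)) ≤ nf k a b j := by
  obtain ⟨h1, h2⟩ := b_facts hk
  have hb : (2 : ℝ) ≤ k ^ (2 / 3 : ℝ) := le_trans (by norm_num) h1
  have hk0 : (0 : ℝ) < k := lt_of_lt_of_le (by norm_num) hk
  have hk6 : (10 : ℝ) ^ 6 ≤ k := le_trans (by norm_num) hk
  rw [nf_clean hk6 cl hj]
  refine le_trans ?_ (clean_growth hk6 cl j hj).2
  calc k ^ (3 * (j / 5)) = (k ^ 3) ^ (j / 5) := pow_mul _ _ _
    _ ≤ ((k ^ (2 / 3 : ℝ) - 1) ^ 5) ^ (j / 5) := pow_le_pow_left₀ (by positivity) h2 _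
    _ = (k ^ (2 / 3 : ℝ) - 1) ^ (5 * (j / 5)) := (pow_mul _ _ _).symm
    _ ≤ _ := pow_le_pow_right₀ (by linarith) (Nat.mul_div_le j 5)

/-! ### classes -/

/-- first violation at the time `n'`, class `D` -/
structure CLS (k : ℝ) (M D : ℕ) (z : Tor) (n' : ℕ) : Prop where
  le : n' ≤ M
  gt : 1000 < n'
  cl : Cln k 1000 z
  v2 : ∀ i j, 1000 ≤ i → i ≤ j → j < n' → ‖fld k z i‖ ^ 99 ≤ ‖fld k z j‖ ^ 100
  v3 : ∀ j, 1000 ≤ j → j < n' → ∃ i, 1000 ≤ i ∧ i ≤ j ∧ (j : ℝ) ^ 400 ≤ ‖fld k z i‖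
  bad : (∃ i, 1000 ≤ i ∧ i < n' ∧ ‖fld k z n'‖ ^ 100 < ‖fld k z i‖ ^ 99) ∨
    (∀ i, 1000 ≤ i → i < n' → ‖fld k z i‖ ≤ (n' : ℝ) ^ 400)
  lo : ∃ i < n', k ^ D ≤ ‖fld k z i‖
  hi : ∀ i < n', ‖fld k z i‖ ≤ k * k ^ D

theorem cln_Icc {k : ℝ} {L : ℕ} {a b : ℝ} (h : Cln k L ((a : UnitAddCircle), (b : UnitAddCircle))) :
    ∀ m ∈ Icc 1 L, k ^ (2 / 3 : ℝ) ≤ |Vk k (xorb k a b m)| := by
  intro m hm
  rw [Finset.mem_Icc] at hm
  have h1 := h (m - 1) (by omega)
  rw [xorb_T] at h1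
  simp only [V_eq_Vk] at h1
  rwa [Nat.sub_add_cancel hm.1] at h1

theorem CLS.sv {k : ℝ} {M D n' : ℕ} {a b : ℝ}
    (h : CLS k M D ((a : UnitAddCircle), (b : UnitAddCircle)) n') : SV k 1000 a b n' := by
  refine ⟨cln_Icc h.cl, ?_, ?_⟩
  · intro i j h1 h2 h3
    have := h.v2 i j h1 h2 h3
    rwa [norm_fld_pk, norm_fld_pk] at this
  · intro j h1 h2
    obtain ⟨i, h3, h4, h5⟩ := h.v3 j h1 h2
    rw [norm_fld_pk] at h5
    exact ⟨i, h3, h4, h5⟩

theorem CLS.adm {k : ℝ} {M D n' : ℕ} {a b : ℝ}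
    (h : CLS k M D ((a : UnitAddCircle), (b : UnitAddCircle)) n') : Core.Adm k (k ^ D) a b n' := by
  refine ⟨h.sv, ?_, ?_⟩
  · obtain ⟨i, h1, h2⟩ := h.lo
    rw [norm_fld_pk] at h2
    exact ⟨i, h1, h2⟩
  · intro i hi
    have := h.hi i hi
    rwa [norm_fld_pk] at this

/-- relaxed sets of class `D` -/
def Qs (k : ℝ) (M D : ℕ) : Set Tor := DDset k M (D - 1) ∪ DDset k M D ∪ LGset k D

theorem measurable_Qs (k : ℝ) (M D : ℕ) : MeasurableSet (Qs k M D) :=
  ((measurable_DDset k M (D - 1)).union (measurable_DDset k M D)).union (measurable_LGset k D)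

theorem CLS.strip {k : ℝ} (hk9 : (10 : ℝ) ^ 9 ≤ k) {M D n' : ℕ} {a b : ℝ} (hD : 1 ≤ D)
    (h : CLS k M D ((a : UnitAddCircle), (b : UnitAddCircle)) n') {l s : ℝ}
    (hcmp : ∀ m ≤ n', Lam0.nf k a b m ≤ 2 * Lam0.nf k l s m ∧ Lam0.nf k l s m ≤ 2 * Lam0.nf k a b m) :
    ((l : UnitAddCircle), (s : UnitAddCircle)) ∈ Qs k M D := by
  refine classify hk9 h.le h.gt h.sv ?_ ?_ ?_ hD hcmp
  · rcases h.bad with h1 | h1
    · left
      obtain ⟨i, h2, h3, h4⟩ := h1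
      rw [norm_fld_pk, norm_fld_pk] at h4
      exact ⟨i, h2, h3, h4⟩
    · right
      intro i h2 h3
      have := h1 i h2 h3
      rwa [norm_fld_pk] at this
  · obtain ⟨i, h1, h2⟩ := h.lo
    rw [norm_fld_pk] at h2
    exact ⟨i, h1, h2⟩
  · intro i hi
    have := h.hi i hi
    rwa [norm_fld_pk] at this

/-- the points of class `D` -/
def Bs (k : ℝ) (M D : ℕ) : Set Tor := {z | ∃ n', CLS k M D z n'}

/-- **classification** -/
theorem classify_Rc {k : ℝ} (hk : (10 : ℝ) ^ 30 ≤ k) {D0 L0 M : ℕ} (hL0 : 1010 + 2 * D0 ≤ L0)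
    (hkL : (L0 : ℝ) ≤ k) {z : Tor} (hz : z ∈ Skel.Rc k L0 M) :
    ∃ D, z ∈ Bs k M (600 + D0 + D) := by
  obtain ⟨hC1, -, hV⟩ := hz
  have hk6 : (10 : ℝ) ^ 6 ≤ k := le_trans (by norm_num) hk
  have hk1 : (1 : ℝ) ≤ k := le_trans (by norm_num) hk
  have hk1' : (1 : ℝ) < k := lt_of_lt_of_le (by norm_num) hk
  have hreg : ∀ m, m < L0 → k ^ (2 / 3 : ℝ) ≤ |V k ((T k)^[m] z).2| := by
    intro m hm
    by_contra hcon
    push Not at hcon
    exact hC1 ⟨m, hm, hcon⟩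
  have hcln : Cln k 1000 z := fun m hm => hreg m (by omega)
  have hvld : ¬ Vld k 1000 z M := by
    intro h
    exact hV ⟨fun m hm _ => hreg m hm, h.v2, h.v3⟩
  obtain ⟨a, b, rfl⟩ : ∃ a b : ℝ, z = ((a : UnitAddCircle), (b : UnitAddCircle)) := by
    obtain ⟨a, ha⟩ := QuotientAddGroup.mk_surjective z.1
    obtain ⟨b, hb⟩ := QuotientAddGroup.mk_surjective z.2
    exact ⟨a, b, Prod.ext ha.symm hb.symm⟩
  have clL : ∀ m ∈ Icc 1 L0, k ^ (2 / 3 : ℝ) ≤ |Vk k (xorb k a b m)| :=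
    cln_Icc (L := L0) (fun m hm => hreg m hm)
  obtain ⟨n', h1, h2, h3, h4⟩ := first_failure hk6 hcln ⟨M, le_rfl, hvld⟩
  -- the violation is after `L0`
  have hLn : L0 < n' := by
    by_contra hcon
    push Not at hcon
    have hmono : ∀ i j, i ≤ j → j ≤ L0 → Lam0.nf k a b i ≤ Lam0.nf k a b j := by
      intro i j hij hj
      rcases hij.eq_or_lt with h | h
      · rw [h]
      · have := nf_clean_step hk6 clL h hj
        have h0 := nf_nonneg k a b i
        linarith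
    have hbigL : k ^ 600 ≤ Lam0.nf k a b 1000 := by
      have := grow_big hk clL (j := 1000) (by omega)
      norm_num at this
      exact this
    rcases h4 with ⟨i, hi, hin, hlt⟩ | h4
    · have h5 := hmono i n' hin.le hcon
      have h6 : (1 : ℝ) ≤ Lam0.nf k a b i := (one_le_pow₀ hk1).trans (hbigL.trans (hmono 1000 i hi (by omega)))
      have h7 : Lam0.nf k a b i ^ 99 ≤ Lam0.nf k a b n' ^ 100 := by
        calc Lam0.nf k a b i ^ 99 ≤ Lam0.nf k a b i ^ 100 := pow_le_pow_right₀ h6 (by norm_num)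
          _ ≤ _ := pow_le_pow_left₀ (by linarith) h5 _
      linarith
    · have h5 := h4 1000 le_rfl h2
      have h6 : (n' : ℝ) ^ 400 ≤ k ^ 400 := by
        apply pow_le_pow_left₀ (Nat.cast_nonneg _)
        refine le_trans ?_ hkL
        exact_mod_cast hcon
      have h7 : k ^ 400 < k ^ 600 := pow_lt_pow_right₀ hk1' (by norm_num)
      linarith
  obtain ⟨j, ⟨i0, hi0, hlo⟩, hhi⟩ := exists_class hk6 h2 h3
  have hjbig : D0 + 600 ≤ j + 600 := by
    have h5 := grow_big hk clL (j := L0) le_rfl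
    have h6 := hhi L0 hLn
    have h7 : k ^ (3 * (L0 / 5)) ≤ k ^ (j + 601) := by
      refine h5.trans (h6.trans (le_of_eq ?_))
      ring
    have h8 := (pow_le_pow_iff_right₀ hk1').1 h7
    omega
  refine ⟨j - D0, n', ?_⟩
  have e : 600 + D0 + (j - D0) = j + 600 := by omega
  rw [e]
  have hfl : ∀ m, ‖fld k ((a : UnitAddCircle), (b : UnitAddCircle)) m‖ = Lam0.nf k a b m :=
    fun m => norm_fld_pk k a b m
  refine ⟨h1, h2, hcln, ?_, ?_, ?_, ⟨i0, hi0, ?_⟩, ?_⟩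
  · intro i j h5 h6 h7
    rw [hfl, hfl]
    exact h3.v2 i j h5 h6 h7
  · intro j h5 h6
    obtain ⟨i, h7, h8, h9⟩ := h3.v3 j h5 h6
    exact ⟨i, h7, h8, by rw [hfl]; exact h9⟩
  · rcases h4 with ⟨i, hi, hin, hlt⟩ | h4
    · left
      exact ⟨i, hi, hin, by rw [hfl, hfl]; exact hlt⟩
    · right
      intro i hi hin
      rw [hfl]
      exact h4 i hi hin
  · rw [hfl]
    exact hlo
  · intro i hi
    rw [hfl]
    exact hhi i hi

/-- total area of the relaxed sets -/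
theorem tsum_Qs {k : ℝ} (hk6 : (10 : ℝ) ^ 6 ≤ k) (hk400 : (2 : ℝ) ^ 400 ≤ k)
    (hksq : (16000 : ℝ) ^ 2 ≤ k) (D0 M : ℕ) :
    ∑' D : ℕ, volume (Qs k M (600 + (D0 + 1) + D)) ≤
      2 * (ENNReal.ofReal (Skel.e k) + Skel.rho k D0 M) := by
  have hk0 : (0 : ℝ) < k := lt_of_lt_of_le (by norm_num) hk6
  have hk1 : (1 : ℝ) ≤ k := le_trans (by norm_num) hk6
  have hRD : ∀ D, DDset k M D = Skel.RD k D M := fun D => rfl
  have h1 : ∀ D, volume (Qs k M (600 + (D0 + 1) + D)) ≤ volume (Skel.RD k (D0 + (600 + D)) M) +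
      volume (Skel.RD k (D0 + (601 + D)) M) +
      ENNReal.ofReal (8000 * (1 / k ^ (3 / 2 : ℝ)) * (1 / 2) ^ (D0 + 1 + D)) := by
    intro D
    unfold Qs
    refine (measure_union_le _ _).trans ?_
    gcongr
    · refine (measure_union_le _ _).trans ?_
      rw [hRD, hRD, show 600 + (D0 + 1) + D - 1 = D0 + (600 + D) by omega,
        show 600 + (D0 + 1) + D = D0 + (601 + D) by omega]
    · rw [show 600 + (D0 + 1) + D = (D0 + 1 + D) + 600 by omega]
      exact vol_LGset hk6 hk400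
  refine (ENNReal.tsum_le_tsum h1).trans ?_
  rw [ENNReal.tsum_add, ENNReal.tsum_add]
  have hsh : ∀ c : ℕ, ∑' D : ℕ, volume (Skel.RD k (D0 + (c + D)) M) ≤ Skel.rho k D0 M := by
    intro c
    unfold Skel.rho
    exact ENNReal.tsum_comp_le_tsum_of_injective (f := fun D : ℕ => c + D)
      (fun x y h => Nat.add_left_cancel h) (fun D : ℕ => volume (Skel.RD k (D0 + D) M))
  have h3 : ∑' D : ℕ, ENNReal.ofReal (8000 * (1 / k ^ (3 / 2 : ℝ)) * (1 / 2) ^ (D0 + 1 + D)) ≤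
      ENNReal.ofReal (Skel.e k) := by
    have h4 : ∀ D : ℕ, ENNReal.ofReal (8000 * (1 / k ^ (3 / 2 : ℝ)) * (1 / 2) ^ (D0 + 1 + D)) ≤
        ENNReal.ofReal (8000 * (1 / k ^ (3 / 2 : ℝ)) * (1 / 2) ^ D) := by
      intro D
      apply ENNReal.ofReal_le_ofReal
      apply mul_le_mul_of_nonneg_left _ (by positivity)
      exact pow_le_pow_of_le_one (by norm_num) (by norm_num) (by omega)
    refine (ENNReal.tsum_le_tsum h4).trans ?_
    rw [← ENNReal.ofReal_tsum_of_nonneg (fun j => by positivity)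
      ((summable_geometric_of_lt_one (by norm_num) (by norm_num)).mul_left _), tsum_mul_left,
      tsum_geometric_of_lt_one (by norm_num) (by norm_num)]
    apply ENNReal.ofReal_le_ofReal
    have h5 : k ^ (3 / 2 : ℝ) = k * k ^ (1 / 2 : ℝ) := by
      rw [← Real.rpow_one_add' hk0.le (by norm_num)]
      norm_num
    have h6 : (16000 : ℝ) ≤ k ^ (1 / 2 : ℝ) := by
      rw [← Real.sqrt_eq_rpow]
      exact Real.le_sqrt_of_sq_le hksq
    have h7 : 0 < k ^ (1 / 2 : ℝ) := by positivity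
    have h8 : (1 : ℝ) / k ≤ Skel.e k := by
      unfold Skel.e
      rw [one_div, ← Real.rpow_neg_one]
      exact Real.rpow_le_rpow_of_exponent_le hk1 (by norm_num)
    refine le_trans ?_ h8
    rw [h5]
    have e1 : 8000 * (1 / (k * k ^ (1 / 2 : ℝ))) * (1 - 1 / 2)⁻¹ = (1 / k) * (16000 / k ^ (1 / 2 : ℝ)) := by
      field_simp
      norm_num
    rw [e1]
    have h9 : 16000 / k ^ (1 / 2 : ℝ) ≤ 1 := by
      rw [div_le_one h7]; exact h6
    calc (1 / k) * (16000 / k ^ (1 / 2 : ℝ)) ≤ (1 / k) * 1 := by gcongr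
      _ = 1 / k := mul_one _
  calc _ ≤ Skel.rho k D0 M + Skel.rho k D0 M + ENNReal.ofReal (Skel.e k) := by
        gcongr
        · exact hsh 600
        · exact hsh 601
    _ ≤ 2 * (ENNReal.ofReal (Skel.e k) + Skel.rho k D0 M) := by
        rw [two_mul, ← two_mul (Skel.rho k D0 M)]
        have : ENNReal.ofReal (Skel.e k) ≤ ENNReal.ofReal (Skel.e k) + ENNReal.ofReal (Skel.e k) := le_self_add
        calc 2 * Skel.rho k D0 M + ENNReal.ofReal (Skel.e k)
            ≤ 2 * Skel.rho k D0 M + (ENNReal.ofReal (Skel.e k) + ENNReal.ofReal (Skel.e k)) := by gcongr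
          _ = _ := by rw [two_mul]; ring

/-- helper815's product of strips (conclusion of `prod_of_core`) -/
def ProdStmt : Prop := ∃ K0 : ℝ, ∀ k, K0 ≤ k → ∀ X Y : ℝ, k ^ 600 ≤ X → k ^ 600 ≤ Y →
  ∀ B₁ B₂ Q₁ Q₂ : Set Tor, MeasurableSet Q₁ → MeasurableSet Q₂ →
  (∀ a b : ℝ, pr (a, b) ∈ B₁ → ∃ n', Core.Adm k X a b n' ∧ ∀ l s : ℝ,
    (∀ m ≤ n', Lam0.nf k a b m ≤ 2 * Lam0.nf k l s m ∧ Lam0.nf k l s m ≤ 2 * Lam0.nf k a b m) →
      pr (l, s) ∈ Q₁) →
  (∀ a b : ℝ, pr (a, b) ∈ B₂ → ∃ n', Core.Adm k Y a b n' ∧ ∀ l s : ℝ,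
    (∀ m ≤ n', Lam0.nf k a b m ≤ 2 * Lam0.nf k l s m ∧ Lam0.nf k l s m ≤ 2 * Lam0.nf k a b m) →
      pr (l, s) ∈ Q₂) →
  volume (B₁ ∩ Prod.swap ⁻¹' B₂) ≤ 10 ^ 7 * (volume Q₁ * volume Q₂)

/-- **V4** from the product of strips -/
theorem v4_of_prod (hP : ProdStmt) : Skel.V4 := by
  obtain ⟨K0, hP⟩ := hP
  intro D0
  refine ⟨1010 + 2 * (D0 + 1), fun L0 hL0 => ⟨4 * 10 ^ 7, ?_⟩⟩
  refine ⟨max K0 (max ((10 : ℝ) ^ 30) (max ((2 : ℝ) ^ 400) (L0 : ℝ))), ?_⟩
  intro k hk M M'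
  have hkK : K0 ≤ k := (le_max_left _ _).trans hk
  have hk' := (le_max_right _ _).trans hk
  have hk30 : (10 : ℝ) ^ 30 ≤ k := (le_max_left _ _).trans hk'
  have hk'' := (le_max_right _ _).trans hk'
  have hk400 : (2 : ℝ) ^ 400 ≤ k := (le_max_left _ _).trans hk''
  have hkL : (L0 : ℝ) ≤ k := (le_max_right _ _).trans hk''
  have hk6 : (10 : ℝ) ^ 6 ≤ k := le_trans (by norm_num) hk30
  have hk9 : (10 : ℝ) ^ 9 ≤ k := le_trans (by norm_num) hk30
  have hk1 : (1 : ℝ) ≤ k := le_trans (by norm_num) hk30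
  have hksq : (16000 : ℝ) ^ 2 ≤ k := le_trans (by norm_num) hk30
  set q : ℕ → ℕ → ℝ≥0∞ := fun N D => volume (Qs k N (600 + (D0 + 1) + D)) with hq
  -- each pair of classes
  have hpair : ∀ D D' : ℕ, volume (Bs k M (600 + (D0 + 1) + D) ∩
      Prod.swap ⁻¹' (Bs k M' (600 + (D0 + 1) + D'))) ≤ 10 ^ 7 * (q M D * q M' D') := by
    intro D D'
    have hone : ∀ N D : ℕ, ∀ a b : ℝ, pr (a, b) ∈ Bs k N (600 + (D0 + 1) + D) →
        ∃ n', Core.Adm k (k ^ (600 + (D0 + 1) + D)) a b n' ∧ ∀ l s : ℝ,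
          (∀ m ≤ n', Lam0.nf k a b m ≤ 2 * Lam0.nf k l s m ∧ Lam0.nf k l s m ≤ 2 * Lam0.nf k a b m) →
          pr (l, s) ∈ Qs k N (600 + (D0 + 1) + D) := by
      rintro N D a b ⟨n', h⟩
      exact ⟨n', h.adm, fun l s hc => h.strip hk9 (by omega) hc⟩
    exact hP k hkK (k ^ (600 + (D0 + 1) + D)) (k ^ (600 + (D0 + 1) + D'))
      (pow_le_pow_right₀ hk1 (by omega)) (pow_le_pow_right₀ hk1 (by omega)) _ _ _ _
      (measurable_Qs _ _ _) (measurable_Qs _ _ _) (hone M D) (hone M' D')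
  have hcov : Skel.Rc k L0 M ∩ Skel.bw (Skel.Rc k L0 M') ⊆ ⋃ D : ℕ, ⋃ D' : ℕ,
      (Bs k M (600 + (D0 + 1) + D) ∩ Prod.swap ⁻¹' (Bs k M' (600 + (D0 + 1) + D'))) := by
    rintro z ⟨h1, h2⟩
    obtain ⟨D, hD⟩ := classify_Rc hk30 hL0 hkL h1
    obtain ⟨D', hD'⟩ := classify_Rc hk30 hL0 hkL (show z.swap ∈ Skel.Rc k L0 M' from h2)
    rw [Set.mem_iUnion]
    refine ⟨D, ?_⟩
    rw [Set.mem_iUnion]
    exact ⟨D', hD, hD'⟩
  calc volume (Skel.Rc k L0 M ∩ Skel.bw (Skel.Rc k L0 M'))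
      ≤ ∑' D : ℕ, ∑' D' : ℕ, 10 ^ 7 * (q M D * q M' D') := by
        refine (measure_mono hcov).trans ((measure_iUnion_le _).trans (ENNReal.tsum_le_tsum fun D => ?_))
        exact (measure_iUnion_le _).trans (ENNReal.tsum_le_tsum fun D' => hpair D D')
    _ = 10 ^ 7 * ((∑' D, q M D) * ∑' D', q M' D') := by
        simp_rw [ENNReal.tsum_mul_left]
        rw [ENNReal.tsum_mul_right]
    _ ≤ 10 ^ 7 * ((2 * (ENNReal.ofReal (Skel.e k) + Skel.rho k D0 M)) *
          (2 * (ENNReal.ofReal (Skel.e k) + Skel.rho k D0 M'))) := by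
        gcongr
        · exact tsum_Qs hk6 hk400 hksq D0 M
        · exact tsum_Qs hk6 hk400 hksq D0 M'
    _ = _ := by
        push_cast
        ring

end Crest.Agent.R128.Cls287
end

-- ▼ part R128/Prod
section
/-!
Row 128, node V34-PROD (helper815): product of stable and unstable strips.
A set `B₁` whose points carry stable strips (graphs over the first coordinate) and a set `B₂` whose
points carry unstable strips (graphs over the second coordinate), both with the coherence property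
of CORE2, satisfy `vol (B₁ ∩ B₂) ≤ C vol Q₁ vol Q₂`.
-/
set_option autoImplicit false
open MeasureTheory Set
open scoped ENNReal
namespace Crest.Agent.R128.Prod

/-- strip of half width `u` around the graph of `f` over `[a, b]` -/
def strip (a b : ℝ) (f : ℝ → ℝ) (u : ℝ) : Set (ℝ × ℝ) := {p | p.1 ∈ Icc a b ∧ |p.2 - f p.1| ≤ u}

theorem isClosed_strip {a b : ℝ} {f : ℝ → ℝ} (hf : Continuous f) (u : ℝ) :
    IsClosed (strip a b f u) := by
  have h1 : IsClosed {p : ℝ × ℝ | p.1 ∈ Icc a b} := isClosed_Icc.preimage continuous_fst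
  have h2 : IsClosed {p : ℝ × ℝ | |p.2 - f p.1| ≤ u} :=
    isClosed_le ((continuous_snd.sub (hf.comp continuous_fst)).abs) continuous_const
  exact h1.inter h2

theorem volume_strip {a b : ℝ} (hab : a ≤ b) {f : ℝ → ℝ} (hf : Continuous f) {u : ℝ} (hu : 0 ≤ u) :
    volume (strip a b f u) = ENNReal.ofReal ((b - a) * (2 * u)) := by
  rw [Measure.volume_eq_prod, Measure.prod_apply (isClosed_strip hf u).measurableSet]
  have h : ∀ x : ℝ, volume (Prod.mk x ⁻¹' strip a b f u) =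
      (Icc a b).indicator (fun _ => ENNReal.ofReal (2 * u)) x := by
    intro x
    by_cases hx : x ∈ Icc a b
    · rw [indicator_of_mem hx]
      have : Prod.mk x ⁻¹' strip a b f u = Icc (f x - u) (f x + u) := by
        ext y
        constructor
        · rintro ⟨_, h2⟩
          have h3 := abs_le.1 h2
          have h4 : -u ≤ y - f x := h3.1
          have h5 : y - f x ≤ u := h3.2
          exact ⟨by linarith, by linarith⟩
        · rintro ⟨h1, h2⟩
          refine ⟨hx, abs_le.2 ⟨?_, ?_⟩⟩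
          · show -u ≤ y - f x
            linarith
          · show y - f x ≤ u
            linarith
      rw [this, Real.volume_Icc]
      congr 1; ring
    · rw [indicator_of_notMem hx]
      have : Prod.mk x ⁻¹' strip a b f u = ∅ := by
        ext y
        simp only [mem_empty_iff_false, iff_false]
        exact fun h => hx h.1
      rw [this, measure_empty]
  simp_rw [h]
  rw [lintegral_indicator measurableSet_Icc, setLIntegral_const, Real.volume_Icc,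
    mul_comm, ← ENNReal.ofReal_mul (by linarith)]

/-- two transversal strips: case of the thinner first strip -/
theorem cross_aux {f g : ℝ → ℝ} (hf : ∀ x y, |f x - f y| ≤ 1 / 8 * |x - y|)
    (hg : ∀ x y, |g x - g y| ≤ 1 / 8 * |x - y|) {u v : ℝ} (hu : 0 ≤ u) (huv : u ≤ v) :
    volume {p : ℝ × ℝ | |p.2 - f p.1| ≤ u ∧ |p.1 - g p.2| ≤ v} ≤ ENNReal.ofReal (10 * u * v) := by
  rcases eq_empty_or_nonempty {p : ℝ × ℝ | |p.2 - f p.1| ≤ u ∧ |p.1 - g p.2| ≤ v} with h | ⟨q, hq⟩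
  · rw [h, measure_empty]; exact zero_le
  have hv : 0 ≤ v := hu.trans huv
  have hfc : Continuous f := by
    have : LipschitzWith (1 / 8 : NNReal) f := by
      refine LipschitzWith.of_dist_le_mul fun x y => ?_
      rw [Real.dist_eq, Real.dist_eq]
      simpa using hf x y
    exact this.continuous
  have hsub : {p : ℝ × ℝ | |p.2 - f p.1| ≤ u ∧ |p.1 - g p.2| ≤ v} ⊆
      strip (q.1 - 5 / 2 * v) (q.1 + 5 / 2 * v) f u := by
    rintro p ⟨hp1, hp2⟩
    obtain ⟨hq1, hq2⟩ := hq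
    refine ⟨?_, hp1⟩
    have a1 : |p.2 - q.2| ≤ 2 * u + 1 / 8 * |p.1 - q.1| := by
      have := hf p.1 q.1
      have e : p.2 - q.2 = (p.2 - f p.1) - (q.2 - f q.1) + (f p.1 - f q.1) := by ring
      rw [e]
      calc _ ≤ |(p.2 - f p.1) - (q.2 - f q.1)| + |f p.1 - f q.1| := abs_add_le _ _
        _ ≤ |p.2 - f p.1| + |q.2 - f q.1| + |f p.1 - f q.1| := by gcongr; exact abs_sub _ _
        _ ≤ _ := by linarith
    have a2 : |p.1 - q.1| ≤ 2 * v + 1 / 8 * |p.2 - q.2| := by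
      have := hg p.2 q.2
      have e : p.1 - q.1 = (p.1 - g p.2) - (q.1 - g q.2) + (g p.2 - g q.2) := by ring
      rw [e]
      calc _ ≤ |(p.1 - g p.2) - (q.1 - g q.2)| + |g p.2 - g q.2| := abs_add_le _ _
        _ ≤ |p.1 - g p.2| + |q.1 - g q.2| + |g p.2 - g q.2| := by gcongr; exact abs_sub _ _
        _ ≤ _ := by linarith
    have a3 : |p.1 - q.1| ≤ 5 / 2 * v := by linarith
    rw [abs_le] at a3
    constructor <;> linarith [a3.1, a3.2]
  refine (measure_mono hsub).trans ?_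
  rw [volume_strip (by linarith) hfc hu]
  apply ENNReal.ofReal_le_ofReal
  nlinarith

theorem volume_cross {f g : ℝ → ℝ} (hf : ∀ x y, |f x - f y| ≤ 1 / 8 * |x - y|)
    (hg : ∀ x y, |g x - g y| ≤ 1 / 8 * |x - y|) {u v : ℝ} (hu : 0 ≤ u) (hv : 0 ≤ v) :
    volume {p : ℝ × ℝ | |p.2 - f p.1| ≤ u ∧ |p.1 - g p.2| ≤ v} ≤ ENNReal.ofReal (10 * u * v) := by
  rcases le_total u v with h | h
  · exact cross_aux hf hg hu h
  have hc : ∀ f : ℝ → ℝ, (∀ x y, |f x - f y| ≤ 1 / 8 * |x - y|) → Continuous f := by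
    intro f hf
    have : LipschitzWith (1 / 8 : NNReal) f := by
      refine LipschitzWith.of_dist_le_mul fun x y => ?_
      rw [Real.dist_eq, Real.dist_eq]
      simpa using hf x y
    exact this.continuous
  have hcl : IsClosed {p : ℝ × ℝ | |p.2 - g p.1| ≤ v ∧ |p.1 - f p.2| ≤ u} := by
    apply IsClosed.and
    · exact isClosed_le ((continuous_snd.sub ((hc g hg).comp continuous_fst)).abs) continuous_const
    · exact isClosed_le ((continuous_fst.sub ((hc f hf).comp continuous_snd)).abs) continuous_const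
  have hms : MeasurePreserving (Prod.swap : ℝ × ℝ → ℝ × ℝ) volume volume :=
    Measure.measurePreserving_swap
  have e : {p : ℝ × ℝ | |p.2 - f p.1| ≤ u ∧ |p.1 - g p.2| ≤ v} =
      Prod.swap ⁻¹' {p : ℝ × ℝ | |p.2 - g p.1| ≤ v ∧ |p.1 - f p.2| ≤ u} := by
    ext p
    exact and_comm
  rw [e, hms.measure_preimage hcl.measurableSet.nullMeasurableSet]
  refine (cross_aux hg hf hv h).trans ?_
  apply ENNReal.ofReal_le_ofReal
  nlinarith

/-- maximal separated family of strips -/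
theorem exists_cover {ι : Type*} (S : Set ι) (σ : ι → ℝ → ℝ) (hσ : ∀ z ∈ S, Continuous (σ z))
    {r : ℝ} (hr : 0 < r) {G : Set (ℝ × ℝ)} (hGfin : volume G ≠ ⊤)
    (hsub : ∀ z ∈ S, strip 0 1 (σ z) r ⊆ G) :
    ∃ F : Finset ι, (∀ z ∈ F, z ∈ S) ∧ (F.card : ℝ≥0∞) * ENNReal.ofReal (2 * r) ≤ volume G ∧
      ∀ z ∈ S, ∃ w ∈ F, ∃ l ∈ Icc (0 : ℝ) 1, |σ z l - σ w l| ≤ 2 * r := by
  classical
  set P : Finset ι → Prop := fun F => (∀ z ∈ F, z ∈ S) ∧
    ∀ z ∈ F, ∀ w ∈ F, z ≠ w → ∀ l ∈ Icc (0 : ℝ) 1, 2 * r < |σ z l - σ w l| with hP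
  have hcard : ∀ F, P F → (F.card : ℝ≥0∞) * ENNReal.ofReal (2 * r) ≤ volume G := by
    rintro F ⟨h1, h2⟩
    have hdisj : (F : Set ι).PairwiseDisjoint fun z => strip 0 1 (σ z) r := by
      intro z hz w hw hzw
      rw [Function.onFun, Set.disjoint_left]
      rintro p ⟨hp1, hp2⟩ ⟨_, hp3⟩
      have := h2 z hz w hw hzw p.1 hp1
      have e : σ z p.1 - σ w p.1 = (p.2 - σ w p.1) - (p.2 - σ z p.1) := by ring
      rw [e] at this
      have := this.trans_le (abs_sub _ _)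
      linarith
    have hu := measure_biUnion_finset (μ := (volume : Measure (ℝ × ℝ))) hdisj
      fun z hz => (isClosed_strip (hσ z (h1 z hz)) r).measurableSet
    have hle : volume (⋃ z ∈ F, strip 0 1 (σ z) r) ≤ volume G :=
      measure_mono (iUnion₂_subset fun z hz => hsub z (h1 z hz))
    rw [hu, Finset.sum_congr rfl fun z hz => volume_strip (by norm_num : (0 : ℝ) ≤ 1)
      (hσ z (h1 z hz)) hr.le] at hle
    simpa using hle
  have hne : P ∅ := ⟨by simp, by simp⟩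
  have hbdd : ∃ M : ℕ, ∀ F, P F → F.card ≤ M := by
    have hr2 : ENNReal.ofReal (2 * r) ≠ 0 := by
      simp [ENNReal.ofReal_eq_zero]; linarith
    refine ⟨⌈(volume G / ENNReal.ofReal (2 * r)).toReal⌉₊, fun F hF => ?_⟩
    have h1 := hcard F hF
    have h2 : (F.card : ℝ≥0∞) ≤ volume G / ENNReal.ofReal (2 * r) :=
      (ENNReal.le_div_iff_mul_le (Or.inl hr2) (Or.inl ENNReal.ofReal_ne_top)).2 h1
    have h3 : volume G / ENNReal.ofReal (2 * r) ≠ ⊤ := ENNReal.div_ne_top hGfin hr2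
    have h4 : (F.card : ℝ) ≤ (volume G / ENNReal.ofReal (2 * r)).toReal := by
      have := ENNReal.toReal_mono h3 h2
      simpa using this
    have h5 := h4.trans (Nat.le_ceil _)
    exact_mod_cast h5
  obtain ⟨M, hM⟩ := hbdd
  obtain ⟨F, hF, hmax⟩ : ∃ F, P F ∧ ∀ F', P F' → F'.card ≤ F.card := by
    by_contra hcon
    push Not at hcon
    have : ∀ n : ℕ, ∃ F, P F ∧ n ≤ F.card := by
      intro n
      induction n with
      | zero => exact ⟨∅, hne, by simp⟩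
      | succ n ih =>
        obtain ⟨F, hF, hn⟩ := ih
        obtain ⟨F', hF', hlt⟩ := hcon F hF
        exact ⟨F', hF', by omega⟩
    obtain ⟨F, hF, hn⟩ := this (M + 1)
    have := hM F hF
    omega
  refine ⟨F, hF.1, hcard F hF, fun z hz => ?_⟩
  by_cases hzF : z ∈ F
  · exact ⟨z, hzF, 0, by simp, by simp; linarith⟩
  by_contra hcon
  push Not at hcon
  have hP' : P (insert z F) := by
    refine ⟨fun w hw => ?_, fun a ha b hb hab l hl => ?_⟩
    · rcases Finset.mem_insert.1 hw with rfl | hw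
      · exact hz
      · exact hF.1 w hw
    · rcases Finset.mem_insert.1 ha with rfl | ha
      · rcases Finset.mem_insert.1 hb with rfl | hb
        · exact absurd rfl hab
        · exact hcon b hb l hl
      · rcases Finset.mem_insert.1 hb with hbz | hb
        · rw [hbz, abs_sub_comm]; exact hcon a ha l hl
        · exact hF.2 a ha b hb hab l hl
  have := hmax _ hP'
  rw [Finset.card_insert_of_notMem hzF] at this
  omega

/-- points of `S` (in `[0,1] × ℝ`) with coherent strips of half width `r` inside `G` -/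
structure Fam (S : Set (ℝ × ℝ)) (σ : ℝ × ℝ → ℝ → ℝ) (r K : ℝ) (G : Set (ℝ × ℝ)) : Prop where
  mem : ∀ z ∈ S, z.1 ∈ Icc (0 : ℝ) 1
  base : ∀ z ∈ S, σ z z.1 = z.2
  lip : ∀ z ∈ S, ∀ x ∈ Icc (0 : ℝ) 1, ∀ y ∈ Icc (0 : ℝ) 1, |σ z x - σ z y| ≤ 1 / 8 * |x - y|
  sub : ∀ z ∈ S, ∀ l ∈ Icc (0 : ℝ) 1, ∀ s, |s - σ z l| ≤ r → (l, s) ∈ G
  coh : ∀ z ∈ S, ∀ w ∈ S, ∀ l ∈ Icc (0 : ℝ) 1, ∀ l' ∈ Icc (0 : ℝ) 1,
    |σ z l - σ w l| ≤ 2 * r → |σ z l' - σ w l'| ≤ K * r

/-- clamp to `[0,1]` -/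
noncomputable def cl (x : ℝ) : ℝ := max 0 (min x 1)

theorem cl_mem (x : ℝ) : cl x ∈ Icc (0 : ℝ) 1 := by
  unfold cl; constructor
  · exact le_max_left _ _
  · exact max_le (by norm_num) (min_le_right _ _)

theorem cl_of_mem {x : ℝ} (h : x ∈ Icc (0 : ℝ) 1) : cl x = x := by
  unfold cl; rw [min_eq_left h.2, max_eq_right h.1]

theorem cl_lip (x y : ℝ) : |cl x - cl y| ≤ |x - y| := by
  unfold cl
  refine (abs_max_sub_max_le_max _ _ _ _).trans ?_
  refine max_le (by simp) ?_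
  refine (abs_min_sub_min_le_max _ _ _ _).trans ?_
  exact max_le le_rfl (by simp)

/-- the finite cover of `S` by the `K r`-strips of a separated family -/
theorem Fam.cover {S : Set (ℝ × ℝ)} {σ : ℝ × ℝ → ℝ → ℝ} {r K : ℝ} {G : Set (ℝ × ℝ)}
    (h : Fam S σ r K G) (hr : 0 < r) (hG : volume G ≠ ⊤) :
    ∃ F : Finset (ℝ × ℝ), (∀ z ∈ F, z ∈ S) ∧
      (F.card : ℝ≥0∞) * ENNReal.ofReal (2 * r) ≤ volume G ∧
      ∀ z ∈ S, ∃ w ∈ F, |z.2 - σ w (cl z.1)| ≤ K * r := by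
  obtain ⟨F, h1, h2, h3⟩ := exists_cover S (fun z x => σ z (cl x)) (fun z hz => by
    have : LipschitzWith (1 / 8 : NNReal) (fun x => σ z (cl x)) := by
      refine LipschitzWith.of_dist_le_mul fun x y => ?_
      rw [Real.dist_eq, Real.dist_eq]
      have := h.lip z hz _ (cl_mem x) _ (cl_mem y)
      have h2 := cl_lip x y
      have h3 : |σ z (cl x) - σ z (cl y)| ≤ 1 / 8 * |x - y| := by linarith
      simpa using h3
    exact this.continuous) hr hG (fun z hz => by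
      rintro ⟨l, s⟩ ⟨hl, hs⟩
      simp only [cl_of_mem hl] at hs
      exact h.sub z hz l hl s hs)
  refine ⟨F, h1, h2, fun z hz => ?_⟩
  obtain ⟨w, hw, l, hl, hlw⟩ := h3 z hz
  refine ⟨w, hw, ?_⟩
  simp only [cl_of_mem hl] at hlw
  have := h.coh z hz w (h1 w hw) l hl z.1 (h.mem z hz) hlw
  rw [h.base z hz] at this
  rw [cl_of_mem (h.mem z hz)]
  exact this

/-- **Product of strips, plane version.** -/
theorem Fam.prod {S₁ S₂ : Set (ℝ × ℝ)} {σ₁ σ₂ : ℝ × ℝ → ℝ → ℝ} {r₁ r₂ K : ℝ}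
    {G₁ G₂ : Set (ℝ × ℝ)} (h₁ : Fam S₁ σ₁ r₁ K G₁) (h₂ : Fam S₂ σ₂ r₂ K G₂) (hr₁ : 0 < r₁)
    (hr₂ : 0 < r₂) (hK : 0 ≤ K) (hG₁ : volume G₁ ≠ ⊤) (hG₂ : volume G₂ ≠ ⊤) :
    ∃ U : Set (ℝ × ℝ), MeasurableSet U ∧ S₁ ∩ Prod.swap ⁻¹' S₂ ⊆ U ∧
      volume U ≤ ENNReal.ofReal (5 / 2 * K ^ 2) * (volume G₁ * volume G₂) := by
  obtain ⟨F₁, a1, a2, a3⟩ := h₁.cover hr₁ hG₁
  obtain ⟨F₂, b1, b2, b3⟩ := h₂.cover hr₂ hG₂
  have L₁ : ∀ z ∈ F₁, ∀ x y, |σ₁ z (cl x) - σ₁ z (cl y)| ≤ 1 / 8 * |x - y| := fun z hz x y => by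
    have := h₁.lip z (a1 z hz) _ (cl_mem x) _ (cl_mem y)
    have h2 := cl_lip x y
    linarith
  have L₂ : ∀ z ∈ F₂, ∀ x y, |σ₂ z (cl x) - σ₂ z (cl y)| ≤ 1 / 8 * |x - y| := fun z hz x y => by
    have := h₂.lip z (b1 z hz) _ (cl_mem x) _ (cl_mem y)
    have h2 := cl_lip x y
    linarith
  have hc : ∀ f : ℝ → ℝ, (∀ x y, |f x - f y| ≤ 1 / 8 * |x - y|) → Continuous f := by
    intro f hf
    have : LipschitzWith (1 / 8 : NNReal) f := by
      refine LipschitzWith.of_dist_le_mul fun x y => ?_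
      rw [Real.dist_eq, Real.dist_eq]
      simpa using hf x y
    exact this.continuous
  set A : (ℝ × ℝ) → (ℝ × ℝ) → Set (ℝ × ℝ) := fun z w =>
    {p : ℝ × ℝ | |p.2 - σ₁ z (cl p.1)| ≤ K * r₁ ∧ |p.1 - σ₂ w (cl p.2)| ≤ K * r₂} with hA
  refine ⟨⋃ z ∈ F₁, ⋃ w ∈ F₂, A z w, ?_, ?_, ?_⟩
  · refine Finset.measurableSet_biUnion _ fun z hz => Finset.measurableSet_biUnion _ fun w hw => ?_
    refine IsClosed.measurableSet (IsClosed.and ?_ ?_)
    · exact isClosed_le ((continuous_snd.sub ((hc (fun x => σ₁ z (cl x)) (L₁ z hz)).comp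
        continuous_fst)).abs) continuous_const
    · exact isClosed_le ((continuous_fst.sub ((hc (fun x => σ₂ w (cl x)) (L₂ w hw)).comp
        continuous_snd)).abs) continuous_const
  · rintro p ⟨hp1, hp2⟩
    obtain ⟨z, hz, hz'⟩ := a3 p hp1
    obtain ⟨w, hw, hw'⟩ := b3 p.swap hp2
    exact mem_iUnion₂.2 ⟨z, hz, mem_iUnion₂.2 ⟨w, hw, hz', by simpa using hw'⟩⟩
  · calc volume (⋃ z ∈ F₁, ⋃ w ∈ F₂, A z w)
        ≤ ∑ z ∈ F₁, volume (⋃ w ∈ F₂, A z w) := measure_biUnion_finset_le _ _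
      _ ≤ ∑ z ∈ F₁, ∑ w ∈ F₂, volume (A z w) :=
          Finset.sum_le_sum fun z _ => measure_biUnion_finset_le _ _
      _ ≤ ∑ z ∈ F₁, ∑ w ∈ F₂, ENNReal.ofReal (10 * (K * r₁) * (K * r₂)) :=
          Finset.sum_le_sum fun z hz => Finset.sum_le_sum fun w hw =>
            volume_cross (L₁ z hz) (L₂ w hw) (by positivity) (by positivity)
      _ = ENNReal.ofReal (5 / 2 * K ^ 2) * (((F₁.card : ℝ≥0∞) * ENNReal.ofReal (2 * r₁)) *
            ((F₂.card : ℝ≥0∞) * ENNReal.ofReal (2 * r₂))) := by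
          have e : ENNReal.ofReal (10 * (K * r₁) * (K * r₂)) = ENNReal.ofReal (5 / 2 * K ^ 2) *
              (ENNReal.ofReal (2 * r₁) * ENNReal.ofReal (2 * r₂)) := by
            rw [← ENNReal.ofReal_mul (by positivity), ← ENNReal.ofReal_mul (by positivity)]
            congr 1; ring
          simp only [Finset.sum_const, nsmul_eq_mul, e]
          ring
      _ ≤ _ := by gcongr

end Crest.Agent.R128.Prod
end

-- ▼ part R128/Strip
section

/-!
# Row 128, node V4-STRIPS (helper953): double covering by separated strips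

No lags, no thresholds, no disintegration: every point `z` of the class `B` has its own unit curve
`l ↦ Y z l`; a maximal family of pairwise disjoint strips of width `r` has area at most the area of the
relaxed class, and by coherence the strips of width `K r` cover `B`.
-/

set_option autoImplicit false

open MeasureTheory Set Topology Filter
open scoped ENNReal NNReal

namespace Crest.Agent.R128.Strip




theorem measurable_pr : Measurable pr := by
  unfold pr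
  exact (AddCircle.measurable_mk'.comp measurable_fst).prodMk (AddCircle.measurable_mk'.comp measurable_snd)

/-- one cell -/
theorem volume_cell {B : Set Tor} (hB : MeasurableSet B) (a b : ℝ) :
    volume {z : ℝ × ℝ | (z.1 ∈ Set.Ioc a (a + 1) ∧ z.2 ∈ Set.Ioc b (b + 1)) ∧ pr z ∈ B} = volume B := by
  have h1 := UnitAddCircle.measurePreserving_mk a
  have h2 := UnitAddCircle.measurePreserving_mk b
  have h3 := h1.prod h2
  have h4 := h3.measure_preimage (s := B) (by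
    rw [← Measure.volume_eq_prod]; exact hB.nullMeasurableSet)
  rw [← Measure.volume_eq_prod, Measure.prod_restrict] at h4
  have e : (Prod.map (fun a : ℝ => (a : UnitAddCircle)) (fun a : ℝ => (a : UnitAddCircle))) = pr := rfl
  rw [Measure.restrict_apply (by rw [e]; exact measurable_pr hB)] at h4
  rw [← h4, e]
  congr 1
  ext z
  simp only [Set.mem_ofPred_eq, Set.mem_inter_iff, Set.mem_preimage, Set.mem_prod]
  tauto

/-- the box of nine cells -/
theorem volume_box {B : Set Tor} (hB : MeasurableSet B) :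
    volume {z : ℝ × ℝ | (z.1 ∈ Set.Ioc (-1 : ℝ) 2 ∧ z.2 ∈ Set.Ioc (-1 : ℝ) 2) ∧ pr z ∈ B} ≤ 9 * volume B := by
  have hsub : {z : ℝ × ℝ | (z.1 ∈ Set.Ioc (-1 : ℝ) 2 ∧ z.2 ∈ Set.Ioc (-1 : ℝ) 2) ∧ pr z ∈ B} ⊆
      ⋃ i : Fin 3, ⋃ j : Fin 3, {z : ℝ × ℝ | (z.1 ∈ Set.Ioc (((i : ℕ) : ℝ) - 1) (((i : ℕ) : ℝ) - 1 + 1) ∧
        z.2 ∈ Set.Ioc (((j : ℕ) : ℝ) - 1) (((j : ℕ) : ℝ) - 1 + 1)) ∧ pr z ∈ B} := by
    have key : ∀ x : ℝ, x ∈ Set.Ioc (-1 : ℝ) 2 → ∃ i : Fin 3, x ∈ Set.Ioc (((i : ℕ) : ℝ) - 1) (((i : ℕ) : ℝ) - 1 + 1) := by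
      intro x hx
      rcases le_or_gt x 0 with h | h
      · exact ⟨0, by constructor <;> norm_num <;> linarith [hx.1]⟩
      rcases le_or_gt x 1 with h' | h'
      · exact ⟨1, by constructor <;> norm_num <;> linarith⟩
      · exact ⟨2, by constructor <;> norm_num <;> linarith [hx.2]⟩
    rintro z ⟨⟨h1, h2⟩, h3⟩
    obtain ⟨i, hi⟩ := key _ h1
    obtain ⟨j, hj⟩ := key _ h2
    exact Set.mem_iUnion.2 ⟨i, Set.mem_iUnion.2 ⟨j, ⟨hi, hj⟩, h3⟩⟩
  refine (measure_mono hsub).trans ((measure_iUnion_le _).trans ?_)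
  calc ∑' i : Fin 3, volume (⋃ j : Fin 3, {z : ℝ × ℝ | (z.1 ∈ Set.Ioc (((i : ℕ) : ℝ) - 1) (((i : ℕ) : ℝ) - 1 + 1) ∧
        z.2 ∈ Set.Ioc (((j : ℕ) : ℝ) - 1) (((j : ℕ) : ℝ) - 1 + 1)) ∧ pr z ∈ B})
      ≤ ∑' _i : Fin 3, ∑' _j : Fin 3, volume B := by
        apply ENNReal.tsum_le_tsum
        intro i
        refine (measure_iUnion_le _).trans (ENNReal.tsum_le_tsum fun j => ?_)
        rw [volume_cell hB]
    _ = 9 * volume B := by
        rw [tsum_fintype, tsum_fintype]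
        simp only [Finset.sum_const, Finset.card_univ, Fintype.card_fin, nsmul_eq_mul]
        rw [← mul_assoc]
        norm_num


end Crest.Agent.R128.Strip
end

-- ▼ part R128/ProdT
/-!
Row 128, node V34-PROD (helper815), torus version on `Core.CoreStmt2`.
-/
set_option autoImplicit false
open MeasureTheory Set
open scoped ENNReal
namespace Crest.Agent.R128.Prod

open Crest.Agent.R128.Lam0 Crest.Agent.R128.Core

/-- measurable section of `pr` with values in the unit square -/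
noncomputable def sec (p : Tor) : ℝ × ℝ :=
  ((AddCircle.measurableEquivIco 1 0 p.1 : ℝ), (AddCircle.measurableEquivIco 1 0 p.2 : ℝ))

theorem measurable_sec : Measurable sec := by
  refine Measurable.prodMk ?_ ?_
  · exact measurable_subtype_coe.comp ((AddCircle.measurableEquivIco 1 0).measurable.comp measurable_fst)
  · exact measurable_subtype_coe.comp ((AddCircle.measurableEquivIco 1 0).measurable.comp measurable_snd)

theorem coe_equivIco (x : UnitAddCircle) :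
    (((AddCircle.measurableEquivIco 1 0 x : ℝ)) : UnitAddCircle) = x :=
  (AddCircle.equivIco (1 : ℝ) 0).symm_apply_apply x

theorem pr_sec (p : Tor) : pr (sec p) = p := by
  unfold pr sec
  rw [coe_equivIco, coe_equivIco]

theorem sec_mem (p : Tor) : sec p ∈ Q := by
  have h1 := (AddCircle.measurableEquivIco (1 : ℝ) 0 p.1).2
  have h2 := (AddCircle.measurableEquivIco (1 : ℝ) 0 p.2).2
  exact ⟨⟨h1.1, h1.2.trans_eq (zero_add 1)⟩, ⟨h2.1, h2.2.trans_eq (zero_add 1)⟩⟩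

theorem sec_pr {z : ℝ × ℝ} (hz : z ∈ Q) : sec (pr z) = z := by
  have h : ∀ x : ℝ, x ∈ Ico (0 : ℝ) 1 → (AddCircle.measurableEquivIco 1 0 (x : UnitAddCircle) : ℝ) = x := by
    intro x hx
    have hx' : x ∈ Ico (0 : ℝ) (0 + 1) := by rwa [zero_add]
    have := (AddCircle.equivIco (1 : ℝ) 0).apply_symm_apply ⟨x, hx'⟩
    exact congrArg Subtype.val this
  unfold sec pr
  exact Prod.ext (h z.1 hz.1) (h z.2 hz.2)

/-- a set of the torus whose lifts in the unit square lie in a measurable set `U` -/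
theorem volume_le_of_lift {A : Set Tor} {U : Set (ℝ × ℝ)} (hU : MeasurableSet U)
    (h : ∀ z ∈ Q, pr z ∈ A → z ∈ U) : volume A ≤ volume U := by
  have h1 : A ⊆ sec ⁻¹' U := fun p hp => h (sec p) (sec_mem p) (by rwa [pr_sec])
  have hm : MeasurableSet (sec ⁻¹' U) := measurable_sec hU
  calc volume A ≤ volume (sec ⁻¹' U) := measure_mono h1
    _ = (volume.restrict Q) (pr ⁻¹' (sec ⁻¹' U)) :=
        (mp_pr.measure_preimage hm.nullMeasurableSet).symm
    _ = volume (pr ⁻¹' (sec ⁻¹' U) ∩ Q) :=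
        Measure.restrict_apply (Strip.measurable_pr hm)
    _ ≤ volume U := by
        refine measure_mono ?_
        rintro z ⟨hz1, hz2⟩
        have : sec (pr z) ∈ U := hz1
        rwa [sec_pr hz2] at this

/-- the relaxed set lifted to the box of nine cells -/
def box (Q' : Set Tor) : Set (ℝ × ℝ) :=
  {z | (z.1 ∈ Ioc (-1 : ℝ) 2 ∧ z.2 ∈ Ioc (-1 : ℝ) 2) ∧ pr z ∈ Q'}

theorem fam_of_core {k X r : ℝ} {σ : ℝ → ℝ → ℕ → ℝ → ℝ} (hr : 0 < r) (hr1 : r ≤ 1)
    (h1 : ∀ a b n', Adm k X a b n' → σ a b n' a = b ∧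
      (∀ l l', |l - a| ≤ 1 → |l' - a| ≤ 1 → |σ a b n' l - σ a b n' l'| ≤ 1 / 8 * |l - l'|) ∧
      (∀ l s, |l - a| ≤ 1 → |s - σ a b n' l| ≤ r → ∀ m ≤ n',
        nf k a b m ≤ 2 * nf k l s m ∧ nf k l s m ≤ 2 * nf k a b m))
    (h2 : ∀ a b n' a2 b2 n2', Adm k X a b n' → Adm k X a2 b2 n2' → ∀ l l' ρ,
      |l - a| ≤ 1 → |l - a2| ≤ 1 → |l' - a| ≤ 1 → |l' - a2| ≤ 1 → r / 10 ^ 4 ≤ ρ → ρ ≤ 2 * r →
      |σ a b n' l - σ a2 b2 n2' l| ≤ ρ → |σ a b n' l' - σ a2 b2 n2' l'| ≤ 50 * ρ)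
    {B Q' : Set Tor} {N : ℝ → ℝ → ℕ}
    (hB : ∀ a b : ℝ, pr (a, b) ∈ B → Adm k X a b (N a b) ∧ ∀ l s : ℝ,
      (∀ m ≤ N a b, nf k a b m ≤ 2 * nf k l s m ∧ nf k l s m ≤ 2 * nf k a b m) → pr (l, s) ∈ Q') :
    Fam {z | z ∈ Q ∧ pr z ∈ B} (fun z => σ z.1 z.2 (N z.1 z.2)) (r / 2) 100 (box Q') := by
  have hd : ∀ {x y : ℝ}, x ∈ Icc (0 : ℝ) 1 → y ∈ Icc (0 : ℝ) 1 → |x - y| ≤ 1 := by
    intro x y hx hy
    rw [abs_le]
    constructor <;> linarith [hx.1, hx.2, hy.1, hy.2]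
  have hI : ∀ {z : ℝ × ℝ}, z ∈ Q → z.1 ∈ Icc (0 : ℝ) 1 := fun hz => Ico_subset_Icc_self hz.1
  refine ⟨fun z hz => hI hz.1, fun z hz => (h1 _ _ _ (hB z.1 z.2 hz.2).1).1, ?_, ?_, ?_⟩
  · intro z hz x hx y hy
    exact (h1 _ _ _ (hB z.1 z.2 hz.2).1).2.1 x y (hd hx (hI hz.1)) (hd hy (hI hz.1))
  · intro z hz l hl s hs
    have hz1 := hI hz.1
    have hA := hB z.1 z.2 hz.2
    have hc := h1 _ _ _ hA.1
    have e1 : |σ z.1 z.2 (N z.1 z.2) l - z.2| ≤ 1 / 8 := by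
      have := hc.2.1 l z.1 (hd hl hz1) (by simp)
      rw [hc.1] at this
      have h3 := hd hl hz1
      linarith
    have e2 : |s - σ z.1 z.2 (N z.1 z.2) l| ≤ r / 2 := hs
    have hz2 := hz.1.2
    refine ⟨⟨⟨by linarith [hl.1], by linarith [hl.2]⟩, ?_, ?_⟩,
      hA.2 l s fun m hm => hc.2.2 l s (hd hl hz1) (by linarith) m hm⟩
    · rw [abs_le] at e1 e2
      have := hz2.1
      show (-1 : ℝ) < s
      linarith [e1.1, e2.1]
    · rw [abs_le] at e1 e2
      have := hz2.2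
      show s ≤ 2
      linarith [e1.2, e2.2]
  · intro z hz w hw l hl l' hl' h
    have := h2 _ _ _ _ _ _ (hB z.1 z.2 hz.2).1 (hB w.1 w.2 hw.2).1 l l' r (hd hl (hI hz.1))
      (hd hl (hI hw.1)) (hd hl' (hI hz.1)) (hd hl' (hI hw.1)) (by linarith) (by linarith)
      (by linarith)
    linarith

/-- **Product inequality for one pair of classes, from CORE2.** -/
theorem prod_of_core (hC : CoreStmt2) : ∃ K0 : ℝ, ∀ k, K0 ≤ k → ∀ X Y : ℝ, k ^ 600 ≤ X →
    k ^ 600 ≤ Y → ∀ B₁ B₂ Q₁ Q₂ : Set Tor, MeasurableSet Q₁ → MeasurableSet Q₂ →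
    (∀ a b : ℝ, pr (a, b) ∈ B₁ → ∃ n', Adm k X a b n' ∧ ∀ l s : ℝ,
      (∀ m ≤ n', nf k a b m ≤ 2 * nf k l s m ∧ nf k l s m ≤ 2 * nf k a b m) → pr (l, s) ∈ Q₁) →
    (∀ a b : ℝ, pr (a, b) ∈ B₂ → ∃ n', Adm k Y a b n' ∧ ∀ l s : ℝ,
      (∀ m ≤ n', nf k a b m ≤ 2 * nf k l s m ∧ nf k l s m ≤ 2 * nf k a b m) → pr (l, s) ∈ Q₂) →
    volume (B₁ ∩ Prod.swap ⁻¹' B₂) ≤ 10 ^ 7 * (volume Q₁ * volume Q₂) := by
  obtain ⟨K0, hK⟩ := hC
  refine ⟨K0, fun k hk X Y hX hY B₁ B₂ Q₁ Q₂ hQ₁ hQ₂ hB₁ hB₂ => ?_⟩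
  obtain ⟨r₁, hr₁, hr₁', σ₁, h11, h12⟩ := hK k hk X hX
  obtain ⟨r₂, hr₂, hr₂', σ₂, h21, h22⟩ := hK k hk Y hY
  choose! N₁ hN₁ using hB₁
  choose! N₂ hN₂ using hB₂
  have F₁ := fam_of_core hr₁ hr₁' h11 h12 hN₁
  have F₂ := fam_of_core hr₂ hr₂' h21 h22 hN₂
  have v₁ : volume (box Q₁) ≤ 9 * volume Q₁ := Strip.volume_box hQ₁
  have v₂ : volume (box Q₂) ≤ 9 * volume Q₂ := Strip.volume_box hQ₂
  have f₁ : volume (box Q₁) ≠ ⊤ :=
    ne_top_of_le_ne_top (ENNReal.mul_ne_top (by norm_num) (measure_ne_top _ _)) v₁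
  have f₂ : volume (box Q₂) ≠ ⊤ :=
    ne_top_of_le_ne_top (ENNReal.mul_ne_top (by norm_num) (measure_ne_top _ _)) v₂
  obtain ⟨U, hU, hsub, hvol⟩ := F₁.prod F₂ (by linarith) (by linarith) (by norm_num) f₁ f₂
  have hlift : volume (B₁ ∩ Prod.swap ⁻¹' B₂) ≤ volume U := by
    refine volume_le_of_lift hU fun z hz hp => hsub ⟨⟨hz, hp.1⟩, ?_, ?_⟩
    · exact ⟨hz.2, hz.1⟩
    · exact hp.2
  calc volume (B₁ ∩ Prod.swap ⁻¹' B₂) ≤ volume U := hlift
    _ ≤ ENNReal.ofReal (5 / 2 * 100 ^ 2) * (volume (box Q₁) * volume (box Q₂)) := hvol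
    _ ≤ ENNReal.ofReal (5 / 2 * 100 ^ 2) * ((9 * volume Q₁) * (9 * volume Q₂)) := by gcongr
    _ = (ENNReal.ofReal (5 / 2 * 100 ^ 2) * 81) * (volume Q₁ * volume Q₂) := by ring
    _ ≤ 10 ^ 7 * (volume Q₁ * volume Q₂) := by
        gcongr
        have e : ENNReal.ofReal (5 / 2 * 100 ^ 2) = 25000 := by
          rw [show (5 / 2 * 100 ^ 2 : ℝ) = ((25000 : ℕ) : ℝ) by norm_num, ENNReal.ofReal_natCast]
          norm_num
        rw [e]
        norm_num

end Crest.Agent.R128.Prod
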