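import Mathlib
import Crest.Agent.R128.Lam0U

/-!
# Row 128: one start per level, parametric version (helper892)

Clean starts (`Cl k L d z n`: `L` regular digits, no drop below the power `1 - d`, durations at most
`W ^ (d/4)`), all parameters free.  For a fixed time `w` of a fixed orbit the clean starts `n ≤ w - L`
have geometrically growing fields: `card_starts_le`.
-/

set_option autoImplicit false
open MeasureTheory Filter Topology Finset

namespace Crest.Agent.R128.OnePerX

open Crest.Agent.R128.TreeSum Crest.Agent.R128.Acc Crest.Agent.R128.Lam0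

/-- separation at distance `≥ L` bounds the number of points with values in `[x, y]` -/
theorem card_le_of_sep {L : ℕ} {κ : ℝ} (hκ : 0 ≤ κ) {F : ℕ → ℝ} {y : ℝ} (J : ℕ) :
    ∀ (S : Finset ℕ) (x : ℝ), (∀ a ∈ S, ∀ b ∈ S, a + L ≤ b → κ * F b ≤ F a) →
      (∀ a ∈ S, x ≤ F a) → (∀ a ∈ S, F a ≤ y) → y < κ ^ J * x → S.card ≤ L * J := by
  induction J with
  | zero =>
    intro S x _ h1 h2 hJ
    rcases S.eq_empty_or_nonempty with h | ⟨a, ha⟩
    · simp [h]
    · have := (h1 a ha).trans (h2 a ha)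
      simp only [pow_zero, one_mul] at hJ
      linarith
  | succ J ih =>
    intro S x hsep h1 h2 hJ
    rcases S.eq_empty_or_nonempty with h | hne
    · simp [h]
    · set b := S.max' hne with hb
      have hbS : b ∈ S := S.max'_mem hne
      have h3 := ih (S.filter (fun a => a + L ≤ b)) (κ * x)
        (fun a ha c hc hac => hsep a (Finset.mem_filter.1 ha).1 c (Finset.mem_filter.1 hc).1 hac)
        (fun a ha => by
          have ha' := Finset.mem_filter.1 ha
          exact (mul_le_mul_of_nonneg_left (h1 b hbS) hκ).trans (hsep a ha'.1 b hbS ha'.2))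
        (fun a ha => h2 a (Finset.mem_filter.1 ha).1)
        (by rw [pow_succ] at hJ; linarith [mul_assoc (κ ^ J) κ x])
      have h4 : (S.filter (fun a => ¬ a + L ≤ b)).card ≤ L := by
        have : S.filter (fun a => ¬ a + L ≤ b) ⊆ Finset.Ico (b + 1 - L) (b + 1) := by
          intro a ha
          have ha' := Finset.mem_filter.1 ha
          have q1 : a ≤ b := S.le_max' a ha'.1
          have q2 := ha'.2
          rw [Finset.mem_Ico]
          omega
        refine (Finset.card_le_card this).trans ?_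
        rw [Nat.card_Ico]
        omega
      have h5 := Finset.card_filter_add_card_filter_not (s := S) (fun a => a + L ≤ b)
      rw [← h5, Nat.mul_succ]
      omega

/-- norm of the field of the vector `(0,1)` -/
noncomputable def W (k : ℝ) (z : Tor) (m : ℕ) : ℝ := nn (fld k z m)

/-- clean up to time `n` -/
structure Cl (k : ℝ) (L : ℕ) (d : ℝ) (z : Tor) (n : ℕ) : Prop where
  c1 : ∀ m, m < L → k ^ (2 / 3 : ℝ) ≤ |V k ((T k)^[m] z).2|
  c2 : ∀ i j, L ≤ i → i ≤ j → j ≤ n → W k z i ^ (1 - d) ≤ W k z j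
  c3 : ∀ j, L ≤ j → j ≤ n → ∃ i, L ≤ i ∧ i ≤ j ∧ (j : ℝ) ≤ W k z i ^ (d / 4)

theorem W_zero (k : ℝ) (z : Tor) : W k z 0 = 1 := by
  unfold W
  rw [fld_zero]
  unfold nn
  simp


/-- growth along the regular digits -/
theorem base {k : ℝ} {L : ℕ} {z : Tor} {B : ℝ} (hB : 1 ≤ B)
    (h : ∀ m, m < L → B + 1 ≤ |V k ((T k)^[m] z).2|) :
    ∀ m ≤ L, B ^ m ≤ |(fld k z m).2| ∧ |(fld k z m).1| ≤ |(fld k z m).2| := by
  intro m
  induction m with
  | zero =>
    intro _
    rw [fld_zero]
    simp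
  | succ m ih =>
    intro hm
    obtain ⟨h1, h2⟩ := ih (by omega)
    have h3 := h m (by omega)
    rw [fld_succ]
    have e1 : (stp (V k ((T k)^[m] z).2) (fld k z m)).1 = (fld k z m).2 := rfl
    have e2 : (stp (V k ((T k)^[m] z).2) (fld k z m)).2 =
        V k ((T k)^[m] z).2 * (fld k z m).2 - (fld k z m).1 := rfl
    rw [e1, e2]
    have h4 : |V k ((T k)^[m] z).2 * (fld k z m).2| - |(fld k z m).1| ≤
        |V k ((T k)^[m] z).2 * (fld k z m).2 - (fld k z m).1| := abs_sub_abs_le_abs_sub _ _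
    rw [abs_mul] at h4
    have h5 : (B + 1) * |(fld k z m).2| ≤ |V k ((T k)^[m] z).2| * |(fld k z m).2| :=
      mul_le_mul_of_nonneg_right h3 (abs_nonneg _)
    have h6 : B * |(fld k z m).2| ≤ |V k ((T k)^[m] z).2 * (fld k z m).2 - (fld k z m).1| := by
      nlinarith
    refine ⟨?_, ?_⟩
    · calc B ^ (m + 1) = B * B ^ m := by ring
        _ ≤ B * |(fld k z m).2| := mul_le_mul_of_nonneg_left h1 (by linarith)
        _ ≤ _ := h6
    · calc |(fld k z m).2| = 1 * |(fld k z m).2| := (one_mul _).symm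
        _ ≤ B * |(fld k z m).2| := mul_le_mul_of_nonneg_right hB (abs_nonneg _)
        _ ≤ _ := h6

theorem Cl.mono {k : ℝ} {L : ℕ} {d : ℝ} {z : Tor} {n n' : ℕ} (h : Cl k L d z n) (hn : n' ≤ n) :
    Cl k L d z n' :=
  ⟨h.c1, fun i j a b c => h.c2 i j a b (c.trans hn), fun j a b => h.c3 j a (b.trans hn)⟩

theorem half_le {k : ℝ} (hk : (64:ℝ) ≤ k) : k ^ (1 / 2 : ℝ) + 1 ≤ k ^ (2 / 3 : ℝ) := by
  have hk0 : (0:ℝ) < k := by linarith
  have e : k ^ (2 / 3 : ℝ) = k ^ (1 / 2 : ℝ) * k ^ (1 / 6 : ℝ) := by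
    rw [← Real.rpow_add hk0]; norm_num
  have h1 : (2:ℝ) ≤ k ^ (1 / 6 : ℝ) := by
    have : (2:ℝ) = (64:ℝ) ^ (1 / 6 : ℝ) := by
      rw [show (64:ℝ) = 2 ^ (6:ℝ) by norm_num, ← Real.rpow_mul (by norm_num)]
      norm_num
    rw [this]
    exact Real.rpow_le_rpow (by norm_num) hk (by norm_num)
  have h2 : (1:ℝ) ≤ k ^ (1 / 2 : ℝ) := Real.one_le_rpow (by linarith) (by norm_num)
  rw [e]
  nlinarith

/-- the field of a clean start at times `≥ L` is at least `k ^ ((1 - d) L / 2)` -/
theorem Cl.big {k : ℝ} {L : ℕ} {d : ℝ} {z : Tor} {n : ℕ} (hk : (64:ℝ) ≤ k) (hd : d ≤ 1)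
    (h : Cl k L d z n) {m : ℕ} (hm : L ≤ m) (hn : m ≤ n) :
    k ^ ((1 - d) * (L / 2)) ≤ W k z m := by
  have hk0 : (0:ℝ) < k := by linarith
  have h1 := (base (B := k ^ (1 / 2 : ℝ)) (Real.one_le_rpow (by linarith) (by norm_num))
    (fun m hm => (half_le hk).trans (h.c1 m hm)) L le_rfl).1
  have h2 : k ^ ((L:ℝ) / 2) ≤ W k z L := by
    have e : k ^ ((L:ℝ) / 2) = (k ^ (1 / 2 : ℝ)) ^ L := by
      rw [← Real.rpow_natCast, ← Real.rpow_mul hk0.le]
      congr 1; ring
    rw [e]
    exact h1.trans (abs_snd_le _)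
  calc k ^ ((1 - d) * (L / 2)) = (k ^ ((L:ℝ) / 2)) ^ (1 - d) := by
        rw [← Real.rpow_mul hk0.le]; congr 1; ring
    _ ≤ W k z L ^ (1 - d) := Real.rpow_le_rpow (by positivity) h2 (by linarith)
    _ ≤ W k z m := h.c2 L m le_rfl hm hn

/-- **separation of clean starts** -/
theorem Cl.sep {k : ℝ} {L : ℕ} {d : ℝ} {z : Tor} {m n : ℕ} (hk : (100:ℝ) ≤ k) (hL : 3 ≤ L)
    (hd0 : 0 < d) (hd : d ≤ 1 / 4) (hm : L ≤ m) (h : Cl k L d z (m + n)) {κ : ℝ} (hκ : 0 ≤ κ)
    (hκ' : κ * k ^ 3 ≤ k ^ ((1 - d) * (1 - 3 * d) * (L / 2))) :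
    κ * W k ((T k)^[m] z) n ≤ W k z (m + n) := by
  have hk0 : (0:ℝ) < k := by linarith
  have hA : ∀ j, |V k ((T k)^[m + j] z).2| + 2 ≤ 8 * k := fun j => abs_V_le (by linarith) _
  have hbigm : k ^ ((1 - d) * (L / 2)) ≤ W k z m := h.big (by linarith) (by linarith) hm (by omega)
  have hge1 : ∀ i, L ≤ i → i ≤ m + n → 1 ≤ W k z i := by
    intro i hi hi'
    refine le_trans ?_ (h.big (by linarith) (by linarith) hi hi')
    apply Real.one_le_rpow (by linarith)
    have : 0 ≤ 1 - d := by linarith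
    positivity
  have c := count_valid (isField_shift k z m) (isField_later k z m) (A := 8 * k) (δ := d)
    (K := 1) (κ := κ) hA hd0.le (by linarith) (m := 0) (n := n) (Nat.zero_le _)
    (by
      simp only [add_zero]
      exact hge1 m hm (by omega))
    (by
      intro j hj
      rw [Finset.mem_Icc] at hj
      simp only [add_zero]
      exact h.c2 m (m + j) hm (by omega) (by omega))
    (by
      calc ∑ j ∈ Ico 0 n, nn (fld k z (m + j)) ^ (-d)
          ≤ ∑ j ∈ Ico 0 n, 1 / ((m + j : ℕ) : ℝ) ^ 2 := by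
            apply Finset.sum_le_sum
            intro j hj
            rw [Finset.mem_Ico] at hj
            obtain ⟨i, hi1, hi2, hi3⟩ := h.c3 (m + j) (by omega) (by omega)
            have h1 := h.c2 i (m + j) hi1 hi2 (by omega)
            have hj1 : (1:ℝ) ≤ ((m + j : ℕ) : ℝ) := by exact_mod_cast (by omega : 1 ≤ m + j)
            have hWi := hge1 i hi1 (by omega)
            have h4 : ((m + j : ℕ) : ℝ) ^ (2:ℝ) ≤ W k z (m + j) ^ d := by
              calc ((m + j : ℕ) : ℝ) ^ (2:ℝ) ≤ ((m + j : ℕ) : ℝ) ^ (4 * (1 - d)) :=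
                    Real.rpow_le_rpow_of_exponent_le hj1 (by linarith)
                _ ≤ (W k z i ^ (d / 4)) ^ (4 * (1 - d)) :=
                    Real.rpow_le_rpow (by linarith) hi3 (by linarith)
                _ = (W k z i ^ (1 - d)) ^ d := by
                    rw [← Real.rpow_mul (by linarith), ← Real.rpow_mul (by linarith)]
                    congr 1; ring
                _ ≤ W k z (m + j) ^ d := Real.rpow_le_rpow (by positivity) h1 hd0.le
            rw [Real.rpow_neg (nn_nonneg _), ← one_div]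
            have h5 : (0:ℝ) < ((m + j : ℕ) : ℝ) ^ 2 := by positivity
            apply one_div_le_one_div_of_le h5
            rw [← Real.rpow_natCast]
            exact_mod_cast h4
        _ ≤ 1 / ((m:ℝ) - 1) := sum_inv_sq m n (by omega)
        _ ≤ 1 := by
            have : (2:ℝ) ≤ (m:ℝ) - 1 := by
              have : ((3:ℕ):ℝ) ≤ m := by exact_mod_cast (hL.trans hm)
              push_cast at this
              linarith
            rw [div_le_one (by linarith)]
            linarith)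
    hκ
    (by
      simp only [add_zero]
      have e0 : nn (fld k ((T k)^[m] z) 0) = 1 := W_zero k _
      rw [e0, mul_one, mul_one]
      have h5 : (2:ℝ) + (8 * k) ^ 2 ≤ k ^ 3 := by nlinarith [sq_nonneg k, mul_pos hk0 hk0, mul_pos (mul_pos hk0 hk0) hk0]
      have h6 : κ * (2 + (8 * k) ^ 2) ≤ κ * k ^ 3 := mul_le_mul_of_nonneg_left h5 hκ
      refine h6.trans (hκ'.trans ?_)
      calc k ^ ((1 - d) * (1 - 3 * d) * (L / 2)) = (k ^ ((1 - d) * (L / 2))) ^ (1 - 3 * d) := by
            rw [← Real.rpow_mul hk0.le]; congr 1; ring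
        _ ≤ W k z m ^ (1 - 3 * d) := Real.rpow_le_rpow (by positivity) hbigm (by linarith))
  exact c


end Crest.Agent.R128.OnePerX
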