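import Mathlib
import Crest.Agent.R128.Lam0U
import Crest.Agent.R128.OnePerX
import Crest.Agent.R128.Meas
import Crest.Agent.R128.Skel
import Crest.Agent.R128.BVP7
import Crest.Agent.R128.ValNum
import Crest.Agent.R128.CoreI

-- ▼ part R128/Long
section

/-!
# Row 128, node V2L (helper892): long-duration violations, summed over all durations

`LONG k L z m`: the start `z` is (relaxed) valid up to time `m - 1` but the field has not reached the
size `~ m ^ 400` before time `m` (first violation of the duration clause (c3) at time `m`).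
The union over all `m ≥ 8 L` has area `≤ 16 L / k` (sum over dyadic classes of 379's `area_LG`).
-/

set_option autoImplicit false
open MeasureTheory Filter Topology Finset
open scoped ENNReal

namespace Crest.Agent.R128.Long

open Crest.Agent.R128.TreeSum Crest.Agent.R128.Acc Crest.Agent.R128.Lam0

/-- relaxed first violation of the duration clause at time `m` -/
structure LONG (k : ℝ) (L : ℕ) (z : Tor) (m : ℕ) : Prop where
  lo : 8 * L ≤ m
  small : ∀ i, L ≤ i → i < m → ‖fld k z i‖ ≤ 2 * (m : ℝ) ^ 400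
  val : RV k L z (m - 1)



/-- dyadic class of `m` -/
theorem exists_dyadic {a m : ℕ} (ha : 0 < a) (hm : a ≤ m) : ∃ i : ℕ, a * 2 ^ i ≤ m ∧ m ≤ 2 * (a * 2 ^ i) := by
  have hex : ∃ i : ℕ, m < a * 2 ^ (i + 1) := by
    refine ⟨m, ?_⟩
    have : m < 2 ^ (m + 1) := lt_trans (Nat.lt_two_pow_self) (Nat.pow_lt_pow_right (by norm_num) (by omega))
    calc m < 2 ^ (m + 1) := this
      _ ≤ a * 2 ^ (m + 1) := Nat.le_mul_of_pos_left _ ha
  classical
  refine ⟨Nat.find hex, ?_, ?_⟩
  · rcases Nat.eq_zero_or_pos (Nat.find hex) with h0 | h0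
    · rw [h0]; simpa using hm
    · have := Nat.find_min hex (m := Nat.find hex - 1) (by omega)
      push Not at this
      have e : Nat.find hex - 1 + 1 = Nat.find hex := by omega
      rwa [e] at this
  · have := Nat.find_spec hex
    rw [pow_succ] at this
    nlinarith


end Crest.Agent.R128.Long
end

-- ▼ part R128/LongX
section

/-!
# Row 128, node V2L, parametric version (helper892)

`Vl k L d z n`: 279's `Val d L0 n z` (FINAL v2.1) with the maximum norm `‖fld k z m‖`.  The first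
violations of the duration clause (c3) have total area at most `8 L / k`, for every `0 < d ≤ 1/8` and
every `L` with `64 ≤ d L`; in particular for `d = 1/1000`.
-/

set_option autoImplicit false
open MeasureTheory Filter Topology Finset
open scoped ENNReal

namespace Crest.Agent.R128.LongX

open Crest.Agent.R128.TreeSum Crest.Agent.R128.Acc Crest.Agent.R128.Lam0 Crest.Agent.R128.OnePerX
  Crest.Agent.R128.Long

/-- clean up to time `n`, maximum norm (279, FINAL v2.1) -/
structure Vl (k : ℝ) (L : ℕ) (d : ℝ) (z : Tor) (n : ℕ) : Prop where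
  c1 : ∀ m, m < L → k ^ (2 / 3 : ℝ) ≤ |V k ((T k)^[m] z).2|
  c2 : ∀ i j, L ≤ i → i ≤ j → j ≤ n → ‖fld k z i‖ ^ (1 - d) ≤ ‖fld k z j‖
  c3 : ∀ j, L ≤ j → j ≤ n → ∃ i, L ≤ i ∧ i ≤ j ∧ (j : ℝ) ≤ ‖fld k z i‖ ^ (d / 4)

theorem Vl.mono {k : ℝ} {L : ℕ} {d : ℝ} {z : Tor} {n n' : ℕ} (h : Vl k L d z n) (hn : n' ≤ n) :
    Vl k L d z n' :=
  ⟨h.c1, fun i j a b c => h.c2 i j a b (c.trans hn), fun j a b => h.c3 j a (b.trans hn)⟩

/-- base growth in the maximum norm -/
theorem base_norm {k : ℝ} {L : ℕ} {z : Tor} (hk : (64:ℝ) ≤ k)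
    (h : ∀ m, m < L → k ^ (2 / 3 : ℝ) ≤ |V k ((T k)^[m] z).2|) : k ^ ((L:ℝ) / 2) ≤ ‖fld k z L‖ := by
  have hk0 : (0:ℝ) < k := by linarith
  have h1 := (base (B := k ^ (1 / 2 : ℝ)) (Real.one_le_rpow (by linarith) (by norm_num))
    (fun m hm => (half_le hk).trans (h m hm)) L le_rfl).1
  have e : k ^ ((L:ℝ) / 2) = (k ^ (1 / 2 : ℝ)) ^ L := by
    rw [← Real.rpow_natCast, ← Real.rpow_mul hk0.le]
    congr 1; ring
  rw [e]
  exact h1.trans (norm_snd_le (fld k z L))

theorem Vl.big {k : ℝ} {L : ℕ} {d : ℝ} {z : Tor} {n : ℕ} (hk : (64:ℝ) ≤ k) (hd : d ≤ 1)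
    (h : Vl k L d z n) {m : ℕ} (hm : L ≤ m) (hn : m ≤ n) :
    k ^ ((1 - d) * (L / 2)) ≤ ‖fld k z m‖ := by
  have hk0 : (0:ℝ) < k := by linarith
  have h2 := base_norm hk h.c1
  calc k ^ ((1 - d) * (L / 2)) = (k ^ ((L:ℝ) / 2)) ^ (1 - d) := by
        rw [← Real.rpow_mul hk0.le]; congr 1; ring
    _ ≤ ‖fld k z L‖ ^ (1 - d) := Real.rpow_le_rpow (by positivity) h2 (by linarith)
    _ ≤ ‖fld k z m‖ := h.c2 L m le_rfl hm hn

/-- **separation of clean starts** (maximum norm) -/
theorem Vl.sep {k : ℝ} {L : ℕ} {d : ℝ} {z : Tor} {m n : ℕ} (hk : (100:ℝ) ≤ k) (hL : 3 ≤ L)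
    (hd0 : 0 < d) (hd : d ≤ 1 / 8) (hdL : 1 ≤ d * L) (hm : L ≤ m) (h : Vl k L d z (m + n)) {κ : ℝ}
    (hκ : 0 ≤ κ) (hκ' : κ * k ^ 3 ≤ k ^ ((1 - d) * (1 - 6 * d) * (L / 2))) :
    κ * ‖fld k ((T k)^[m] z) n‖ ≤ 2 * ‖fld k z (m + n)‖ := by
  have hk0 : (0:ℝ) < k := by linarith
  have hA : ∀ j, |V k ((T k)^[m + j] z).2| + 2 ≤ 8 * k := fun j => abs_V_le (by linarith) _
  have hbig : ∀ i, L ≤ i → i ≤ m + n → k ^ ((1 - d) * (L / 2)) ≤ ‖fld k z i‖ := fun i hi hi' =>
    h.big (by linarith) (by linarith) hi hi'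
  have hge1 : ∀ i, L ≤ i → i ≤ m + n → 1 ≤ ‖fld k z i‖ := by
    intro i hi hi'
    refine le_trans ?_ (hbig i hi hi')
    apply Real.one_le_rpow (by linarith)
    have : 0 ≤ 1 - d := by linarith
    positivity
  -- `2 ≤ ‖fld i‖ ^ d`
  have h2le : ∀ i, L ≤ i → i ≤ m + n → 2 ≤ ‖fld k z i‖ ^ d := by
    intro i hi hi'
    calc (2:ℝ) ≤ k ^ (1 / 4 : ℝ) := by
          have : (2:ℝ) = (16:ℝ) ^ (1 / 4 : ℝ) := by
            rw [show (16:ℝ) = 2 ^ (4:ℝ) by norm_num, ← Real.rpow_mul (by norm_num)]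
            norm_num
          rw [this]
          exact Real.rpow_le_rpow (by norm_num) (by linarith) (by norm_num)
      _ ≤ k ^ ((1 - d) * (L / 2) * d) := by
          apply Real.rpow_le_rpow_of_exponent_le (by linarith)
          nlinarith
      _ = (k ^ ((1 - d) * (L / 2))) ^ d := by rw [← Real.rpow_mul hk0.le]
      _ ≤ ‖fld k z i‖ ^ d := Real.rpow_le_rpow (by positivity) (hbig i hi hi') hd0.le
  have c := count_valid (isField_shift k z m) (isField_later k z m) (A := 8 * k) (δ := 2 * d)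
    (K := 1) (κ := κ) hA (by linarith) (by linarith) (m := 0) (n := n) (Nat.zero_le _)
    (by
      simp only [add_zero]
      exact (hge1 m hm (by omega)).trans (norm_le_nn _))
    (by
      intro j hj
      rw [Finset.mem_Icc] at hj
      simp only [add_zero]
      have hp : 0 < ‖fld k z m‖ := lt_of_lt_of_le one_pos (hge1 m hm (by omega))
      calc nn (fld k z m) ^ (1 - 2 * d) ≤ (2 * ‖fld k z m‖) ^ (1 - 2 * d) :=
            Real.rpow_le_rpow (nn_nonneg _) (nn_le_norm _) (by linarith)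
        _ = 2 ^ (1 - 2 * d) * ‖fld k z m‖ ^ (1 - 2 * d) := Real.mul_rpow (by norm_num) hp.le
        _ ≤ 2 * ‖fld k z m‖ ^ (1 - 2 * d) := by
            refine mul_le_mul_of_nonneg_right ?_ (by positivity)
            calc (2:ℝ) ^ (1 - 2 * d) ≤ 2 ^ (1:ℝ) :=
                  Real.rpow_le_rpow_of_exponent_le (by norm_num) (by linarith)
              _ = 2 := Real.rpow_one 2
        _ ≤ ‖fld k z m‖ ^ d * ‖fld k z m‖ ^ (1 - 2 * d) :=
            mul_le_mul_of_nonneg_right (h2le m hm (by omega)) (by positivity)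
        _ = ‖fld k z m‖ ^ (1 - d) := by rw [← Real.rpow_add hp]; congr 1; ring
        _ ≤ ‖fld k z (m + j)‖ := h.c2 m (m + j) hm (by omega) (by omega)
        _ ≤ _ := norm_le_nn _)
    (by
      calc ∑ j ∈ Ico 0 n, nn (fld k z (m + j)) ^ (-(2 * d))
          ≤ ∑ j ∈ Ico 0 n, 1 / ((m + j : ℕ) : ℝ) ^ 2 := by
            apply Finset.sum_le_sum
            intro j hj
            rw [Finset.mem_Ico] at hj
            obtain ⟨i, hi1, hi2, hi3⟩ := h.c3 (m + j) (by omega) (by omega)
            have h1 := h.c2 i (m + j) hi1 hi2 (by omega)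
            have hj1 : (1:ℝ) ≤ ((m + j : ℕ) : ℝ) := by exact_mod_cast (by omega : 1 ≤ m + j)
            have hWi := hge1 i hi1 (by omega)
            have hWj := hge1 (m + j) (by omega) (by omega)
            have hnn := norm_le_nn (fld k z (m + j))
            have h4 : ((m + j : ℕ) : ℝ) ^ (2:ℝ) ≤ nn (fld k z (m + j)) ^ (2 * d) := by
              calc ((m + j : ℕ) : ℝ) ^ (2:ℝ) ≤ ((m + j : ℕ) : ℝ) ^ (8 * (1 - d)) :=
                    Real.rpow_le_rpow_of_exponent_le hj1 (by linarith)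
                _ ≤ (‖fld k z i‖ ^ (d / 4)) ^ (8 * (1 - d)) :=
                    Real.rpow_le_rpow (by linarith) hi3 (by linarith)
                _ = (‖fld k z i‖ ^ (1 - d)) ^ (2 * d) := by
                    rw [← Real.rpow_mul (by linarith), ← Real.rpow_mul (by linarith)]
                    congr 1; ring
                _ ≤ ‖fld k z (m + j)‖ ^ (2 * d) :=
                    Real.rpow_le_rpow (by positivity) h1 (by linarith)
                _ ≤ _ := Real.rpow_le_rpow (by linarith) hnn (by linarith)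
            rw [Real.rpow_neg (nn_nonneg _), ← one_div]
            have h5 : (0:ℝ) < ((m + j : ℕ) : ℝ) ^ 2 := by positivity
            apply one_div_le_one_div_of_le h5
            rw [← Real.rpow_natCast]
            exact_mod_cast h4
        _ ≤ 1 / ((m:ℝ) - 1) := sum_inv_sq m n (by omega)
        _ ≤ 1 := by
            have : (2:ℝ) ≤ (m:ℝ) - 1 := by
              have : ((3:ℕ):ℝ) ≤ m := by exact_mod_cast (hL.trans hm)
              push_cast at this
              linarith
            rw [div_le_one (by linarith)]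
            linarith)
    hκ
    (by
      simp only [add_zero]
      have e0 : nn (fld k ((T k)^[m] z) 0) = 1 := OnePerX.W_zero k _
      rw [e0, mul_one, mul_one]
      have h5 : (2:ℝ) + (8 * k) ^ 2 ≤ k ^ 3 := by
        nlinarith [sq_nonneg k, mul_pos hk0 hk0, mul_pos (mul_pos hk0 hk0) hk0]
      have h6 : κ * (2 + (8 * k) ^ 2) ≤ κ * k ^ 3 := mul_le_mul_of_nonneg_left h5 hκ
      refine h6.trans (hκ'.trans ?_)
      calc k ^ ((1 - d) * (1 - 6 * d) * (L / 2)) = (k ^ ((1 - d) * (L / 2))) ^ (1 - 3 * (2 * d)) := by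
            rw [← Real.rpow_mul hk0.le]; congr 1; ring
        _ ≤ ‖fld k z m‖ ^ (1 - 3 * (2 * d)) :=
            Real.rpow_le_rpow (by positivity) (hbig m hm (by omega)) (by linarith)
        _ ≤ nn (fld k z m) ^ (1 - 3 * (2 * d)) :=
            Real.rpow_le_rpow (norm_nonneg _) (norm_le_nn _) (by linarith))
  calc κ * ‖fld k ((T k)^[m] z) n‖ ≤ κ * nn (fld k ((T k)^[m] z) n) :=
        mul_le_mul_of_nonneg_left (norm_le_nn _) hκ
    _ ≤ nn (fld k z (m + n)) := c
    _ ≤ _ := nn_le_norm _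


/-- first violation of (c3) at time `m`, dyadic class `M` -/
structure Lg (k : ℝ) (L : ℕ) (d : ℝ) (M : ℕ) (z : Tor) (m : ℕ) : Prop where
  lo : M ≤ m
  hi : m ≤ 2 * M
  small : ∀ i, L ≤ i → i < m → ‖fld k z i‖ ^ (d / 4) < (m : ℝ)
  val : Vl k L d z (m - 1)





/-- first violation of (c3) at time `m` (valid up to `m - 1`) -/
def F3 (k : ℝ) (L : ℕ) (d : ℝ) (z : Tor) (m : ℕ) : Prop :=
  L ≤ m ∧ Vl k L d z (m - 1) ∧ ∀ i, L ≤ i → i ≤ m → ‖fld k z i‖ ^ (d / 4) < (m : ℝ)

theorem F3.lt {k : ℝ} {L : ℕ} {d : ℝ} {z : Tor} {m : ℕ} (hk : (100:ℝ) ≤ k) (hd0 : 0 < d)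
    (hdL : 64 ≤ d * L) (h : F3 k L d z m) : k < (m : ℝ) := by
  have hk0 : (0:ℝ) < k := by linarith
  obtain ⟨h1, h2, h3⟩ := h
  have h4 := h3 L le_rfl h1
  have h5 := base_norm (by linarith : (64:ℝ) ≤ k) h2.c1
  calc k = k ^ (1:ℝ) := (Real.rpow_one k).symm
    _ ≤ k ^ ((L:ℝ) / 2 * (d / 4)) := by
        apply Real.rpow_le_rpow_of_exponent_le (by linarith)
        nlinarith
    _ = (k ^ ((L:ℝ) / 2)) ^ (d / 4) := Real.rpow_mul hk0.le _ _
    _ ≤ ‖fld k z L‖ ^ (d / 4) := Real.rpow_le_rpow (by positivity) h5 (by positivity)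
    _ < m := h4



end Crest.Agent.R128.LongX
end

-- ▼ part R128/V2L
section

/-!
# Row 128, node V2L of `Skel.lean` (helper892): area of the first violations of the duration clause

Dyadic class `M ≤ m ≤ 2M`: the `M / 2` shifts of the class are counted by one start per level
(`Lam0.sep`), at most `1000 * 11 (i + 2)` for `M = 2 b 2^i`, `2 b ~ k`.
-/

set_option autoImplicit false
open MeasureTheory Filter Topology Finset
open scoped ENNReal NNReal

namespace Crest.Agent.R128.V2L

open Crest.Agent.R128.TreeSum Crest.Agent.R128.Acc Crest.Agent.R128.Lam0 Crest.Agent.R128.OnePerX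
  Crest.Agent.R128.LongX Crest.Agent.R128.Long

theorem RV_mono {k : ℝ} {L : ℕ} {z : Tor} {n n' : ℕ} (h : RV k L z n) (hn : n' ≤ n) : RV k L z n' :=
  ⟨h.big, fun i j a b c => h.v2 i j a b (c.trans hn), fun j a b => h.v3 j a (b.trans hn)⟩

/-- class `M` -/
def A (k : ℝ) (M : ℕ) : Set Tor :=
  {z | RV k 1000 z (M - 1) ∧ ∀ i, 1000 ≤ i → i < M → ‖fld k z i‖ ≤ 2 * (2 * (M : ℝ)) ^ 4000}

theorem measurableSet_A (k : ℝ) (M : ℕ) : MeasurableSet (A k M) := by
  have e : A k M = {z | RV k 1000 z (M - 1)} ∩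
      ⋂ (i : ℕ) (_ : 1000 ≤ i) (_ : i < M), {z | ‖fld k z i‖ ≤ 2 * (2 * (M : ℝ)) ^ 4000} := by
    ext z
    simp only [A, Set.mem_inter_iff, Set.mem_ofPred_eq, Set.mem_iInter]
  rw [e]
  refine MeasurableSet.inter (measurable_RV k 1000 (M - 1)) ?_
  exact MeasurableSet.iInter fun i => MeasurableSet.iInter fun _ => MeasurableSet.iInter fun _ =>
      measurableSet_le (measurable_nf k i) measurable_const

/-- pointwise count -/
theorem card_A {k : ℝ} (hk : (100:ℝ) ≤ k) {M : ℕ} (hM : 2000 ≤ M) {J : ℕ}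
    (hJ : 2 * (2 * (M : ℝ)) ^ 4000 < k ^ (399 * J)) (z : Tor) [DecidablePred fun n => (T k)^[n] z ∈ A k M] :
    ((Finset.range (M / 2)).filter (fun n => (T k)^[n] z ∈ A k M)).card ≤ 1000 * J := by
  have hk0 : (0:ℝ) < k := by linarith
  apply card_le_of_sep (κ := k ^ 399) (by positivity)
    (F := fun n => ‖fld k ((T k)^[n] z) (M - 1 - n)‖) (y := 2 * (2 * (M : ℝ)) ^ 4000) J _ 1
  · intro a ha b hb hab
    rw [Finset.mem_filter, Finset.mem_range] at ha hb
    obtain ⟨ha1, ha2, ha3⟩ := ha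
    obtain ⟨hb1, hb2, hb3⟩ := hb
    have e1 : M - 1 - a = (b - a) + (M - 1 - b) := by omega
    have e2 : (T k)^[b] z = (T k)^[b - a] ((T k)^[a] z) := by
      rw [← Function.iterate_add_apply]
      congr 1
      omega
    have hv : RV k 1000 ((T k)^[a] z) ((b - a) + (M - 1 - b)) := RV_mono ha2 (by omega)
    have hs := sep hk (by norm_num) (by omega : 1000 ≤ b - a) hv (κ := k ^ 400) (by positivity) le_rfl
    show k ^ 399 * ‖fld k ((T k)^[b] z) (M - 1 - b)‖ ≤ ‖fld k ((T k)^[a] z) (M - 1 - a)‖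
    rw [e2, e1]
    have h0 : 0 ≤ k ^ 399 * ‖fld k ((T k)^[b - a] ((T k)^[a] z)) (M - 1 - b)‖ := by positivity
    have h1 : k ^ 400 * ‖fld k ((T k)^[b - a] ((T k)^[a] z)) (M - 1 - b)‖ =
        k * (k ^ 399 * ‖fld k ((T k)^[b - a] ((T k)^[a] z)) (M - 1 - b)‖) := by
      rw [← mul_assoc, ← pow_succ']
    rw [h1] at hs
    nlinarith
  · intro a ha
    rw [Finset.mem_filter, Finset.mem_range] at ha
    have h1 := ha.2.1.big' (j := M - 1 - a) hk (by omega) (by omega)
    exact (one_le_pow₀ (by linarith)).trans h1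
  · intro a ha
    rw [Finset.mem_filter, Finset.mem_range] at ha
    exact ha.2.2 (M - 1 - a) (by omega) (by omega)
  · rw [mul_one, ← pow_mul]
    exact hJ

/-- area of one class -/
theorem area_A {k : ℝ} (hk : (100:ℝ) ≤ k) {M : ℕ} (hM : 2000 ≤ M) {J : ℕ}
    (hJ : 2 * (2 * (M : ℝ)) ^ 4000 < k ^ (399 * J)) :
    ((M / 2 : ℕ) : ℝ≥0∞) * volume (A k M) ≤ ((1000 * J : ℕ) : ℝ≥0∞) := by
  have key := Boot.packing (μ := (volume : Measure Tor)) (e := T k) (mp_T k) (measurableSet_A k M) (M / 2)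
    (b := ((1000 * J : ℕ) : ℝ≥0∞)) (by
      intro z
      classical
      calc ∑ n ∈ Finset.range (M / 2), (A k M).indicator (fun _ => (1 : ℝ≥0∞)) ((T k)^[n] z)
          = ∑ n ∈ (Finset.range (M / 2)).filter (fun n => (T k)^[n] z ∈ A k M), (1 : ℝ≥0∞) := by
            rw [Finset.sum_filter]
            apply Finset.sum_congr rfl
            intro n _
            by_cases hc : (T k)^[n] z ∈ A k M
            · rw [Set.indicator_of_mem hc, if_pos hc]
            · rw [Set.indicator_of_notMem hc, if_neg hc]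
        _ = (((Finset.range (M / 2)).filter (fun n => (T k)^[n] z ∈ A k M)).card : ℝ≥0∞) := by simp
        _ ≤ ((1000 * J : ℕ) : ℝ≥0∞) := by exact_mod_cast card_A hk hM hJ z)
  simpa using key

theorem add_two_le (i : ℕ) : ((i : ℝ) + 2) ≤ 2 * (3 / 2) ^ i := by
  induction i with
  | zero => norm_num
  | succ i ih =>
    rw [pow_succ]
    push_cast
    have : (0:ℝ) ≤ i := Nat.cast_nonneg _
    nlinarith

/-- size of the classes `M = 2 b 2 ^ i`, `2 b ≤ k` -/
theorem class_size {k : ℝ} (hk : (100:ℝ) ≤ k) {b : ℕ} (hb : 2 * (b : ℝ) ≤ k) (i : ℕ) :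
    2 * (2 * ((2 * b * 2 ^ i : ℕ) : ℝ)) ^ 4000 < k ^ (399 * (11 * (i + 2))) := by
  have hk0 : (0:ℝ) < k := by linarith
  have h1 : 2 * ((2 * b * 2 ^ i : ℕ) : ℝ) ≤ k ^ (i + 2) := by
    push_cast
    calc 2 * (2 * (b:ℝ) * 2 ^ i) ≤ k * (k * k ^ i) := by
          have h2 : (2:ℝ) ^ i ≤ k ^ i := pow_le_pow_left₀ (by norm_num) (by linarith) i
          have h3 : 2 * (b:ℝ) * 2 ^ i ≤ k * k ^ i :=
            mul_le_mul hb h2 (by positivity) hk0.le
          exact mul_le_mul (by linarith) h3 (by positivity) hk0.le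
      _ = k ^ (i + 2) := by ring
  calc 2 * (2 * ((2 * b * 2 ^ i : ℕ) : ℝ)) ^ 4000 ≤ 2 * (k ^ (i + 2)) ^ 4000 := by
        refine mul_le_mul_of_nonneg_left ?_ (by norm_num)
        exact pow_le_pow_left₀ (by positivity) h1 _
    _ < k * (k ^ (i + 2)) ^ 4000 := mul_lt_mul_of_pos_right (by linarith) (by positivity)
    _ = k ^ (1 + (i + 2) * 4000) := by rw [← pow_mul, pow_add, pow_one]
    _ ≤ k ^ (399 * (11 * (i + 2))) := pow_le_pow_right₀ (by linarith) (by omega)

/-- **V2L** (exact Prop of `Skel.lean`) -/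
theorem v2l : Skel.V2L := by
  refine ⟨8002, fun L0 hL0 => ⟨352000, 10 ^ 4, fun k hk => ?_⟩⟩
  have hk100 : (100:ℝ) ≤ k := le_trans (by norm_num) hk
  have hk0 : (0:ℝ) < k := by linarith
  set b := ⌊k / 2⌋₊ with hb
  have hb1 : (b:ℝ) ≤ k / 2 := Nat.floor_le (by positivity)
  have hb2 : k / 2 < (b:ℝ) + 1 := Nat.lt_floor_add_one _
  have hb3 : 1000 ≤ b := by
    apply Nat.le_floor
    push_cast
    linarith
  have hbk : k ≤ 4 * (b:ℝ) := by
    have : (1000:ℝ) ≤ b := by exact_mod_cast hb3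
    linarith
  have hbpos : (0:ℝ) < b := by linarith
  have hcl : ∀ i : ℕ, volume (A k (2 * b * 2 ^ i)) ≤ ENNReal.ofReal (22000 / b * (3 / 4) ^ i) := by
    intro i
    have hM : 2000 ≤ 2 * b * 2 ^ i := by
      have : 2 * b * 1 ≤ 2 * b * 2 ^ i := Nat.mul_le_mul_left _ Nat.one_le_two_pow
      omega
    have h := area_A hk100 hM (J := 11 * (i + 2)) (class_size hk100 (by linarith) i)
    have e : (2 * b * 2 ^ i / 2 : ℕ) = b * 2 ^ i := by
      rw [mul_assoc, Nat.mul_div_cancel_left _ (by norm_num)]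
    rw [e] at h
    have hpos : 0 < b * 2 ^ i := by positivity
    have h2 : volume (A k (2 * b * 2 ^ i)) ≤
        ((1000 * (11 * (i + 2)) : ℕ) : ℝ≥0∞) / ((b * 2 ^ i : ℕ) : ℝ≥0∞) := by
      rw [ENNReal.le_div_iff_mul_le (Or.inl (by exact_mod_cast hpos.ne')) (Or.inl (ENNReal.natCast_ne_top _)),
        mul_comm]
      exact h
    refine h2.trans ?_
    rw [← ENNReal.ofReal_natCast (1000 * (11 * (i + 2))), ← ENNReal.ofReal_natCast (b * 2 ^ i),
      ← ENNReal.ofReal_div_of_pos (by exact_mod_cast hpos)]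
    apply ENNReal.ofReal_le_ofReal
    have h3 := add_two_le i
    have h4 : (0:ℝ) < (2:ℝ) ^ i := by positivity
    have e3 : (3 / 4 : ℝ) ^ i = (3 / 2) ^ i / 2 ^ i := by
      rw [← div_pow]; norm_num
    push_cast
    rw [e3, div_mul_div_comm]
    apply div_le_div_of_nonneg_right _ (by positivity)
    nlinarith
  have hsub : Skel.LG k L0 ⊆ ⋃ i : ℕ, A k (2 * b * 2 ^ i) := by
    rintro z ⟨hz1, m, hm, hRV, hsm⟩
    have hdig : ∀ m, m < L0 → k ^ (2 / 3 : ℝ) ≤ |V k ((T k)^[m] z).2| := by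
      intro m hm
      by_contra hc
      push Not at hc
      exact hz1 ⟨m, hm, hc⟩
    have h1 := base_norm (by linarith : (64:ℝ) ≤ k) hdig
    have h2 := hsm L0 (by omega) hm
    have hkm : k < (m:ℝ) := by
      by_contra hc
      push Not at hc
      have h3 : (m:ℝ) ^ 4000 ≤ k ^ 4000 := pow_le_pow_left₀ (Nat.cast_nonneg _) hc _
      have h4 : k ^ 4001 ≤ k ^ ((L0:ℝ) / 2) := by
        rw [← Real.rpow_natCast]
        apply Real.rpow_le_rpow_of_exponent_le (by linarith)
        have : ((8002:ℕ):ℝ) ≤ L0 := by exact_mod_cast hL0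
        push_cast at this ⊢
        linarith
      have h5 : k ^ 4001 = k * k ^ 4000 := by rw [← pow_succ']
      have h6 : (0:ℝ) < k ^ 4000 := by positivity
      have h7 : k * k ^ 4000 ≤ 2 * k ^ 4000 := by
        rw [← h5]
        calc k ^ 4001 ≤ k ^ ((L0:ℝ) / 2) := h4
          _ ≤ ‖fld k z L0‖ := h1
          _ ≤ 2 * (m:ℝ) ^ 4000 := h2
          _ ≤ 2 * k ^ 4000 := by linarith
      nlinarith
    have h2b : 2 * b ≤ m := by
      have : ((2 * b : ℕ) : ℝ) ≤ (m:ℝ) := by push_cast; linarith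
      exact_mod_cast this
    obtain ⟨i, hi1, hi2⟩ := exists_dyadic (a := 2 * b) (by omega) h2b
    refine Set.mem_iUnion.2 ⟨i, RV_mono hRV (by omega), fun j hj hj' => (hsm j hj (by omega)).trans ?_⟩
    refine mul_le_mul_of_nonneg_left ?_ (by norm_num)
    refine pow_le_pow_left₀ (Nat.cast_nonneg _) ?_ _
    exact_mod_cast hi2
  refine (measure_mono hsub).trans ((measure_iUnion_le _).trans ?_)
  refine (ENNReal.tsum_le_tsum hcl).trans ?_
  have hs : HasSum (fun i : ℕ => (22000 / b : ℝ) * (3 / 4) ^ i) (22000 / b * 4) := by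
    have := (hasSum_geometric_of_lt_one (by norm_num : (0:ℝ) ≤ 3 / 4) (by norm_num)).mul_left (22000 / b : ℝ)
    norm_num at this ⊢
    exact this
  rw [← ENNReal.ofReal_tsum_of_nonneg (fun i => by positivity) hs.summable, hs.tsum_eq]
  apply ENNReal.ofReal_le_ofReal
  have h8 : 1 / k ≤ Skel.e k := by
    unfold Skel.e
    rw [one_div, ← Real.rpow_neg_one]
    exact Real.rpow_le_rpow_of_exponent_le (by linarith) (by norm_num)
  calc 22000 / (b:ℝ) * 4 ≤ 352000 * (1 / k) := by
        rw [div_mul_eq_mul_div, mul_one_div, div_le_div_iff₀ hbpos hk0]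
        linarith
    _ ≤ 352000 * Skel.e k := by linarith

end Crest.Agent.R128.V2L
end

-- ▼ part R128/BVP8
section

set_option autoImplicit false

open scoped BigOperators
open Finset

namespace Crest.Agent.R128.BVP

/-- fundamental solutions: `fund a j m` has `fund a j j = 0`, `fund a j (j+1) = 1`,
`fund a j (m+2) = a (m+1) * fund a j (m+1) - fund a j m` for `m ≥ j`. -/
def fundAux (a : ℕ → ℝ) (j : ℕ) : ℕ → ℝ
  | 0 => 0
  | 1 => 1
  | i + 2 => a (j + i + 1) * fundAux a j (i + 1) - fundAux a j i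

def fund (a : ℕ → ℝ) (j m : ℕ) : ℝ := fundAux a j (m - j)

theorem fund_self (a : ℕ → ℝ) (j : ℕ) : fund a j j = 0 := by
  unfold fund; rw [Nat.sub_self]; rfl

theorem fund_succ (a : ℕ → ℝ) (j : ℕ) : fund a j (j + 1) = 1 := by
  unfold fund; rw [Nat.add_sub_cancel_left]; rfl

theorem fund_rec (a : ℕ → ℝ) (j m : ℕ) (h : j ≤ m) :
    fund a j (m + 2) = a (m + 1) * fund a j (m + 1) - fund a j m := by
  unfold fund
  obtain ⟨i, rfl⟩ := Nat.exists_eq_add_of_le h
  have e1 : j + i + 2 - j = i + 2 := by omega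
  have e2 : j + i + 1 - j = i + 1 := by omega
  have e3 : j + i - j = i := by omega
  rw [e1, e2, e3]
  rfl

/-- variation of constants -/
theorem voc {a a' e : ℕ → ℝ} {s N : ℕ}
    (he : ∀ m, s ≤ m → m < N → e (m + 2) = a (m + 1) * e (m + 1) - e m + (a' (m + 1) - a (m + 1)))
    (hs0 : e s = 0) (hs1 : e (s + 1) = 0) :
    ∀ m, s ≤ m → m ≤ N → e m = ∑ j ∈ Ico (s + 1) m, fund a j m * (a' j - a j) ∧
      e (m + 1) = ∑ j ∈ Ico (s + 1) (m + 1), fund a j (m + 1) * (a' j - a j) := by
  intro m hm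
  induction m, hm using Nat.le_induction with
  | base =>
    intro _
    rw [Finset.Ico_eq_empty (by omega), Finset.Ico_eq_empty (by omega)]
    simp [hs0, hs1]
  | succ m hm ih =>
    intro hmN
    obtain ⟨i1, i2⟩ := ih (by omega)
    refine ⟨i2, ?_⟩
    have h1 := he m hm (by omega)
    show e (m + 2) = ∑ j ∈ Ico (s + 1) (m + 2), fund a j (m + 2) * (a' j - a j)
    rw [h1, Finset.sum_Ico_succ_top (by omega : s + 1 ≤ m + 1), fund_succ, one_mul, i2]
    have h2 : ∑ j ∈ Ico (s + 1) (m + 1), fund a j (m + 2) * (a' j - a j) =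
        a (m + 1) * (∑ j ∈ Ico (s + 1) (m + 1), fund a j (m + 1) * (a' j - a j)) -
        ∑ j ∈ Ico (s + 1) (m + 1), fund a j m * (a' j - a j) := by
      rw [Finset.mul_sum, ← Finset.sum_sub_distrib]
      refine Finset.sum_congr rfl fun j hj => ?_
      rw [Finset.mem_Ico] at hj
      rw [fund_rec a j m (by omega)]
      ring
    have h3 : ∑ j ∈ Ico (s + 1) (m + 1), fund a j m * (a' j - a j) = e m := by
      rcases Nat.eq_or_lt_of_le hm with h4 | h4
      · subst h4
        rw [Finset.Ico_self, Finset.sum_empty, hs0]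
      · rw [Finset.sum_Ico_succ_top (by omega), fund_self, zero_mul, add_zero, i1]
    rw [h2, h3]

/-- **(PERT)** comparison of the `(0,1)` fields of two orbits. -/
theorem field_pert {N : ℕ} {a a' p p' W : ℕ → ℝ} {η : ℝ} (hη : η ≤ 1 / 2)
    (hp0 : p 0 = 0) (hp1 : p 1 = 1) (hp : ∀ m < N, p (m + 2) = a (m + 1) * p (m + 1) - p m)
    (hp0' : p' 0 = 0) (hp1' : p' 1 = 1) (hp' : ∀ m < N, p' (m + 2) = a' (m + 1) * p' (m + 1) - p' m)
    (hW : ∀ m ≤ N + 1, |p m| ≤ W m)
    (hsum : ∀ m ≤ N + 1, ∑ j ∈ Ico 1 m, |fund a j m| * |a' j - a j| * W j ≤ η * W m) :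
    ∀ m ≤ N + 1, |p' m - p m| ≤ 2 * η * W m := by
  have hW0 : ∀ m ≤ N + 1, 0 ≤ W m := fun m hm => (abs_nonneg _).trans (hW m hm)
  set b : ℕ → ℝ := fun j => a j + (a' j - a j) * p' j with hb
  have hv := voc (a := a) (a' := b) (e := fun m => p' m - p m) (s := 0) (N := N) (by
    intro m _ hm
    simp only [hb]
    rw [hp m hm, hp' m hm]
    ring) (by simp [hp0, hp0']) (by simp [hp1, hp1'])
  have hrep : ∀ m ≤ N + 1, p' m - p m = ∑ j ∈ Ico 1 m, fund a j m * ((a' j - a j) * p' j) := by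
    intro m hm
    have key : ∀ j, b j - a j = (a' j - a j) * p' j := fun j => by simp only [hb]; ring
    rcases Nat.lt_or_ge N m with h1 | h1
    · have e : m = N + 1 := by omega
      subst e
      have := (hv N (Nat.zero_le _) le_rfl).2
      simp only [key] at this
      exact this
    · have := (hv m (Nat.zero_le _) h1).1
      simp only [key] at this
      exact this
  have key : ∀ m, m ≤ N + 1 → |p' m| ≤ 2 * W m ∧ |p' m - p m| ≤ 2 * η * W m := by
    intro m
    induction m using Nat.strong_induction_on with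
    | _ m ih =>
      intro hm
      have h1 : |p' m - p m| ≤ 2 * η * W m := by
        rw [hrep m hm]
        calc |∑ j ∈ Ico 1 m, fund a j m * ((a' j - a j) * p' j)|
            ≤ ∑ j ∈ Ico 1 m, |fund a j m * ((a' j - a j) * p' j)| := Finset.abs_sum_le_sum_abs _ _
          _ ≤ ∑ j ∈ Ico 1 m, 2 * (|fund a j m| * |a' j - a j| * W j) := by
              refine Finset.sum_le_sum fun j hj => ?_
              rw [Finset.mem_Ico] at hj
              rw [abs_mul, abs_mul]
              have h2 := (ih j hj.2 (by omega)).1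
              have h3 := mul_le_mul_of_nonneg_left h2
                (mul_nonneg (abs_nonneg (fund a j m)) (abs_nonneg (a' j - a j)))
              linarith
          _ = 2 * ∑ j ∈ Ico 1 m, |fund a j m| * |a' j - a j| * W j := by rw [Finset.mul_sum]
          _ ≤ 2 * (η * W m) := by linarith [hsum m hm]
          _ = 2 * η * W m := by ring
      refine ⟨?_, h1⟩
      have h2 := hW m hm
      have h3 := hW0 m hm
      have h4 : |p' m| ≤ |p' m - p m| + |p m| := by
        have := abs_add_le (p' m - p m) (p m)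
        rwa [sub_add_cancel] at this
      nlinarith
  exact fun m hm => (key m hm).2

/-- **(FWD)** after the matched time. -/
theorem fwd {f V : ℝ → ℝ} {M B : ℝ} (hM : 0 ≤ M) (hNL : NL f V M) {s N : ℕ} {x z : ℕ → ℝ}
    (hx : ∀ m, s ≤ m → m < N → x (m + 2) + x m = f (x (m + 1)))
    (hz : ∀ m, s ≤ m → m < N → z (m + 2) + z m = f (z (m + 1)))
    (hs1 : z (s + 1) = x (s + 1)) (hB1 : 1 ≤ B)
    (hB : ∀ j m, s + 1 ≤ j → j ≤ m → m ≤ N + 1 → |fund (fun i => V (x i)) j m| ≤ B)
    (hsmall : 4 * B ^ 2 * M * ((N : ℝ) - s) * |z s - x s| ≤ 1) :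
    ∀ m, s ≤ m → m ≤ N + 1 → |z m - x m| ≤ 2 * B * |z s - x s| := by
  set E := |z s - x s| with hE
  have hE0 : 0 ≤ E := abs_nonneg _
  set a : ℕ → ℝ := fun i => V (x i) with ha
  -- e m = z m - x m + (z s - x s) * fund a (s+1) m  has zero data at s+1, s+2
  set r : ℕ → ℝ := fun m => f (z m) - f (x m) - V (x m) * (z m - x m) with hr
  have hlin : ∀ m, s + 1 ≤ m → m ≤ N + 1 →
      z m - x m = -(z s - x s) * fund a (s + 1) m + ∑ j ∈ Ico (s + 1) m, fund a j m * r j := by
    rcases Nat.lt_or_ge s N with hsN | hsN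
    · have e2 : z (s + 2) - x (s + 2) = -(z s - x s) := by
        have h1 := hx s le_rfl hsN
        have h2 := hz s le_rfl hsN
        rw [hs1] at h2
        linarith
      have hr1 : r (s + 1) = 0 := by simp only [hr]; rw [hs1]; ring
      set b : ℕ → ℝ := fun j => a j + r j with hb
      have hv := voc (a := a) (a' := b) (e := fun m => z m - x m + (z s - x s) * fund a (s + 1) m)
        (s := s + 1) (N := N) (by
          intro m hm1 hm
          have h1 := hx m (by omega) hm
          have h2 := hz m (by omega) hm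
          simp only [hb, hr]
          rw [fund_rec a (s + 1) m hm1]
          have h3 : x (m + 2) = f (x (m + 1)) - x m := by linarith
          have h4 : z (m + 2) = f (z (m + 1)) - z m := by linarith
          rw [h3, h4]
          simp only [ha]
          ring) (by rw [fund_self, hs1]; ring) (by
            show z (s + 2) - x (s + 2) + (z s - x s) * fund a (s + 1) (s + 1 + 1) = 0
            rw [fund_succ, e2]; ring)
      intro m hm1 hm2
      have key : ∀ j, b j - a j = r j := fun j => by simp only [hb]; ring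
      have hsplit : ∑ j ∈ Ico (s + 1) m, fund a j m * r j = ∑ j ∈ Ico (s + 1 + 1) m, fund a j m * r j := by
        rcases Nat.eq_or_lt_of_le hm1 with h4 | h4
        · rw [← h4, Finset.Ico_self, Finset.Ico_eq_empty (by omega)]
        · rw [Finset.sum_eq_sum_Ico_succ_bot h4, hr1, mul_zero, zero_add]
      rw [hsplit]
      rcases Nat.lt_or_ge N m with h1 | h1
      · have e : m = N + 1 := by omega
        subst e
        have := (hv N (by omega) le_rfl).2
        simp only [key] at this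
        linarith
      · have := (hv m hm1 h1).1
        simp only [key] at this
        linarith
    · intro m hm1 hm2
      have e : m = s + 1 := by omega
      subst e
      rw [hs1, fund_self, Finset.Ico_self]
      simp
  have key : ∀ m, s + 1 ≤ m → m ≤ N + 1 → |z m - x m| ≤ 2 * B * E := by
    intro m
    induction m using Nat.strong_induction_on with
    | _ m ih =>
      intro hm1 hm2
      have hrj : ∀ j ∈ Ico (s + 1) m, |fund a j m * r j| ≤ B * (M * (2 * B * E) * (2 * B * E)) := by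
        intro j hj
        rw [Finset.mem_Ico] at hj
        have h1 := ih j hj.2 hj.1 (by omega)
        have h2 := hB j m hj.1 hj.2.le hm2
        have h3 : |r j| ≤ M * (2 * B * E) * (2 * B * E) := by
          have h4 := hNL (x j) (z j - x j) 0
          rw [add_sub_cancel, add_zero, sub_zero, abs_zero, max_eq_left (abs_nonneg _)] at h4
          have h5 : |r j| ≤ M * |z j - x j| * |z j - x j| := h4
          refine h5.trans ?_
          have h6 : 0 ≤ 2 * B * E := by positivity
          have h7 := mul_le_mul h1 h1 (abs_nonneg _) h6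
          have h8 := mul_le_mul_of_nonneg_left h7 hM
          linarith
        rw [abs_mul]
        exact mul_le_mul h2 h3 (abs_nonneg _) (by linarith)
      rw [hlin m hm1 hm2]
      refine (abs_add_le _ _).trans ?_
      have h1 : |-(z s - x s) * fund a (s + 1) m| ≤ B * E := by
        rw [abs_mul, abs_neg, mul_comm]
        exact mul_le_mul_of_nonneg_right (hB (s + 1) m le_rfl hm1 hm2) hE0
      have h2 : |∑ j ∈ Ico (s + 1) m, fund a j m * r j| ≤ B * E := by
        calc |∑ j ∈ Ico (s + 1) m, fund a j m * r j| ≤ ∑ j ∈ Ico (s + 1) m, |fund a j m * r j| :=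
              Finset.abs_sum_le_sum_abs _ _
          _ ≤ ∑ j ∈ Ico (s + 1) m, B * (M * (2 * B * E) * (2 * B * E)) := Finset.sum_le_sum hrj
          _ = ((m : ℝ) - (s + 1)) * (B * (M * (2 * B * E) * (2 * B * E))) := by
              rw [Finset.sum_const, Nat.card_Ico, nsmul_eq_mul, Nat.cast_sub hm1]
              push_cast; ring
          _ ≤ ((N : ℝ) - s) * (B * (M * (2 * B * E) * (2 * B * E))) := by
              apply mul_le_mul_of_nonneg_right _ (by positivity)
              have : (m : ℝ) ≤ N + 1 := by exact_mod_cast hm2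
              linarith
          _ = (4 * B ^ 2 * M * ((N : ℝ) - s) * E) * (B * E) := by ring
          _ ≤ 1 * (B * E) := mul_le_mul_of_nonneg_right hsmall (by positivity)
          _ = B * E := one_mul _
      linarith
  intro m hm1 hm2
  rcases Nat.eq_or_lt_of_le hm1 with h | h
  · rw [← h]
    show E ≤ 2 * B * E
    nlinarith
  · exact key m h hm2

end Crest.Agent.R128.BVP
end

-- ▼ part R128/ShxA
section

/-!
Row 128, node V3-CORE (second implementation), part A: the window of a start up to its failure time `H + 1`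
(`H` = last index at which (V2), (V3) hold), forward fundamental solutions and the one sum lemma.
-/

set_option autoImplicit false

open Finset

namespace Crest.Agent.R128.Shx

open Crest.Agent.R128.TreeSum Crest.Agent.R128.BVP Crest.Agent.R128.Val

/-- window of a start; `H` = last index at which (V2), (V3) hold. -/
structure Win (b : ℝ) (H : ℕ) (a p : ℕ → ℝ) : Prop where
  hb : 1000 ≤ b
  hH : 35 ≤ H
  p0 : p 0 = 0
  p1 : p 1 = 1
  hp : ∀ m, p (m + 2) = a (m + 1) * p (m + 1) - p m
  hA : ∀ m, |a (m + 1)| + 2 ≤ b ^ 2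
  hcl : ∀ m ∈ Icc 1 35, 2 * b ≤ |a m|
  E : Expo b H (ex b p)

variable {b : ℝ} {H : ℕ} {a p : ℕ → ℝ}

theorem Win.stp (V : Win b H a p) (m : ℕ) :
    TreeSum.stp (a (m + 1)) (p m, p (m + 1)) = (p (m + 1), p (m + 2)) := by
  unfold TreeSum.stp
  simp only [V.hp m]

theorem Win.isField (V : Win b H a p) (s : ℕ) :
    IsField (fun i => a (s + i + 1)) (fun i => (p (s + i), p (s + i + 1))) := by
  intro i
  show (p (s + (i + 1)), p (s + (i + 1) + 1)) = TreeSum.stp (a (s + i + 1)) (p (s + i), p (s + i + 1))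
  rw [V.stp (s + i)]
  rfl

theorem Win.succ_le (V : Win b H a p) (m : ℕ) : W p (m + 1) ≤ (|a (m + 1)| + 2) * W p m := by
  have := nn_stp_le (a (m + 1)) (p m, p (m + 1))
  rw [V.stp m] at this
  exact this

theorem Win.le_succ (V : Win b H a p) (m : ℕ) : W p m ≤ (|a (m + 1)| + 2) * W p (m + 1) := by
  have := nn_le_stp (a (m + 1)) (p m, p (m + 1))
  rw [V.stp m] at this
  exact this

theorem Win.W0 (V : Win b H a p) : W p 0 = 1 := by
  unfold W nn
  rw [V.p0, V.p1]
  simp

theorem Win.pos (V : Win b H a p) (m : ℕ) : 0 < W p m := by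
  have h := (V.isField 0).pos (Nat.zero_le m) (by
    have := V.W0
    unfold W at this
    simp only [Nat.zero_add, Nat.add_zero]
    simp only [Nat.zero_add] at this
    rw [this]; norm_num)
  simp only [Nat.zero_add] at h
  exact h

theorem Win.b0 (V : Win b H a p) : 0 < b := by linarith [V.hb]

theorem Win.ratio (V : Win b H a p) : ∀ m ≤ 35, b * |p m| ≤ |p (m + 1)| := by
  intro m
  induction m with
  | zero => intro _; rw [V.p0]; simp
  | succ m ih =>
    intro hm
    have h1 := ih (by omega)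
    have h2 := V.hp m
    have h3 := V.hcl (m + 1) (Finset.mem_Icc.mpr ⟨by omega, hm⟩)
    have hb := V.hb
    show b * |p (m + 1)| ≤ |p (m + 2)|
    rw [h2]
    have h4 : |a (m + 1)| * |p (m + 1)| - |p m| ≤ |a (m + 1) * p (m + 1) - p m| := by
      rw [← abs_mul]
      exact abs_sub_abs_le_abs_sub _ _
    have h5 : |p m| ≤ |p (m + 1)| := by
      have := abs_nonneg (p m)
      nlinarith
    have h6 := abs_nonneg (p (m + 1))
    nlinarith

/-- clean step -/
theorem Win.cleanstep (V : Win b H a p) {m : ℕ} (hm : m < 35) :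
    (|a (m + 1)| + 2) * W p m ≤ 5 / 4 * W p (m + 1) := by
  have h1 := V.ratio m hm.le
  have h2 := V.hp m
  have h3 := V.hcl (m + 1) (Finset.mem_Icc.mpr ⟨by omega, by omega⟩)
  have hb := V.hb
  have h4 : |a (m + 1)| * |p (m + 1)| - |p m| ≤ |a (m + 1) * p (m + 1) - p m| := by
    rw [← abs_mul]
    exact abs_sub_abs_le_abs_sub _ _
  rw [← h2] at h4
  have h5 : 100 * |p m| ≤ |p (m + 1)| := by
    have := abs_nonneg (p m)
    nlinarith
  have h6 := abs_nonneg (p (m + 1))
  have h7 := W_le_add p m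
  have h8 : |p (m + 2)| ≤ W p (m + 1) := abs_succ_le_W p (m + 1)
  have h9 : 0 ≤ |a (m + 1)| := abs_nonneg _
  have h10 : (|a (m + 1)| + 2) * W p m ≤ (|a (m + 1)| + 2) * (101 / 100 * |p (m + 1)|) := by
    apply mul_le_mul_of_nonneg_left _ (by linarith)
    linarith
  have h11 : 200 * |p (m + 1)| ≤ |a (m + 1)| * |p (m + 1)| := by
    apply mul_le_mul_of_nonneg_right _ h6
    linarith
  nlinarith

theorem Win.W_eq (V : Win b H a p) (m : ℕ) : W p m = b ^ ex b p m := by
  have hb := V.hb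
  unfold ex
  rw [Real.rpow_logb (by linarith) (by linarith) (V.pos m)]

theorem Win.mono (V : Win b H a p) {x y : ℝ} (h : x ≤ y) : b ^ x ≤ b ^ y :=
  Real.rpow_le_rpow_of_exponent_le (by linarith [V.hb]) h

theorem Win.ex_le (V : Win b H a p) {i j : ℕ} {x : ℝ} (h : W p i ≤ b ^ x * W p j) :
    ex b p i ≤ x + ex b p j := by
  have hb := V.hb
  rw [V.W_eq i, V.W_eq j, ← Real.rpow_add (by linarith)] at h
  exact (Real.rpow_le_rpow_left_iff (by linarith)).mp h

theorem Win.le_ex (V : Win b H a p) {i : ℕ} {x : ℝ} (h : b ^ x ≤ W p i) : x ≤ ex b p i := by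
  have hb := V.hb
  rw [V.W_eq i] at h
  exact (Real.rpow_le_rpow_left_iff (by linarith)).mp h

theorem Win.ex_le' (V : Win b H a p) {i : ℕ} {x : ℝ} (h : W p i ≤ b ^ x) : ex b p i ≤ x := by
  have hb := V.hb
  rw [V.W_eq i] at h
  exact (Real.rpow_le_rpow_left_iff (by linarith)).mp h

theorem Win.clean_ex (V : Win b H a p) {m : ℕ} (hm : m < 35) : ex b p m + 1 ≤ ex b p (m + 1) := by
  have hb := V.hb
  have h1 := V.cleanstep hm
  have h3 := V.hcl (m + 1) (Finset.mem_Icc.mpr ⟨by omega, by omega⟩)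
  have h4 : W p m ≤ b ^ (-1 : ℝ) * W p (m + 1) := by
    have hW := W_nonneg p m
    have h5 : b * W p m ≤ W p (m + 1) := by nlinarith
    rw [Real.rpow_neg_one, inv_mul_eq_div, le_div_iff₀ (by linarith)]
    linarith
  have := V.ex_le h4
  linarith


theorem Win.up (V : Win b H a p) (m : ℕ) : ex b p (m + 1) ≤ ex b p m + 2 := by
  have h1 := V.succ_le m
  have h2 := V.hA m
  have h3 : W p (m + 1) ≤ b ^ (2 : ℝ) * W p m := by
    rw [Real.rpow_two]
    exact h1.trans (mul_le_mul_of_nonneg_right h2 (W_nonneg p m))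
  have := V.ex_le h3
  linarith

theorem Win.dn (V : Win b H a p) (m : ℕ) : ex b p m ≤ ex b p (m + 1) + 2 := by
  have h1 := V.le_succ m
  have h2 := V.hA m
  have h3 : W p m ≤ b ^ (2 : ℝ) * W p (m + 1) := by
    rw [Real.rpow_two]
    exact h1.trans (mul_le_mul_of_nonneg_right h2 (W_nonneg p (m + 1)))
  have := V.ex_le h3
  linarith

theorem Win.clean_mono (V : Win b H a p) {i j : ℕ} (hij : i ≤ j) (hj : j ≤ 35) :
    ex b p i ≤ ex b p j := by
  induction j, hij using Nat.le_induction with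
  | base => exact le_rfl
  | succ j hij ih =>
    have := ih (by omega)
    have := V.clean_ex (by omega : j < 35)
    linarith


theorem Win.expo (V : Win b H a p) : Expo b H (ex b p) := V.E

end Crest.Agent.R128.Shx
end

-- ▼ part R128/ShxB
section

/-!
Row 128, node V3-CORE (second implementation), part B: forward fundamental solutions along a window.
-/

set_option autoImplicit false

open Finset

namespace Crest.Agent.R128.Shx

open Crest.Agent.R128.TreeSum Crest.Agent.R128.BVP Crest.Agent.R128.Val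

variable {b : ℝ} {H : ℕ} {a p : ℕ → ℝ}

/-- the weights -/
noncomputable def G (p : ℕ → ℝ) (H m : ℕ) : ℝ :=
  if m ≤ H + 1 then min (W p (m - 1)) (W p m) else W p (m - 1)

theorem abs_le_G (p : ℕ → ℝ) (H : ℕ) {m : ℕ} (hm : 1 ≤ m) : |p m| ≤ G p H m := by
  unfold G
  split_ifs
  · exact le_min (abs_le_W_pred p hm) (abs_le_W p m)
  · exact abs_le_W_pred p hm

theorem G_le_pred (p : ℕ → ℝ) (H m : ℕ) : G p H m ≤ W p (m - 1) := by
  unfold G
  split_ifs
  · exact min_le_left _ _
  · exact le_rfl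

theorem G_le (p : ℕ → ℝ) {H m : ℕ} (hm : m ≤ H + 1) : G p H m ≤ W p m := by
  unfold G
  rw [if_pos hm]
  exact min_le_right _ _

theorem Win.G_pos (V : Win b H a p) (m : ℕ) : 0 < G p H m := by
  unfold G
  split_ifs
  · exact lt_min (V.pos _) (V.pos _)
  · exact V.pos _

theorem comp_le (w z : ℝ × ℝ) (hw : 0 < nn w) :
    |z.1| ≤ |lam w z| * |w.1| + |wr w z| / nn w ∧ |z.2| ≤ |lam w z| * |w.2| + |wr w z| / nn w := by
  have hsq : nn w ^ 2 = w.1 ^ 2 + w.2 ^ 2 := nn_sq w
  have hne : nn w ≠ 0 := hw.ne'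
  have e1 : z.1 = lam w z * w.1 - wr w z * w.2 / nn w ^ 2 := by
    unfold lam
    rw [div_mul_eq_mul_div, ← sub_div, eq_div_iff (by positivity), hsq]
    unfold dt wr
    ring
  have e2 : z.2 = lam w z * w.2 + wr w z * w.1 / nn w ^ 2 := by
    unfold lam
    rw [div_mul_eq_mul_div, ← add_div, eq_div_iff (by positivity), hsq]
    unfold dt wr
    ring
  have h1 : |wr w z * w.2 / nn w ^ 2| ≤ |wr w z| / nn w := by
    rw [abs_div, abs_mul, abs_of_pos (by positivity : 0 < nn w ^ 2), div_le_div_iff₀ (by positivity) hw]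
    have := abs_snd_le w
    have h3 : |w.2| * nn w ≤ nn w ^ 2 := by nlinarith
    nlinarith [mul_le_mul_of_nonneg_left h3 (abs_nonneg (wr w z))]
  have h2 : |wr w z * w.1 / nn w ^ 2| ≤ |wr w z| / nn w := by
    rw [abs_div, abs_mul, abs_of_pos (by positivity : 0 < nn w ^ 2), div_le_div_iff₀ (by positivity) hw]
    have := abs_fst_le w
    have h3 : |w.1| * nn w ≤ nn w ^ 2 := by nlinarith
    nlinarith [mul_le_mul_of_nonneg_left h3 (abs_nonneg (wr w z))]
  constructor
  · have h3 := abs_sub (lam w z * w.1) (wr w z * w.2 / nn w ^ 2)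
    rw [← e1, abs_mul] at h3
    linarith
  · have h3 := abs_add_le (lam w z * w.2) (wr w z * w.1 / nn w ^ 2)
    rw [← e2, abs_mul] at h3
    linarith

/-- forward fundamental solutions -/
theorem Win.fund_raw (V : Win b H a p) {j m : ℕ} (hjm : j ≤ m) (hm : m ≤ H + 1) :
    |fund a j m| ≤ (1 / W p j + W p j * wtt a p j (H + 1)) * |p m| + |p j| / W p m ∧
    |fund a j (m + 1)| ≤ (1 / W p j + W p j * wtt a p j (H + 1)) * |p (m + 1)| + |p j| / W p m := by
  obtain ⟨i, rfl⟩ := Nat.exists_eq_add_of_le hjm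
  set w : ℕ → ℝ × ℝ := fun i => (p (j + i), p (j + i + 1)) with hw
  set z : ℕ → ℝ × ℝ := fun i => (fund a j (j + i), fund a j (j + i + 1)) with hz
  have fw : IsField (fun i => a (j + i + 1)) w := V.isField j
  have fz : IsField (fun i => a (j + i + 1)) z := by
    intro i
    show (fund a j (j + (i + 1)), fund a j (j + (i + 1) + 1)) =
      TreeSum.stp (a (j + i + 1)) (fund a j (j + i), fund a j (j + i + 1))
    unfold TreeSum.stp
    have := fund_rec a j (j + i) (by omega)
    ext
    · rfl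
    · exact this
  have hpos0 : 0 < nn (w 0) := V.pos j
  have hposi : 0 < nn (w i) := V.pos (j + i)
  have hwr0 : wr (w 0) (z 0) = p j := by
    show p (j + 0) * fund a j (j + 0 + 1) - p (j + 0 + 1) * fund a j (j + 0) = p j
    rw [Nat.add_zero, fund_succ, fund_self]
    ring
  have hwri : wr (w i) (z i) = p j := by
    rw [fw.wr_eq fz (Nat.zero_le i), hwr0]
  have hld := lam_diff fw fz (Nat.zero_le i) hpos0
  rw [hwr0] at hld
  have hwt : wt (fun i => a (j + i + 1)) w 0 i ≤ wtt a p j (H + 1) := by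
    have e : wt (fun i => a (j + i + 1)) w 0 i = wtt a p j (j + i) := by
      unfold wt wtt
      rw [Finset.sum_Ico_eq_sum_range, Finset.sum_Ico_eq_sum_range]
      have : j + i - j = i - 0 := by omega
      rw [this]
      apply Finset.sum_congr rfl
      intro x _
      simp only [Nat.zero_add]
      rfl
    rw [e]
    unfold wtt
    apply Finset.sum_le_sum_of_subset_of_nonneg
    · intro x hx
      rw [Finset.mem_Ico] at hx ⊢
      omega
    · intro x _ _
      have := V.pos x
      have := V.pos (x + 1)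
      positivity
  have hl0 : |lam (w 0) (z 0)| ≤ 1 / W p j := by
    unfold lam
    have e : dt (z 0) (w 0) = p (j + 1) := by
      show fund a j (j + 0) * p (j + 0) + fund a j (j + 0 + 1) * p (j + 0 + 1) = p (j + 1)
      rw [Nat.add_zero, fund_succ, fund_self]
      ring
    rw [e, abs_div, abs_of_pos (by positivity : 0 < nn (w 0) ^ 2)]
    have h5 := abs_succ_le_W p j
    have e2 : nn (w 0) = W p j := rfl
    rw [e2, div_le_div_iff₀ (by have := V.pos j; positivity) (V.pos j)]
    have := V.pos j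
    nlinarith
  have hli : |lam (w i) (z i)| ≤ 1 / W p j + W p j * wtt a p j (H + 1) := by
    have h7 := abs_add_le (lam (w i) (z i) - lam (w 0) (z 0)) (lam (w 0) (z 0))
    rw [sub_add_cancel] at h7
    have h8 : |p j| * wt (fun i => a (j + i + 1)) w 0 i ≤ W p j * wtt a p j (H + 1) :=
      mul_le_mul (abs_le_W p j) hwt (wt_nonneg _ _ _ _) (V.pos j).le
    linarith
  obtain ⟨h1, h2⟩ := comp_le (w i) (z i) hposi
  rw [hwri] at h1 h2
  constructor
  · refine h1.trans ?_
    exact add_le_add (mul_le_mul_of_nonneg_right hli (abs_nonneg _)) le_rfl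
  · refine h2.trans ?_
    exact add_le_add (mul_le_mul_of_nonneg_right hli (abs_nonneg _)) le_rfl

theorem Win.term_le (V : Win b H a p) (j : ℕ) :
    (|a (j + 1)| + 2) / (W p j * W p (j + 1)) ≤ b ^ (4 - 2 * ex b p j) := by
  have hb0 := V.b0
  have h1 := V.le_succ j
  have h2 := V.hA j
  have hWj := V.pos j
  have hWj' := V.pos (j + 1)
  have h3 : 0 ≤ |a (j + 1)| := abs_nonneg _
  have h4 : W p j ≤ b ^ 2 * W p (j + 1) := h1.trans (mul_le_mul_of_nonneg_right h2 hWj'.le)
  have h5 : b ^ (4 - 2 * ex b p j) = b ^ 4 / W p j ^ 2 := by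
    rw [Real.rpow_sub hb0, V.W_eq j]
    congr 1
    · exact_mod_cast Real.rpow_natCast b 4
    · rw [← Real.rpow_natCast (b ^ ex b p j) 2, ← Real.rpow_mul hb0.le]
      congr 1
      push_cast
      ring
  rw [h5, div_le_div_iff₀ (by positivity) (by positivity)]
  calc (|a (j + 1)| + 2) * W p j ^ 2 ≤ b ^ 2 * (W p j * (b ^ 2 * W p (j + 1))) := by
        rw [sq (W p j)]
        gcongr
    _ = b ^ 4 * (W p j * W p (j + 1)) := by ring

/-- the explicit bound -/
noncomputable def B (b : ℝ) (u : ℕ → ℝ) (j : ℕ) : ℝ :=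
  if j ≤ 30 then 3 * b ^ (-u j) else 2 * b ^ (6 - 97 / 100 * u j)

theorem B_pos {b : ℝ} (hb : 0 < b) (u : ℕ → ℝ) (j : ℕ) : 0 < B b u j := by
  unfold B
  split_ifs <;> positivity

theorem Win.lamB (V : Win b H a p) : LamB b H (ex b p) (B b (ex b p)) where
  pos := fun m _ => (B_pos V.b0 _ _).le
  c := by
    intro m hm
    unfold B
    rw [if_pos hm]
  g := by
    intro m hm
    unfold B
    split_ifs with h
    · have h1 : b ^ (-ex b p m) ≤ b ^ (-1 + (6 - 97 / 100 * ex b p m) : ℝ) := by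
        apply V.mono
        have := V.expo.nonneg hm
        linarith
      rw [Real.rpow_add V.b0] at h1
      have h2 : b ^ (-1 : ℝ) ≤ (1 / 16) ^ 1 := V.expo.small (by norm_num)
      rw [pow_one] at h2
      have h3 : 0 < b ^ (6 - 97 / 100 * ex b p m) := Real.rpow_pos_of_pos V.b0 _
      nlinarith
    · exact le_rfl

theorem Win.Lam_le (V : Win b H a p) {m : ℕ} (hm : m ≤ H) :
    1 / W p m + W p m * wtt a p m (H + 1) ≤ B b (ex b p) m := by
  have hb := V.hb
  have hb0 := V.b0
  have E := V.expo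
  have hH := V.hH
  have hWm := V.pos m
  have h6 : b ^ (-ex b p m) = 1 / W p m := by
    rw [Real.rpow_neg hb0.le, ← V.W_eq m, one_div]
  have hWsq : ∀ x : ℝ, (b ^ x) ^ 2 = b ^ (2 * x) := by
    intro x
    rw [← Real.rpow_natCast (b ^ x) 2, ← Real.rpow_mul hb0.le]
    congr 1
    push_cast
    ring
  unfold B
  split_ifs with h30
  · have h35 : ex b p m + 5 ≤ ex b p 35 := by
      have h2 := E.clean (by omega : m ≤ 35) le_rfl
      have h3 : (5 : ℝ) ≤ ((35 - m : ℕ) : ℝ) := by
        have : 5 ≤ 35 - m := by omega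
        exact_mod_cast this
      linarith
    have hw : W p m ^ 2 * wtt a p m (H + 1) ≤ 5 / 4 * (16 / 15) + 1 / 16 := by
      have hpt : ∀ j ∈ Ico m (H + 1), W p m ^ 2 * ((|a (j + 1)| + 2) / (W p j * W p (j + 1))) ≤
          5 / 4 * (if m ≤ j then (b⁻¹) ^ (j - m) else 0) +
            b ^ (-2 : ℝ) * b ^ (-(1 / 100 * ex b p j)) := by
        intro j hj
        rw [Finset.mem_Ico] at hj
        rw [if_pos hj.1]
        have hWj := V.pos j
        have hWj' := V.pos (j + 1)
        rcases Nat.lt_or_ge j 35 with h | h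
        · have h2 := V.cleanstep h
          have h3 : (|a (j + 1)| + 2) / (W p j * W p (j + 1)) ≤ 5 / 4 / W p j ^ 2 := by
            rw [div_le_div_iff₀ (by positivity) (by positivity)]
            nlinarith
          have h4 : W p m ^ 2 * (5 / 4 / W p j ^ 2) = 5 / 4 * b ^ (2 * ex b p m - 2 * ex b p j) := by
            rw [Real.rpow_sub hb0, ← hWsq, ← hWsq, ← V.W_eq m, ← V.W_eq j]
            ring
          have h5 : b ^ (2 * ex b p m - 2 * ex b p j) ≤ (b⁻¹) ^ (j - m) := by
            rw [E.pow_inv]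
            apply E.mono
            have h6 := E.clean hj.1 h.le
            have h7 : (0 : ℝ) ≤ ((j - m : ℕ) : ℝ) := Nat.cast_nonneg _
            linarith
          calc W p m ^ 2 * ((|a (j + 1)| + 2) / (W p j * W p (j + 1)))
              ≤ W p m ^ 2 * (5 / 4 / W p j ^ 2) := by gcongr
            _ = 5 / 4 * b ^ (2 * ex b p m - 2 * ex b p j) := h4
            _ ≤ 5 / 4 * (b⁻¹) ^ (j - m) := by gcongr
            _ ≤ _ := by
              have : 0 ≤ b ^ (-2 : ℝ) * b ^ (-(1 / 100 * ex b p j)) := by positivity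
              linarith
        · have h2 := V.term_le j
          have h3 := E.v2 35 j h (by omega)
          have h4 : W p m ^ 2 * b ^ (4 - 2 * ex b p j) ≤ b ^ (-2 : ℝ) * b ^ (-(1 / 100 * ex b p j)) := by
            rw [V.W_eq m, hWsq, ← Real.rpow_add hb0, ← Real.rpow_add hb0]
            apply E.mono
            have hum := E.ub (by omega : m ≤ H)
            have hm30 : (m : ℝ) ≤ 30 := by exact_mod_cast h30
            linarith
          calc W p m ^ 2 * ((|a (j + 1)| + 2) / (W p j * W p (j + 1)))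
              ≤ W p m ^ 2 * b ^ (4 - 2 * ex b p j) := by gcongr
            _ ≤ b ^ (-2 : ℝ) * b ^ (-(1 / 100 * ex b p j)) := h4
            _ ≤ _ := by
              have : 0 ≤ 5 / 4 * (b⁻¹) ^ (j - m) := by positivity
              linarith
      unfold wtt
      rw [Finset.mul_sum]
      refine (Finset.sum_le_sum hpt).trans ?_
      rw [Finset.sum_add_distrib, ← Finset.mul_sum, ← Finset.mul_sum, ← Finset.sum_filter]
      have g1 := geom_le E.hb (Ico m (H + 1)) m
      have g2 := E.sum_le (Ico m (H + 1)) (by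
        intro j hj
        rw [Finset.mem_Ico] at hj
        rw [Finset.mem_range]
        omega)
      have g3 : b ^ (-2 : ℝ) * b = b ^ (-1 : ℝ) := by
        conv_lhs => rw [← Real.rpow_one b, ← Real.rpow_mul hb0.le, ← Real.rpow_add hb0]
        norm_num
      have g4 : b ^ (-1 : ℝ) ≤ (1 / 16) ^ 1 := E.small (by norm_num)
      have p2 : 0 ≤ b ^ (-2 : ℝ) := by positivity
      nlinarith [mul_le_mul_of_nonneg_left g2 p2]
    rw [h6]
    have e1 : W p m * wtt a p m (H + 1) = (W p m ^ 2 * wtt a p m (H + 1)) * (1 / W p m) := by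
      field_simp
    rw [e1]
    have h7 : 0 < 1 / W p m := by positivity
    nlinarith
  · have hw : wtt a p m (H + 1) ≤ b ^ (52 / 10 - 19701 / 10000 * ex b p m) := by
      have hpt : ∀ j ∈ Ico m (H + 1), (|a (j + 1)| + 2) / (W p j * W p (j + 1)) ≤
          b ^ (42 / 10 - 19701 / 10000 * ex b p m) * b ^ (-(1 / 100 * ex b p j)) := by
        intro j hj
        rw [Finset.mem_Ico] at hj
        refine (V.term_le j).trans ?_
        rw [← Real.rpow_add hb0]
        apply E.mono
        have := E.v2 m j hj.1 (by omega)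
        linarith
      unfold wtt
      refine (Finset.sum_le_sum hpt).trans ?_
      rw [← Finset.mul_sum]
      have g2 := E.sum_le (Ico m (H + 1)) (by
        intro j hj
        rw [Finset.mem_Ico] at hj
        rw [Finset.mem_range]
        omega)
      calc b ^ (42 / 10 - 19701 / 10000 * ex b p m) *
            ∑ j ∈ Ico m (H + 1), b ^ (-(1 / 100 * ex b p j))
          ≤ b ^ (42 / 10 - 19701 / 10000 * ex b p m) * b := by gcongr
        _ = b ^ (42 / 10 - 19701 / 10000 * ex b p m) * b ^ (1 : ℝ) := by rw [Real.rpow_one]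
        _ = b ^ (52 / 10 - 19701 / 10000 * ex b p m) := by
          rw [← Real.rpow_add hb0]
          congr 1
          ring
    have hum := E.nonneg hm
    have t1 : 1 / W p m ≤ b ^ (6 - 97 / 100 * ex b p m) := by
      rw [← h6]
      apply E.mono
      linarith
    have t2 : W p m * wtt a p m (H + 1) ≤ b ^ (6 - 97 / 100 * ex b p m) := by
      calc W p m * wtt a p m (H + 1) ≤ W p m * b ^ (52 / 10 - 19701 / 10000 * ex b p m) := by gcongr
        _ = b ^ (ex b p m + (52 / 10 - 19701 / 10000 * ex b p m)) := by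
          rw [Real.rpow_add hb0, ← V.W_eq m]
        _ ≤ _ := by
          apply E.mono
          linarith
    linarith

/-- **fundamental solutions**, bounded by `B` -/
theorem Win.fund_le (V : Win b H a p) {j m : ℕ} (hjm : j ≤ m) (hj : j ≤ H) (hm : m ≤ H + 1) :
    |fund a j m| ≤ B b (ex b p) j * |p m| + |p j| / W p m ∧
    |fund a j (m + 1)| ≤ B b (ex b p) j * |p (m + 1)| + |p j| / W p m := by
  obtain ⟨h1, h2⟩ := V.fund_raw hjm hm
  have h3 := V.Lam_le hj
  constructor
  · refine h1.trans ?_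
    exact add_le_add (mul_le_mul_of_nonneg_right h3 (abs_nonneg _)) le_rfl
  · refine h2.trans ?_
    exact add_le_add (mul_le_mul_of_nonneg_right h3 (abs_nonneg _)) le_rfl

end Crest.Agent.R128.Shx
end

-- ▼ part R128/ShxC
section

/-!
Row 128, node V3-CORE (second implementation), part C: the sum lemma.
-/

set_option autoImplicit false

open Finset

namespace Crest.Agent.R128.Shx

open Crest.Agent.R128.TreeSum Crest.Agent.R128.BVP Crest.Agent.R128.Val

variable {b : ℝ} {H : ℕ} {a p : ℕ → ℝ}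

theorem Win.two_le (V : Win b H a p) : (2 : ℝ) ≤ b ^ (1 : ℝ) := by
  rw [Real.rpow_one]; linarith [V.hb]

theorem Win.S1 (V : Win b H a p) {c θ ξ : ℝ} (hξ : 800 ≤ ξ)
    (hup : ∀ j ≤ H, ex b p j ≤ ξ + 3) (hθ : θ ≤ b ^ (-(9 / 20 * ξ))) :
    ∑ j ∈ Icc 1 H, B b (ex b p) j * (c * B b (ex b p) j + θ) * W p (j - 1) ≤
      (11 * c + 1) * b ^ (-2 : ℝ) ∨ c < 0 := by
  rcases lt_or_ge c 0 with hc | hc
  · exact Or.inr hc
  left
  have hb0 := V.b0
  have E := V.expo
  have L := V.lamB
  have hpt : ∀ j ∈ Icc 1 H, B b (ex b p) j * (c * B b (ex b p) j + θ) * W p (j - 1) ≤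
      c * (B b (ex b p) j ^ 2 * b ^ ex b p (j - 1)) + b ^ (-3 : ℝ) * b ^ (-(1 / 100 * ex b p j)) := by
    intro j hj
    rw [Finset.mem_Icc] at hj
    have hBp := B_pos hb0 (ex b p) j
    have h1 := L.g j hj.2
    have h2 : W p (j - 1) ≤ b ^ (ex b p j + 2) := by
      rw [V.W_eq (j - 1)]
      apply E.mono
      have := E.dn (j - 1) (by omega)
      rwa [Nat.sub_add_cancel hj.1] at this
    have h3 : θ * (B b (ex b p) j * W p (j - 1)) ≤ b ^ (-3 : ℝ) * b ^ (-(1 / 100 * ex b p j)) := by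
      have hW := (V.pos (j - 1)).le
      calc θ * (B b (ex b p) j * W p (j - 1))
          ≤ b ^ (-(9 / 20 * ξ)) * ((b ^ (1 : ℝ) * b ^ (6 - 97 / 100 * ex b p j)) * b ^ (ex b p j + 2)) := by
            have h4 : B b (ex b p) j ≤ b ^ (1 : ℝ) * b ^ (6 - 97 / 100 * ex b p j) :=
              h1.trans (mul_le_mul_of_nonneg_right V.two_le (by positivity))
            have h5 : B b (ex b p) j * W p (j - 1) ≤
                (b ^ (1 : ℝ) * b ^ (6 - 97 / 100 * ex b p j)) * b ^ (ex b p j + 2) :=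
              mul_le_mul h4 h2 hW (by positivity)
            have h6 : 0 ≤ B b (ex b p) j * W p (j - 1) := mul_nonneg hBp.le hW
            calc θ * (B b (ex b p) j * W p (j - 1)) ≤ b ^ (-(9 / 20 * ξ)) * (B b (ex b p) j * W p (j - 1)) :=
                  mul_le_mul_of_nonneg_right hθ h6
              _ ≤ _ := mul_le_mul_of_nonneg_left h5 (by positivity)
        _ = b ^ (-(9 / 20 * ξ) + (1 + (6 - 97 / 100 * ex b p j) + (ex b p j + 2))) := by
            rw [← Real.rpow_add hb0, ← Real.rpow_add hb0, ← Real.rpow_add hb0]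
        _ ≤ b ^ (-3 + -(1 / 100 * ex b p j) : ℝ) := by
            apply E.mono
            have := hup j hj.2
            linarith
        _ = _ := by rw [Real.rpow_add hb0]
    calc B b (ex b p) j * (c * B b (ex b p) j + θ) * W p (j - 1)
        = c * (B b (ex b p) j ^ 2 * W p (j - 1)) + θ * (B b (ex b p) j * W p (j - 1)) := by ring
      _ ≤ c * (B b (ex b p) j ^ 2 * W p (j - 1)) + b ^ (-3 : ℝ) * b ^ (-(1 / 100 * ex b p j)) := by
          linarith
      _ = _ := by rw [V.W_eq (j - 1)]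
  refine (Finset.sum_le_sum hpt).trans ?_
  rw [Finset.sum_add_distrib, ← Finset.mul_sum, ← Finset.mul_sum]
  have g1 := sum2 E L
  have g2 := E.sum_le (Icc 1 H) (by
    intro j hj
    rw [Finset.mem_Icc] at hj
    rw [Finset.mem_range]
    omega)
  have g3 : b ^ (-3 : ℝ) * b = b ^ (-2 : ℝ) := by
    conv_lhs => rw [← Real.rpow_one b, ← Real.rpow_mul hb0.le, ← Real.rpow_add hb0]
    norm_num
  have p2 : 0 ≤ b ^ (-3 : ℝ) := by positivity
  have h1 := mul_le_mul_of_nonneg_left g1 hc
  have h2 := mul_le_mul_of_nonneg_left g2 p2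
  rw [g3] at h2
  linarith

theorem Win.S2 (V : Win b H a p) {c θ ξ DD : ℝ} (hc : 0 ≤ c) (hξ : 800 ≤ ξ)
    (hup : ∀ j ≤ H, ex b p j ≤ ξ + 3) (hθ : θ ≤ b ^ (-(9 / 20 * ξ))) {m : ℕ} (hm1 : 1 ≤ m) (hmH : m ≤ H)
    (hD : b ^ (2 * ex b p m - 4) ≤ DD) (hD' : m ≤ 30 → W p (m - 1) * W p m ≤ DD) :
    ∑ j ∈ Icc 1 m, W p (j - 1) ^ 2 * (c * B b (ex b p) j + θ) ≤ (5 * c + 1) * b ^ (-2 : ℝ) * DD := by
  have hb0 := V.b0
  have E := V.expo
  have L := V.lamB
  have hD0 : 0 < DD := lt_of_lt_of_le (by positivity) hD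
  -- first part
  have hs := sum1 E L (Finset.mem_Icc.mpr ⟨hm1, hmH⟩)
  set S := ∑ j ∈ Icc 1 m, (b ^ ex b p (j - 1)) ^ 2 * B b (ex b p) j with hS
  have hS0 : 0 ≤ S := Finset.sum_nonneg fun j _ => mul_nonneg (sq_nonneg _) (B_pos hb0 _ _).le
  have part1 : S ≤ 5 * b ^ (-2 : ℝ) * DD := by
    rcases Nat.lt_or_ge 30 m with h | h
    · have hB : B b (ex b p) m = 2 * b ^ (6 - 97 / 100 * ex b p m) := by
        unfold B; rw [if_neg (by omega)]
      rw [hB] at hs
      have h1 : b ^ ex b p (m - 1) ≤ b ^ (ex b p m + 2) := by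
        apply E.mono
        have := E.dn (m - 1) (by omega)
        rwa [Nat.sub_add_cancel hm1] at this
      have h2 : 2 * b ^ (6 - 97 / 100 * ex b p m) * S ≤ 10 * b ^ (-2 : ℝ) * b ^ (ex b p m + 2) :=
        hs.trans (mul_le_mul_of_nonneg_left h1 (by positivity))
      have hu := E.nonneg hmH
      have h3 : b ^ (ex b p m + 2) ≤ b ^ (6 - 97 / 100 * ex b p m) * DD := by
        calc b ^ (ex b p m + 2) ≤ b ^ ((6 - 97 / 100 * ex b p m) + (2 * ex b p m - 4)) := by
              apply E.mono; linarith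
          _ = b ^ (6 - 97 / 100 * ex b p m) * b ^ (2 * ex b p m - 4) := Real.rpow_add hb0 _ _
          _ ≤ _ := mul_le_mul_of_nonneg_left hD (by positivity)
      have h4 : 10 * b ^ (-2 : ℝ) * b ^ (ex b p m + 2) ≤
          10 * b ^ (-2 : ℝ) * (b ^ (6 - 97 / 100 * ex b p m) * DD) :=
        mul_le_mul_of_nonneg_left h3 (by positivity)
      have h5 : 0 < b ^ (6 - 97 / 100 * ex b p m) := by positivity
      have h6 : (2 * b ^ (6 - 97 / 100 * ex b p m)) * S ≤
          (2 * b ^ (6 - 97 / 100 * ex b p m)) * (5 * b ^ (-2 : ℝ) * DD) := by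
        calc _ ≤ _ := h2.trans h4
          _ = _ := by ring
      exact le_of_mul_le_mul_left h6 (by positivity)
    · have hB : B b (ex b p) m = 3 * b ^ (-ex b p m) := by
        unfold B; rw [if_pos h]
      rw [hB] at hs
      have h1 : b ^ (-ex b p m) = 1 / W p m := by
        rw [Real.rpow_neg hb0.le, ← V.W_eq m, one_div]
      rw [h1, ← V.W_eq (m - 1)] at hs
      have hW := V.pos m
      have h2 : 3 * S ≤ 10 * b ^ (-2 : ℝ) * W p (m - 1) * W p m := by
        have h3 := mul_le_mul_of_nonneg_right hs hW.le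
        calc 3 * S = 3 * (1 / W p m) * S * W p m := by field_simp
          _ ≤ _ := h3
      have h4 := hD' h
      have h5 : 0 < b ^ (-2 : ℝ) := by positivity
      have h6 : b ^ (-2 : ℝ) * (W p (m - 1) * W p m) ≤ b ^ (-2 : ℝ) * DD :=
        mul_le_mul_of_nonneg_left h4 h5.le
      have h7 : 0 < b ^ (-2 : ℝ) * DD := by positivity
      nlinarith
  -- second part
  have part2 : ∑ j ∈ Icc 1 m, W p (j - 1) ^ 2 * θ ≤ b ^ (-2 : ℝ) * DD := by
    have hpt : ∀ j ∈ Icc 1 m, W p (j - 1) ^ 2 * θ ≤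
        (b ^ (-3 : ℝ) * DD) * b ^ (-(1 / 100 * ex b p j)) := by
      intro j hj
      rw [Finset.mem_Icc] at hj
      have h2 : W p (j - 1) ^ 2 ≤ b ^ (2 * ex b p j + 4) := by
        have h3 : W p (j - 1) ≤ b ^ (ex b p j + 2) := by
          rw [V.W_eq (j - 1)]
          apply E.mono
          have := E.dn (j - 1) (by omega)
          rwa [Nat.sub_add_cancel hj.1] at this
        calc W p (j - 1) ^ 2 ≤ (b ^ (ex b p j + 2)) ^ 2 := pow_le_pow_left₀ (V.pos _).le h3 2
          _ = b ^ (2 * ex b p j + 4) := by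
            rw [← Real.rpow_natCast (b ^ (ex b p j + 2)) 2, ← Real.rpow_mul hb0.le]
            congr 1; push_cast; ring
      calc W p (j - 1) ^ 2 * θ ≤ W p (j - 1) ^ 2 * b ^ (-(9 / 20 * ξ)) :=
            mul_le_mul_of_nonneg_left hθ (sq_nonneg _)
        _ ≤ b ^ (2 * ex b p j + 4) * b ^ (-(9 / 20 * ξ)) :=
            mul_le_mul_of_nonneg_right h2 (by positivity)
        _ = b ^ (2 * ex b p j + 4 + -(9 / 20 * ξ)) := (Real.rpow_add hb0 _ _).symm
        _ ≤ b ^ (-3 + (2 * ex b p m - 4) + -(1 / 100 * ex b p j)) := by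
            apply E.mono
            have h5 := E.v2 j m hj.2 hmH
            have h6 := hup m hmH
            have h7 := hup j (by omega)
            linarith
        _ = (b ^ (-3 : ℝ) * b ^ (2 * ex b p m - 4)) * b ^ (-(1 / 100 * ex b p j)) := by
            rw [Real.rpow_add hb0, Real.rpow_add hb0]
        _ ≤ _ := by gcongr
    refine (Finset.sum_le_sum hpt).trans ?_
    rw [← Finset.mul_sum]
    have g2 := E.sum_le (Icc 1 m) (by
      intro j hj
      rw [Finset.mem_Icc] at hj
      rw [Finset.mem_range]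
      omega)
    have g3 : b ^ (-3 : ℝ) * b = b ^ (-2 : ℝ) := by
      conv_lhs => rw [← Real.rpow_one b, ← Real.rpow_mul hb0.le, ← Real.rpow_add hb0]
      norm_num
    calc _ ≤ (b ^ (-3 : ℝ) * DD) * b := mul_le_mul_of_nonneg_left g2 (by positivity)
      _ = b ^ (-3 : ℝ) * b * DD := by ring
      _ = _ := by rw [g3]
  have e : ∑ j ∈ Icc 1 m, W p (j - 1) ^ 2 * (c * B b (ex b p) j + θ) =
      c * S + ∑ j ∈ Icc 1 m, W p (j - 1) ^ 2 * θ := by
    rw [hS, Finset.mul_sum, ← Finset.sum_add_distrib]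
    apply Finset.sum_congr rfl
    intro j _
    rw [V.W_eq (j - 1)]
    ring
  rw [e]
  have h1 := mul_le_mul_of_nonneg_left part1 hc
  linarith

/-- the second weight -/
noncomputable def Wx (p : ℕ → ℝ) (H m : ℕ) : ℝ :=
  if m ≤ H + 1 then max (W p (m - 1)) (W p m) else W p (m - 1)

theorem Win.Wx_pos (V : Win b H a p) (m : ℕ) : 0 < Wx p H m := by
  unfold Wx
  split_ifs
  · exact lt_max_of_lt_left (V.pos _)
  · exact V.pos _

theorem Win.fund_x (V : Win b H a p) {j m : ℕ} (hjm : j < m) (hj : j ≤ H) (hm : m ≤ H + 2) :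
    |fund a j m| ≤ B b (ex b p) j * |p m| + |p j| / Wx p H m := by
  obtain ⟨i, rfl⟩ : ∃ i, m = i + 1 := ⟨m - 1, by omega⟩
  have h2 := (V.fund_le (j := j) (m := i) (by omega) hj (by omega)).2
  unfold Wx
  split_ifs with h
  · have h1 := (V.fund_le (j := j) (m := i + 1) (by omega) hj h).1
    simp only [Nat.add_sub_cancel]
    rcases le_total (W p i) (W p (i + 1)) with h3 | h3
    · rw [max_eq_right h3]; exact h1
    · rw [max_eq_left h3]; exact h2
  · simp only [Nat.add_sub_cancel]
    exact h2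

theorem Win.GWx (V : Win b H a p) {m : ℕ} (hm1 : 2 ≤ m) (hm : m ≤ H + 2) :
    b ^ (2 * ex b p (min (m - 1) H) - 4) ≤ G p H m * Wx p H m ∧
    (min (m - 1) H ≤ 30 → W p (min (m - 1) H - 1) * W p (min (m - 1) H) ≤ G p H m * Wx p H m) := by
  have hb0 := V.b0
  have hH := V.hH
  rcases Nat.lt_or_ge (H + 1) m with h | h
  · have e : m = H + 2 := by omega
    subst e
    have e1 : min (H + 2 - 1) H = H := by omega
    rw [e1]
    have e2 : G p H (H + 2) = W p (H + 1) := by
      unfold G; rw [if_neg (by omega)]; rfl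
    have e3 : Wx p H (H + 2) = W p (H + 1) := by
      unfold Wx; rw [if_neg (by omega)]; rfl
    rw [e2, e3]
    refine ⟨?_, fun h' => absurd h' (by omega)⟩
    rw [V.W_eq (H + 1), ← Real.rpow_add hb0]
    apply V.mono
    have := V.dn H
    linarith
  · have e1 : min (m - 1) H = m - 1 := by omega
    rw [e1]
    have e2 : G p H m * Wx p H m = W p (m - 1) * W p m := by
      unfold G Wx
      rw [if_pos h, if_pos h]
      exact min_mul_max _ _
    rw [e2]
    have hd := V.dn (m - 1)
    rw [Nat.sub_add_cancel (by omega : 1 ≤ m)] at hd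
    constructor
    · rw [V.W_eq (m - 1), V.W_eq m, ← Real.rpow_add hb0]
      apply V.mono
      linarith
    · intro h30
      have h1 := V.clean_mono (i := m - 2) (j := m) (by omega) (by omega)
      have h2 : W p (m - 1 - 1) ≤ W p m := by
        have e4 : m - 1 - 1 = m - 2 := by omega
        rw [e4, V.W_eq (m - 2), V.W_eq m]
        exact V.mono h1
      rw [mul_comm]
      exact mul_le_mul_of_nonneg_left h2 (V.pos _).le

/-- **the sum lemma** -/
theorem Win.sum_main (V : Win b H a p) {M c θ ξ : ℝ} (hM0 : 0 ≤ M) (hM : 10 ^ 6 * M ≤ b ^ 2)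
    (hc0 : 0 ≤ c) (hc : c ≤ 30) (hξ : 800 ≤ ξ) (hup : ∀ j ≤ H, ex b p j ≤ ξ + 3)
    (hθ0 : 0 ≤ θ) (hθ : θ ≤ b ^ (-(9 / 20 * ξ)))
    {d : ℕ → ℝ} (hd : ∀ j, 1 ≤ j → j ≤ H → d j ≤ c * B b (ex b p) j + θ) (hd' : d (H + 1) ≤ θ)
    (hd0 : ∀ j, 0 ≤ d j) {m : ℕ} (hm : m ≤ H + 2) :
    ∑ j ∈ Ico 1 m, |fund a j m| * (M * d j) * G p H j ≤ 1 / 1000 * G p H m := by
  have hb0 := V.b0
  have hb := V.hb
  have hG := V.G_pos m
  rcases Nat.lt_or_ge m 2 with h2 | h2
  · rw [Finset.Ico_eq_empty (by omega), Finset.sum_empty]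
    positivity
  set m' := min (m - 1) H with hm'
  have hm'1 : 1 ≤ m' := by have := V.hH; omega
  have hm'H : m' ≤ H := by omega
  have hX := V.Wx_pos m
  obtain ⟨hD, hD'⟩ := V.GWx h2 hm
  rw [← hm'] at hD hD'
  have hb2 : b ^ (-2 : ℝ) = 1 / b ^ 2 := by
    rw [Real.rpow_neg hb0.le, Real.rpow_two, one_div]
  -- the main part
  have hmain : ∑ j ∈ Icc 1 m', |fund a j m| * (M * d j) * G p H j ≤
      M * ((16 * c + 2) * b ^ (-2 : ℝ)) * G p H m := by
    have hpt : ∀ j ∈ Icc 1 m', |fund a j m| * (M * d j) * G p H j ≤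
        (M * |p m|) * (B b (ex b p) j * (c * B b (ex b p) j + θ) * W p (j - 1)) +
        (M / Wx p H m) * (W p (j - 1) ^ 2 * (c * B b (ex b p) j + θ)) := by
      intro j hj
      rw [Finset.mem_Icc] at hj
      have h3 := V.fund_x (j := j) (m := m) (by omega) (by omega) hm
      have h4 := hd j hj.1 (by omega)
      have h5 := G_le_pred p H j
      have h6 := (V.G_pos j).le
      have h7 := B_pos hb0 (ex b p) j
      have h8 := abs_le_W_pred p hj.1
      have h9 : 0 ≤ c * B b (ex b p) j + θ := (hd0 j).trans h4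
      have hW := (V.pos (j - 1)).le
      calc |fund a j m| * (M * d j) * G p H j
          ≤ (B b (ex b p) j * |p m| + |p j| / Wx p H m) * (M * (c * B b (ex b p) j + θ)) * W p (j - 1) := by
            apply mul_le_mul _ h5 h6 (by positivity)
            apply mul_le_mul h3 _ (mul_nonneg hM0 (hd0 j)) (by positivity)
            exact mul_le_mul_of_nonneg_left h4 hM0
        _ ≤ (B b (ex b p) j * |p m| + W p (j - 1) / Wx p H m) * (M * (c * B b (ex b p) j + θ)) *
              W p (j - 1) := by gcongr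
        _ = _ := by ring
    refine (Finset.sum_le_sum hpt).trans ?_
    rw [Finset.sum_add_distrib, ← Finset.mul_sum, ← Finset.mul_sum]
    have s1 : ∑ j ∈ Icc 1 m', B b (ex b p) j * (c * B b (ex b p) j + θ) * W p (j - 1) ≤
        (11 * c + 1) * b ^ (-2 : ℝ) := by
      rcases V.S1 (c := c) hξ hup hθ with h | h
      · refine le_trans ?_ h
        apply Finset.sum_le_sum_of_subset_of_nonneg
        · exact Finset.Icc_subset_Icc le_rfl hm'H
        · intro j _ _
          have := B_pos hb0 (ex b p) j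
          have := (V.pos (j - 1)).le
          positivity
      · linarith
    have s2 := V.S2 hc0 hξ hup hθ hm'1 hm'H hD hD'
    have hpm := abs_le_G p H (by omega : 1 ≤ m)
    have t1 : (M * |p m|) * ∑ j ∈ Icc 1 m', B b (ex b p) j * (c * B b (ex b p) j + θ) * W p (j - 1) ≤
        (M * G p H m) * ((11 * c + 1) * b ^ (-2 : ℝ)) := by
      apply mul_le_mul (mul_le_mul_of_nonneg_left hpm hM0) s1 _ (by positivity)
      apply Finset.sum_nonneg
      intro j _
      have := B_pos hb0 (ex b p) j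
      have := (V.pos (j - 1)).le
      positivity
    have t2 : (M / Wx p H m) * ∑ j ∈ Icc 1 m', W p (j - 1) ^ 2 * (c * B b (ex b p) j + θ) ≤
        M * G p H m * ((5 * c + 1) * b ^ (-2 : ℝ)) := by
      calc _ ≤ (M / Wx p H m) * ((5 * c + 1) * b ^ (-2 : ℝ) * (G p H m * Wx p H m)) :=
            mul_le_mul_of_nonneg_left s2 (by positivity)
        _ = _ := by field_simp
    calc _ ≤ _ := add_le_add t1 t2
      _ = _ := by ring
  -- the last term
  have hsplit : ∑ j ∈ Ico 1 m, |fund a j m| * (M * d j) * G p H j ≤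
      ∑ j ∈ Icc 1 m', |fund a j m| * (M * d j) * G p H j + M * θ * G p H m := by
    rcases Nat.lt_or_ge (H + 1) m with h | h
    · have e : m = H + 2 := by omega
      have e1 : m' = H := by omega
      have e2 : Ico 1 m = Ico 1 (H + 1 + 1) := by rw [e]
      have e3 : Icc 1 m' = Ico 1 (H + 1) := by
        rw [e1]; ext j; simp only [Finset.mem_Icc, Finset.mem_Ico]; omega
      rw [e2, e3, Finset.sum_Ico_succ_top (by omega)]
      apply add_le_add le_rfl
      have e4 : fund a (H + 1) m = 1 := by rw [e]; exact fund_succ a (H + 1)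
      have e5 : G p H m = W p (H + 1) := by
        unfold G; rw [if_neg (by omega), e]; rfl
      rw [e4, abs_one, one_mul, e5]
      have h6 := G_le p (le_refl (H + 1)) (H := H)
      exact mul_le_mul (mul_le_mul_of_nonneg_left hd' hM0) h6 (V.G_pos _).le (by positivity)
    · have e3 : Icc 1 m' = Ico 1 m := by
        ext j; simp only [Finset.mem_Icc, Finset.mem_Ico]; omega
      rw [e3]
      have : 0 ≤ M * θ * G p H m := by positivity
      linarith
  refine hsplit.trans ?_
  have hθ2 : θ ≤ b ^ (-2 : ℝ) := hθ.trans (V.mono (by linarith))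
  rw [hb2] at hmain hθ2
  have h10 : M * ((16 * c + 2) * (1 / b ^ 2)) + M * (1 / b ^ 2) ≤ 1 / 1000 := by
    have h11 : M * (1 / b ^ 2) ≤ 1 / 10 ^ 6 := by
      rw [mul_one_div, div_le_div_iff₀ (by positivity) (by positivity)]
      linarith
    have h12 : 0 ≤ M * (1 / b ^ 2) := by positivity
    nlinarith
  have h13 : M * θ ≤ M * (1 / b ^ 2) := mul_le_mul_of_nonneg_left hθ2 hM0
  calc _ ≤ M * ((16 * c + 2) * (1 / b ^ 2)) * G p H m + M * (1 / b ^ 2) * G p H m := by
        apply add_le_add hmain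
        exact mul_le_mul_of_nonneg_right h13 hG.le
    _ = (M * ((16 * c + 2) * (1 / b ^ 2)) + M * (1 / b ^ 2)) * G p H m := by ring
    _ ≤ _ := mul_le_mul_of_nonneg_right h10 hG.le

end Crest.Agent.R128.Shx
end

-- ▼ part R128/ShxD
section

/-!
Row 128, node V3-CORE (second implementation), part D: linearised comparison of orbits and fields.
-/

set_option autoImplicit false

open Finset

namespace Crest.Agent.R128.Shx

open Crest.Agent.R128.TreeSum Crest.Agent.R128.BVP Crest.Agent.R128.Val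

variable {b : ℝ} {H : ℕ} {a p : ℕ → ℝ}

/-- numerical parameters -/
structure Par (b M c θ ξ : ℝ) (H : ℕ) (p : ℕ → ℝ) : Prop where
  hM0 : 0 ≤ M
  hM : 10 ^ 6 * M ≤ b ^ 2
  hc0 : 0 ≤ c
  hc : c ≤ 30
  hξ : 800 ≤ ξ
  hup : ∀ j ≤ H, ex b p j ≤ ξ + 3
  hθ0 : 0 ≤ θ
  hθ : θ ≤ b ^ (-(9 / 20 * ξ))

/-- box -/
noncomputable def dbox (b c θ : ℝ) (H : ℕ) (p : ℕ → ℝ) (j : ℕ) : ℝ :=
  if j ≤ H then c * B b (ex b p) j + θ else θ

variable {M c θ ξ : ℝ}

theorem dbox_nonneg (hb : 0 < b) (hc : 0 ≤ c) (hθ : 0 ≤ θ) (j : ℕ) : 0 ≤ dbox b c θ H p j := by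
  unfold dbox
  have := B_pos hb (ex b p) j
  split_ifs <;> positivity

/-- fields of perturbed coefficients -/
theorem Win.field (V : Win b H a p) (P : Par b M c θ ξ H p) {K : ℕ} (hK : K ≤ H + 2) {a' : ℕ → ℝ}
    (ha' : ∀ j, 1 ≤ j → j < K → |a' j - a j| ≤ M * dbox b c θ H p j) :
    ∀ m ≤ K, |fund a' 0 m - p m| ≤ 1 / 500 * G p H m := by
  rcases Nat.eq_zero_or_pos K with h0 | h0
  · intro m hm
    have : m = 0 := by omega
    subst this
    rw [fund_self, V.p0, sub_zero, abs_zero]
    have := V.G_pos 0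
    positivity
  obtain ⟨N, rfl⟩ : ∃ N, K = N + 1 := ⟨K - 1, by omega⟩
  have hM0 := P.hM0
  have h := field_pert (N := N) (a := a) (a' := a') (p := p) (p' := fund a' 0) (W := G p H)
    (η := 1 / 1000) (by norm_num) V.p0 V.p1 (fun m _ => V.hp m) (fund_self _ _) (fund_succ _ _)
    (fun m _ => fund_rec a' 0 m (Nat.zero_le _)) (by
      intro m _
      rcases Nat.eq_zero_or_pos m with h | h
      · rw [h, V.p0, abs_zero]; exact (V.G_pos 0).le
      · exact abs_le_G p H h) (by
      intro m hm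
      refine le_trans ?_ (V.sum_main P.hM0 P.hM P.hc0 P.hc P.hξ P.hup P.hθ0 P.hθ (d := dbox b c θ H p)
        (fun j _ hj => by unfold dbox; rw [if_pos hj])
        (by unfold dbox; rw [if_neg (by omega)])
        (fun j => dbox_nonneg V.b0 P.hc0 P.hθ0 j) (m := m) (by omega))
      apply Finset.sum_le_sum
      intro j hj
      rw [Finset.mem_Ico] at hj
      apply mul_le_mul_of_nonneg_right _ (V.G_pos j).le
      exact mul_le_mul_of_nonneg_left (ha' j hj.1 (by omega)) (abs_nonneg _))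
  intro m hm
  have := h m hm
  linarith

/-- (LIN) -/
theorem Win.lin (V : Win b H a p) (P : Par b M c θ ξ H p) {K : ℕ} (hK : K ≤ H + 2) {e a' : ℕ → ℝ}
    (he0 : e 0 = 0) (he : ∀ m, m + 2 ≤ K → e (m + 2) = a' (m + 1) * e (m + 1) - e m)
    (ha' : ∀ j, 1 ≤ j → j < K → |a' j - a j| ≤ M * dbox b c θ H p j) :
    ∀ m ≤ K, |e m - e 1 * p m| ≤ 1 / 500 * |e 1| * G p H m := by
  have hrep : ∀ m ≤ K, e m = e 1 * fund a' 0 m := by
    intro m
    induction m using Nat.strong_induction_on with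
    | _ m ih =>
      intro hm
      match m with
      | 0 => rw [he0, fund_self, mul_zero]
      | 1 => rw [fund_succ, mul_one]
      | m + 2 =>
        rw [he m hm, fund_rec a' 0 m (Nat.zero_le _), ih (m + 1) (by omega) (by omega),
          ih m (by omega) (by omega)]
        ring
  intro m hm
  rw [hrep m hm, ← mul_sub, abs_mul]
  have h := V.field P hK ha' m hm
  have := mul_le_mul_of_nonneg_left h (abs_nonneg (e 1))
  linarith

/-- slope of the difference of two orbits -/
theorem slope {f Vd : ℝ → ℝ} (hM0 : 0 ≤ M) (hNL : NL f Vd M) {x y z D : ℝ}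
    (hy : |y - x| ≤ D) (hz : |z - x| ≤ D) :
    ∃ s : ℝ, |s - Vd x| ≤ M * D ∧ f z - f y = s * (z - y) := by
  have hD : 0 ≤ D := (abs_nonneg _).trans hy
  rcases eq_or_ne z y with h | h
  · refine ⟨Vd x, ?_, ?_⟩
    · rw [sub_self, abs_zero]; positivity
    · rw [h]; ring
  · have hne : z - y ≠ 0 := sub_ne_zero.mpr h
    refine ⟨(f z - f y) / (z - y), ?_, by field_simp⟩
    have h1 := hNL x (z - x) (y - x)
    rw [add_sub_cancel, add_sub_cancel, show z - x - (y - x) = z - y by ring] at h1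
    have h2 : (f z - f y) / (z - y) - Vd x = (f z - f y - Vd x * (z - y)) / (z - y) := by
      field_simp
    rw [h2, abs_div, div_le_iff₀ (abs_pos.mpr hne)]
    refine h1.trans ?_
    apply mul_le_mul_of_nonneg_right _ (abs_nonneg _)
    exact mul_le_mul_of_nonneg_left (max_le hz hy) hM0

theorem abs_fst (P : Par b M c θ ξ H p) (V : Win b H a p) {m : ℕ} (hm1 : 1 ≤ m) (hm : m ≤ H + 1) :
    G p H m ≤ b ^ (ξ + 3) := by
  refine (G_le_pred p H m).trans ?_
  rw [V.W_eq (m - 1)]
  exact V.mono (P.hup (m - 1) (by omega))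

/-- difference of two orbits with the same left boundary value, both in the box of `x` -/
theorem Win.diff {f Vd : ℝ → ℝ} {x : ℕ → ℝ} (V : Win b H (fun j => Vd (x j)) p)
    (P : Par b M c θ ξ H p) (hNL : NL f Vd M) {K : ℕ} (hK : K ≤ H + 2) {y z : ℕ → ℝ}
    (hy : ∀ m, y (m + 2) + y m = f (y (m + 1))) (hz : ∀ m, z (m + 2) + z m = f (z (m + 1)))
    (h0 : z 0 = y 0)
    (hyx : ∀ j, 1 ≤ j → j < K → |y j - x j| ≤ dbox b c θ H p j)
    (hzx : ∀ j, 1 ≤ j → j < K → |z j - x j| ≤ dbox b c θ H p j) :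
    ∀ m ≤ K, |(z m - y m) - (z 1 - y 1) * p m| ≤ 1 / 500 * |z 1 - y 1| * G p H m := by
  classical
  have hs : ∀ j, ∃ s : ℝ, (1 ≤ j → j < K → |s - Vd (x j)| ≤ M * dbox b c θ H p j ∧
      f (z j) - f (y j) = s * (z j - y j)) := by
    intro j
    by_cases h : 1 ≤ j ∧ j < K
    · obtain ⟨s, h1, h2⟩ := slope P.hM0 hNL (hyx j h.1 h.2) (hzx j h.1 h.2)
      exact ⟨s, fun _ _ => ⟨h1, h2⟩⟩
    · exact ⟨0, fun h1 h2 => absurd ⟨h1, h2⟩ h⟩
  choose a' ha' using hs
  have h := V.lin P hK (e := fun m => z m - y m) (a' := a') (by rw [h0, sub_self])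
    (by
      intro m hm
      have h1 := (ha' (m + 1) (by omega) (by omega)).2
      have h2 := hy m
      have h3 := hz m
      show z (m + 2) - y (m + 2) = a' (m + 1) * (z (m + 1) - y (m + 1)) - (z m - y m)
      linarith)
    (fun j h1 h2 => (ha' j h1 h2).1)
  exact h

/-- **SHADOW**, abstract form -/
theorem Win.shadow {f Vd : ℝ → ℝ} {x : ℕ → ℝ} (V : Win b H (fun j => Vd (x j)) p)
    (P : Par b M c θ ξ H p) (hNL : NL f Vd M) {y z : ℕ → ℝ}
    (hy : ∀ m, y (m + 2) + y m = f (y (m + 1))) (hz : ∀ m, z (m + 2) + z m = f (z (m + 1)))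
    (h0 : z 0 = y 0) (hr : 2 * |z 1 - y 1| * b ^ (ξ + 3) ≤ θ / 2)
    (hyx : ∀ j, 1 ≤ j → j ≤ H + 1 → |y j - x j| ≤ dbox b c θ H p j - θ / 2) :
    (∀ m ≤ H + 1, |z m - y m| ≤ 2 * |z 1 - y 1| * G p H m) ∧
    (∀ j, 1 ≤ j → j ≤ H + 1 → |z j - x j| ≤ dbox b c θ H p j) := by
  have hθ0 := P.hθ0
  have key : ∀ m ≤ H + 1, |z m - y m| ≤ 2 * |z 1 - y 1| * G p H m ∧
      (1 ≤ m → |z m - x m| ≤ dbox b c θ H p m) := by
    intro m
    induction m using Nat.strong_induction_on with
    | _ m ih =>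
      intro hm
      have h1 := V.diff P hNL (K := m) (by omega) hy hz h0
        (fun j h1 h2 => (hyx j h1 (by omega)).trans (by linarith))
        (fun j h1 h2 => (ih j h2 (by omega)).2 h1) m le_rfl
      have h2 : |z m - y m| ≤ 2 * |z 1 - y 1| * G p H m := by
        have h3 := abs_add_le ((z m - y m) - (z 1 - y 1) * p m) ((z 1 - y 1) * p m)
        rw [sub_add_cancel, abs_mul] at h3
        have h4 : |p m| ≤ G p H m := by
          rcases Nat.eq_zero_or_pos m with h | h
          · rw [h, V.p0, abs_zero]; exact (V.G_pos 0).le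
          · exact abs_le_G p H h
        have h5 := mul_le_mul_of_nonneg_left h4 (abs_nonneg (z 1 - y 1))
        have h6 : 0 ≤ |z 1 - y 1| * G p H m := mul_nonneg (abs_nonneg _) (V.G_pos m).le
        linarith
      refine ⟨h2, fun hm1 => ?_⟩
      have h7 := abs_fst P V hm1 hm
      have h8 := hyx m hm1 hm
      have h9 : 2 * |z 1 - y 1| * G p H m ≤ 2 * |z 1 - y 1| * b ^ (ξ + 3) :=
        mul_le_mul_of_nonneg_left h7 (by positivity)
      have h10 := abs_add_le (z m - y m) (y m - x m)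
      rw [sub_add_sub_cancel] at h10
      linarith
  exact ⟨fun m hm => (key m hm).1, fun j h1 h2 => (key j h2).2 h1⟩

/-- fields along an orbit in the box -/
theorem Win.field_orb {Vd : ℝ → ℝ} {x : ℕ → ℝ} (V : Win b H (fun j => Vd (x j)) p)
    (P : Par b M c θ ξ H p) (hL : ∀ s t, |Vd s - Vd t| ≤ M * |s - t|) {z : ℕ → ℝ}
    (hzx : ∀ j, 1 ≤ j → j ≤ H + 1 → |z j - x j| ≤ dbox b c θ H p j) :
    ∀ m ≤ H + 1, N p m ≤ 2 * N (fund (fun j => Vd (z j)) 0) m ∧
      N (fund (fun j => Vd (z j)) 0) m ≤ 2 * N p m := by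
  have h := V.field P (K := H + 2) le_rfl (a' := fun j => Vd (z j)) (by
    intro j h1 h2
    refine (hL _ _).trans ?_
    exact mul_le_mul_of_nonneg_left (hzx j h1 (by omega)) P.hM0)
  intro m hm
  have h1 := h m (by omega)
  have h2 := h (m + 1) (by omega)
  have h3 := G_le p hm
  have h4 := G_le_pred p H (m + 1)
  rw [Nat.add_sub_cancel] at h4
  have h5 := W_le_N p m
  have h6 : |p m| ≤ N p m := le_max_left _ _
  have h7 : |p (m + 1)| ≤ N p m := le_max_right _ _
  set F := fund (fun j => Vd (z j)) 0 with hF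
  have h8 : |F m| ≤ N F m := le_max_left _ _
  have h9 : |F (m + 1)| ≤ N F m := le_max_right _ _
  have h10 := abs_abs_sub_abs_le_abs_sub (F m) (p m)
  have h11 := abs_abs_sub_abs_le_abs_sub (F (m + 1)) (p (m + 1))
  have h12 := abs_le.mp h10
  have h13 := abs_le.mp h11
  have hN0 : 0 ≤ N p m := N_nonneg p m
  have h14 : |F m - p m| ≤ 3 / 1000 * N p m := by linarith
  have h15 : |F (m + 1) - p (m + 1)| ≤ 3 / 1000 * N p m := by linarith
  constructor
  · have : N p m ≤ N F m + 3 / 1000 * N p m := by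
      apply max_le
      · linarith [h12.1]
      · linarith [h13.1]
    linarith
  · have : N F m ≤ N p m + 3 / 1000 * N p m := by
      apply max_le
      · linarith [h12.2]
      · linarith [h13.2]
    linarith

end Crest.Agent.R128.Shx
end

-- ▼ part R128/CoreF
section

/-!
Row 128, node V3-CORE: forward fundamental solutions along a valid orbit.
`FE` = extended validity data up to the violation time `N`; (F) bound of the fundamental solutions,
(S1)-(S3) the sums, (LIN) perturbed linear recursion.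
-/

set_option autoImplicit false

open Finset

namespace Crest.Agent.R128.CoreF

open Crest.Agent.R128.TreeSum Crest.Agent.R128.BVP Crest.Agent.R128.Val

/-- extended validity data: valid up to `N - 1`, any step at time `N`. -/
structure FE (b : ℝ) (N : ℕ) (a p : ℕ → ℝ) : Prop where
  hb : 100 ≤ b
  hN : 36 < N
  p0 : p 0 = 0
  p1 : p 1 = 1
  hp : ∀ m < N, p (m + 2) = a (m + 1) * p (m + 1) - p m
  hA : ∀ m ∈ Icc 1 N, |a m| + 2 ≤ b ^ 2
  hcl : ∀ m ∈ Icc 1 35, 2 * b ≤ |a m|
  E : Expo b (N - 1) (ex b p)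

variable {b : ℝ} {N : ℕ} {a p : ℕ → ℝ}

theorem fld_shift_p (hp : ∀ m < N, p (m + 2) = a (m + 1) * p (m + 1) - p m) (j : ℕ) :
    ∀ i, j + i ≤ N → Val.fld (fun l => a (j + l + 1)) (p j, p (j + 1)) i = (p (j + i), p (j + i + 1)) := by
  intro i
  induction i with
  | zero => intro _; rfl
  | succ i ih =>
    intro hi
    show stp (a (j + i + 1)) (Val.fld _ _ i) = _
    rw [ih (by omega)]
    unfold stp
    have := hp (j + i) (by omega)
    ext
    · rfl
    · show a (j + i + 1) * p (j + i + 1) - p (j + i) = p (j + (i + 1) + 1)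
      rw [show j + (i + 1) + 1 = j + i + 2 by omega, this]

theorem fld_shift_fund (a : ℕ → ℝ) (j : ℕ) :
    ∀ i, Val.fld (fun l => a (j + l + 1)) (0, 1) i = (fundAux a j i, fundAux a j (i + 1)) := by
  intro i
  induction i with
  | zero => rfl
  | succ i ih =>
    show stp (a (j + i + 1)) (Val.fld _ _ i) = _
    rw [ih]
    rfl

theorem FE.W_zero (F : FE b N a p) : W p 0 = 1 := by
  unfold W nn
  rw [F.p0, F.p1]
  simp

theorem FE.W_pos (F : FE b N a p) {m : ℕ} (hm : m ≤ N) : 0 < W p m := by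
  have h := (fld_isField (fun l => a (0 + l + 1)) (p 0, p (0 + 1))).pos (Nat.zero_le m) (by
    have e := fld_shift_p F.hp 0 0 (by omega)
    rw [e]
    have := F.W_zero
    unfold W at this
    simp only [Nat.add_zero]
    rw [this]; norm_num)
  rw [fld_shift_p F.hp 0 m (by omega)] at h
  simpa [W] using h

theorem FE.W_eq (F : FE b N a p) {m : ℕ} (hm : m ≤ N) : W p m = b ^ ex b p m := by
  have hb := F.hb
  unfold ex
  rw [Real.rpow_logb (by linarith) (by linarith) (F.W_pos hm)]

theorem FE.W_le_succ (F : FE b N a p) {m : ℕ} (hm : m < N) :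
    W p m ≤ (|a (m + 1)| + 2) * W p (m + 1) := by
  have := nn_le_stp (a (m + 1)) (p m, p (m + 1))
  have e : stp (a (m + 1)) (p m, p (m + 1)) = (p (m + 1), p (m + 2)) := by
    unfold stp
    simp only [F.hp m hm]
  rw [e] at this
  exact this

theorem FE.ex_le (F : FE b N a p) {i j : ℕ} {x : ℝ} (hi : i ≤ N) (hj : j ≤ N)
    (h : W p i ≤ b ^ x * W p j) : ex b p i ≤ x + ex b p j := by
  have hb := F.hb
  rw [F.W_eq hi, F.W_eq hj, ← Real.rpow_add (by linarith)] at h
  exact (Real.rpow_le_rpow_left_iff (by linarith)).mp h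

/-- the last step -/
theorem FE.last (F : FE b N a p) : ex b p (N - 1) - 2 ≤ ex b p N := by
  have hN := F.hN
  have h1 := F.W_le_succ (m := N - 1) (by omega)
  rw [Nat.sub_add_cancel (by omega)] at h1
  have h2 := F.hA N (Finset.mem_Icc.mpr ⟨by omega, le_rfl⟩)
  have h3 : W p (N - 1) ≤ b ^ (2 : ℝ) * W p N := by
    rw [Real.rpow_two]
    exact h1.trans (mul_le_mul_of_nonneg_right h2 (W_nonneg p N))
  have := F.ex_le (by omega) le_rfl h3
  linarith

theorem FE.v2' (F : FE b N a p) {i j : ℕ} (hij : i ≤ j) (hj : j ≤ N) (hi : i ≤ N - 1) :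
    99 / 100 * ex b p i - 21 / 10 ≤ ex b p j := by
  have hN := F.hN
  rcases Nat.lt_or_ge (N - 1) j with h | h
  · have e : j = N := by omega
    subst e
    have h1 := F.E.v2 i (j - 1) hi le_rfl
    have h2 := F.last
    linarith
  · have := F.E.v2 i j hij h
    linarith

/-- the bound for the fundamental solutions -/
noncomputable def Fb (b : ℝ) (p : ℕ → ℝ) (j : ℕ) : ℝ :=
  if j ≤ 30 then 3 * b ^ (-ex b p j) else 2 * b ^ (6 - 97 / 100 * ex b p j)


theorem FE.tree (F : FE b N a p) {j m : ℕ} (hjm : j ≤ m) (hm : m ≤ N) :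
    nn (fund a j m, fund a j (m + 1)) ≤ W p m / W p j + W p j / W p m + W p j * W p m * wtt a p j m := by
  obtain ⟨i, rfl⟩ := Nat.exists_eq_add_of_le hjm
  have hw := fld_isField (fun l => a (j + l + 1)) (p j, p (j + 1))
  have hz := fld_isField (fun l => a (j + l + 1)) ((0 : ℝ), (1 : ℝ))
  have hWj : 0 < nn (Val.fld (fun l => a (j + l + 1)) (p j, p (j + 1)) 0) := F.W_pos (by omega)
  have t := tree_ineq hw hz (Nat.zero_le i) hWj
  rw [fld_shift_fund, fld_shift_fund, fld_shift_p F.hp j i hm, fld_shift_p F.hp j 0 (by omega)] at t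
  have e1 : nn (fundAux a j 0, fundAux a j (0 + 1)) = 1 := by
    show nn ((0 : ℝ), (1 : ℝ)) = 1
    unfold nn; simp
  have e2 : wt (fun l => a (j + l + 1)) (Val.fld (fun l => a (j + l + 1)) (p j, p (j + 1))) 0 i =
      wtt a p j (j + i) := by
    unfold wt wtt
    rw [Finset.sum_Ico_eq_sum_range, Finset.sum_Ico_eq_sum_range, Nat.add_sub_cancel_left, Nat.sub_zero]
    apply Finset.sum_congr rfl
    intro l hl
    rw [Finset.mem_range] at hl
    rw [Nat.zero_add, fld_shift_p F.hp j l (by omega), fld_shift_p F.hp j (l + 1) (by omega)]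
    rfl
  rw [e1, e2, one_mul] at t
  have e3 : fund a j (j + i) = fundAux a j i := by
    unfold fund; rw [Nat.add_sub_cancel_left]
  have e4 : fund a j (j + i + 1) = fundAux a j (i + 1) := by
    unfold fund; rw [Nat.add_assoc, Nat.add_sub_cancel_left]
  rw [e3, e4]
  exact t

theorem FE.term_le (F : FE b N a p) {j : ℕ} (hj : j < N) :
    (|a (j + 1)| + 2) / (W p j * W p (j + 1)) ≤ b ^ (4 - 2 * ex b p j) := by
  have hb := F.hb
  have hb0 : 0 < b := by linarith
  have h1 := F.W_le_succ hj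
  have h2 := F.hA (j + 1) (Finset.mem_Icc.mpr ⟨by omega, by omega⟩)
  have hWj := F.W_pos hj.le
  have hWj' := F.W_pos (by omega : j + 1 ≤ N)
  have h3 : 0 ≤ |a (j + 1)| := abs_nonneg _
  have h4 : W p j ≤ b ^ 2 * W p (j + 1) := h1.trans (mul_le_mul_of_nonneg_right h2 hWj'.le)
  have h5 : b ^ (4 - 2 * ex b p j) = b ^ 4 / W p j ^ 2 := by
    rw [Real.rpow_sub hb0, F.W_eq hj.le]
    congr 1
    · exact_mod_cast Real.rpow_natCast b 4
    · rw [← Real.rpow_natCast (b ^ ex b p j) 2, ← Real.rpow_mul hb0.le]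
      congr 1
      push_cast
      ring
  rw [h5, div_le_div_iff₀ (by positivity) (by positivity)]
  calc (|a (j + 1)| + 2) * W p j ^ 2 ≤ b ^ 2 * (W p j * (b ^ 2 * W p (j + 1))) := by
        rw [sq (W p j)]
        gcongr
    _ = b ^ 4 * (W p j * W p (j + 1)) := by ring

theorem FE.ratio (F : FE b N a p) : ∀ m ≤ 35, b * |p m| ≤ |p (m + 1)| := by
  intro m
  induction m with
  | zero => intro _; rw [F.p0]; simp
  | succ m ih =>
    intro hm
    have h1 := ih (by omega)
    have h2 := F.hp m (by have := F.hN; omega)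
    have h3 := F.hcl (m + 1) (Finset.mem_Icc.mpr ⟨by omega, hm⟩)
    have hb := F.hb
    show b * |p (m + 1)| ≤ |p (m + 2)|
    rw [h2]
    have h4 : |a (m + 1)| * |p (m + 1)| - |p m| ≤ |a (m + 1) * p (m + 1) - p m| := by
      rw [← abs_mul]
      exact abs_sub_abs_le_abs_sub _ _
    have h5 : |p m| ≤ |p (m + 1)| := by
      have := abs_nonneg (p m)
      nlinarith
    have h6 := abs_nonneg (p (m + 1))
    nlinarith

/-- clean step -/
theorem FE.cleanstep (F : FE b N a p) {m : ℕ} (hm : m < 35) :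
    (|a (m + 1)| + 2) * W p m ≤ 5 / 4 * W p (m + 1) := by
  have h1 := F.ratio m hm.le
  have h2 := F.hp m (by have := F.hN; omega)
  have h3 := F.hcl (m + 1) (Finset.mem_Icc.mpr ⟨by omega, by omega⟩)
  have hb := F.hb
  have h4 : |a (m + 1)| * |p (m + 1)| - |p m| ≤ |a (m + 1) * p (m + 1) - p m| := by
    rw [← abs_mul]
    exact abs_sub_abs_le_abs_sub _ _
  rw [← h2] at h4
  have h5 : 100 * |p m| ≤ |p (m + 1)| := by
    have := abs_nonneg (p m)
    nlinarith
  have h6 := abs_nonneg (p (m + 1))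
  have h7 := W_le_add p m
  have h8 : |p (m + 2)| ≤ W p (m + 1) := abs_succ_le_W p (m + 1)
  have h9 : 0 ≤ |a (m + 1)| := abs_nonneg _
  have h10 : (|a (m + 1)| + 2) * W p m ≤ (|a (m + 1)| + 2) * (101 / 100 * |p (m + 1)|) := by
    apply mul_le_mul_of_nonneg_left _ (by linarith)
    linarith
  have h11 : 200 * |p (m + 1)| ≤ |a (m + 1)| * |p (m + 1)| := by
    apply mul_le_mul_of_nonneg_right _ h6
    linarith
  nlinarith

theorem FE.sq_eq (F : FE b N a p) (x : ℝ) : (b ^ x) ^ 2 = b ^ (2 * x) := by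
  have hb := F.hb
  rw [← Real.rpow_natCast (b ^ x) 2, ← Real.rpow_mul (by linarith)]
  congr 1
  push_cast
  ring

/-- **(F)** -/
theorem FE.fund_le (F : FE b N a p) {j m : ℕ} (hjm : j ≤ m) (hm : m ≤ N) :
    nn (fund a j m, fund a j (m + 1)) ≤ Fb b p j * W p m := by
  have hb := F.hb
  have hb0 : 0 < b := by linarith
  have E := F.E
  have hN := F.hN
  have hWm := F.W_pos hm
  have hWj := F.W_pos (hjm.trans hm)
  rcases Nat.eq_or_lt_of_le hjm with he | hlt
  · -- m = j
    subst he
    have e1 : nn (fund a j j, fund a j (j + 1)) = 1 := by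
      rw [fund_self, fund_succ]
      unfold nn; simp
    rw [e1]
    unfold Fb
    rw [F.W_eq hm]
    split_ifs with h30
    · rw [mul_assoc, ← Real.rpow_add hb0]
      rw [neg_add_cancel, Real.rpow_zero]
      norm_num
    · rw [mul_assoc, ← Real.rpow_add hb0]
      have h1 : 0 ≤ ex b p j := by
        rcases Nat.lt_or_ge (N - 1) j with h | h
        · have e : j = N := by omega
          subst e
          have := E.big (m := j - 1) (by omega) le_rfl
          have := F.last
          linarith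
        · exact E.nonneg h
      have h2 : (1 : ℝ) ≤ b ^ (6 - 97 / 100 * ex b p j + ex b p j) :=
        Real.one_le_rpow (by linarith) (by linarith)
      linarith
  · have hj1 : j ≤ N - 1 := by omega
    have t := F.tree hjm hm
    have hum := F.v2' hjm hm hj1
    have e0 : W p m / W p j + W p j / W p m + W p j * W p m * wtt a p j m =
        (1 / W p j + W p j / W p m ^ 2 + W p j * wtt a p j m) * W p m := by
      field_simp
    rw [e0] at t
    refine t.trans (mul_le_mul_of_nonneg_right ?_ hWm.le)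
    unfold Fb
    have hju := E.nonneg hj1
    split_ifs with h30
    · -- clean start
      have hum60 : ex b p j ≤ 60 := by
        have := E.ub hj1
        have : (j : ℝ) ≤ 30 := by exact_mod_cast h30
        linarith
      have h35 : ex b p j + 5 ≤ ex b p 35 := by
        have h2 := E.clean (by omega : j ≤ 35) le_rfl
        have h3 : (5 : ℝ) ≤ ((35 - j : ℕ) : ℝ) := by
          have : 5 ≤ 35 - j := by omega
          exact_mod_cast this
        linarith
      have hum1 : ex b p j + 1 ≤ ex b p m := by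
        rcases Nat.lt_or_ge m 35 with h | h
        · have h2 := E.clean hlt.le h.le
          have h3 : (1 : ℝ) ≤ ((m - j : ℕ) : ℝ) := by
            have : 1 ≤ m - j := by omega
            exact_mod_cast this
          linarith
        · have := F.v2' h hm (by omega)
          linarith
      have hw : W p j ^ 2 * wtt a p j m ≤ 5 / 4 * (16 / 15) + 1 / 16 := by
        have hpt : ∀ i ∈ Ico j m, W p j ^ 2 * ((|a (i + 1)| + 2) / (W p i * W p (i + 1))) ≤
            5 / 4 * (if j ≤ i then (b⁻¹) ^ (i - j) else 0) +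
              b ^ (-2 : ℝ) * b ^ (-(1 / 100 * ex b p i)) := by
          intro i hi
          rw [Finset.mem_Ico] at hi
          rw [if_pos hi.1]
          have hWi := F.W_pos (by omega : i ≤ N)
          have hWi' := F.W_pos (by omega : i + 1 ≤ N)
          rcases Nat.lt_or_ge i 35 with h | h
          · have h2 := F.cleanstep h
            have h3 : (|a (i + 1)| + 2) / (W p i * W p (i + 1)) ≤ 5 / 4 / W p i ^ 2 := by
              rw [div_le_div_iff₀ (by positivity) (by positivity)]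
              nlinarith
            have h4 : W p j ^ 2 * (5 / 4 / W p i ^ 2) = 5 / 4 * b ^ (2 * ex b p j - 2 * ex b p i) := by
              rw [Real.rpow_sub hb0, ← F.sq_eq, ← F.sq_eq, ← F.W_eq (by omega), ← F.W_eq (by omega)]
              ring
            have h5 : b ^ (2 * ex b p j - 2 * ex b p i) ≤ (b⁻¹) ^ (i - j) := by
              rw [E.pow_inv]
              apply E.mono
              have h6 := E.clean hi.1 h.le
              have h7 : (0 : ℝ) ≤ ((i - j : ℕ) : ℝ) := Nat.cast_nonneg _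
              linarith
            calc W p j ^ 2 * ((|a (i + 1)| + 2) / (W p i * W p (i + 1)))
                ≤ W p j ^ 2 * (5 / 4 / W p i ^ 2) := by gcongr
              _ = 5 / 4 * b ^ (2 * ex b p j - 2 * ex b p i) := h4
              _ ≤ 5 / 4 * (b⁻¹) ^ (i - j) := by gcongr
              _ ≤ _ := by
                have : 0 ≤ b ^ (-2 : ℝ) * b ^ (-(1 / 100 * ex b p i)) := by positivity
                linarith
          · have h2 := F.term_le (by omega : i < N)
            have h3 := E.v2 35 i h (by omega)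
            have h4 : W p j ^ 2 * b ^ (4 - 2 * ex b p i) ≤ b ^ (-2 : ℝ) * b ^ (-(1 / 100 * ex b p i)) := by
              rw [F.W_eq (by omega), F.sq_eq, ← Real.rpow_add hb0, ← Real.rpow_add hb0]
              apply E.mono
              linarith
            calc W p j ^ 2 * ((|a (i + 1)| + 2) / (W p i * W p (i + 1)))
                ≤ W p j ^ 2 * b ^ (4 - 2 * ex b p i) := by gcongr
              _ ≤ b ^ (-2 : ℝ) * b ^ (-(1 / 100 * ex b p i)) := h4
              _ ≤ _ := by
                have : 0 ≤ 5 / 4 * (b⁻¹) ^ (i - j) := by positivity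
                linarith
        unfold wtt
        rw [Finset.mul_sum]
        refine (Finset.sum_le_sum hpt).trans ?_
        rw [Finset.sum_add_distrib, ← Finset.mul_sum, ← Finset.mul_sum, ← Finset.sum_filter]
        have g1 := geom_le E.hb (Ico j m) j
        have g2 := E.sum_le (Ico j m) (by
          intro i hi
          rw [Finset.mem_Ico] at hi
          rw [Finset.mem_range]
          omega)
        have g3 : b ^ (-2 : ℝ) * b = b ^ (-1 : ℝ) := by
          conv_lhs => rw [← Real.rpow_one b, ← Real.rpow_mul hb0.le, ← Real.rpow_add hb0]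
          norm_num
        have g4 : b ^ (-1 : ℝ) ≤ (1 / 16) ^ 1 := E.small (by norm_num)
        have p2 : 0 ≤ b ^ (-2 : ℝ) := by positivity
        nlinarith [mul_le_mul_of_nonneg_left g2 p2]
      have hn2 : W p j ^ 2 * (1 / W p m ^ 2) ≤ 1 / 16 := by
        have e : W p j ^ 2 * (1 / W p m ^ 2) = b ^ (2 * ex b p j - 2 * ex b p m) := by
          rw [Real.rpow_sub hb0, ← F.sq_eq, ← F.sq_eq, ← F.W_eq (by omega), ← F.W_eq hm]
          ring
        rw [e]
        have h3 : b ^ (2 * ex b p j - 2 * ex b p m) ≤ (1 / 16) ^ 1 := by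
          apply E.small
          push_cast
          linarith
        linarith
      have h6 : b ^ (-ex b p j) = 1 / W p j := by
        rw [Real.rpow_neg hb0.le, ← F.W_eq (by omega), one_div]
      rw [h6]
      calc 1 / W p j + W p j / W p m ^ 2 + W p j * wtt a p j m
          = (1 + (W p j ^ 2 * wtt a p j m + W p j ^ 2 * (1 / W p m ^ 2))) * (1 / W p j) := by
            field_simp
            ring
        _ ≤ 3 * (1 / W p j) := by
            apply mul_le_mul_of_nonneg_right _ (by positivity)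
            linarith
    · have hw : wtt a p j m ≤ b ^ (52 / 10 - 19701 / 10000 * ex b p j) := by
        have hpt : ∀ i ∈ Ico j m, (|a (i + 1)| + 2) / (W p i * W p (i + 1)) ≤
            b ^ (42 / 10 - 19701 / 10000 * ex b p j) * b ^ (-(1 / 100 * ex b p i)) := by
          intro i hi
          rw [Finset.mem_Ico] at hi
          refine (F.term_le (by omega)).trans ?_
          rw [← Real.rpow_add hb0]
          apply E.mono
          have := E.v2 j i hi.1 (by omega)
          linarith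
        unfold wtt
        refine (Finset.sum_le_sum hpt).trans ?_
        rw [← Finset.mul_sum]
        have g2 := E.sum_le (Ico j m) (by
          intro i hi
          rw [Finset.mem_Ico] at hi
          rw [Finset.mem_range]
          omega)
        calc b ^ (42 / 10 - 19701 / 10000 * ex b p j) * ∑ i ∈ Ico j m, b ^ (-(1 / 100 * ex b p i))
            ≤ b ^ (42 / 10 - 19701 / 10000 * ex b p j) * b := by gcongr
          _ = b ^ (42 / 10 - 19701 / 10000 * ex b p j) * b ^ (1 : ℝ) := by rw [Real.rpow_one]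
          _ = b ^ (52 / 10 - 19701 / 10000 * ex b p j) := by
            rw [← Real.rpow_add hb0]
            congr 1
            ring
      have t1 : 1 / W p j ≤ 1 / 16 * b ^ (6 - 97 / 100 * ex b p j) := by
        have e : 1 / W p j = b ^ (-ex b p j) := by
          rw [Real.rpow_neg hb0.le, ← F.W_eq (by omega), one_div]
        have e2 : b ^ (-ex b p j) = b ^ (-1 + (-6 - 3 / 100 * ex b p j + 1)) * b ^ (6 - 97 / 100 * ex b p j) := by
          rw [← Real.rpow_add hb0]
          congr 1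
          ring
        rw [e, e2]
        have h3 : b ^ (-1 + (-6 - 3 / 100 * ex b p j + 1)) ≤ (1 / 16) ^ 1 := by
          apply E.small
          push_cast
          linarith
        rw [pow_one] at h3
        gcongr
      have t2 : W p j * wtt a p j m ≤ b ^ (6 - 97 / 100 * ex b p j) := by
        calc W p j * wtt a p j m ≤ W p j * b ^ (52 / 10 - 19701 / 10000 * ex b p j) := by gcongr
          _ = b ^ (ex b p j + (52 / 10 - 19701 / 10000 * ex b p j)) := by
            rw [Real.rpow_add hb0, ← F.W_eq (by omega)]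
          _ ≤ _ := by
            apply E.mono
            linarith
      have t3 : W p j / W p m ^ 2 ≤ 1 / 8 * b ^ (6 - 97 / 100 * ex b p j) := by
        have e : W p j / W p m ^ 2 = b ^ (ex b p j - 2 * ex b p m) := by
          rw [Real.rpow_sub hb0, ← F.W_eq (by omega), ← F.sq_eq, ← F.W_eq hm]
        have e2 : b ^ (ex b p j - 2 * ex b p m) =
            b ^ (-6 + 197 / 100 * ex b p j - 2 * ex b p m) * b ^ (6 - 97 / 100 * ex b p j) := by
          rw [← Real.rpow_add hb0]
          congr 1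
          ring
        have h3 : b ^ (-6 + 197 / 100 * ex b p j - 2 * ex b p m) ≤ (1 / 16) ^ 1 := by
          apply E.small
          push_cast
          linarith
        rw [pow_one] at h3
        rw [e, e2]
        have p1 : 0 ≤ b ^ (6 - 97 / 100 * ex b p j) := by positivity
        nlinarith
      have p1 : 0 ≤ b ^ (6 - 97 / 100 * ex b p j) := by positivity
      linarith

end Crest.Agent.R128.CoreF
end

-- ▼ part R128/CoreFE
section

/-!
Row 128, node V3-CORE: an admissible point gives the extended validity data `CoreF.FE` (helper162) on the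
whole window `[0, n']`.
-/

set_option autoImplicit false

open Finset

namespace Crest.Agent.R128.Core

open Crest.Agent.R128.TreeSum Crest.Agent.R128.BVP Crest.Agent.R128.Lam0

variable {k a c b : ℝ}

theorem stp_pk (k a c : ℝ) (m : ℕ) :
    stp (dig k a c (m + 1)) (pk k a c m, pk k a c (m + 1)) = (pk k a c (m + 1), pk k a c (m + 2)) := rfl

theorem fld_pk' (k a c : ℝ) : ∀ m, Val.fld (fun m => dig k a c (m + 1)) (0, 1) m =
    (pk k a c m, pk k a c (m + 1)) := by
  intro m
  induction m with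
  | zero => rfl
  | succ m ih =>
    show stp (dig k a c (m + 1)) (Val.fld _ _ m) = _
    rw [ih, stp_pk]

theorem Wp_zero (k a c : ℝ) : Val.W (pk k a c) 0 = 1 := by
  unfold Val.W nn
  show Real.sqrt ((0 : ℝ) ^ 2 + (1 : ℝ) ^ 2) = 1
  simp

theorem Wp_pos (k a c : ℝ) (m : ℕ) : 0 < Val.W (pk k a c) m := by
  have h := (Val.fld_isField (fun m => dig k a c (m + 1)) (0, 1)).pos (Nat.zero_le m) (by
    rw [fld_pk' k a c 0]
    have := Wp_zero k a c
    unfold Val.W at this
    rw [this]; norm_num)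
  rw [fld_pk' k a c m] at h
  exact h

theorem Wp_succ_le (k a c : ℝ) (m : ℕ) :
    Val.W (pk k a c) (m + 1) ≤ (|dig k a c (m + 1)| + 2) * Val.W (pk k a c) m := by
  have := nn_stp_le (dig k a c (m + 1)) (pk k a c m, pk k a c (m + 1))
  rw [stp_pk] at this
  exact this

theorem Wp_le_succ (k a c : ℝ) (m : ℕ) :
    Val.W (pk k a c) m ≤ (|dig k a c (m + 1)| + 2) * Val.W (pk k a c) (m + 1) := by
  have := nn_le_stp (dig k a c (m + 1)) (pk k a c m, pk k a c (m + 1))
  rw [stp_pk] at this
  exact this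

theorem ratio_pk (hb : 100 ≤ b) (hcl : ∀ m ∈ Icc 1 1000, 2 * b ≤ |dig k a c m|) :
    ∀ m ≤ 1000, b * |pk k a c m| ≤ |pk k a c (m + 1)| := by
  intro m
  induction m with
  | zero =>
    intro _
    show b * |(0 : ℝ)| ≤ |(1 : ℝ)|
    norm_num
  | succ m ih =>
    intro hm
    have h1 := ih (by omega)
    have h3 := hcl (m + 1) (Finset.mem_Icc.mpr ⟨by omega, hm⟩)
    show b * |pk k a c (m + 1)| ≤ |dig k a c (m + 1) * pk k a c (m + 1) - pk k a c m|
    have h4 : |dig k a c (m + 1)| * |pk k a c (m + 1)| - |pk k a c m| ≤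
        |dig k a c (m + 1) * pk k a c (m + 1) - pk k a c m| := by
      rw [← abs_mul]
      exact abs_sub_abs_le_abs_sub _ _
    have h5 : |pk k a c m| ≤ |pk k a c (m + 1)| := by
      have := abs_nonneg (pk k a c m)
      nlinarith
    have h6 := abs_nonneg (pk k a c (m + 1))
    nlinarith

theorem cleanstep_pk (hb : 100 ≤ b) (hcl : ∀ m ∈ Icc 1 1000, 2 * b ≤ |dig k a c m|) {m : ℕ}
    (hm : m < 1000) :
    (|dig k a c (m + 1)| + 2) * Val.W (pk k a c) m ≤ 5 / 4 * Val.W (pk k a c) (m + 1) := by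
  have h1 := ratio_pk hb hcl m hm.le
  have h3 := hcl (m + 1) (Finset.mem_Icc.mpr ⟨by omega, by omega⟩)
  have h4 : |dig k a c (m + 1)| * |pk k a c (m + 1)| - |pk k a c m| ≤ |pk k a c (m + 2)| := by
    show _ ≤ |dig k a c (m + 1) * pk k a c (m + 1) - pk k a c m|
    rw [← abs_mul]
    exact abs_sub_abs_le_abs_sub _ _
  have h5 : 100 * |pk k a c m| ≤ |pk k a c (m + 1)| := by
    have := abs_nonneg (pk k a c m)
    nlinarith
  have h6 := abs_nonneg (pk k a c (m + 1))
  have h7 := Val.W_le_add (pk k a c) m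
  have h8 : |pk k a c (m + 2)| ≤ Val.W (pk k a c) (m + 1) := Val.abs_succ_le_W (pk k a c) (m + 1)
  have h9 : 0 ≤ |dig k a c (m + 1)| := abs_nonneg _
  have h10 : (|dig k a c (m + 1)| + 2) * Val.W (pk k a c) m ≤
      (|dig k a c (m + 1)| + 2) * (101 / 100 * |pk k a c (m + 1)|) := by
    apply mul_le_mul_of_nonneg_left _ (by linarith)
    linarith
  have h11 : 200 * |pk k a c (m + 1)| ≤ |dig k a c (m + 1)| * |pk k a c (m + 1)| := by
    apply mul_le_mul_of_nonneg_right _ h6
    linarith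
  nlinarith

theorem Wp_eq (hb : 100 ≤ b) (m : ℕ) : Val.W (pk k a c) m = b ^ Val.ex b (pk k a c) m := by
  unfold Val.ex
  rw [Real.rpow_logb (by linarith) (by linarith) (Wp_pos k a c m)]

theorem exp_le (hb : 100 ≤ b) {i j : ℕ} {x : ℝ}
    (h : Val.W (pk k a c) i ≤ b ^ x * Val.W (pk k a c) j) :
    Val.ex b (pk k a c) i ≤ x + Val.ex b (pk k a c) j := by
  rw [Wp_eq hb i, Wp_eq hb j, ← Real.rpow_add (by linarith)] at h
  exact (Real.rpow_le_rpow_left_iff (by linarith)).mp h

theorem exp_zero (b : ℝ) : Val.ex b (pk k a c) 0 = 0 := by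
  unfold Val.ex
  rw [Wp_zero, Real.logb_one]

theorem exp_clean (hb : 100 ≤ b) (hcl : ∀ m ∈ Icc 1 1000, 2 * b ≤ |dig k a c m|) {m : ℕ}
    (hm : m < 1000) : Val.ex b (pk k a c) m + 1 ≤ Val.ex b (pk k a c) (m + 1) := by
  have h1 := cleanstep_pk hb hcl hm
  have h3 := hcl (m + 1) (Finset.mem_Icc.mpr ⟨by omega, by omega⟩)
  have h4 : Val.W (pk k a c) m ≤ b ^ (-1 : ℝ) * Val.W (pk k a c) (m + 1) := by
    have hW := Val.W_nonneg (pk k a c) m
    have h5 : b * Val.W (pk k a c) m ≤ Val.W (pk k a c) (m + 1) := by nlinarith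
    rw [Real.rpow_neg_one, inv_mul_eq_div, le_div_iff₀ (by linarith)]
    linarith
  have := exp_le hb h4
  linarith

theorem exp_mono (hb : 100 ≤ b) (hcl : ∀ m ∈ Icc 1 1000, 2 * b ≤ |dig k a c m|) {i j : ℕ}
    (hij : i ≤ j) (hj : j ≤ 1000) : Val.ex b (pk k a c) i ≤ Val.ex b (pk k a c) j := by
  induction j, hij using Nat.le_induction with
  | base => exact le_rfl
  | succ j hij ih =>
    have := ih (by omega)
    have := exp_clean hb hcl (by omega : j < 1000)
    linarith

/-- exponents along an admissible orbit, on the whole window -/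
theorem expo_of_SV {n' : ℕ} (hk10 : 10 ≤ k) (hb : 2000 ≤ b) (hbk : 8 * k ≤ b ^ 2)
    (hbκ : 2 * b = k ^ (2 / 3 : ℝ)) (h : SV k 1000 a c n') (hn' : 35 ≤ n' - 1) :
    Val.Expo b (n' - 1) (Val.ex b (pk k a c)) := by
  have hb100 : 100 ≤ b := by linarith
  have hb0 : 0 < b := by linarith
  have hcl : ∀ m ∈ Icc 1 1000, 2 * b ≤ |dig k a c m| := by
    intro m hm
    rw [hbκ]
    exact h.cl m hm
  have hup : ∀ m, Val.ex b (pk k a c) (m + 1) ≤ Val.ex b (pk k a c) m + 2 := by
    intro m
    have h1 := Wp_succ_le k a c m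
    have h2 := abs_dig_le hk10 a c (m + 1)
    have h3 : Val.W (pk k a c) (m + 1) ≤ b ^ (2 : ℝ) * Val.W (pk k a c) m := by
      rw [Real.rpow_two]
      exact h1.trans (mul_le_mul_of_nonneg_right (h2.trans hbk) (Val.W_nonneg _ m))
    have := exp_le hb100 h3
    linarith
  have hdn : ∀ m, Val.ex b (pk k a c) m ≤ Val.ex b (pk k a c) (m + 1) + 2 := by
    intro m
    have h1 := Wp_le_succ k a c m
    have h2 := abs_dig_le hk10 a c (m + 1)
    have h3 : Val.W (pk k a c) m ≤ b ^ (2 : ℝ) * Val.W (pk k a c) (m + 1) := by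
      rw [Real.rpow_two]
      exact h1.trans (mul_le_mul_of_nonneg_right (h2.trans hbk) (Val.W_nonneg _ (m + 1)))
    have := exp_le hb100 h3
    linarith
  have hnn : ∀ m ≤ 1000, 0 ≤ Val.ex b (pk k a c) m := by
    intro m hm
    have := exp_mono hb100 hcl (Nat.zero_le m) hm
    rwa [exp_zero] at this
  have nf0 : ∀ i, 0 ≤ nf k a c i := fun i => (abs_nonneg _).trans (le_max_left _ _)
  have key : ∀ i j, 1000 ≤ i → i ≤ j → j < n' →
      99 / 100 * Val.ex b (pk k a c) i - 1 / 10 ≤ Val.ex b (pk k a c) j := by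
    intro i j hi hij hj
    have h0 := h.v2 i j hi hij hj
    have h1 : nf k a c i ^ (99 / 100 : ℝ) ≤ nf k a c j := by
      have h2 : (nf k a c i ^ 99) ^ (1 / 100 : ℝ) ≤ (nf k a c j ^ 100) ^ (1 / 100 : ℝ) :=
        Real.rpow_le_rpow (pow_nonneg (nf0 i) _) h0 (by norm_num)
      rw [← Real.rpow_natCast, ← Real.rpow_natCast, ← Real.rpow_mul (nf0 i),
        ← Real.rpow_mul (nf0 j)] at h2
      norm_num at h2
      exact h2
    have h2 : nf k a c j ≤ Val.W (pk k a c) j := Val.N_le_W (pk k a c) j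
    have h3 : Val.W (pk k a c) i ≤ 3 / 2 * nf k a c i := Val.W_le_N (pk k a c) i
    have h4 : (3 / 2 : ℝ) ≤ b ^ (1 / 10 : ℝ) := by
      have h5 : ((3 / 2 : ℝ) ^ (10 : ℕ)) ^ (1 / 10 : ℝ) ≤ b ^ (1 / 10 : ℝ) := by
        apply Real.rpow_le_rpow (by positivity) _ (by norm_num)
        norm_num
        linarith
      have h6 : ((3 / 2 : ℝ) ^ (10 : ℕ)) ^ (1 / 10 : ℝ) = 3 / 2 := by
        rw [← Real.rpow_natCast, ← Real.rpow_mul (by norm_num)]
        norm_num
      linarith
    have h7 : b ^ (Val.ex b (pk k a c) i - 1 / 10) ≤ nf k a c i := by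
      rw [Real.rpow_sub hb0, ← Wp_eq hb100 i, div_le_iff₀ (Real.rpow_pos_of_pos hb0 _)]
      calc Val.W (pk k a c) i ≤ 3 / 2 * nf k a c i := h3
        _ ≤ b ^ (1 / 10 : ℝ) * nf k a c i := mul_le_mul_of_nonneg_right h4 (nf0 i)
        _ = _ := mul_comm _ _
    have h8 : (b ^ (Val.ex b (pk k a c) i - 1 / 10)) ^ (99 / 100 : ℝ) ≤
        b ^ Val.ex b (pk k a c) j := by
      rw [← Wp_eq hb100 j]
      exact (Real.rpow_le_rpow (Real.rpow_nonneg hb0.le _) h7 (by norm_num)).trans (h1.trans h2)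
    rw [← Real.rpow_mul hb0.le] at h8
    have h9 := (Real.rpow_le_rpow_left_iff (by linarith)).mp h8
    linarith
  have hv2 : ∀ i j, i ≤ j → j < n' →
      99 / 100 * Val.ex b (pk k a c) i - 1 / 10 ≤ Val.ex b (pk k a c) j := by
    intro i j hij hj
    rcases Nat.lt_or_ge i 1000 with hi | hi
    · rcases Nat.lt_or_ge j 1000 with hj' | hj'
      · have := exp_mono hb100 hcl hij hj'.le
        have := hnn i hi.le
        linarith
      · have h1 := key 1000 j le_rfl hj' hj
        have h2 := exp_mono hb100 hcl hi.le le_rfl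
        linarith
    · exact key i j hi hij hj
  refine
    { hb := by linarith
      hn := hn'
      u0 := exp_zero b
      up := fun m _ => hup m
      dn := fun m _ => hdn m
      cl := fun m hm => exp_clean hb100 hcl (by omega)
      v2 := fun i j hij hj => hv2 i j hij (by omega)
      v3 := ?_ }
  -- the duration sum
  have hpt : ∀ j ∈ range (n' - 1 + 1), b ^ (-(1 / 100 * Val.ex b (pk k a c) j)) ≤
      (if j < 1000 then 1 else 0) + b * (if 1000 ≤ j then ((j : ℝ) ^ 2)⁻¹ else 0) := by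
    intro j hj
    rw [Finset.mem_range] at hj
    rcases Nat.lt_or_ge j 1000 with h' | h'
    · rw [if_pos h', if_neg (by omega)]
      have h1 := hnn j h'.le
      have h2 : b ^ (-(1 / 100 * Val.ex b (pk k a c) j)) ≤ 1 :=
        Real.rpow_le_one_of_one_le_of_nonpos (by linarith) (by linarith)
      linarith
    · rw [if_neg (by omega), if_pos h', zero_add]
      obtain ⟨i, hi0, hij, hi⟩ := h.v3 j h' (by omega)
      have h1 := hv2 i j hij (by omega)
      have h2 : (j : ℝ) ^ 400 ≤ b ^ Val.ex b (pk k a c) i := by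
        refine hi.trans ?_
        rw [← Wp_eq hb100 i]
        exact Val.N_le_W (pk k a c) i
      have hj0 : (0 : ℝ) < (j : ℝ) := by
        have : 0 < j := by omega
        exact_mod_cast this
      have h3 : (j : ℝ) ≤ b ^ (1 / 400 * Val.ex b (pk k a c) i) := by
        have h4 : ((j : ℝ) ^ 400) ^ (1 / 400 : ℝ) ≤ (b ^ Val.ex b (pk k a c) i) ^ (1 / 400 : ℝ) :=
          Real.rpow_le_rpow (by positivity) h2 (by norm_num)
        rw [← Real.rpow_natCast, ← Real.rpow_mul hj0.le, ← Real.rpow_mul hb0.le] at h4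
        norm_num at h4
        refine h4.trans ?_
        apply Real.rpow_le_rpow_of_exponent_le (by linarith)
        linarith
      have h4 : (j : ℝ) ^ 2 ≤ b ^ (1 / 200 * Val.ex b (pk k a c) i) := by
        have h5 : (j : ℝ) ^ 2 ≤ (b ^ (1 / 400 * Val.ex b (pk k a c) i)) ^ 2 :=
          pow_le_pow_left₀ hj0.le h3 2
        refine h5.trans ?_
        rw [← Real.rpow_natCast, ← Real.rpow_mul hb0.le]
        apply Real.rpow_le_rpow_of_exponent_le (by linarith)
        push_cast
        linarith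
      have h7 : 0 ≤ Val.ex b (pk k a c) i := by
        have h8 : (1 : ℝ) ≤ b ^ (1 / 400 * Val.ex b (pk k a c) i) := by
          refine le_trans ?_ h3
          have : 1 ≤ j := by omega
          exact_mod_cast this
        have h9 : (b : ℝ) ^ (0 : ℝ) ≤ b ^ (1 / 400 * Val.ex b (pk k a c) i) := by
          rw [Real.rpow_zero]; exact h8
        have := (Real.rpow_le_rpow_left_iff (by linarith)).mp h9
        linarith
      have h6 : b ^ (-(1 / 100 * Val.ex b (pk k a c) j)) * (j : ℝ) ^ 2 ≤ b := by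
        calc b ^ (-(1 / 100 * Val.ex b (pk k a c) j)) * (j : ℝ) ^ 2
            ≤ b ^ (-(1 / 100 * Val.ex b (pk k a c) j)) * b ^ (1 / 200 * Val.ex b (pk k a c) i) := by
              gcongr
          _ = b ^ (-(1 / 100 * Val.ex b (pk k a c) j) + 1 / 200 * Val.ex b (pk k a c) i) := by
              rw [← Real.rpow_add hb0]
          _ ≤ b ^ (1 : ℝ) := by
            apply Real.rpow_le_rpow_of_exponent_le (by linarith)
            linarith
          _ = b := Real.rpow_one b
      rw [← div_eq_mul_inv, le_div_iff₀ (by positivity)]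
      exact h6
  refine (Finset.sum_le_sum hpt).trans ?_
  rw [Finset.sum_add_distrib, ← Finset.mul_sum]
  have s1 : ∑ j ∈ range (n' - 1 + 1), (if j < 1000 then (1 : ℝ) else 0) ≤ 1000 := by
    rw [← Finset.sum_filter, Finset.sum_const, nsmul_eq_mul, mul_one]
    have : ((range (n' - 1 + 1)).filter (fun j => j < 1000)).card ≤ 1000 := by
      calc ((range (n' - 1 + 1)).filter (fun j => j < 1000)).card ≤ (range 1000).card := by
            apply Finset.card_le_card
            intro j hj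
            rw [Finset.mem_filter] at hj
            rw [Finset.mem_range]
            exact hj.2
        _ = 1000 := Finset.card_range _
    exact_mod_cast this
  have s2 : ∑ j ∈ range (n' - 1 + 1), (if 1000 ≤ j then ((j : ℝ) ^ 2)⁻¹ else 0) ≤ 1 / 2 := by
    rw [← Finset.sum_filter]
    have h1 : (range (n' - 1 + 1)).filter (fun j => 1000 ≤ j) = Ioo 999 (n' - 1 + 1) := by
      ext j
      simp only [Finset.mem_filter, Finset.mem_range, Finset.mem_Ioo]
      omega
    rw [h1]
    have h2 := sum_Ioo_inv_sq_le (α := ℝ) 999 (n' - 1 + 1)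
    refine h2.trans ?_
    norm_num
  nlinarith

/-- **Admissible points give helper162's `FE`** on the whole window. -/
theorem fe_of_adm {X : ℝ} {n' n L : ℕ} (hk : (10 : ℝ) ^ 30 ≤ k) (hX : k ^ 600 ≤ X)
    (h : Adm k X a c n')
    (S : Seg k X a c n' n L) :
    CoreF.FE (k ^ (2 / 3 : ℝ) / 2) n' (dig k a c) (pk k a c) := by
  obtain ⟨hb19, hbk, -⟩ := base_facts hk
  have hk10 : (10 : ℝ) ≤ k := le_trans (by norm_num) hk
  have h35 := S.hL35
  have hLn := S.hLn
  have hlt := S.lt
  have hk0 : 0 < k := by linarith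
  have hn36 : 36 ≤ n := by
    by_contra hc
    push Not at hc
    have h1 := nf_le_pow hk10 a c n
    have h2 : (8 * k) ^ n ≤ (k ^ 2) ^ n := pow_le_pow_left₀ (by positivity) (by nlinarith) n
    have h3 : (k ^ 2) ^ n < k ^ 600 := by
      rw [← pow_mul]
      exact pow_lt_pow_right₀ (lt_of_lt_of_le (by norm_num) hk) (by omega)
    have h4 := S.big
    linarith
  refine
    { hb := le_trans (by norm_num) hb19
      hN := by omega
      p0 := rfl
      p1 := rfl
      hp := fun _ _ => rfl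
      hA := ?_
      hcl := ?_
      E := ?_ }
  · intro m _
    have := abs_dig_le hk10 a c m
    nlinarith
  · intro m hm
    rw [Finset.mem_Icc] at hm
    have e : 2 * (k ^ (2 / 3 : ℝ) / 2) = k ^ (2 / 3 : ℝ) := by ring
    rw [e]
    exact h.1.cl m (Finset.mem_Icc.mpr ⟨hm.1, by omega⟩)
  · exact expo_of_SV hk10 (le_trans (by norm_num) hb19) (by nlinarith) (by ring) h.1 (by omega)

end Crest.Agent.R128.Core
end

-- ▼ part R128/ShxE

/-!
Row 128, node V3-CORE (second implementation), part E: `Core.ShadowStmt`.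
-/

set_option autoImplicit false

open Finset

namespace Crest.Agent.R128.Shx

open Crest.Agent.R128.TreeSum Crest.Agent.R128.BVP Crest.Agent.R128.Val

variable {b : ℝ} {H : ℕ} {a p : ℕ → ℝ} {M c θ ξ : ℝ}

theorem Win.H_le (V : Win b H a p) (P : Par b M c θ ξ H p) : (H : ℝ) ≤ b ^ (2 + 1 / 100 * ξ) := by
  have hb0 := V.b0
  have h := V.E.v3
  have h1 : ∀ j ∈ range (H + 1), b ^ (-(1 / 100 * (ξ + 3))) ≤ b ^ (-(1 / 100 * ex b p j)) := by
    intro j hj
    rw [Finset.mem_range] at hj
    apply V.mono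
    have := P.hup j (by omega)
    linarith
  have h2 := Finset.sum_le_sum h1
  rw [Finset.sum_const, Finset.card_range, nsmul_eq_mul] at h2
  have h3 : ((H + 1 : ℕ) : ℝ) * b ^ (-(1 / 100 * (ξ + 3))) ≤ b := h2.trans h
  have h4 : 0 < b ^ (-(1 / 100 * (ξ + 3))) := by positivity
  have h5 : (H : ℝ) * b ^ (-(1 / 100 * (ξ + 3))) ≤ b := by
    refine le_trans ?_ h3
    apply mul_le_mul_of_nonneg_right _ h4.le
    push_cast; linarith
  calc (H : ℝ) = (H : ℝ) * b ^ (-(1 / 100 * (ξ + 3))) * b ^ (1 / 100 * (ξ + 3)) := by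
        rw [mul_assoc, ← Real.rpow_add hb0]
        simp
    _ ≤ b * b ^ (1 / 100 * (ξ + 3)) := mul_le_mul_of_nonneg_right h5 (by positivity)
    _ = b ^ (1 : ℝ) * b ^ (1 / 100 * (ξ + 3)) := by rw [Real.rpow_one]
    _ = b ^ (1 + 1 / 100 * (ξ + 3)) := by rw [← Real.rpow_add hb0]
    _ ≤ _ := by
      apply V.mono
      linarith

/-- late times: after the matched index -/
theorem Win.late {f Vd : ℝ → ℝ} {x y : ℕ → ℝ} (V : Win b H (fun j => Vd (x j)) p)
    (P : Par b M c θ ξ H p) (hNL : NL f Vd M)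
    (hx : ∀ m, x (m + 2) + x m = f (x (m + 1))) (hy : ∀ m, y (m + 2) + y m = f (y (m + 1)))
    {n : ℕ} (h35 : 35 ≤ n) (hnH : n ≤ H)
    (hlow : ∀ j, n ≤ j → j ≤ H → 99 / 100 * ξ - 1 / 5 ≤ ex b p j)
    (hright : y (n + 1) = x (n + 1)) (hyn : |y n - x n| ≤ 3 / 2 * b ^ (-ξ))
    (hθ' : b ^ (-(9 / 20 * ξ)) ≤ θ) :
    ∀ j, n ≤ j → j ≤ H + 1 → |y j - x j| ≤ θ / 2 := by
  have hb0 := V.b0
  have hb := V.hb
  have hξ := P.hξ
  have h2b := V.two_le
  have hlow' : ∀ j, n ≤ j → j ≤ H + 1 → 99 / 100 * ξ - 11 / 5 ≤ ex b p j := by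
    intro j h1 h2
    rcases Nat.lt_or_ge j (H + 1) with h | h
    · have := hlow j h1 (by omega)
      linarith
    · have e : j = H + 1 := by omega
      rw [e]
      have h3 := V.dn H
      have h4 := hlow H hnH le_rfl
      linarith
  have hpm : ∀ m, 1 ≤ m → m ≤ H + 1 → |p m| ≤ b ^ (ξ + 3) := by
    intro m h1 h2
    refine (abs_le_W_pred p h1).trans ?_
    rw [V.W_eq (m - 1)]
    exact V.mono (P.hup (m - 1) (by omega))
  have hfund : ∀ j m, n + 1 ≤ j → j ≤ m → m ≤ H + 1 →
      |fund (fun i => Vd (x i)) j m| ≤ b ^ (3 / 50 * ξ) := by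
    intro j m h1 h2 h3
    rcases Nat.lt_or_ge H j with h | h
    · have e : j = m := by omega
      rw [e, fund_self, abs_zero]
      positivity
    · have h4 := (V.fund_le h2 h h3).1
      have hB : B b (ex b p) j ≤ b ^ (7 - 97 / 100 * (99 / 100 * ξ - 1 / 5)) := by
        unfold B
        rw [if_neg (by omega)]
        calc 2 * b ^ (6 - 97 / 100 * ex b p j) ≤ b ^ (1 : ℝ) * b ^ (6 - 97 / 100 * ex b p j) :=
              mul_le_mul_of_nonneg_right h2b (by positivity)
          _ = b ^ (1 + (6 - 97 / 100 * ex b p j)) := by rw [← Real.rpow_add hb0]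
          _ ≤ _ := by
            apply V.mono
            have := hlow j (by omega) h
            linarith
      have h5 : B b (ex b p) j * |p m| ≤ b ^ (-1 + 3 / 50 * ξ) := by
        calc B b (ex b p) j * |p m| ≤ b ^ (7 - 97 / 100 * (99 / 100 * ξ - 1 / 5)) * b ^ (ξ + 3) :=
              mul_le_mul hB (hpm m (by omega) h3) (abs_nonneg _) (by positivity)
          _ = b ^ (7 - 97 / 100 * (99 / 100 * ξ - 1 / 5) + (ξ + 3)) := by rw [← Real.rpow_add hb0]
          _ ≤ _ := by
            apply V.mono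
            linarith
      have h6 : |p j| / W p m ≤ b ^ (-1 + 3 / 50 * ξ) := by
        rw [div_le_iff₀ (V.pos m)]
        calc |p j| ≤ b ^ (ξ + 3) := hpm j (by omega) (by omega)
          _ ≤ b ^ (-1 + 3 / 50 * ξ + ex b p m) := by
            apply V.mono
            have := hlow' m (by omega) h3
            linarith
          _ = b ^ (-1 + 3 / 50 * ξ) * W p m := by rw [Real.rpow_add hb0, ← V.W_eq m]
      have h7 : b ^ (-1 + 3 / 50 * ξ) = b ^ (-1 : ℝ) * b ^ (3 / 50 * ξ) := Real.rpow_add hb0 _ _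
      have h8 : b ^ (-1 : ℝ) ≤ 1 / 2 := by
        rw [Real.rpow_neg_one, inv_eq_one_div]
        exact one_div_le_one_div_of_le (by norm_num) (by linarith)
      have h9 : 0 < b ^ (3 / 50 * ξ) := by positivity
      rw [h7] at h5 h6
      nlinarith
  have hB1 : 1 ≤ b ^ (3 / 50 * ξ) := Real.one_le_rpow (by linarith) (by linarith)
  have hMb : M ≤ b ^ (2 : ℝ) := by
    rw [Real.rpow_two]
    have := P.hM
    have := P.hM0
    linarith
  have hE0 : (0 : ℝ) ≤ |y n - x n| := abs_nonneg _
  have hyn' : |y n - x n| ≤ b ^ (1 - ξ) := by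
    refine hyn.trans ?_
    have e : b ^ (1 - ξ) = b ^ (1 : ℝ) * b ^ (-ξ) := by
      rw [← Real.rpow_add hb0]; ring_nf
    rw [e]
    exact mul_le_mul_of_nonneg_right (le_trans (by norm_num) h2b) (by positivity)
  have hsmall : 4 * (b ^ (3 / 50 * ξ)) ^ 2 * M * ((H : ℝ) - n) * |y n - x n| ≤ 1 := by
    have h1 := V.H_le P
    have h2 : (H : ℝ) - n ≤ b ^ (2 + 1 / 100 * ξ) := by
      have : (0 : ℝ) ≤ n := Nat.cast_nonneg n
      linarith
    have h3 : 0 ≤ (H : ℝ) - n := by
      have : (n : ℝ) ≤ H := by exact_mod_cast hnH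
      linarith
    have h4 : (b ^ (3 / 50 * ξ)) ^ 2 = b ^ (6 / 50 * ξ) := by
      rw [← Real.rpow_natCast (b ^ (3 / 50 * ξ)) 2, ← Real.rpow_mul hb0.le]
      congr 1; push_cast; ring
    rw [h4]
    have h5 : (4 : ℝ) ≤ b ^ (1 : ℝ) := by rw [Real.rpow_one]; linarith
    calc 4 * b ^ (6 / 50 * ξ) * M * ((H : ℝ) - n) * |y n - x n|
        ≤ b ^ (1 : ℝ) * b ^ (6 / 50 * ξ) * b ^ (2 : ℝ) * b ^ (2 + 1 / 100 * ξ) * b ^ (1 - ξ) := by
          have := P.hM0
          gcongr
      _ = b ^ (1 + 6 / 50 * ξ + 2 + (2 + 1 / 100 * ξ) + (1 - ξ)) := by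
          rw [← Real.rpow_add hb0, ← Real.rpow_add hb0, ← Real.rpow_add hb0, ← Real.rpow_add hb0]
      _ ≤ b ^ (0 : ℝ) := by
          apply V.mono
          linarith
      _ = 1 := Real.rpow_zero b
  have h := fwd P.hM0 hNL (s := n) (N := H) (x := x) (z := y) (fun m _ _ => hx m) (fun m _ _ => hy m)
    hright hB1 hfund hsmall
  intro j h1 h2
  refine (h j h1 h2).trans ?_
  have h3 : 2 * b ^ (3 / 50 * ξ) * |y n - x n| ≤ b ^ (1 : ℝ) * b ^ (3 / 50 * ξ) * b ^ (1 - ξ) := by
    gcongr
  have h4 : b ^ (1 : ℝ) * b ^ (3 / 50 * ξ) * b ^ (1 - ξ) = b ^ (1 + 3 / 50 * ξ + (1 - ξ)) := by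
    rw [← Real.rpow_add hb0, ← Real.rpow_add hb0]
  have h5 : b ^ (1 + 3 / 50 * ξ + (1 - ξ)) ≤ b ^ (-1 + -(9 / 20 * ξ)) := by
    apply V.mono
    linarith
  have h6 : b ^ (-1 + -(9 / 20 * ξ)) = b ^ (-1 : ℝ) * b ^ (-(9 / 20 * ξ)) := Real.rpow_add hb0 _ _
  have h8 : b ^ (-1 : ℝ) ≤ 1 / 2 := by
    rw [Real.rpow_neg_one, inv_eq_one_div]
    exact one_div_le_one_div_of_le (by norm_num) (by linarith)
  have h9 : 0 < b ^ (-(9 / 20 * ξ)) := by positivity
  rw [h6] at h5
  have h10 : b ^ (-1 : ℝ) * b ^ (-(9 / 20 * ξ)) ≤ 1 / 2 * θ :=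
    mul_le_mul h8 hθ' h9.le (by norm_num)
  linarith

theorem pk_eq_fund (k l s : ℝ) :
    ∀ m, Lam0.pk k l s m = fund (fun j => Vk k (xorb k l s j)) 0 m := by
  intro m
  induction m using Nat.strong_induction_on with
  | _ m ih =>
    match m with
    | 0 => rw [fund_self]; rfl
    | 1 => rw [fund_succ]; rfl
    | m + 2 =>
      rw [fund_rec _ 0 m (Nat.zero_le _), ← ih (m + 1) (by omega), ← ih m (by omega)]
      rfl

/-- **SHADOW** -/
theorem shadow_stmt : Core.ShadowStmt := by
  refine ⟨10 ^ 30, fun k hk X hX a b n' n L hA hS l s0 hl hMt s hs => ?_⟩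
  obtain ⟨hb19, hbk, hbk2⟩ := Core.base_facts hk
  have FE := Core.fe_of_adm hk hX hA hS
  have hk0 : 0 < k := lt_of_lt_of_le (by positivity) hk
  have hk10 : (10 : ℝ) ≤ k := le_trans (by norm_num) hk
  have hβ3 : (k ^ (2 / 3 : ℝ) / 2) ^ 3 ≤ k ^ 2 := by
    have h1 : (k ^ (2 / 3 : ℝ)) ^ 3 = k ^ 2 := by
      rw [← Real.rpow_natCast, ← Real.rpow_mul hk0.le]
      norm_num
    rw [div_pow, h1]
    have : 0 < k ^ 2 := by positivity
    linarith
  set β := k ^ (2 / 3 : ℝ) / 2 with hβ
  set p := Lam0.pk k a b with hp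
  set x := xorb k a b with hx
  have hβ0 : 0 < β := lt_of_lt_of_le (by positivity) hb19
  have hβ1 : (1000 : ℝ) ≤ β := le_trans (by norm_num) hb19
  have hX0 : 0 < X := lt_of_lt_of_le (by positivity) hX
  have hlt := hS.lt
  have hn35 : 35 ≤ n := hS.hL35.trans hS.hLn
  have V : Win β (n' - 1) (fun j => Vk k (x j)) p :=
    { hb := hβ1
      hH := by omega
      p0 := rfl
      p1 := rfl
      hp := fun _ => rfl
      hA := fun m => by
        have := Core.abs_dig_le hk10 a b (m + 1)
        unfold Core.dig at this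
        nlinarith
      hcl := FE.hcl
      E := FE.E }
  -- the exponent of X
  set ξ := Real.logb β X with hξd
  have hβξ : β ^ ξ = X := Real.rpow_logb hβ0 (by linarith) hX0
  have hξ : 900 ≤ ξ := by
    rw [hξd, Real.le_logb_iff_rpow_le (by linarith) hX0]
    refine le_trans ?_ hX
    have h1 : β ^ (900 : ℝ) = (β ^ 3) ^ 300 := by
      rw [← pow_mul]
      exact_mod_cast Real.rpow_natCast β 900
    rw [h1]
    calc (β ^ 3) ^ 300 ≤ (k ^ 2) ^ 300 := pow_le_pow_left₀ (by positivity) hβ3 300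
      _ = k ^ 600 := by rw [← pow_mul]
  have hM0 : (0 : ℝ) ≤ 4 * Real.pi ^ 2 * k := by positivity
  have hM40 := Core.M_le hk0
  have P : Par β (4 * Real.pi ^ 2 * k) (3 / 2) (β ^ (-(9 / 20 * ξ))) ξ (n' - 1) p :=
    { hM0 := hM0
      hM := by nlinarith
      hc0 := by norm_num
      hc := by norm_num
      hξ := by linarith
      hup := by
        intro j hj
        apply V.ex_le'
        have h1 := W_le_N p j
        have h2 : N p j ≤ k * X := hA.2.2 j (by omega)
        have h3 : 3 / 2 * (k * X) ≤ β ^ (2 : ℝ) * β ^ ξ := by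
          rw [hβξ, Real.rpow_two]
          have : 3 / 2 * k ≤ β ^ 2 := by nlinarith
          nlinarith
        have h4 : β ^ (2 : ℝ) * β ^ ξ ≤ β ^ (ξ + 3) := by
          rw [← Real.rpow_add hβ0]
          exact V.mono (by linarith)
        linarith
      hθ0 := by positivity
      hθ := le_rfl }
  have hxr : ∀ m, x (m + 2) + x m = fk k (x (m + 1)) := fun m => xorb_orb k a b (m + 1) m (by omega)
  have hyr : ∀ m, xorb k l s0 (m + 2) + xorb k l s0 m = fk k (xorb k l s0 (m + 1)) :=
    fun m => xorb_orb k l s0 (m + 1) m (by omega)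
  have hzr : ∀ m, xorb k l s (m + 2) + xorb k l s m = fk k (xorb k l s (m + 1)) :=
    fun m => xorb_orb k l s (m + 1) m (by omega)
  have hNL := NL_fk hk0.le
  -- lower bound of the exponents after `n`
  have hun : ξ ≤ ex β p n := by
    apply V.le_ex
    rw [hβξ]
    exact hS.big.trans (N_le_W p n)
  have hlow : ∀ j, n ≤ j → j ≤ n' - 1 → 99 / 100 * ξ - 1 / 5 ≤ ex β p j := by
    intro j h1 h2
    have := V.E.v2 n j h1 h2
    linarith
  have hyn : |xorb k l s0 n - x n| ≤ 3 / 2 * β ^ (-ξ) := by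
    have h1 := hMt.box n (Finset.mem_Icc.mpr ⟨by omega, le_rfl⟩)
    refine h1.trans ?_
    apply mul_le_mul_of_nonneg_left _ (by norm_num)
    unfold lw
    have h2 : W (Core.qk (Core.dig k a b) n) n = 1 := by
      unfold W nn
      rw [Core.qk_n, Core.qk_last]
      simp
    rw [h2, Real.rpow_neg hβ0.le, hβξ, ← one_div]
    exact one_div_le_one_div_of_le hX0 hS.pn1
  have hlate := V.late P hNL hxr hyr hn35 (by omega) hlow hMt.right hyn le_rfl
  have hyx : ∀ j, 1 ≤ j → j ≤ n' - 1 + 1 →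
      |xorb k l s0 j - x j| ≤ dbox β (3 / 2) (β ^ (-(9 / 20 * ξ))) (n' - 1) p j - β ^ (-(9 / 20 * ξ)) / 2 := by
    intro j h1 h2
    have hθ0 : 0 < β ^ (-(9 / 20 * ξ)) := by positivity
    have hBj := B_pos hβ0 (ex β p) j
    rcases Nat.lt_or_ge n j with h | h
    · have h3 := hlate j h.le h2
      unfold dbox
      split_ifs <;> linarith
    · have h3 := hMt.box j (Finset.mem_Icc.mpr ⟨h1, h⟩)
      have h4 : lw n p (Core.qk (Core.dig k a b) n) j ≤ B β (ex β p) j := by
        unfold B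
        split_ifs with h5
        · exact hS.val.lamB.c j h5
        · exact hS.val.lamB.g j h
      unfold dbox
      rw [if_pos (by omega)]
      linarith
  -- the radius
  have hr : 2 * |xorb k l s 1 - xorb k l s0 1| * β ^ (ξ + 3) ≤ β ^ (-(9 / 20 * ξ)) / 2 := by
    have e1 : xorb k l s 1 - xorb k l s0 1 = s - s0 := rfl
    rw [e1]
    have e2 : X ^ (-(3 / 2) : ℝ) = β ^ (-(3 / 2 * ξ)) := by
      rw [← hβξ, ← Real.rpow_mul hβ0.le]
      congr 1; ring
    rw [e2] at hs
    have h8 : (8 : ℝ) ≤ β ^ (1 : ℝ) := by rw [Real.rpow_one]; linarith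
    have h1 : 2 * |s - s0| * β ^ (ξ + 3) ≤ 2 * (2 * β ^ (-(3 / 2 * ξ))) * β ^ (ξ + 3) := by gcongr
    have h2 : 8 * (β ^ (-(3 / 2 * ξ)) * β ^ (ξ + 3)) ≤ β ^ (-(9 / 20 * ξ)) := by
      calc 8 * (β ^ (-(3 / 2 * ξ)) * β ^ (ξ + 3))
          ≤ β ^ (1 : ℝ) * (β ^ (-(3 / 2 * ξ)) * β ^ (ξ + 3)) :=
            mul_le_mul_of_nonneg_right h8 (by positivity)
        _ = β ^ (1 + (-(3 / 2 * ξ) + (ξ + 3))) := by
            rw [← Real.rpow_add hβ0, ← Real.rpow_add hβ0]
        _ ≤ _ := by
            apply V.mono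
            linarith
    linarith
  obtain ⟨-, hzx⟩ := V.shadow P hNL hyr hzr (z := xorb k l s) rfl hr hyx
  have hfin := V.field_orb P (Vk_lip hk0.le) hzx
  intro m hm
  have hfm := hfin m (by omega)
  have e : N (fund (fun j => Vk k (xorb k l s j)) 0) m = Lam0.nf k l s m := by
    unfold N Lam0.nf
    rw [pk_eq_fund, pk_eq_fund]
  rw [e] at hfm
  exact hfm

end Crest.Agent.R128.Shx
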