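import Crest.Agent.R128.AccRoot
import Mathlib
import Crest.Agent.R128.Close
import Crest.Agent.R128.Lam0U
import Crest.Agent.R128.Skel
import Crest.Agent.R128.Meas
import Crest.Agent.R128.V1Abs
import Crest.Agent.R128.Charge
import Crest.Agent.R128.Acc
import Crest.Agent.R128.ValClean
import Crest.Agent.R128.NestedInst
import Crest.Agent.R128.Rev

-- ▼ part R128/BootN
section

/-!
# Row 128: closing without truncation height (helper909, note 15873)

Bootstrap in the length `N` of the root orbit and Chebyshev's sum inequality.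
-/

set_option autoImplicit false
open MeasureTheory Filter Topology Finset
open Crest.AnalysisR.StandardFamily

namespace Crest.Agent.R128.BootN

open Crest.Agent.R128.Acc Crest.Agent.R128.AccRoot

/-- Chebyshev: `Σ (ρ (N - v) + e) (ρ v + e) ≤ (Σ (ρ v + e))² / (N + 1)` -/
theorem cheb {ρ : ℕ → ℝ} (hρ : Monotone ρ) (e : ℝ) (N : ℕ) :
    ((N : ℝ) + 1) * ∑ v ∈ range (N + 1), (ρ (N - v) + e) * (ρ v + e) ≤
      (∑ v ∈ range (N + 1), (ρ v + e)) ^ 2 := by
  have h1 : AntivaryOn (fun v : ℕ => ρ (N - v) + e) (fun v : ℕ => ρ v + e) (range (N + 1)) := by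
    intro i hi j hj hij
    simp only at hij ⊢
    have h2 : ρ i < ρ j := by linarith
    have h3 : i < j := by
      by_contra hc
      exact absurd (hρ (not_lt.mp hc)) (not_le.mpr h2)
    have h4 : ρ (N - j) ≤ ρ (N - i) := hρ (by omega)
    linarith
  have h2 := h1.card_mul_sum_le_sum_mul_sum
  rw [card_range] at h2
  have h3 : ∑ v ∈ range (N + 1), (ρ (N - v) + e) = ∑ v ∈ range (N + 1), (ρ v + e) := by
    have := Finset.sum_range_reflect (fun v => ρ v + e) (N + 1)
    rw [← this]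
    refine Finset.sum_congr rfl fun v hv => ?_
    rw [show N + 1 - 1 - v = N - v by omega]
  rw [h3] at h2
  push_cast at h2
  rw [sq]
  exact h2

/-- abstract closing -/
theorem closing {I : ℕ → ℝ} {C e k : ℝ} (hC : 1 ≤ C) (he : 0 < e) (hk : 0 < k)
    (hI3 : ∀ N, I (N + 1) ≤ I N + 3)
    (hIs : ∀ N, I N ≤ (2 * N + 1) * N * (2 / k))
    (h1 : 13 ≤ C ^ 2 * e ^ 2 * k) (h2 : 72 * C ^ 4 * e ≤ 1)
    {ρ : ℕ → ℕ → ℝ} (hρ : ∀ N, Monotone (ρ N)) (hρ0 : ∀ N n, 0 ≤ ρ N n)
    (H1 : ∀ N, I N ≤ C * (N + 1) * e +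
      C * ∑ v ∈ range (N + 1), (ρ N (N - v) + e) * (ρ N v + e))
    (H2 : ∀ N, ∑ v ∈ range (N + 1), ρ N v ≤ C * (I N + (N + 1) * e)) (N : ℕ) :
    I N ≤ 2 * C * e * (N + 1) := by
  have hC0 : 0 < C := by linarith
  -- the closing inequality at one `N`
  have key : ∀ N, I N ≤ 2 * C * e * (N + 1) → I N ≤ 3 / 2 * C * e * (N + 1) := by
    intro N hN
    have hN1 : (0 : ℝ) < (N : ℝ) + 1 := by positivity
    set S := ∑ v ∈ range (N + 1), (ρ N v + e) with hS
    have hS0 : 0 ≤ S := Finset.sum_nonneg fun v _ => add_nonneg (hρ0 N v) he.le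
    have hS1 : S ≤ 6 * C ^ 2 * e * (N + 1) := by
      have h3 : S = ∑ v ∈ range (N + 1), ρ N v + (N + 1) * e := by
        rw [hS, Finset.sum_add_distrib]
        simp
      rw [h3]
      have h4 := H2 N
      have h5 : C * (I N + (N + 1) * e) ≤ C * (2 * C * e * (N + 1) + (N + 1) * e) := by gcongr
      have h6 : C * (2 * C * e * (N + 1) + (N + 1) * e) + (N + 1) * e =
          (2 * C ^ 2 + C + 1) * (e * (N + 1)) := by ring
      have h7 : (2 * C ^ 2 + C + 1) * (e * (N + 1)) ≤ (6 * C ^ 2) * (e * (N + 1)) := by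
        apply mul_le_mul_of_nonneg_right _ (by positivity)
        nlinarith
      calc _ ≤ (2 * C ^ 2 + C + 1) * (e * (N + 1)) := by linarith
        _ ≤ (6 * C ^ 2) * (e * (N + 1)) := h7
        _ = _ := by ring
    have h3 := cheb (hρ N) e N
    have h4 : ∑ v ∈ range (N + 1), (ρ N (N - v) + e) * (ρ N v + e) ≤ 36 * C ^ 4 * e ^ 2 * (N + 1) := by
      have h5 : S ^ 2 ≤ (6 * C ^ 2 * e * (N + 1)) ^ 2 := by gcongr
      have h6 : ((N : ℝ) + 1) * ∑ v ∈ range (N + 1), (ρ N (N - v) + e) * (ρ N v + e) ≤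
          (N + 1) * (36 * C ^ 4 * e ^ 2 * (N + 1)) := by
        calc _ ≤ S ^ 2 := h3
          _ ≤ (6 * C ^ 2 * e * (N + 1)) ^ 2 := h5
          _ = _ := by ring
      exact le_of_mul_le_mul_left h6 hN1
    have h5 := H1 N
    have h6 : C * ∑ v ∈ range (N + 1), (ρ N (N - v) + e) * (ρ N v + e) ≤
        C * (36 * C ^ 4 * e ^ 2 * (N + 1)) := by gcongr
    have h7 : C * (36 * C ^ 4 * e ^ 2 * (N + 1)) = (1 / 2) * (72 * C ^ 4 * e) * (C * e * (N + 1)) := by
      ring
    have h8 : (1 / 2) * (72 * C ^ 4 * e) * (C * e * (N + 1)) ≤ (1 / 2) * 1 * (C * e * (N + 1)) := by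
      gcongr
    linarith
  induction N with
  | zero =>
    have h := hIs 0
    simp only [Nat.cast_zero, mul_zero, zero_mul, zero_add] at h
    have : 0 ≤ 2 * C * e * ((0 : ℕ) + 1 : ℝ) := by positivity
    linarith
  | succ N ih =>
    rcases le_or_gt (6 : ℝ) (C * e * (N + 2)) with h | h
    · have h3 := key N ih
      have h4 := hI3 N
      push_cast
      nlinarith [h3, h4, h]
    · -- small lengths
      have h3 := hIs (N + 1)
      push_cast at h3 ⊢
      have hN0 : (0 : ℝ) ≤ N := Nat.cast_nonneg N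
      -- (2 (N+1) + 1) (N+1) (2/k) ≤ 2 C e (N+2)
      have h4 : (2 * ((N : ℝ) + 1) + 1) * (N + 1) * (2 / k) ≤ 2 * (N + 2) * (N + 2) * (2 / k) := by
        have : (2 * ((N : ℝ) + 1) + 1) * (N + 1) ≤ 2 * (N + 2) * (N + 2) := by nlinarith
        exact mul_le_mul_of_nonneg_right this (by positivity)
      have h5 : (2 * ((N : ℝ) + 2) * (N + 2) * (2 / k)) ≤ 2 * C * e * (N + 2) := by
        rw [show 2 * ((N : ℝ) + 2) * (N + 2) * (2 / k) = (4 * (N + 2) / k) * (N + 2) by ring]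
        apply mul_le_mul_of_nonneg_right _ (by positivity)
        rw [div_le_iff₀ hk]
        -- 4 (N+2) ≤ 2 C e k
        have h6 : C * e * (4 * (N + 2)) ≤ C * e * (2 * C * e * k) := by nlinarith
        exact le_of_mul_le_mul_left h6 (by positivity)
      have h6 : (2 : ℝ) * C * e * (N + 2) = 2 * C * e * (N + 1 + 1) := by ring
      linarith

open Classical in
/-- without a near critical digit there is no descent -/
theorem cross_le_card {k : ℝ} (hk : 1 < k) (hk2 : Real.log (3 + 2 * Real.pi * k) ≤ 2 * Real.log k)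
    (N : ℕ) (z : Tor) :
    (cross k N z : ℝ) ≤ (2 * N + 1) * #{t ∈ range N | |V k ((T k)^[t] z).2| ≤ 2} := by
  have hl : 0 < Real.log k := Real.log_pos hk
  have hR : ∀ t, t < N → bt (rr k z) t ≤ (2 * N + 1 : ℕ) * Real.log k := by
    intro t ht
    have h1 := bt_le_mul (by linarith : 0 ≤ k) z t
    have h2 : (t : ℝ) ≤ N := by exact_mod_cast ht.le
    have h3 : (t : ℝ) * Real.log (3 + 2 * Real.pi * k) ≤ N * (2 * Real.log k) :=
      mul_le_mul h2 hk2 (by
        apply Real.log_nonneg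
        have : 0 ≤ 2 * Real.pi * k := by positivity
        linarith) (Nat.cast_nonneg _)
    push_cast
    nlinarith
  have h1 := crossings_le hl (by
    unfold bt
    rw [rr_zero, rr_one]
    simp) N (2 * N + 1) hR
  have h2 : ∀ r ∈ range (2 * N + 1), #{t ∈ range N | Top (bt (rr k z)) (Real.log k) N t r} ≤
      #{t ∈ range N | |V k ((T k)^[t] z).2| ≤ 2} := by
    intro r _
    apply Finset.card_le_card
    intro t ht
    rw [Finset.mem_filter] at ht ⊢
    refine ⟨ht.1, ?_⟩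
    have := top_zero (V := dg k z) (rr_pos k z) (rr_h1 k z) ht.2
    exact this.le
  have h3 := Finset.sum_le_sum h2
  rw [Finset.sum_const, card_range, smul_eq_mul] at h3
  have h4 : cross k N z ≤ (2 * N + 1) * #{t ∈ range N | |V k ((T k)^[t] z).2| ≤ 2} := by
    unfold cross
    exact h1.trans h3
  exact_mod_cast h4

theorem cross_succ_le {k : ℝ} (hk : 1 < k) (hk2 : Real.log (3 + 2 * Real.pi * k) ≤ 2 * Real.log k)
    (N : ℕ) (z : Tor) : (cross k (N + 1) z : ℝ) ≤ cross k N z + 3 := by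
  have hl : 0 < Real.log k := Real.log_pos hk
  have h1 : cross k (N + 1) z = cross k N z +
      (⌈bt (rr k z) N / Real.log k⌉₊ - ⌈bt (rr k z) (N + 1) / Real.log k⌉₊) := by
    unfold cross
    rw [Finset.sum_range_succ]
  have h2 : bt (rr k z) N - bt (rr k z) (N + 1) ≤ Real.log (3 + 2 * Real.pi * k) := by
    have := bt_le_succ (ρ := rr k z) (V := dg k z) (L := Real.log (3 + 2 * Real.pi * k))
      (fun n => abs_nonneg _) (rr_pos k z) (rr_h3 k z)
      (fun n => Real.log_le_log (by have := abs_nonneg (V k ((T k)^[n] z).2); unfold dg; linarith)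
        (by linarith [dg_le k (by linarith) z n])) N
    linarith
  have h3 : ⌈bt (rr k z) N / Real.log k⌉₊ ≤ ⌈bt (rr k z) (N + 1) / Real.log k⌉₊ + 2 := by
    rw [Nat.ceil_le]
    push_cast
    have h4 := Nat.le_ceil (bt (rr k z) (N + 1) / Real.log k)
    have h5 : bt (rr k z) N / Real.log k ≤ bt (rr k z) (N + 1) / Real.log k + 2 := by
      rw [div_add' _ _ _ hl.ne']
      apply div_le_div_of_nonneg_right _ hl.le
      linarith
    linarith
  rw [h1]
  push_cast
  have h4 : (⌈bt (rr k z) N / Real.log k⌉₊ - ⌈bt (rr k z) (N + 1) / Real.log k⌉₊) ≤ 3 := by omega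
  have h5 : ((⌈bt (rr k z) N / Real.log k⌉₊ - ⌈bt (rr k z) (N + 1) / Real.log k⌉₊ : ℕ) : ℝ) ≤ 3 := by
    exact_mod_cast h4
  linarith

/-- `I N = ∫ cross` -/
noncomputable def I (k : ℝ) (N : ℕ) : ℝ := ∫ z : Tor, (cross k N z : ℝ)


theorem I_succ_le {k : ℝ} (hk : 1 < k) (hk2 : Real.log (3 + 2 * Real.pi * k) ≤ 2 * Real.log k)
    (N : ℕ) : I k (N + 1) ≤ I k N + 3 := by
  unfold I
  calc ∫ z : Tor, (cross k (N + 1) z : ℝ) ≤ ∫ z : Tor, ((cross k N z : ℝ) + 3) := by
        apply integral_mono (integrable_cross hk _) ((integrable_cross hk _).add (integrable_const _))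
        intro z
        exact cross_succ_le hk hk2 N z
    _ = _ := by
        rw [integral_add (integrable_cross hk _) (integrable_const _)]
        simp

open Classical in
theorem I_small {k : ℝ} (hk : 1 < k) (hk2 : Real.log (3 + 2 * Real.pi * k) ≤ 2 * Real.log k)
    (N : ℕ) : I k N ≤ (2 * N + 1) * N * (2 / k) := by
  have hS : MeasurableSet {z : Tor | |V k z.2| ≤ 2} :=
    measurableSet_le (((continuous_V k).comp continuous_snd).abs.measurable) measurable_const
  have hint : Integrable (fun z : Tor => {z : Tor | |V k z.2| ≤ 2}.indicator (fun _ => (1 : ℝ)) z)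
      volume := (integrable_const 1).indicator hS
  have h1 : ∀ z : Tor, (cross k N z : ℝ) ≤
      (2 * N + 1) * ∑ t ∈ range N, {z : Tor | |V k z.2| ≤ 2}.indicator (fun _ => (1 : ℝ)) ((T k)^[t] z) := by
    intro z
    refine (cross_le_card hk hk2 N z).trans (le_of_eq ?_)
    congr 1
    rw [Finset.card_filter]
    push_cast
    refine Finset.sum_congr rfl fun t _ => ?_
    simp [Set.indicator_apply]
  unfold I
  calc ∫ z : Tor, (cross k N z : ℝ) ≤ ∫ z : Tor, (2 * N + 1) *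
        ∑ t ∈ range N, {z : Tor | |V k z.2| ≤ 2}.indicator (fun _ => (1 : ℝ)) ((T k)^[t] z) := by
        apply integral_mono (integrable_cross hk _)
        · exact (integrable_finsetSum _ fun t _ => integrable_comp_iter t hint).const_mul _
        · exact h1
    _ = (2 * N + 1) * ∑ t ∈ range N, ∫ z : Tor,
        {z : Tor | |V k z.2| ≤ 2}.indicator (fun _ => (1 : ℝ)) ((T k)^[t] z) := by
        rw [integral_const_mul, integral_finsetSum]
        exact fun t _ => integrable_comp_iter t hint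
    _ = (2 * N + 1) * ∑ t ∈ range N, (volume : Measure Tor).real {z | |V k z.2| ≤ 2} := by
        congr 1
        refine Finset.sum_congr rfl fun t _ => ?_
        rw [integral_comp_iter t hint.aestronglyMeasurable, integral_indicator_const _ hS]
        simp
    _ ≤ (2 * N + 1) * ∑ t ∈ range N, (2 / k) := by
        gcongr
        exact volumeReal_V_le hk.le (by norm_num)
    _ = _ := by
        rw [Finset.sum_const, card_range, nsmul_eq_mul]
        ring

/-- **Closing** (V6): the two inequalities at every length `N` imply the statement. -/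
theorem result_of_closing
    (H : ∃ C : ℝ, 1 ≤ C ∧ ∃ k₁ : ℝ, ∀ k : ℝ, k₁ ≤ k → ∃ e : ℝ, 0 < e ∧ 13 ≤ e ^ 2 * k ∧
      72 * C ^ 4 * e ≤ 1 ∧ ∃ ρ : ℕ → ℕ → ℝ, (∀ N, Monotone (ρ N)) ∧ (∀ N n, 0 ≤ ρ N n) ∧
      (∀ N : ℕ, (∫ z : Tor, (cross k N z : ℝ)) ≤ C * (N + 1) * e +
        C * ∑ v ∈ range (N + 1), (ρ N (N - v) + e) * (ρ N v + e)) ∧
      (∀ N : ℕ, ∑ v ∈ range (N + 1), ρ N v ≤
        C * ((∫ z : Tor, (cross k N z : ℝ)) + (N + 1) * e))) :
    ∃ k₀ : ℝ, 0 < k₀ ∧ ∀ k : ℝ, k₀ ≤ k →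
      0 < MeasureTheory.volume ({p : ℝ × ℝ | ∃ c : ℝ, 0 < c ∧
          ∃ᶠ n : ℕ in Filter.atTop, c * n ≤ Real.log ‖fderiv ℝ (standardMapLift k)^[n] p‖} ∩
        Set.Ico (0 : ℝ) 1 ×ˢ Set.Ico (0 : ℝ) 1) := by
  apply result_of_cross
  obtain ⟨C, hC, k₁, H⟩ := H
  refine ⟨max k₁ 10, fun k hk => ?_⟩
  have hk1 : k₁ ≤ k := (le_max_left _ _).trans hk
  have hk10 : (10 : ℝ) ≤ k := (le_max_right _ _).trans hk
  have hk' : 1 < k := by linarith
  obtain ⟨e, he, h1, h2, ρ, hρ, hρ0, H1, H2⟩ := H k hk1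
  have hk2 : Real.log (3 + 2 * Real.pi * k) ≤ 2 * Real.log k := by
    rw [← Real.log_rpow (by linarith)]
    apply Real.log_le_log (by positivity)
    rw [show (k : ℝ) ^ (2 : ℝ) = k ^ 2 by norm_cast]
    have := Real.pi_lt_d2
    nlinarith
  have hC2 : 1 ≤ C ^ 2 := by nlinarith
  have hC4 : C ≤ C ^ 4 := by
    have : 1 ≤ C ^ 3 := one_le_pow₀ hC
    nlinarith
  apply Filter.Eventually.frequently
  filter_upwards [eventually_ge_atTop 1] with N hN
  have h3 := closing (I := I k) hC he (by linarith : 0 < k) (I_succ_le hk' hk2)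
    (I_small hk' hk2) (by nlinarith [mul_nonneg (sq_nonneg e) (by linarith : (0:ℝ) ≤ k)]) h2
    hρ hρ0 H1 H2 N
  have hN1 : (1 : ℝ) ≤ N := by exact_mod_cast hN
  have h4 : 2 * C * e * (N + 1) ≤ N / 4 := by
    have h5 : 72 * C * e ≤ 1 := by nlinarith
    nlinarith
  exact h3.trans h4

end Crest.Agent.R128.BootN
end

-- ▼ part R128/CloseM
section

/-!
# Row 128, V6 (helper744), final version: fraction `1 / R` of non-fresh levels, additive `e` in V4

`InputsR` = V1, V2, V4, V5 in the window `[0, N]`; `result_of_inputsR` = S0172.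
-/

set_option autoImplicit false
open MeasureTheory Filter Topology Finset
open scoped ENNReal
open Crest.AnalysisR.StandardFamily

namespace Crest.Agent.R128.Close

open Crest.Agent.R128.Acc Crest.Agent.R128.AccRoot Crest.Agent.R128.CloseV2

open Classical in
/-- the block `[Q, 16 Q)`, `Q = 16 ^ i * Q0`, has fewer than `Q / R` non-fresh depths -/
def FBR (R : ℕ) (nf : ℕ → Prop) (Q0 i : ℕ) : Prop :=
  R * ((Ico (16 ^ i * Q0) (16 ^ (i + 1) * Q0)).filter nf).card < 16 ^ i * Q0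

open Classical in
/-- pointwise block decomposition -/
theorem block_le_R {R h Q0 : ℕ} (hQ0 : 1 ≤ Q0) (nf : ℕ → Prop) (I : ℕ)
    (hI : h < 16 ^ (I + 1) * Q0) :
    h ≤ 16 * Q0 + 256 * (∑ i ∈ range I,
        if 16 ^ (i + 1) * Q0 ≤ h ∧ FBR R nf Q0 i then 16 ^ i * Q0 else 0) +
      256 * (R * ((Ico Q0 h).filter nf).card) := by
  induction I with
  | zero =>
    simp only [zero_add, pow_one] at hI
    omega
  | succ I ih =>
    rw [Finset.sum_range_succ]
    rcases lt_or_ge h (16 ^ (I + 1) * Q0) with h1 | h1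
    · have := ih h1
      nlinarith [Nat.zero_le (if 16 ^ (I + 1) * Q0 ≤ h ∧ FBR R nf Q0 I then 16 ^ I * Q0 else 0)]
    · have e : 16 ^ (I + 1 + 1) * Q0 = 256 * (16 ^ I * Q0) := by ring
      rw [e] at hI
      by_cases hf : FBR R nf Q0 I
      · rw [if_pos ⟨h1, hf⟩]
        have := Nat.zero_le (∑ i ∈ range I,
          if 16 ^ (i + 1) * Q0 ≤ h ∧ FBR R nf Q0 i then 16 ^ i * Q0 else 0)
        nlinarith [Nat.zero_le (R * ((Ico Q0 h).filter nf).card)]
      · unfold FBR at hf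
        push Not at hf
        have hsub : (Ico (16 ^ I * Q0) (16 ^ (I + 1) * Q0)).filter nf ⊆ (Ico Q0 h).filter nf := by
          apply Finset.filter_subset_filter
          apply Finset.Ico_subset_Ico
          · have : 1 ≤ 16 ^ I := Nat.one_le_pow _ _ (by norm_num)
            nlinarith
          · exact h1
        have hc := hf.trans (Nat.mul_le_mul_left R (Finset.card_le_card hsub))
        have := Nat.zero_le (∑ i ∈ range (I + 1),
          if 16 ^ (i + 1) * Q0 ≤ h ∧ FBR R nf Q0 i then 16 ^ i * Q0 else 0)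
        have h3 := Nat.zero_le (∑ i ∈ range I,
          if 16 ^ (i + 1) * Q0 ≤ h ∧ FBR R nf Q0 i then 16 ^ i * Q0 else 0)
        nlinarith [Nat.zero_le (if 16 ^ (I + 1) * Q0 ≤ h ∧ FBR R nf Q0 I then 16 ^ I * Q0 else 0)]

open Classical in
/-- **Closing, pointwise.**  `tops` = tops of one orbit, `h t` = number of closed depths of the top `t`
(already truncated at `H` if wanted), `nf t r` = the depth `r` of the top `t` is not fresh. -/
theorem close_pt_R {Ω : Type*} {e : Ω → Ω} {z : Ω} {R N Q0 I : ℕ} (hQ0 : 1 ≤ Q0) {tops : Finset ℕ} {h : ℕ → ℕ}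
    {nf : ℕ → ℕ → Prop} {crit : Set Ω} {A : ℕ → Set Ω} {Y : ℝ≥0∞}
    (hI : ∀ t ∈ tops, h t < 16 ^ (I + 1) * Q0)
    (htops : tops ⊆ range N) (hcrit : ∀ t ∈ tops, e^[t] z ∈ crit)
    (hA : ∀ t ∈ tops, ∀ i < I, 16 ^ (i + 1) * Q0 ≤ h t → FBR R (nf t) Q0 i → e^[t] z ∈ A i)
    (hbad : ((∑ t ∈ tops, ((Ico Q0 (h t)).filter (nf t)).card : ℕ) : ℝ≥0∞) ≤ Y) :
    ((∑ t ∈ tops, h t : ℕ) : ℝ≥0∞) ≤ 16 * Q0 * vis e crit N z +
      256 * (∑ i ∈ range I, (16 ^ i * Q0) * vis e (A i) N z) + 256 * (R * Y) := by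
  have h1 : (∑ t ∈ tops, h t) ≤ 16 * Q0 * tops.card +
      256 * (∑ i ∈ range I, (16 ^ i * Q0) *
        (tops.filter (fun t => 16 ^ (i + 1) * Q0 ≤ h t ∧ FBR R (nf t) Q0 i)).card) +
      256 * (R * ∑ t ∈ tops, ((Ico Q0 (h t)).filter (nf t)).card) := by
    calc (∑ t ∈ tops, h t) ≤ ∑ t ∈ tops, (16 * Q0 + 256 * (∑ i ∈ range I,
          if 16 ^ (i + 1) * Q0 ≤ h t ∧ FBR R (nf t) Q0 i then 16 ^ i * Q0 else 0) +
            256 * (R * ((Ico Q0 (h t)).filter (nf t)).card)) :=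
          Finset.sum_le_sum fun t ht => block_le_R hQ0 (nf t) I (hI t ht)
      _ = _ := by
          rw [Finset.sum_add_distrib, Finset.sum_add_distrib, Finset.sum_const, smul_eq_mul,
            ← Finset.mul_sum, ← Finset.mul_sum, ← Finset.mul_sum, Finset.sum_comm]
          have : ∀ i ∈ range I, (∑ t ∈ tops,
              if 16 ^ (i + 1) * Q0 ≤ h t ∧ FBR R (nf t) Q0 i then 16 ^ i * Q0 else 0) =
              (16 ^ i * Q0) * (tops.filter (fun t => 16 ^ (i + 1) * Q0 ≤ h t ∧ FBR R (nf t) Q0 i)).card := by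
            intro i _
            rw [← Finset.sum_filter, Finset.sum_const, smul_eq_mul, mul_comm]
          rw [Finset.sum_congr rfl this]
          ring
  have h2 : ((∑ t ∈ tops, h t : ℕ) : ℝ≥0∞) ≤ ((16 * Q0 * tops.card +
      256 * (∑ i ∈ range I, (16 ^ i * Q0) *
        (tops.filter (fun t => 16 ^ (i + 1) * Q0 ≤ h t ∧ FBR R (nf t) Q0 i)).card) +
      256 * (R * ∑ t ∈ tops, ((Ico Q0 (h t)).filter (nf t)).card) : ℕ) : ℝ≥0∞) := by
    exact_mod_cast h1
  refine h2.trans ?_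
  push_cast
  gcongr ?_ + ?_ + ?_
  · gcongr
    exact card_le_vis htops hcrit
  · gcongr with i hi
    exact card_le_vis ((Finset.filter_subset _ _).trans htops) (fun t ht => by
      rw [Finset.mem_filter] at ht
      exact hA t ht.1 i (Finset.mem_range.mp hi) ht.2.1 ht.2.2)
  · have := hbad
    push_cast at this
    gcongr

open Classical in
theorem cross_pt_R {k : ℝ} (hk : 1 < k) {R N Q0 : ℕ} (hQ0 : 1 ≤ Q0) (z : Tor) (nf : ℕ → ℕ → Prop)
    (A : ℕ → Set Tor)
    (hfresh : ∀ t i, 16 ^ (i + 1) * Q0 ≤ mt (bz k z) (Real.log k) N t →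
      FBR R (fun r => nf t (lv k z t r)) Q0 i → (T k)^[t] z ∈ A i) (Y : ℝ≥0∞)
    (hY : ∀ S : Finset (ℕ × ℕ), (∀ p ∈ S, Comp (bz k z) (Real.log k) N p.1 p.2 ∧
      p.2 + Q0 ≤ ⌈bz k z p.1 / Real.log k⌉₊ ∧ nf p.1 p.2) → (S.card : ℝ≥0∞) ≤ Y) (I : ℕ)
    (hI : ∀ t ∈ range N, mt (bz k z) (Real.log k) N t < 16 ^ (I + 1) * Q0) :
    (cross k N z : ℝ≥0∞) ≤ 16 * Q0 * vis (T k) {z | |V k z.2| ≤ 2} N z +
      256 * (∑ i ∈ range I, (16 ^ i * Q0) * vis (T k) (A i) N z) + 256 * (R * Y) := by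
  have hl : 0 < Real.log k := Real.log_pos hk
  set β := bz k z with hβ
  set κ := Real.log k with hκ
  set tops : Finset ℕ := {t ∈ range N | mt β κ N t ≠ 0} with htops
  have h1 : cross k N z ≤ ∑ t ∈ tops, mt β κ N t := by
    refine (cross_le_sum_mt hl (bz_zero k z) N).trans (le_of_eq ?_)
    rw [htops, Finset.sum_filter]
    refine Finset.sum_congr rfl fun t _ => ?_
    split_ifs with h
    · rfl
    · push Not at h; exact h
  have h2 := close_pt_R (e := T k) (z := z) (R := R) (N := N) (Q0 := Q0) (I := I) hQ0 (tops := tops)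
    (h := mt β κ N) (nf := fun t r => nf t (lv k z t r)) (crit := {z | |V k z.2| ≤ 2})
    (A := A) (Y := Y)
    (fun t ht => hI t (mem_filter.mp ht).1) (filter_subset _ _)
    (fun t ht => by
      obtain ⟨l, hl'⟩ := comp_of_mt_pos (mem_filter.mp ht).2
      exact crit_of_comp hl')
    (fun t _ i _ h3 h4 => hfresh t i h3 h4) ?_
  · refine le_trans ?_ h2
    exact_mod_cast h1
  · -- the pairs (top, level)
    set S : Finset (ℕ × ℕ) := tops.biUnion fun t =>
      ((Ico Q0 (mt β κ N t)).filter (fun r => nf t (lv k z t r))).image (fun r => (t, lv k z t r))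
      with hS
    have hcard : S.card = ∑ t ∈ tops, ((Ico Q0 (mt β κ N t)).filter
        (fun r => nf t (lv k z t r))).card := by
      rw [hS, card_biUnion]
      · refine Finset.sum_congr rfl fun t _ => ?_
        refine card_image_of_injOn ?_
        intro r hr r' hr' he
        rw [Finset.mem_coe, mem_filter, mem_Ico] at hr hr'
        have h3 : mt β κ N t ≤ ⌈β t / κ⌉₊ := mt_le
        simp only [Prod.mk.injEq, true_and] at he
        unfold lv at he
        rw [← hβ, ← hκ] at he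
        omega
      · intro t _ t' _ hne
        rw [Function.onFun, Finset.disjoint_left]
        intro p hp hp'
        rw [mem_image] at hp hp'
        obtain ⟨r, -, h5⟩ := hp
        obtain ⟨r', -, h6⟩ := hp'
        rw [← h5] at h6
        exact hne (congrArg Prod.fst h6).symm
    rw [← hcard]
    refine hY S fun p hp => ?_
    rw [hS, mem_biUnion] at hp
    obtain ⟨t, ht, hp⟩ := hp
    rw [mem_image] at hp
    obtain ⟨r, hr, rfl⟩ := hp
    rw [mem_filter, mem_Ico] at hr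
    have h3 : mt β κ N t ≤ ⌈β t / κ⌉₊ := mt_le
    have hc : Comp β κ N t (⌈β t / κ⌉₊ - r) := comp_sub hl (by omega) (by omega)
    refine ⟨hc, ?_, hr.2⟩
    show lv k z t r + Q0 ≤ ⌈β t / κ⌉₊
    unfold lv
    rw [← hβ, ← hκ]
    omega

/-- **closing in the window `[0, N]`** -/
theorem lint_cross_le_R {k : ℝ} (hk : 1 < k) {R N Q0 : ℕ} (hQ0 : 1 ≤ Q0) (nf : Tor → ℕ → ℕ → Prop)
    {A : ℕ → Set Tor} (hA : ∀ i, MeasurableSet (A i))
    (hfresh : ∀ z t i, 16 ^ (i + 1) * Q0 ≤ mt (bz k z) (Real.log k) N t →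
      FBR R (fun r => nf z t (lv k z t r)) Q0 i → (T k)^[t] z ∈ A i)
    {Rp Rm : ℕ → Set Tor} (hRp : ∀ M, MeasurableSet (Rp M)) (hRm : ∀ M, MeasurableSet (Rm M))
    {bad : Set Tor} (hbad : MeasurableSet bad) {C1 s : ℝ≥0∞}
    (hV1 : ∀ z, ∀ S : Finset (ℕ × ℕ), (∀ p ∈ S, Comp (bz k z) (Real.log k) N p.1 p.2 ∧
      p.2 + Q0 ≤ ⌈bz k z p.1 / Real.log k⌉₊ ∧ nf z p.1 p.2) → (S.card : ℝ≥0∞) ≤
      C1 * (∑ v ∈ range (N + 1), (Rp (N - v) ∩ Rm v).indicator (fun _ => (1 : ℝ≥0∞)) ((T k)^[v] z) +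
        vis (T k) bad (N + 1) z))
    (hs : ∀ I, ∑ i ∈ range I, ((16 : ℝ≥0∞) ^ i * Q0) * volume (A i) ≤ s) :
    ∫⁻ z : Tor, (cross k N z : ℝ≥0∞) ≤
      N * (16 * Q0 * volume {z : Tor | |V k z.2| ≤ 2} + 256 * s) +
      256 * (R * (C1 * (∑ v ∈ range (N + 1), volume (Rp (N - v) ∩ Rm v) + (N + 1) * volume bad))) := by
  have hl : 0 < Real.log k := Real.log_pos hk
  set B : Set Tor := {z | |V k z.2| ≤ 2} with hB
  have hBm : MeasurableSet B :=
    (isClosed_le ((continuous_V k).comp continuous_snd).abs continuous_const).measurableSet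
  set Y : Tor → ℝ≥0∞ := fun z => C1 * (∑ v ∈ range (N + 1),
    (Rp (N - v) ∩ Rm v).indicator (fun _ => (1 : ℝ≥0∞)) ((T k)^[v] z) +
      vis (T k) bad (N + 1) z) with hY
  have hYm1 : Measurable fun z : Tor => ∑ v ∈ range (N + 1),
      (Rp (N - v) ∩ Rm v).indicator (fun _ => (1 : ℝ≥0∞)) ((T k)^[v] z) :=
    Finset.measurable_sum _ fun v _ => measurable_ind ((hRp _).inter (hRm _)) k v
  have hYm2 : Measurable fun z : Tor => vis (T k) bad (N + 1) z :=
    measurable_vis (mp_T k).measurable hbad (N + 1)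
  -- a bound for the heights
  obtain ⟨I, hI⟩ : ∃ I : ℕ, ∀ z : Tor, ∀ t ∈ range N,
      mt (bz k z) (Real.log k) N t < 16 ^ (I + 1) * Q0 := by
    set L := Real.log (3 + 2 * Real.pi * k) with hL
    have hL0 : 0 ≤ L := Real.log_nonneg (by
      have : 0 ≤ 2 * Real.pi * k := by positivity
      linarith)
    refine ⟨⌈N * L / Real.log k⌉₊, fun z t ht => ?_⟩
    have h1 : mt (bz k z) (Real.log k) N t ≤ ⌈bz k z t / Real.log k⌉₊ := mt_le
    have h2 : bz k z t / Real.log k ≤ N * L / Real.log k := by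
      refine div_le_div_of_nonneg_right ((bt_le_mul (by linarith) z t).trans ?_) hl.le
      refine mul_le_mul_of_nonneg_right ?_ hL0
      exact_mod_cast (mem_range.mp ht).le
    have h3 : ⌈bz k z t / Real.log k⌉₊ ≤ ⌈N * L / Real.log k⌉₊ := Nat.ceil_mono h2
    set M := ⌈N * L / Real.log k⌉₊ with hM
    have h4 : M < 16 ^ (M + 1) := by
      calc M < 2 ^ M := Nat.lt_two_pow_self
        _ ≤ 16 ^ M := Nat.pow_le_pow_left (by norm_num) M
        _ ≤ 16 ^ (M + 1) := Nat.pow_le_pow_right (by norm_num) (by omega)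
    have h5 : 16 ^ (M + 1) ≤ 16 ^ (M + 1) * Q0 := Nat.le_mul_of_pos_right _ hQ0
    omega
  have hpt : ∀ z : Tor, (cross k N z : ℝ≥0∞) ≤ 16 * Q0 * vis (T k) B N z +
      256 * (∑ i ∈ range I, (16 ^ i * Q0) * vis (T k) (A i) N z) + 256 * (R * Y z) := fun z =>
    cross_pt_R hk hQ0 z (nf z) A (hfresh z) (Y z) (hV1 z) I (hI z)
  have hm1 : Measurable fun z : Tor => 16 * (Q0 : ℝ≥0∞) * vis (T k) B N z :=
    (measurable_vis (mp_T k).measurable hBm N).const_mul _
  have hm2 : ∀ i, Measurable fun z : Tor => ((16 : ℝ≥0∞) ^ i * Q0) * vis (T k) (A i) N z := fun i =>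
    (measurable_vis (mp_T k).measurable (hA i) N).const_mul _
  have hm3 : Measurable fun z : Tor =>
      256 * (∑ i ∈ range I, ((16 : ℝ≥0∞) ^ i * Q0) * vis (T k) (A i) N z) :=
    (Finset.measurable_sum _ fun i _ => hm2 i).const_mul _
  have hYm12 : Measurable fun z : Tor => ∑ v ∈ range (N + 1),
      (Rp (N - v) ∩ Rm v).indicator (fun _ => (1 : ℝ≥0∞)) ((T k)^[v] z) +
      vis (T k) bad (N + 1) z := hYm1.add hYm2
  have hY0 : Measurable Y := hYm12.const_mul _
  have hm13 : Measurable fun z : Tor => 16 * (Q0 : ℝ≥0∞) * vis (T k) B N z +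
      256 * (∑ i ∈ range I, ((16 : ℝ≥0∞) ^ i * Q0) * vis (T k) (A i) N z) := hm1.add hm3
  have hYI : ∫⁻ z, Y z = C1 * (∑ v ∈ range (N + 1), volume (Rp (N - v) ∩ Rm v) +
      (N + 1) * volume bad) := by
    simp only [hY]
    rw [lintegral_const_mul _ hYm12, lintegral_add_left hYm1,
      lintegral_finsetSum _ fun v _ => measurable_ind ((hRp _).inter (hRm _)) k v,
      lintegral_vis (mp_T k) hbad]
    rw [Finset.sum_congr rfl fun v _ => lintegral_ind ((hRp _).inter (hRm _)) k v]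
    push_cast
    rfl
  have e0 : ∀ i, ∫⁻ z : Tor, ((16 : ℝ≥0∞) ^ i * Q0) * vis (T k) (A i) N z =
      (16 ^ i * Q0) * (N * volume (A i)) := fun i => by
    rw [lintegral_const_mul _ (measurable_vis (mp_T k).measurable (hA i) N),
      lintegral_vis (mp_T k) (hA i)]
  calc ∫⁻ z : Tor, (cross k N z : ℝ≥0∞)
      ≤ ∫⁻ z : Tor, (16 * Q0 * vis (T k) B N z +
        256 * (∑ i ∈ range I, (16 ^ i * Q0) * vis (T k) (A i) N z) + 256 * (R * Y z)) :=
        lintegral_mono hpt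
    _ = 16 * Q0 * (N * volume B) + 256 * (∑ i ∈ range I, (16 ^ i * Q0) * (N * volume (A i))) +
        256 * (R * (C1 * (∑ v ∈ range (N + 1), volume (Rp (N - v) ∩ Rm v) + (N + 1) * volume bad))) := by
        rw [lintegral_add_left hm13, lintegral_add_left hm1,
          lintegral_const_mul _ (measurable_vis (mp_T k).measurable hBm N),
          lintegral_const_mul _ (Finset.measurable_sum _ fun i _ => hm2 i),
          lintegral_finsetSum _ fun i _ => hm2 i, lintegral_const_mul _ (hY0.const_mul _), lintegral_const_mul _ hY0, hYI,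
          lintegral_vis (mp_T k) hBm]
        simp only [e0]
    _ ≤ _ := by
        gcongr
        have e1 : ∑ i ∈ range I, ((16 : ℝ≥0∞) ^ i * Q0) * (N * volume (A i)) =
            N * ∑ i ∈ range I, ((16 : ℝ≥0∞) ^ i * Q0) * volume (A i) := by
          rw [Finset.mul_sum]
          refine Finset.sum_congr rfl fun i _ => ?_
          ring
        rw [e1]
        have e2 : 16 * (Q0 : ℝ≥0∞) * (N * volume B) +
            256 * (N * ∑ i ∈ range I, ((16 : ℝ≥0∞) ^ i * Q0) * volume (A i)) =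
            N * (16 * Q0 * volume B +
              256 * ∑ i ∈ range I, ((16 : ℝ≥0∞) ^ i * Q0) * volume (A i)) := by ring
        rw [e2]
        gcongr
        exact hs I

/-- All inputs of the closing at the parameter `k` (constants `C`, `R`, `Q0` independent of `k`,
`e = e(k) → 0`).  `Rp M` (`Rm M`): forward (backward) violation completed within `M` steps; `A i`:
aligned tips with a fresh block of scale `16 ^ i * Q0`; `bad`: near critical / long durations;
`ρ N`: lag sums. -/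
structure InputsR (k C e : ℝ) (R Q0 : ℕ) (Rp Rm A : ℕ → Set Tor) (bad : Set Tor)
    (nf : ℕ → Tor → ℕ → ℕ → Prop) (ρ : ℕ → ℕ → ℝ) : Prop where
  mRp : ∀ M, MeasurableSet (Rp M)
  mRm : ∀ M, MeasurableSet (Rm M)
  mA : ∀ i, MeasurableSet (A i)
  mbad : MeasurableSet bad
  /-- V5, deterministic part -/
  fresh : ∀ (N : ℕ) (z : Tor) (t i : ℕ), 16 ^ (i + 1) * Q0 ≤ mt (bz k z) (Real.log k) N t →
    FBR R (fun r => nf N z t (lv k z t r)) Q0 i → (T k)^[t] z ∈ A i
  /-- V5, area -/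
  area : ∀ I, ∑ i ∈ range I, ((16 : ℝ≥0∞) ^ i * Q0) * volume (A i) ≤ ENNReal.ofReal (C * e)
  /-- V1 -/
  charge : ∀ (N : ℕ) (z : Tor) (S : Finset (ℕ × ℕ)),
    (∀ p ∈ S, Comp (bz k z) (Real.log k) N p.1 p.2 ∧ p.2 + Q0 ≤ ⌈bz k z p.1 / Real.log k⌉₊ ∧
      nf N z p.1 p.2) → (S.card : ℝ≥0∞) ≤ ENNReal.ofReal C *
      (∑ v ∈ range (N + 1), (Rp (N - v) ∩ Rm v).indicator (fun _ => (1 : ℝ≥0∞)) ((T k)^[v] z) +
        vis (T k) bad (N + 1) z)
  vbad : volume bad ≤ ENNReal.ofReal (C * e)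
  mono : ∀ N, Monotone (ρ N)
  nonneg : ∀ N n, 0 ≤ ρ N n
  /-- V3 + V4 -/
  double : ∀ N v, v ≤ N → volume (Rp (N - v) ∩ Rm v) ≤
    ENNReal.ofReal (C * ((ρ N (N - v) + e) * (ρ N v + e) + e))
  /-- V2 -/
  single : ∀ N, ∑ v ∈ range (N + 1), ρ N v ≤ C * ((∫ z : Tor, (cross k N z : ℝ)) + (N + 1) * e)

theorem InputsR.int_le {k C e : ℝ} {R Q0 : ℕ} {Rp Rm A : ℕ → Set Tor} {bad : Set Tor}
    {nf : ℕ → Tor → ℕ → ℕ → Prop} {ρ : ℕ → ℕ → ℝ} (h : InputsR k C e R Q0 Rp Rm A bad nf ρ)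
    (hk : 1 < k) (hC : 1 ≤ C) (he : 0 < e) (hQ0 : 1 ≤ Q0) (hR : 1 ≤ R) (hek : 1 ≤ e * k) (N : ℕ) :
    (∫ z : Tor, (cross k N z : ℝ)) ≤ (800 * C ^ 2 * Q0 * R) * (N + 1) * e +
      (800 * C ^ 2 * Q0 * R) * ∑ v ∈ range (N + 1), (ρ N (N - v) + e) * (ρ N v + e) := by
  have hC0 : 0 < C := by linarith
  have hk0 : 0 < k := by linarith
  have hQ : (1 : ℝ) ≤ Q0 := by exact_mod_cast hQ0
  have hR1 : (1 : ℝ) ≤ R := by exact_mod_cast hR
  set X : ℝ := ∑ v ∈ range (N + 1), (ρ N (N - v) + e) * (ρ N v + e) with hX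
  have hX0 : 0 ≤ X := Finset.sum_nonneg fun v _ =>
    mul_nonneg (add_nonneg (h.nonneg _ _) he.le) (add_nonneg (h.nonneg _ _) he.le)
  have h1 := lint_cross_le_R hk hQ0 (nf N) h.mA (h.fresh N) h.mRp h.mRm h.mbad (h.charge N) h.area
  have h2 : ∫⁻ z : Tor, (cross k N z : ℝ≥0∞) = ENNReal.ofReal (∫ z : Tor, (cross k N z : ℝ)) := by
    rw [ofReal_integral_eq_lintegral_ofReal (integrable_cross hk N)
      (Eventually.of_forall fun z => Nat.cast_nonneg _)]
    refine lintegral_congr fun z => ?_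
    rw [ENNReal.ofReal_natCast]
  have hV : volume {z : Tor | |V k z.2| ≤ 2} ≤ ENNReal.ofReal (2 / k) := by
    have h3 : (volume : Measure Tor).real {z : Tor | |V k z.2| ≤ 2} ≤ 2 / k :=
      volumeReal_V_le hk.le (by positivity)
    rw [measureReal_def] at h3
    rw [ENNReal.le_ofReal_iff_toReal_le (measure_ne_top _ _) (by positivity)]
    exact h3
  have hS : ∑ v ∈ range (N + 1), volume (Rp (N - v) ∩ Rm v) ≤
      ENNReal.ofReal (C * X + (N + 1) * (C * e)) := by
    calc ∑ v ∈ range (N + 1), volume (Rp (N - v) ∩ Rm v)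
        ≤ ∑ v ∈ range (N + 1), ENNReal.ofReal (C * ((ρ N (N - v) + e) * (ρ N v + e) + e)) :=
          Finset.sum_le_sum fun v hv => h.double N v (by rw [mem_range] at hv; omega)
      _ = ENNReal.ofReal (C * X + (N + 1) * (C * e)) := by
          rw [← ENNReal.ofReal_sum_of_nonneg]
          · congr 1
            simp only [mul_add C]
            rw [Finset.sum_add_distrib, hX, Finset.mul_sum, Finset.sum_const, card_range,
              nsmul_eq_mul]
            push_cast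
            ring
          · intro v _
            have := mul_nonneg (add_nonneg (h.nonneg N (N - v)) he.le)
              (add_nonneg (h.nonneg N v) he.le)
            positivity
  have hN : (N : ℝ≥0∞) = ENNReal.ofReal N := (ENNReal.ofReal_natCast N).symm
  have hQ' : (Q0 : ℝ≥0∞) = ENNReal.ofReal Q0 := (ENNReal.ofReal_natCast Q0).symm
  have hR' : (R : ℝ≥0∞) = ENNReal.ofReal R := (ENNReal.ofReal_natCast R).symm
  have h4 : ∫⁻ z : Tor, (cross k N z : ℝ≥0∞) ≤ ENNReal.ofReal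
      (N * (16 * Q0 * (2 / k) + 256 * (C * e)) +
        256 * (R * (C * ((C * X + (N + 1) * (C * e)) + (N + 1) * (C * e))))) := by
    refine h1.trans ?_
    have e1 : (N : ℝ≥0∞) * (16 * Q0 * volume {z : Tor | |V k z.2| ≤ 2} +
        256 * ENNReal.ofReal (C * e)) ≤
        ENNReal.ofReal (N * (16 * Q0 * (2 / k) + 256 * (C * e))) := by
      rw [ENNReal.ofReal_mul (Nat.cast_nonneg _), ENNReal.ofReal_add (by positivity) (by positivity),
        ENNReal.ofReal_mul (by positivity : (0:ℝ) ≤ 16 * Q0),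
        ENNReal.ofReal_mul (by norm_num : (0:ℝ) ≤ 16), ENNReal.ofReal_mul (by norm_num : (0:ℝ) ≤ 256),
        hN, hQ']
      have : ENNReal.ofReal 16 = 16 := by simp
      have h256 : ENNReal.ofReal 256 = 256 := by simp
      rw [this, h256]
      gcongr
    have e2 : (256 : ℝ≥0∞) * (R * (ENNReal.ofReal C * (∑ v ∈ range (N + 1),
        volume (Rp (N - v) ∩ Rm v) + (N + 1) * volume bad))) ≤
        ENNReal.ofReal (256 * (R * (C * ((C * X + (N + 1) * (C * e)) + (N + 1) * (C * e))))) := by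
      rw [ENNReal.ofReal_mul (by norm_num : (0:ℝ) ≤ 256), ENNReal.ofReal_mul (Nat.cast_nonneg R),
        ENNReal.ofReal_mul hC0.le,
        ENNReal.ofReal_add (p := C * X + (N + 1) * (C * e)) (q := (N + 1) * (C * e))
          (by positivity) (by positivity),
        ENNReal.ofReal_mul (by positivity : (0:ℝ) ≤ (N:ℝ) + 1)]
      have h256 : ENNReal.ofReal 256 = 256 := by simp
      have hN1 : ENNReal.ofReal ((N:ℝ) + 1) = (N : ℝ≥0∞) + 1 := by
        rw [ENNReal.ofReal_add (Nat.cast_nonneg _) (by norm_num), ENNReal.ofReal_natCast]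
        simp
      rw [h256, hN1, ENNReal.ofReal_natCast]
      gcongr
      exact h.vbad
    rw [ENNReal.ofReal_add (by positivity) (by positivity)]
    exact add_le_add e1 e2
  rw [h2] at h4
  have h5 := (ENNReal.ofReal_le_ofReal_iff (by positivity)).mp h4
  refine h5.trans ?_
  have hN0 : (0 : ℝ) ≤ N := Nat.cast_nonneg N
  have hk2 : 2 / k ≤ 2 * e := by
    rw [div_le_iff₀ hk0]
    nlinarith
  have hC1 : (1:ℝ) ≤ C ^ 2 := one_le_pow₀ hC
  have hCC : C ≤ C ^ 2 := by nlinarith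
  set E : ℝ := ((N:ℝ) + 1) * e with hE
  have hE0 : 0 ≤ E := by positivity
  have hNE : N * e ≤ E := by rw [hE]; nlinarith
  set G : ℝ := C ^ 2 * Q0 * R with hG
  have g1 : (Q0 : ℝ) ≤ G := by
    calc (Q0 : ℝ) = 1 * Q0 * 1 := by ring
      _ ≤ C ^ 2 * Q0 * R := by gcongr
  have g2 : C ≤ G := by
    calc C = C * 1 * 1 := by ring
      _ ≤ C ^ 2 * Q0 * R := by gcongr
  have g3 : R * C ^ 2 ≤ G := by
    calc R * C ^ 2 = C ^ 2 * 1 * R := by ring
      _ ≤ C ^ 2 * Q0 * R := by gcongr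
  have a1 : N * (16 * Q0 * (2 / k)) ≤ 32 * (G * E) := by
    calc N * (16 * Q0 * (2 / k)) ≤ N * (16 * Q0 * (2 * e)) := by gcongr
      _ = 32 * (Q0 * (N * e)) := by ring
      _ ≤ 32 * (G * E) := by gcongr
  have a2 : (N:ℝ) * (256 * (C * e)) ≤ 256 * (G * E) := by
    calc (N:ℝ) * (256 * (C * e)) = 256 * (C * (N * e)) := by ring
      _ ≤ 256 * (G * E) := by gcongr
  have a3 : 256 * (R * (C * (C * X))) ≤ 256 * (G * X) := by
    calc 256 * (R * (C * (C * X))) = 256 * ((R * C ^ 2) * X) := by ring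
      _ ≤ 256 * (G * X) := by gcongr
  have a4 : 256 * (R * (C * (C * E))) ≤ 256 * (G * E) := by
    calc 256 * (R * (C * (C * E))) = 256 * ((R * C ^ 2) * E) := by ring
      _ ≤ 256 * (G * E) := by gcongr
  have hGX : 0 ≤ G * X := mul_nonneg (by positivity) hX0
  have hGE : 0 ≤ G * E := mul_nonneg (by positivity) hE0
  have lhs : N * (16 * Q0 * (2 / k) + 256 * (C * e)) +
      256 * (R * (C * ((C * X + (N + 1) * (C * e)) + (N + 1) * (C * e)))) =
      N * (16 * Q0 * (2 / k)) + (N:ℝ) * (256 * (C * e)) + 256 * (R * (C * (C * X))) +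
        256 * (R * (C * (C * E))) + 256 * (R * (C * (C * E))) := by rw [hE]; ring
  have rhs : (800 * C ^ 2 * Q0 * R) * (N + 1) * e + (800 * C ^ 2 * Q0 * R) * X =
      800 * (G * E) + 800 * (G * X) := by rw [hE, hG]; ring
  rw [lhs, rhs]
  linarith

/-- **V1, V2, V4, V5 give S0172** -/
theorem result_of_inputsR
    (H : ∃ (C : ℝ) (R Q0 : ℕ), 1 ≤ C ∧ 1 ≤ R ∧ 1 ≤ Q0 ∧ ∃ k₁ : ℝ, ∀ k : ℝ, k₁ ≤ k →
      ∃ e : ℝ, 0 < e ∧ 13 ≤ e ^ 2 * k ∧ 72 * (800 * C ^ 2 * Q0 * R) ^ 4 * e ≤ 1 ∧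
      ∃ Rp Rm A bad nf ρ, InputsR k C e R Q0 Rp Rm A bad nf ρ) :
    ∃ k₀ : ℝ, 0 < k₀ ∧ ∀ k : ℝ, k₀ ≤ k →
      0 < MeasureTheory.volume ({p : ℝ × ℝ | ∃ c : ℝ, 0 < c ∧
          ∃ᶠ n : ℕ in Filter.atTop, c * n ≤ Real.log ‖fderiv ℝ (standardMapLift k)^[n] p‖} ∩
        Set.Ico (0 : ℝ) 1 ×ˢ Set.Ico (0 : ℝ) 1) := by
  obtain ⟨C, R, Q0, hC, hR, hQ0, k₁, H⟩ := H
  have hQ : (1 : ℝ) ≤ Q0 := by exact_mod_cast hQ0
  have hR1 : (1 : ℝ) ≤ R := by exact_mod_cast hR
  have hC2 : (1:ℝ) ≤ C ^ 2 := one_le_pow₀ hC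
  have hCC : C ≤ C ^ 2 := by nlinarith
  have hCb : C ≤ 800 * C ^ 2 * Q0 * R := by
    calc C = 1 * C * 1 * 1 := by ring
      _ ≤ 800 * C ^ 2 * Q0 * R := by gcongr; norm_num
  have hbig : 1 ≤ 800 * C ^ 2 * Q0 * R := hC.trans hCb
  apply BootN.result_of_closing
  refine ⟨800 * C ^ 2 * Q0 * R, hbig, max k₁ 2, fun k hk => ?_⟩
  obtain ⟨e, he, h13, h72, Rp, Rm, A, bad, nf, ρ, h⟩ := H k ((le_max_left _ _).trans hk)
  have hk2 : 2 ≤ k := (le_max_right _ _).trans hk
  have he1 : e ≤ 1 := by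
    have : 1 ≤ 72 * (800 * C ^ 2 * Q0 * R) ^ 4 := by
      have := one_le_pow₀ hbig (n := 4)
      linarith
    nlinarith
  have hek : 1 ≤ e * k := by
    have : e ^ 2 * k ≤ e * k := by
      have : e ^ 2 ≤ e := by nlinarith
      exact mul_le_mul_of_nonneg_right this (by linarith)
    linarith
  refine ⟨e, he, h13, h72, ρ, h.mono, h.nonneg,
    fun N => h.int_le (by linarith) hC he hQ0 hR hek N, fun N => (h.single N).trans ?_⟩
  have h0 : 0 ≤ (∫ z : Tor, (cross k N z : ℝ)) + (N + 1) * e :=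
    add_nonneg (integral_nonneg fun _ => Nat.cast_nonneg _) (by positivity)
  exact mul_le_mul_of_nonneg_right hCb h0

end Crest.Agent.R128.Close
end

-- ▼ part R128/RhoFin
section

/-!
# Row 128: finiteness and monotonicity of the total area `rho` of the relaxed drawdown classes
(helper150; asked by helper461, 16198)

`‖fld k z m‖ ≤ (8 k) ^ m`, so inside a window of length `M` only the classes `X ≤ (8 k) ^ M` are
non-empty.
-/

set_option autoImplicit false
open MeasureTheory Filter Topology Finset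
open scoped ENNReal

namespace Crest.Agent.R128.RhoFin

open Crest.Agent.R128.TreeSum Crest.Agent.R128.Acc Crest.Agent.R128.Lam0

theorem norm_stp_le (a : ℝ) (v : ℝ × ℝ) : ‖stp a v‖ ≤ (|a| + 1) * ‖v‖ := by
  have h1 : |v.1| ≤ ‖v‖ := by simpa using norm_fst_le v
  have h2 : |v.2| ≤ ‖v‖ := by simpa using norm_snd_le v
  have h0 : 0 ≤ ‖v‖ := norm_nonneg v
  have ha : 0 ≤ |a| := abs_nonneg a
  unfold stp
  rw [Prod.norm_def]
  apply max_le
  · rw [Real.norm_eq_abs]
    nlinarith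
  · rw [Real.norm_eq_abs]
    calc |a * v.2 - v.1| ≤ |a * v.2| + |v.1| := abs_sub _ _
      _ = |a| * |v.2| + |v.1| := by rw [abs_mul]
      _ ≤ |a| * ‖v‖ + ‖v‖ := add_le_add (mul_le_mul_of_nonneg_left h2 ha) h1
      _ = (|a| + 1) * ‖v‖ := by ring

/-- growth of the field of the vertical vector -/
theorem norm_fld_le {k : ℝ} (hk : 4 ≤ k) (z : Tor) (m : ℕ) : ‖fld k z m‖ ≤ (8 * k) ^ m := by
  induction m with
  | zero =>
    rw [fld_zero, Prod.norm_def]
    simp
  | succ m ih =>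
    rw [fld_succ]
    have h1 := norm_stp_le (V k ((T k)^[m] z).2) (fld k z m)
    have h2 := abs_V_le hk ((T k)^[m] z)
    have h3 : 0 ≤ ‖fld k z m‖ := norm_nonneg _
    calc ‖stp (V k ((T k)^[m] z).2) (fld k z m)‖
        ≤ (|V k ((T k)^[m] z).2| + 1) * ‖fld k z m‖ := h1
      _ ≤ (8 * k) * ‖fld k z m‖ := mul_le_mul_of_nonneg_right (by linarith) h3
      _ ≤ (8 * k) * (8 * k) ^ m := mul_le_mul_of_nonneg_left ih (by linarith)
      _ = (8 * k) ^ (m + 1) := by ring

/-- classes above the maximal growth are empty -/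
theorem not_DDn {k : ℝ} (hk : 4 ≤ k) {L M : ℕ} {X : ℝ} (hX : (8 * k) ^ M < X) (z : Tor)
    (n n' : ℕ) : ¬ DDn k L M X z n n' := by
  intro h
  have h1 := norm_fld_le hk z n
  have h2 : (8 * k) ^ n ≤ (8 * k) ^ M :=
    pow_le_pow_right₀ (by linarith) (le_trans h.lt.le h.le)
  linarith [h.lo]

theorem DDn_empty {k : ℝ} (hk : 4 ≤ k) {L M : ℕ} {X : ℝ} (hX : (8 * k) ^ M < X) :
    {z : Tor | ∃ n n', DDn k L M X z n n'} = ∅ := by
  ext z
  constructor
  · rintro ⟨n, n', h⟩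
    exact absurd h (not_DDn hk hX z n n')
  · intro h
    exact absurd h (Set.notMem_empty z)

theorem pow_lt_class {k : ℝ} (hk : 8 ≤ k) {M a D : ℕ} (hD : 2 * M + 1 ≤ D) :
    (8 * k) ^ M < k ^ (a + D) := by
  have h1 : (8 * k) ^ M ≤ (k * k) ^ M :=
    pow_le_pow_left₀ (by linarith) (by nlinarith) M
  have h2 : (k * k) ^ M = k ^ (2 * M) := by rw [← pow_two, ← pow_mul]
  have h3 : k ^ (2 * M) < k ^ (a + D) := pow_lt_pow_right₀ (by linarith) (by omega)
  linarith

/-- all classes `D ≥ 2 M + 1` are empty -/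
theorem subset_empty {k : ℝ} (hk : 8 ≤ k) {L M a D : ℕ} (hD : 2 * M + 1 ≤ D) {S : Set Tor}
    (hS : S ⊆ {z : Tor | ∃ n n', DDn k L M (k ^ (a + D)) z n n'}) : S = ∅ := by
  rw [DDn_empty (by linarith) (pow_lt_class hk hD)] at hS
  exact Set.subset_empty_iff.mp hS

/-- the sum over the classes is finite -/
theorem tsum_eq_range {k : ℝ} (hk : 8 ≤ k) {L M a : ℕ} (S : ℕ → Set Tor)
    (hS : ∀ D, S D ⊆ {z : Tor | ∃ n n', DDn k L M (k ^ (a + D)) z n n'}) {J : ℕ}
    (hJ : 2 * M + 1 ≤ J) :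
    ∑' D, volume (S D) = ∑ D ∈ range J, volume (S D) := by
  apply tsum_eq_sum
  intro D hD
  have hD' : 2 * M + 1 ≤ D := by
    have := mt mem_range.mpr hD
    omega
  rw [subset_empty hk hD' (hS D)]
  exact measure_empty

theorem tsum_lt_top {k : ℝ} (hk : 8 ≤ k) {L M a : ℕ} (S : ℕ → Set Tor)
    (hS : ∀ D, S D ⊆ {z : Tor | ∃ n n', DDn k L M (k ^ (a + D)) z n n'}) :
    ∑' D, volume (S D) < ⊤ := by
  rw [tsum_eq_range hk S hS le_rfl]
  exact ENNReal.sum_lt_top.mpr fun D _ => measure_lt_top _ _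


/-- monotonicity in the window of the relaxed drawdown event -/
theorem DDn_mono {k : ℝ} {L M M' : ℕ} (h : M ≤ M') {X : ℝ} {z : Tor} {n n' : ℕ}
    (hd : DDn k L M X z n n') : DDn k L M' X z n n' :=
  ⟨hd.hLn, hd.lt, hd.le.trans h, hd.first, hd.max, hd.drop, hd.lo, hd.hi, hd.val⟩

theorem tsum_mono {S S' : ℕ → Set Tor} (h : ∀ D, S D ⊆ S' D) :
    ∑' D, volume (S D) ≤ ∑' D, volume (S' D) :=
  ENNReal.tsum_le_tsum fun D => measure_mono (h D)

/-! ### the literal definitions of the skeleton (draft 20:36 of helper291) -/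










/-! ### the definitions of DECISIONS 3 (helper279, 16177) -/










end Crest.Agent.R128.RhoFin
end

-- ▼ part R128/SkelMeas
section

/-!
# Row 128, V6 (helper310): the measure half of the glue

`rho` is finite, monotone; the integrated forms of `V2` (`single`), `V4` (`double`), the area of the
negligible set (`vbad`), the area of the fresh blocks (`area`), and the assembly `v6 : Skel.V6`.
-/

set_option autoImplicit false
open MeasureTheory Filter Topology Finset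
open scoped ENNReal NNReal
open Crest.AnalysisR.StandardFamily

namespace Crest.Agent.R128.SkelMeas

open Crest.Agent.R128.Acc Crest.Agent.R128.AccRoot Crest.Agent.R128.Lam0 Crest.Agent.R128.Close
open Crest.Agent.R128.CloseV2 Crest.Agent.R128.RhoFin Crest.Agent.R128.Meas
open Crest.Agent.R128

/-! ### finiteness and monotonicity of `rho` -/

theorem RD_subset (k : ℝ) (D M : ℕ) :
    Skel.RD k D M ⊆ {z : Tor | ∃ n n', DDn k 1000 M (k ^ D) z n n'} :=
  fun _ ⟨n, n', h, _⟩ => ⟨n, n', h⟩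

theorem RD_mono (k : ℝ) (D : ℕ) {M M' : ℕ} (h : M ≤ M') : Skel.RD k D M ⊆ Skel.RD k D M' :=
  fun _ ⟨n, n', h1, h2⟩ => ⟨n, n', DDn_mono h h1, h2⟩

theorem rho_eq {k : ℝ} (hk : 8 ≤ k) (D0 : ℕ) {M J : ℕ} (hJ : 2 * M + 1 ≤ J) :
    Skel.rho k D0 M = ∑ D ∈ range J, volume (Skel.RD k (D0 + D) M) :=
  tsum_eq_range hk (fun D => Skel.RD k (D0 + D) M) (fun D => RD_subset k (D0 + D) M) hJ

theorem rho_lt_top {k : ℝ} (hk : 8 ≤ k) (D0 M : ℕ) : Skel.rho k D0 M < ⊤ :=
  tsum_lt_top hk (fun D => Skel.RD k (D0 + D) M) (fun D => RD_subset k (D0 + D) M)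

theorem rho_ne_top {k : ℝ} (hk : 8 ≤ k) (D0 M : ℕ) : Skel.rho k D0 M ≠ ⊤ := (rho_lt_top hk D0 M).ne

theorem rho_mono (k : ℝ) (D0 : ℕ) {M M' : ℕ} (h : M ≤ M') : Skel.rho k D0 M ≤ Skel.rho k D0 M' :=
  tsum_mono fun D => RD_mono k (D0 + D) h

theorem rho_toReal_mono {k : ℝ} (hk : 8 ≤ k) (D0 : ℕ) : Monotone fun M => (Skel.rho k D0 M).toReal :=
  fun _ _ h => ENNReal.toReal_mono (rho_ne_top hk D0 _) (rho_mono k D0 h)

theorem RD_zero (k : ℝ) (D : ℕ) : Skel.RD k D 0 = ∅ := by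
  ext z
  constructor
  · rintro ⟨n, n', h, _⟩
    have h1 := h.lt
    have h2 := h.le
    omega
  · intro h
    exact absurd h (Set.notMem_empty z)

theorem rho_zero {k : ℝ} (hk : 8 ≤ k) (D0 : ℕ) : Skel.rho k D0 0 = 0 := by
  rw [rho_eq hk D0 (J := 1) (by norm_num)]
  simp [RD_zero]

/-! ### V2 integrated -/

open Classical in
theorem single_lint {k : ℝ} (hk : 8 ≤ k) {D0 C : ℕ} (hm : Skel.VM)
    (h2 : ∀ (N J : ℕ) (z : Tor),
      ∑ D ∈ range J, #{v ∈ range N | (T k)^[v] z ∈ Skel.RD k (D0 + D) (N - v)} ≤ C * cross k N z)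
    (N : ℕ) :
    ∑ v ∈ range (N + 1), Skel.rho k D0 v ≤ C * ∫⁻ z : Tor, (cross k N z : ℝ≥0∞) := by
  have e1 : ∑ v ∈ range (N + 1), Skel.rho k D0 v = ∑ v ∈ range N, Skel.rho k D0 (N - v) := by
    rw [Finset.sum_range_succ', rho_zero hk, add_zero, ← Finset.sum_range_reflect]
    refine Finset.sum_congr rfl fun v hv => ?_
    rw [mem_range] at hv
    congr 1
    omega
  rw [e1]
  have e2 : ∀ v ∈ range N, Skel.rho k D0 (N - v) =
      ∑ D ∈ range (2 * N + 1), volume (Skel.RD k (D0 + D) (N - v)) := fun v _ =>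
    rho_eq hk D0 (by omega)
  rw [Finset.sum_congr rfl e2, Finset.sum_comm]
  have e3 : ∀ D ∈ range (2 * N + 1), ∀ v ∈ range N, volume (Skel.RD k (D0 + D) (N - v)) =
      ∫⁻ z : Tor, (Skel.RD k (D0 + D) (N - v)).indicator (fun _ => (1 : ℝ≥0∞)) ((T k)^[v] z) :=
    fun D _ v _ => (lintegral_ind (hm k (D0 + D) (N - v)).2.2.2 k v).symm
  rw [Finset.sum_congr rfl fun D hD => Finset.sum_congr rfl (e3 D hD)]
  have m1 : ∀ D v, Measurable fun z : Tor =>
      (Skel.RD k (D0 + D) (N - v)).indicator (fun _ => (1 : ℝ≥0∞)) ((T k)^[v] z) := fun D v =>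
    measurable_ind (hm k (D0 + D) (N - v)).2.2.2 k v
  rw [Finset.sum_congr rfl fun D _ => (lintegral_finsetSum (range N) fun v _ => m1 D v).symm,
    ← lintegral_finsetSum _ fun D _ => Finset.measurable_sum _ fun v _ => m1 D v]
  have m2 : Measurable fun z : Tor => (cross k N z : ℝ≥0∞) :=
    measurable_from_nat.comp (measurable_cross k N)
  rw [← lintegral_const_mul _ m2]
  refine lintegral_mono fun z => ?_
  have h3 := h2 N (2 * N + 1) z
  have h4 : ((∑ D ∈ range (2 * N + 1),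
      #{v ∈ range N | (T k)^[v] z ∈ Skel.RD k (D0 + D) (N - v)} : ℕ) : ℝ≥0∞) ≤
      ((C * cross k N z : ℕ) : ℝ≥0∞) := by exact_mod_cast h3
  push_cast at h4
  refine le_trans (le_of_eq ?_) h4
  refine Finset.sum_congr rfl fun D _ => ?_
  rw [Finset.card_filter]
  push_cast
  refine Finset.sum_congr rfl fun v _ => ?_
  rw [Set.indicator_apply]

theorem lint_cross {k : ℝ} (hk : 1 < k) (N : ℕ) :
    ∫⁻ z : Tor, (cross k N z : ℝ≥0∞) = ENNReal.ofReal (∫ z : Tor, (cross k N z : ℝ)) := by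
  rw [ofReal_integral_eq_lintegral_ofReal (integrable_cross hk N)
    (Eventually.of_forall fun z => Nat.cast_nonneg _)]
  refine lintegral_congr fun z => ?_
  rw [ENNReal.ofReal_natCast]

open Classical in
theorem single {k : ℝ} (hk : 8 ≤ k) {D0 C : ℕ} (hm : Skel.VM)
    (h2 : ∀ (N J : ℕ) (z : Tor),
      ∑ D ∈ range J, #{v ∈ range N | (T k)^[v] z ∈ Skel.RD k (D0 + D) (N - v)} ≤ C * cross k N z)
    (N : ℕ) :
    ∑ v ∈ range (N + 1), (Skel.rho k D0 v).toReal ≤ C * ∫ z : Tor, (cross k N z : ℝ) := by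
  have h := single_lint hk hm h2 N
  rw [lint_cross (by linarith) N, ← ENNReal.ofReal_natCast C,
    ← ENNReal.ofReal_mul (Nat.cast_nonneg C)] at h
  rw [← ENNReal.toReal_sum fun v _ => rho_ne_top hk D0 v]
  refine ENNReal.toReal_le_of_le_ofReal ?_ h
  exact mul_nonneg (Nat.cast_nonneg C) (integral_nonneg fun _ => Nat.cast_nonneg _)

/-! ### V4 in real form -/

theorem e_pos {k : ℝ} (hk : 0 < k) : 0 < Skel.e k := Real.rpow_pos_of_pos hk _

theorem double {k : ℝ} (hk : 8 ≤ k) {D0 L0 : ℕ} {C : ℝ≥0}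
    (h4 : ∀ M M' : ℕ, volume (Skel.Rc k L0 M ∩ Skel.bw (Skel.Rc k L0 M')) ≤
      C * ((ENNReal.ofReal (Skel.e k) + Skel.rho k D0 M) *
        (ENNReal.ofReal (Skel.e k) + Skel.rho k D0 M'))) {C' : ℝ} (hC : (C : ℝ) ≤ C') (M M' : ℕ) :
    volume (Skel.Rc k L0 M ∩ Skel.bw (Skel.Rc k L0 M')) ≤
      ENNReal.ofReal (C' * (((Skel.rho k D0 M).toReal + Skel.e k) *
        ((Skel.rho k D0 M').toReal + Skel.e k) + Skel.e k)) := by
  have he : 0 < Skel.e k := e_pos (by linarith)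
  refine (h4 M M').trans ?_
  have e1 : ∀ M, ENNReal.ofReal (Skel.e k) + Skel.rho k D0 M =
      ENNReal.ofReal ((Skel.rho k D0 M).toReal + Skel.e k) := fun M => by
    rw [ENNReal.ofReal_add ENNReal.toReal_nonneg he.le, ENNReal.ofReal_toReal (rho_ne_top hk D0 M),
      add_comm]
  have hn : ∀ M, 0 ≤ (Skel.rho k D0 M).toReal + Skel.e k := fun M =>
    add_nonneg ENNReal.toReal_nonneg he.le
  rw [e1, e1, ← ENNReal.ofReal_mul (hn M), ← ENNReal.ofReal_coe_nnreal,
    ← ENNReal.ofReal_mul C.coe_nonneg]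
  apply ENNReal.ofReal_le_ofReal
  have hC0 : (0:ℝ) ≤ C := C.coe_nonneg
  have h5 := mul_nonneg (hn M) (hn M')
  nlinarith [mul_le_mul_of_nonneg_right hC h5, mul_nonneg (hC0.trans hC) he.le]

/-! ### the negligible set -/

theorem measurableSet_bw {S : Set Tor} (hS : MeasurableSet S) : MeasurableSet (Skel.bw S) :=
  mp_swap.measurable hS

theorem volume_bw {S : Set Tor} (hS : MeasurableSet S) : volume (Skel.bw S) = volume S :=
  volume_swap hS

theorem measurableSet_Ng (hm : Skel.VM) (k : ℝ) (L0 : ℕ) : MeasurableSet (Skel.Ng k L0) :=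
  ((hm k L0 0).1.union (measurableSet_bw (hm k L0 0).1)).union
    ((hm k L0 0).2.1.union (measurableSet_bw (hm k L0 0).2.1))

theorem volume_C1 {k : ℝ} (hk : 1 ≤ k) (L0 : ℕ) :
    volume (Skel.C1 k L0) ≤ ENNReal.ofReal (L0 * Skel.e k) := by
  have hk0 : 0 < k := by linarith
  have hs : Skel.C1 k L0 ⊆ ⋃ m ∈ range L0, (T k)^[m] ⁻¹' {z : Tor | |V k z.2| ≤ k ^ ((2:ℝ) / 3)} := by
    rintro z ⟨m, hm, h⟩
    simp only [Set.mem_iUnion, exists_prop]
    exact ⟨m, mem_range.mpr hm, h.le⟩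
  have hB : MeasurableSet {z : Tor | |V k z.2| ≤ k ^ ((2:ℝ) / 3)} :=
    (isClosed_le ((continuous_V k).comp continuous_snd).abs continuous_const).measurableSet
  have hV : volume {z : Tor | |V k z.2| ≤ k ^ ((2:ℝ) / 3)} ≤ ENNReal.ofReal (Skel.e k) := by
    have h3 : (volume : Measure Tor).real {z : Tor | |V k z.2| ≤ k ^ ((2:ℝ) / 3)} ≤
        k ^ ((2:ℝ) / 3) / k := volumeReal_V_le hk (Real.rpow_nonneg hk0.le _)
    have h4 : k ^ ((2:ℝ) / 3) / k ≤ Skel.e k := by
      rw [Skel.e, ← Real.rpow_sub_one hk0.ne']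
      exact Real.rpow_le_rpow_of_exponent_le hk (by norm_num)
    rw [measureReal_def] at h3
    rw [ENNReal.le_ofReal_iff_toReal_le (measure_ne_top _ _) (e_pos hk0).le]
    exact h3.trans h4
  calc volume (Skel.C1 k L0)
      ≤ volume (⋃ m ∈ range L0, (T k)^[m] ⁻¹' {z : Tor | |V k z.2| ≤ k ^ ((2:ℝ) / 3)}) :=
        measure_mono hs
    _ ≤ ∑ m ∈ range L0, volume ((T k)^[m] ⁻¹' {z : Tor | |V k z.2| ≤ k ^ ((2:ℝ) / 3)}) :=
        measure_biUnion_finset_le _ _
    _ ≤ ∑ m ∈ range L0, ENNReal.ofReal (Skel.e k) := by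
        refine Finset.sum_le_sum fun m _ => ?_
        rw [(mp_iter k m).measure_preimage hB.nullMeasurableSet]
        exact hV
    _ = ENNReal.ofReal (L0 * Skel.e k) := by
        rw [Finset.sum_const, card_range, nsmul_eq_mul, ENNReal.ofReal_mul (Nat.cast_nonneg _),
          ENNReal.ofReal_natCast]

theorem vbad {k : ℝ} (hk : 1 ≤ k) {L0 : ℕ} (hm : Skel.VM) {C C' : ℝ}
    (hL : volume (Skel.LG k L0) ≤ ENNReal.ofReal (C * Skel.e k))
    (hC : 2 * L0 + 2 * max C 0 ≤ C') :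
    volume (Skel.Ng k L0) ≤ ENNReal.ofReal (C' * Skel.e k) := by
  have he : 0 < Skel.e k := e_pos (by linarith)
  have hL' : volume (Skel.LG k L0) ≤ ENNReal.ofReal (max C 0 * Skel.e k) :=
    hL.trans (ENNReal.ofReal_le_ofReal (mul_le_mul_of_nonneg_right (le_max_left _ _) he.le))
  have h1 := volume_C1 hk L0
  have hm1 := (hm k L0 0).1
  have hm2 := (hm k L0 0).2.1
  have hc : (0:ℝ) ≤ max C 0 := le_max_right _ _
  calc volume (Skel.Ng k L0)
      ≤ (volume (Skel.C1 k L0) + volume (Skel.bw (Skel.C1 k L0))) +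
        (volume (Skel.LG k L0) + volume (Skel.bw (Skel.LG k L0))) :=
        (measure_union_le _ _).trans (add_le_add (measure_union_le _ _) (measure_union_le _ _))
    _ ≤ (ENNReal.ofReal (L0 * Skel.e k) + ENNReal.ofReal (L0 * Skel.e k)) +
        (ENNReal.ofReal (max C 0 * Skel.e k) + ENNReal.ofReal (max C 0 * Skel.e k)) := by
        rw [volume_bw hm1, volume_bw hm2]
        gcongr
    _ = ENNReal.ofReal ((L0 * Skel.e k + L0 * Skel.e k) +
        (max C 0 * Skel.e k + max C 0 * Skel.e k)) := by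
        rw [ENNReal.ofReal_add, ENNReal.ofReal_add, ENNReal.ofReal_add] <;> positivity
    _ ≤ _ := by
        apply ENNReal.ofReal_le_ofReal
        nlinarith

/-! ### the area of the fresh blocks -/

theorem area {k : ℝ} (hk : 1 ≤ k) {C θ : ℝ} (hC : 0 < C) (h0 : 0 < θ) (h1 : θ < 1) {Q0 : ℕ}
    (hQ0 : 1 ≤ Q0) {A : ℕ → Set Tor}
    (hA : ∀ i, volume (A i) ≤ ENNReal.ofReal (C / k * θ ^ (16 ^ i * Q0))) {C' : ℝ}
    (hC' : C * (θ / (1 - θ) ^ 2) ≤ C') (I : ℕ) :
    ∑ i ∈ range I, ((16 : ℝ≥0∞) ^ i * Q0) * volume (A i) ≤ ENNReal.ofReal (C' * Skel.e k) := by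
  have hk0 : 0 < k := by linarith
  have he : 0 < Skel.e k := e_pos hk0
  have hke : 1 / k ≤ Skel.e k := by
    rw [Skel.e, one_div, ← Real.rpow_neg_one]
    exact Real.rpow_le_rpow_of_exponent_le hk (by norm_num)
  have e1 : ∀ i : ℕ, ((16 : ℝ≥0∞) ^ i * Q0) = ENNReal.ofReal ((16 ^ i * Q0 : ℕ) : ℝ) := fun i => by
    rw [ENNReal.ofReal_natCast]
    push_cast
    rfl
  have hθ : 0 < 1 - θ := by linarith
  calc ∑ i ∈ range I, ((16 : ℝ≥0∞) ^ i * Q0) * volume (A i)
      ≤ ∑ i ∈ range I, ENNReal.ofReal (((16 ^ i * Q0 : ℕ) : ℝ) * (C / k * θ ^ (16 ^ i * Q0))) := by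
        refine Finset.sum_le_sum fun i _ => ?_
        rw [e1, ENNReal.ofReal_mul (Nat.cast_nonneg _)]
        gcongr
        exact hA i
    _ = ENNReal.ofReal (∑ i ∈ range I, ((16 ^ i * Q0 : ℕ) : ℝ) * (C / k * θ ^ (16 ^ i * Q0))) := by
        rw [ENNReal.ofReal_sum_of_nonneg]
        intro i _
        positivity
    _ ≤ _ := by
        apply ENNReal.ofReal_le_ofReal
        have e2 : ∑ i ∈ range I, ((16 ^ i * Q0 : ℕ) : ℝ) * (C / k * θ ^ (16 ^ i * Q0)) =
            C * (1 / k) * ∑ i ∈ range I, ((16 ^ i * Q0 : ℕ) : ℝ) * θ ^ (16 ^ i * Q0) := by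
          rw [Finset.mul_sum]
          refine Finset.sum_congr rfl fun i _ => ?_
          ring
        rw [e2]
        have h3 := sum_blocks_le h0.le h1 hQ0 I
        have h4 : 0 ≤ ∑ i ∈ range I, ((16 ^ i * Q0 : ℕ) : ℝ) * θ ^ (16 ^ i * Q0) :=
          Finset.sum_nonneg fun i _ => by positivity
        calc C * (1 / k) * ∑ i ∈ range I, ((16 ^ i * Q0 : ℕ) : ℝ) * θ ^ (16 ^ i * Q0)
            ≤ C * Skel.e k * (θ / (1 - θ) ^ 2) := by gcongr
          _ = (C * (θ / (1 - θ) ^ 2)) * Skel.e k := by ring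
          _ ≤ C' * Skel.e k := mul_le_mul_of_nonneg_right hC' he.le

/-! ### charge -/

open Classical in
theorem vs_cast (k : ℝ) (N : ℕ) (z : Tor) (S : ℕ → Set Tor) :
    (Skel.vs k N z S : ℝ≥0∞) =
      ∑ v ∈ range (N + 1), (S v).indicator (fun _ => (1 : ℝ≥0∞)) ((T k)^[v] z) := by
  unfold Skel.vs
  rw [Finset.card_filter]
  push_cast
  refine Finset.sum_congr rfl fun v _ => ?_
  rw [Set.indicator_apply]

/-! ### the parameter `e` -/

theorem e_sq {k : ℝ} (hk : 0 < k) : Skel.e k ^ 2 * k = k ^ ((1:ℝ) / 2) := by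
  have h1 : Skel.e k ^ 2 = k ^ (-(1:ℝ) / 2) := by
    rw [Skel.e, ← Real.rpow_natCast, ← Real.rpow_mul hk.le]
    norm_num
  rw [h1]
  nth_rewrite 2 [← Real.rpow_one k]
  rw [← Real.rpow_add hk]
  norm_num

theorem e_tendsto : Tendsto Skel.e atTop (𝓝 0) := by
  have h := tendsto_rpow_neg_atTop (show (0:ℝ) < 1 / 4 by norm_num)
  have h2 : Skel.e = fun k : ℝ => k ^ (-(1 / 4) : ℝ) := by
    funext k
    unfold Skel.e
    norm_num
  rw [h2]
  exact h

theorem exists_k {B : ℝ} (hB : 0 < B) : ∃ k₁ : ℝ, 8 ≤ k₁ ∧ ∀ k, k₁ ≤ k →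
    13 ≤ Skel.e k ^ 2 * k ∧ B * Skel.e k ≤ 1 := by
  have h1 : ∀ᶠ k : ℝ in atTop, 13 ≤ k ^ ((1:ℝ) / 2) :=
    (tendsto_rpow_atTop (by norm_num : (0:ℝ) < 1 / 2)).eventually_ge_atTop 13
  have h2 : ∀ᶠ k : ℝ in atTop, Skel.e k ≤ 1 / B :=
    (e_tendsto.eventually_lt_const (by positivity : (0:ℝ) < 1 / B)).mono fun k hk => hk.le
  obtain ⟨a, ha⟩ := eventually_atTop.mp (h1.and h2)
  refine ⟨max a 8, le_max_right _ _, fun k hk => ?_⟩
  have hk8 : 8 ≤ k := (le_max_right _ _).trans hk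
  obtain ⟨h3, h4⟩ := ha k ((le_max_left _ _).trans hk)
  refine ⟨by rw [e_sq (by linarith)]; exact h3, ?_⟩
  rw [le_div_iff₀ hB] at h4
  linarith

/-! ### the glue -/

open Classical in
/-- **V6**: the skeleton Props give S0172 -/
theorem v6 : Skel.V6 := by
  rintro ⟨L1, h1⟩ ⟨D0, C2, k2, h2⟩ ⟨L2, hL⟩ h4 ⟨L5, h5⟩ hm
  obtain ⟨L4, h4⟩ := h4 D0
  set L0 : ℕ := L1 + L2 + L4 + L5 with hL0
  obtain ⟨Q1, C1, k1, h1⟩ := h1 L0 (by omega)
  obtain ⟨CL, kL, hL⟩ := hL L0 (by omega)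
  obtain ⟨C4, k4, h4⟩ := h4 L0 (by omega)
  obtain ⟨R, Q5, C5, θ, hC5, hθ0, hθ1, k5, h5⟩ := h5 L0 (by omega)
  set Q0 : ℕ := Q1 + Q5 + 1 with hQ0
  have hθ : 0 < 1 - θ := by linarith
  have hA0 : 0 ≤ C5 * (θ / (1 - θ) ^ 2) := by positivity
  have hm0 : (0:ℝ) ≤ max CL 0 := le_max_right _ _
  have hC40 : (0:ℝ) ≤ C4 := C4.coe_nonneg
  have hC10 : (0:ℝ) ≤ C1 := Nat.cast_nonneg _
  have hC20 : (0:ℝ) ≤ C2 := Nat.cast_nonneg _
  have hL00 : (0:ℝ) ≤ (L0 : ℝ) := Nat.cast_nonneg _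
  set C : ℝ := 1 + C1 + C2 + C4 + (2 * L0 + 2 * max CL 0) + C5 * (θ / (1 - θ) ^ 2) with hC
  have hC1 : 1 ≤ C := by rw [hC]; linarith
  have hQ1 : (1:ℝ) ≤ Q0 := by
    have : 1 ≤ Q0 := by omega
    exact_mod_cast this
  obtain ⟨k6, hk6, h6⟩ := exists_k (B := 72 * (800 * C ^ 2 * Q0 * ((R + 1 : ℕ) : ℝ)) ^ 4)
    (by have : (0:ℝ) < ((R + 1 : ℕ) : ℝ) := by exact_mod_cast Nat.succ_pos R
        positivity)
  apply result_of_inputsR
  refine ⟨C, R + 1, Q0, hC1, by omega, by omega,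
    max (max (max k1 k2) (max kL k4)) (max k5 k6), fun k hk => ?_⟩
  have hk1 : k1 ≤ k := le_trans (by simp) hk
  have hk2 : k2 ≤ k := le_trans (by simp) hk
  have hkL : kL ≤ k := le_trans (by simp) hk
  have hk4 : k4 ≤ k := le_trans (by simp) hk
  have hk5 : k5 ≤ k := le_trans (by simp) hk
  have hk6' : k6 ≤ k := le_trans (by simp) hk
  have hk8 : 8 ≤ k := hk6.trans hk6'
  refine ⟨Skel.e k, e_pos (by linarith), (h6 k hk6').1, (h6 k hk6').2,
    fun M => Skel.Rc k L0 M, fun M => Skel.bw (Skel.Rc k L0 M),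
    fun i => toMeasurable volume
      {y : Tor | ∃ z t N, (T k)^[t] z = y ∧ Skel.FBR k L0 R N z t (16 ^ i * Q0)},
    Skel.Ng k L0, fun N z t l => Skel.nf k L0 N z t l, fun _ v => (Skel.rho k D0 v).toReal, ?_⟩
  constructor
  · exact fun M => (hm k L0 M).2.2.1
  · exact fun M => measurableSet_bw (hm k L0 M).2.2.1
  · exact fun i => measurableSet_toMeasurable _ _
  · exact measurableSet_Ng hm k L0
  · intro N z t i hi hf
    apply subset_toMeasurable
    refine ⟨z, t, N, rfl, ?_, ?_⟩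
    · rw [pow_succ] at hi
      linarith
    · have e1 : 16 * (16 ^ i * Q0) = 16 ^ (i + 1) * Q0 := by ring
      rw [e1]
      unfold FBR at hf
      exact lt_of_le_of_lt (Nat.mul_le_mul_right _ (Nat.le_succ R)) hf
  · intro I
    refine area (by linarith) hC5 hθ0 hθ1 (by omega) (fun i => ?_) (by rw [hC]; linarith) I
    rw [measure_toMeasurable]
    refine h5 k hk5 _ ?_
    have : 1 ≤ 16 ^ i := Nat.one_le_pow _ _ (by norm_num)
    nlinarith
  · intro N z S hS
    have h := h1 k hk1 N z S fun p hp => ⟨(hS p hp).1, by have := (hS p hp).2.1; omega,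
      (hS p hp).2.2⟩
    have h' : (#S : ℝ≥0∞) ≤ ((C1 * (Skel.vs k N z
        (fun v => Skel.Rc k L0 (N - v) ∩ Skel.bw (Skel.Rc k L0 v)) +
        Skel.vs k N z (fun _ => Skel.Ng k L0)) : ℕ) : ℝ≥0∞) := by exact_mod_cast h
    refine h'.trans ?_
    push_cast
    rw [vs_cast, vs_cast]
    refine mul_le_mul' ?_ le_rfl
    rw [← ENNReal.ofReal_natCast]
    apply ENNReal.ofReal_le_ofReal
    rw [hC]
    linarith
  · exact vbad (by linarith) hm (hL k hkL) (by rw [hC]; linarith)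
  · exact fun _ => rho_toReal_mono hk8 D0
  · exact fun _ _ => ENNReal.toReal_nonneg
  · intro N v _
    exact double hk8 (h4 k hk4) (by rw [hC]; linarith) (N - v) v
  · intro N
    refine (single hk8 hm (h2 k hk2) N).trans ?_
    have h7 : 0 ≤ ∫ z : Tor, (cross k N z : ℝ) := integral_nonneg fun _ => Nat.cast_nonneg _
    have h8 : 0 ≤ ((N:ℝ) + 1) * Skel.e k :=
      mul_nonneg (by positivity) (e_pos (by linarith)).le
    have h9 : (C2:ℝ) ≤ C := by rw [hC]; linarith
    nlinarith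

end Crest.Agent.R128.SkelMeas
end

-- ▼ part R128/V1Core
section

set_option autoImplicit false

/-!
Row 128, MASTER v2, node V1 (helper337): the pointwise charging inequality for abstract validity
predicates `Vf v n` (forward start at time `v`, valid up to lag `n`), `Vb v n` (backward).
-/

namespace Crest.Agent.R128.V1

open Crest.Agent.R128.Tips Crest.Agent.R128.Charge Finset

variable {d : ℕ → ℕ → ℝ} {f : ℕ → ℝ} {B b b' c c0 G lam κ J H : ℝ} {L v e r N : ℕ}

/-- reversed time -/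
def rv (N : ℕ) (d : ℕ → ℕ → ℝ) (i j : ℕ) : ℝ := d (N - i) (N - j)

theorem isHyp_rv (h : IsHyp d (Real.log 2 / 2) B) (hB : 0 ≤ B) (N : ℕ) :
    IsHyp (rv N d) (Real.log 2 / 2) B where
  symm i j := h.symm _ _
  self i := h.self _
  nonneg i j := h.nonneg _ _
  tri i j l := h.tri _ _ _
  hyp i j l w := h.hyp (N - i) (N - j) (N - l) (N - w)
  step i := by
    unfold rv
    rcases Nat.lt_or_ge i N with hi | hi
    · have e : N - i = N - (i + 1) + 1 := by omega
      rw [h.symm, e]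
      exact h.step _
    · have e : N - i = 0 := by omega
      have e' : N - (i + 1) = 0 := by omega
      rw [e, e', h.self]
      exact hB
  δ_nonneg := h.δ_nonneg

/-- the data of the charging inequality -/
structure Data (d : ℕ → ℕ → ℝ) (f : ℕ → ℝ) (N L : ℕ) (B b b' c c0 G κ J : ℝ) (crit base : ℕ → Prop)
    (Vf Vb : ℕ → ℕ → Prop) : Prop where
  hyp : IsHyp d (Real.log 2 / 2) B
  near : ∀ m, |f m - d 0 m| ≤ c0
  f0 : ∀ m, 0 ≤ f m
  step : ∀ n, |f (n + 1) - f n| ≤ J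
  hκ : 0 < κ
  hB : 0 ≤ B
  hc0 : 0 ≤ c0
  hb0 : 0 < b
  hb : b ≤ 1 / 50
  hb'0 : 0 ≤ b'
  hb' : b' ≤ b / 4
  hc : 0 ≤ c
  hG : 60 * (c0 + B + c + 1) ≤ b * G
  hGκ : 16 * κ ≤ b * G
  hL : 2 ≤ L
  top : ∀ i j l T, Cmp f κ N i j l → i < T → T < j → (∀ m, i < m → m < j → f m ≤ f T) →
    crit T ∨ (i + 1 < T ∧ crit (T - 1))
  f1 : ∀ v n, v + n ≤ N → Vf v n → CleanF d b b' c G L v (v + n)
  f2 : ∀ v n, v + n ≤ N → Vf v n → ∀ m, v ≤ m → m < v + L → m < v + n → ¬ crit m
  fm : ∀ v n m, m ≤ n → Vf v n → Vf v m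
  f3 : ∀ v n, v + n ≤ N → ¬ Vf v n → base v ∨ ∃ n1, n1 < n ∧
    CleanF d b b' c G L v (v + n1) ∧ ∃ i, L ≤ i ∧ i ≤ n1 ∧
      d v (v + n1 + 1) ≤ (1 - b) * d v (v + i) + c
  b1 : ∀ v n, n ≤ v → v ≤ N → Vb v n → CleanF (rv N d) b b' c G L (N - v) (N - v + n)
  b2 : ∀ v n, n ≤ v → v ≤ N → Vb v n → ∀ m, m < v → v ≤ m + L → v ≤ m + n → ¬ crit m
  bm : ∀ v n m, m ≤ n → Vb v n → Vb v m
  b3 : ∀ v n, n ≤ v → v ≤ N → ¬ Vb v n → base v ∨ ∃ n1, n1 < n ∧
    CleanF (rv N d) b b' c G L (N - v) (N - v + n1) ∧ ∃ i, L ≤ i ∧ i ≤ n1 ∧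
      rv N d (N - v) (N - v + n1 + 1) ≤ (1 - b) * rv N d (N - v) (N - v + i) + c

variable {crit base : ℕ → Prop} {Vf Vb : ℕ → ℕ → Prop}

theorem Data.near_rv (X : Data d f N L B b b' c c0 G κ J crit base Vf Vb) (m : ℕ) :
    |f (N - m) - rv N d N m| ≤ c0 := by
  unfold rv
  rw [Nat.sub_self]
  exact X.near _

theorem Data.hG' (X : Data d f N L B b b' c c0 G κ J crit base Vf Vb) :
    20 * (c0 + B + c + 1) ≤ G := by
  have h1 := X.hG
  have h2 := X.hb
  have h3 := X.hb0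
  have h4 := X.hB
  have h5 := X.hc0
  have h6 := X.hc
  have hG0 : 0 < G := by
    by_contra hcon
    push Not at hcon
    have := mul_nonpos_of_nonneg_of_nonpos h3.le hcon
    linarith
  have h7 : b * G ≤ 1 / 50 * G := mul_le_mul_of_nonneg_right h2 hG0.le
  linarith

theorem Data.Gpos (X : Data d f N L B b b' c c0 G κ J crit base Vf Vb) : 0 < G := by
  have := X.hG'
  have h4 := X.hB
  have h5 := X.hc0
  have h6 := X.hc
  linarith

theorem Data.hb'2 (X : Data d f N L B b b' c c0 G κ J crit base Vf Vb) : b' ≤ 1 / 200 := by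
  have := X.hb'
  have := X.hb
  linarith

/-- a component contains a critical time -/
theorem Data.exists_crit (X : Data d f N L B b b' c c0 G κ J crit base Vf Vb) {i j : ℕ} {l : ℤ}
    (hC : Cmp f κ N i j l) : ∃ a, i < a ∧ a < j ∧ crit a := by
  obtain ⟨a, ha, hmax⟩ := Finset.exists_max_image (Finset.Ioo i j) f
    ⟨i + 1, Finset.mem_Ioo.mpr ⟨by omega, hC.lt⟩⟩
  rw [Finset.mem_Ioo] at ha
  rcases X.top i j l a hC ha.1 ha.2 (fun m h1 h2 => hmax m (Finset.mem_Ioo.mpr ⟨h1, h2⟩)) with h | h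
  · exact ⟨a, ha.1, ha.2, h⟩
  · exact ⟨a - 1, by omega, by omega, h.2⟩

theorem Data.h4L (X : Data d f N L B b b' c c0 G κ J crit base Vf Vb) {i j : ℕ} {l : ℤ}
    (h : NestL f κ N H i j l) : ¬ Vf i (N - i) ∧ ¬ Vb i i := by
  obtain ⟨hC, i', j', l', T, hC', hi'T, hTi, hjj', hmax, -⟩ := h
  have hj := hC.le
  have hij := hC.lt
  have hj' := hC'.le
  constructor
  · intro V
    obtain ⟨a, ha1, ha2, ha3⟩ := X.exists_crit hC
    by_cases haL : a < i + L
    · exact X.f2 i (N - i) (by omega) V a ha1.le haL (by omega) ha3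
    · have V' := X.f1 i (j - i) (by omega) (X.fm i (N - i) (j - i) (by omega) V)
      have e : i + (j - i) = j := by omega
      rw [e] at V'
      exact no_return (r := 0) (f := f) (lam := l * κ) X.hyp X.near X.hB X.hc0 X.hb0.le X.hb X.hb'0 X.hb'2
        X.hc X.hG' hij (by omega) hC.fi hC.mid hC.fj V'
  · intro V
    have hcr : ∃ T', i' < T' ∧ T' ≤ T ∧ T ≤ T' + 1 ∧ crit T' := by
      rcases X.top i' j' l' T hC' hi'T (by omega) hmax with h | h
      · exact ⟨T, hi'T, le_rfl, by omega, h⟩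
      · exact ⟨T - 1, by omega, by omega, by omega, h.2⟩
    obtain ⟨T', h1, h2, h3, h4⟩ := hcr
    by_cases hL' : i ≤ T' + L
    · exact X.b2 i i le_rfl (by omega) V T' (by omega) hL' (by omega) h4
    · have V' := X.b1 i (i - i') (by omega) (by omega) (X.bm i i (i - i') (by omega) V)
      have e : N - i + (i - i') = N - i' := by omega
      rw [e] at V'
      refine no_over (d := rv N d) (f := fun m => f (N - m)) (r := N) (lam := l' * κ)
        (isHyp_rv X.hyp X.hB N) X.near_rv X.hB X.hc0 X.hb0.le X.hb X.hb'0 X.hb'2 X.hc X.hG'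
        (v := N - i) (T := N - T) (s := N - i') (by omega) (by omega) (by omega) ?_ ?_ ?_ V'
      · have e1 : N - (N - i') = i' := by omega
        simp only [e1]
        exact hC'.fi
      · intro m hm1 hm2
        exact (hC'.mid (N - m) (by omega) (by omega)).le
      · have e1 : N - (N - i) = i := by omega
        have e2 : N - (N - T) = T := by omega
        simp only [e1, e2]
        exact hmax i (by omega) (by omega)

theorem Data.h4R (X : Data d f N L B b b' c c0 G κ J crit base Vf Vb) {i j : ℕ} {l : ℤ}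
    (h : NestR f κ N H i j l) : ¬ Vf j (N - j) ∧ ¬ Vb j j := by
  obtain ⟨hC, i', j', l', T, hC', hi'i, hjT, hTj', hmax, -⟩ := h
  have hj := hC.le
  have hij := hC.lt
  have hj' := hC'.le
  constructor
  · intro V
    have hcr : ∃ T', j ≤ T' ∧ T' ≤ T ∧ T ≤ T' + 1 ∧ crit T' := by
      rcases X.top i' j' l' T hC' (by omega) hTj' hmax with h | h
      · exact ⟨T, by omega, le_rfl, by omega, h⟩
      · exact ⟨T - 1, by omega, by omega, by omega, h.2⟩
    obtain ⟨T', h1, h2, h3, h4⟩ := hcr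
    by_cases hL' : T' < j + L
    · exact X.f2 j (N - j) (by omega) V T' h1 hL' (by omega) h4
    · have V' := X.f1 j (j' - j) (by omega) (X.fm j (N - j) (j' - j) (by omega) V)
      have e : j + (j' - j) = j' := by omega
      rw [e] at V'
      exact no_over (r := 0) (f := f) (lam := l' * κ) X.hyp X.near X.hB X.hc0 X.hb0.le X.hb X.hb'0
        X.hb'2 X.hc X.hG' hjT hTj' (by omega) hC'.fj (fun m hm1 hm2 => (hC'.mid m (by omega) (by omega)).le)
        (hmax j (by omega) (by omega)) V'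
  · intro V
    obtain ⟨a, ha1, ha2, ha3⟩ := X.exists_crit hC
    by_cases haL : j ≤ a + L
    · exact X.b2 j j le_rfl hj V a ha2 haL (by omega) ha3
    · have V' := X.b1 j (j - i) (by omega) hj (X.bm j j (j - i) (by omega) V)
      have e : N - j + (j - i) = N - i := by omega
      rw [e] at V'
      refine no_return (d := rv N d) (f := fun m => f (N - m)) (r := N) (lam := l * κ)
        (isHyp_rv X.hyp X.hB N) X.near_rv X.hB X.hc0 X.hb0.le X.hb X.hb'0 X.hb'2 X.hc X.hG'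
        (v := N - j) (j := N - i) (by omega) (by omega) ?_ ?_ ?_ V'
      · have e1 : N - (N - j) = j := by omega
        simp only [e1]
        exact hC.fj
      · intro m hm1 hm2
        exact hC.mid (N - m) (by omega) (by omega)
      · have e1 : N - (N - i) = i := by omega
        simp only [e1]
        exact hC.fi

theorem Data.h5L (X : Data d f N L B b b' c c0 G κ J crit base Vf Vb) {i j t : ℕ} {l : ℤ}
    (hC : Cmp f κ N i j l) (hit : i < t) (htj : t < j) (hmax : ∀ m, i < m → m < j → f m ≤ f t)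
    (h : ¬ Vf i (t - i)) : base i ∨ ValL f κ (b / 2) (G / 2) t i l := by
  have hj := hC.le
  rcases X.f3 i (t - i) (by omega) h with h | ⟨n1, hn1, C, i1, hi1, hi2, hdrop⟩
  · exact Or.inl h
  · right
    have hL := X.hL
    obtain ⟨a, ha1, ha2, ha3, ha4, ha5⟩ := valley (r := 0) (f := f) (lam := l * κ) (v := i)
      (e := i + n1) (i := i + i1) X.hyp X.near X.hB X.hc0 X.hb0 X.hb X.hb'0 X.hb' X.hc X.hG
      (by omega) (by omega) (by omega) hC.fi (fun m h1 h2 => hC.mid m h1 (by omega)) C hdrop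
    have hG := X.Gpos
    have hb := X.hb0
    have hpos : 0 < b / 2 * (f a - l * κ) := by
      apply mul_pos (by linarith) (by linarith)
    have hlt : i + n1 + 1 < t := by
      rcases Nat.lt_or_ge (i + n1 + 1) t with h1 | h1
      · exact h1
      · exfalso
        have e : i + n1 + 1 = t := by omega
        rw [e] at ha5
        have := hmax a ha1 (by omega)
        linarith
    exact ⟨i + n1 + 1, a, hlt, ha2, ha1, ha3, ha4, ha5⟩

theorem Data.h5R (X : Data d f N L B b b' c c0 G κ J crit base Vf Vb) {i j t : ℕ} {l : ℤ}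
    (hC : Cmp f κ N i j l) (hit : i < t) (htj : t < j) (hmax : ∀ m, i < m → m < j → f m ≤ f t)
    (h : ¬ Vb j (j - t)) : base j ∨ ValR f κ (b / 2) (G / 2) t j l := by
  have hj := hC.le
  rcases X.b3 j (j - t) (by omega) hj h with h | ⟨n1, hn1, C, i1, hi1, hi2, hdrop⟩
  · exact Or.inl h
  · right
    have hL := X.hL
    obtain ⟨a, ha1, ha2, ha3, ha4, ha5⟩ := valley (d := rv N d) (f := fun m => f (N - m)) (r := N)
      (lam := l * κ) (v := N - j)
      (e := N - j + n1) (i := N - j + i1) (isHyp_rv X.hyp X.hB N) X.near_rv X.hB X.hc0 X.hb0 X.hb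
      X.hb'0 X.hb' X.hc X.hG
      (by omega) (by omega) (by omega) (by
        have e1 : N - (N - j) = j := by omega
        simp only [e1]
        exact hC.fj) (fun m h1 h2 => hC.mid (N - m) (by omega) (by omega)) C hdrop
    have hG := X.Gpos
    have hb := X.hb0
    have hpos : 0 < b / 2 * (f (N - a) - l * κ) := by
      apply mul_pos (by linarith) (by linarith)
    have e2 : N - (N - j + n1 + 1) = j - (n1 + 1) := by omega
    rw [e2] at ha5
    have hlt : t < j - (n1 + 1) := by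
      rcases Nat.lt_or_ge t (j - (n1 + 1)) with h1 | h1
      · exact h1
      · exfalso
        have e : j - (n1 + 1) = t := by omega
        rw [e] at ha5
        have := hmax (N - a) (by omega) (by omega)
        linarith
    refine ⟨j - (n1 + 1), N - a, hlt, by omega, by omega, ?_, ha4, ha5⟩
    intro m hm1 hm2
    have := ha3 (N - m) (by omega) (by omega)
    have e3 : N - (N - m) = m := by omega
    rwa [e3] at this

open Classical in
/-- **V1, core form**: the number of non fresh components (validity `Vf, Vb`, drop `b`) is bounded by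
the base times and the doubly covered times (validity `Vf2, Vb2`, drop `b2`). -/
theorem Data.count {b2 b2' c2 G2 : ℝ} {L2 : ℕ} {base2 : ℕ → Prop} {Vf2 Vb2 : ℕ → ℕ → Prop}
    (X : Data d f N L B b b' c c0 G κ J crit base Vf Vb)
    (X2 : Data d f N L2 B b2 b2' c2 c0 G2 κ J crit base2 Vf2 Vb2) (S : Finset (ℕ × ℕ × ℤ))
    (hS : ∀ c ∈ S, Cmp f κ N c.1 c.2.1 c.2.2 ∧ ∃ t, c.1 < t ∧ t < c.2.1 ∧
      (∀ m, c.1 < m → m < c.2.1 → f m ≤ f t) ∧ (¬ Vf c.1 (t - c.1) ∨ ¬ Vb c.2.1 (c.2.1 - t))) :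
    (S.card : ℝ) ≤ 2 * (J / κ + 1) * ((range (N + 1)).filter base).card +
      2 * (8 / b + 2) * (J / κ + 1) *
        ((range (N + 1)).filter (fun v => ¬ Vf2 v (N - v) ∧ ¬ Vb2 v v)).card := by
  have h := charge (f := f) (κ := κ) (J := J) (b := b / 2) (D := G / 2)
    (H := ∑ m ∈ range (N + 1), f m) (N := N) X.hκ X.step (by have := X.hb0; linarith)
    (by have := X.hGκ; linarith) (fun v => ¬ Vf2 v (N - v) ∧ ¬ Vb2 v v) base
    (fun i j l h => X2.h4L h) (fun i j l h => X2.h4R h) S (by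
      intro c hc
      obtain ⟨hC, t, h1, h2, h3, h4⟩ := hS c hc
      refine ⟨hC, ?_⟩
      have hH : f t - c.2.2 * κ ≤ ∑ m ∈ range (N + 1), f m := by
        have h5 : f t ≤ ∑ m ∈ range (N + 1), f m :=
          Finset.single_le_sum (f := f) (fun m _ => X.f0 m) (mem_range.mpr (by have := hC.le; omega))
        have h6 : 0 ≤ c.2.2 * κ := (X.f0 _).trans hC.fi
        linarith
      rcases h4 with h4 | h4
      · rcases X.h5L hC h1 h2 h3 h4 with h5 | h5
        · exact Or.inl h5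
        · exact Or.inr (Or.inr ⟨t, h1, h2, h3, hH, Or.inl h5⟩)
      · rcases X.h5R hC h1 h2 h3 h4 with h5 | h5
        · exact Or.inr (Or.inl h5)
        · exact Or.inr (Or.inr ⟨t, h1, h2, h3, hH, Or.inr h5⟩))
  have e : (4:ℝ) / (b / 2) = 8 / b := by
    have := X.hb0
    field_simp
    norm_num
  rw [e] at h
  exact h

end Crest.Agent.R128.V1
end

-- ▼ part R128/TopCrit
section

/-!
Row 128, V1 leaf TOPCRIT (helper434): a maximum of a component of the root contour is near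
critical.
-/

set_option autoImplicit false

namespace Crest.Agent.R128.TopCrit

open Crest.Agent.R128.Acc Crest.Agent.R128.Charge

/-- real-sequence form -/
theorem topcrit_seq {ρ D : ℕ → ℝ} (hρ : ∀ n, 0 < ρ n)
    (h1 : ∀ n, D n * ρ (n + 1) ≤ ρ (n + 2) + ρ n) {t : ℕ} (ht : 1 ≤ t)
    (ha : bt ρ (t - 1) ≤ bt ρ t) (hb : bt ρ (t + 1) ≤ bt ρ t) :
    D t ≤ 2 ∨ (bt ρ (t - 1) = bt ρ t ∧ D (t - 1) ≤ 2) := by
  have e1 : t - 1 + 1 = t := by omega
  have e2 : t - 1 + 2 = t + 1 := by omega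
  have p := hρ (t - 1)
  have p0 := hρ t
  have p1 := hρ (t + 1)
  have p2 := hρ (t + 2)
  unfold bt at ha hb ⊢
  rw [e1] at ha ⊢
  rw [show t + 1 + 1 = t + 2 from rfl] at hb
  have a1 : max (ρ (t + 1)) (ρ (t + 2)) ≤ max (ρ t) (ρ (t + 1)) :=
    (Real.log_le_log_iff (lt_max_of_lt_left p1) (lt_max_of_lt_left p0)).mp hb
  have a2 : max (ρ (t - 1)) (ρ t) ≤ max (ρ t) (ρ (t + 1)) :=
    (Real.log_le_log_iff (lt_max_of_lt_left p) (lt_max_of_lt_left p0)).mp ha
  rcases lt_or_ge (ρ t) (ρ (t + 1)) with hc | hc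
  · left
    rw [max_eq_right hc.le] at a1
    have a3 := (le_max_right _ _).trans a1
    have h := h1 t
    by_contra hcon
    push Not at hcon
    nlinarith
  · right
    rw [max_eq_left hc] at a2
    have a3 := (le_max_left _ _).trans a2
    refine ⟨?_, ?_⟩
    · rw [max_eq_left hc, max_eq_right a3]
    · have h := h1 (t - 1)
      rw [e1, e2] at h
      by_contra hcon
      push Not at hcon
      nlinarith

/-- **TOPCRIT**: a maximum of a component of the root contour is near critical. -/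
theorem topcrit {k κ : ℝ} {z : Tor} {N i j t : ℕ} {l : ℤ} (h : Cmp (bt (rr k z)) κ N i j l)
    (h1 : i < t) (h2 : t < j) (hmax : ∀ m, i < m → m < j → bt (rr k z) m ≤ bt (rr k z) t) :
    |V k ((T k)^[t] z).2| ≤ 2 ∨ (i < t - 1 ∧ |V k ((T k)^[t - 1] z).2| ≤ 2) := by
  have ha := h.mid t h1 h2
  have hA : bt (rr k z) (t - 1) ≤ bt (rr k z) t := by
    rcases Nat.lt_or_ge i (t - 1) with h3 | h3
    · exact hmax _ h3 (by omega)
    · have : t - 1 = i := by omega
      rw [this]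
      exact h.fi.trans ha.le
  have hB : bt (rr k z) (t + 1) ≤ bt (rr k z) t := by
    rcases Nat.lt_or_ge (t + 1) j with h3 | h3
    · exact hmax _ (by omega) h3
    · have : t + 1 = j := by omega
      rw [this]
      exact h.fj.trans ha.le
  rcases topcrit_seq (D := dg k z) (rr_pos k z) (rr_h1 k z) (by omega) hA hB with h3 | ⟨h3, h4⟩
  · exact Or.inl h3
  · right
    refine ⟨?_, h4⟩
    by_contra hcon
    have : t - 1 = i := by omega
    rw [this] at h3
    have := h.fi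
    linarith


end Crest.Agent.R128.TopCrit
end

-- ▼ part R128/V1

set_option autoImplicit false

/-!
Row 128, MASTER v2, node V1 (helper337): the charging inequality on the orbits of the standard map.
-/

open MeasureTheory Finset
open scoped Matrix.Norms.L2Operator

namespace Crest.Agent.R128.V1

open Crest.Agent.R128.Acc Crest.Agent.R128.Lam0 Crest.Agent.R128.ValNorm
  Crest.Agent.R128.Charge

variable {k : ℝ} {P L n n1 N : ℕ} {z : Tor}

theorem val_mono (h : Skel.Val k P L z n) {m : ℕ} (hm : m ≤ n) : Skel.Val k P L z m :=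
  ⟨fun a h1 h2 => h.cl a h1 (by omega), fun i j h1 h2 h3 => h.v2 i j h1 h2 (by omega),
    fun j h1 h2 => h.v3 j h1 (by omega)⟩

theorem val_zero : Skel.Val k P L z 0 :=
  ⟨fun a _ h2 => absurd h2 (by omega), fun i j h1 h2 h3 => absurd h3 (by omega),
    fun j h1 h2 => absurd h2 (by omega)⟩

theorem toValD (hP : 2 ≤ P) (hL : 1000 ≤ L) (h : Skel.Val k P L z n) (hLn : L ≤ n) :
    ValD k (1 / P) L n z where
  c1 m hm := h.cl m hm (by omega)
  c2 i j h1 h2 h3 := by
    have hP0 : (0:ℝ) < P := by exact_mod_cast (by omega : 0 < P)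
    have h4 := h.v2 i j (by omega) h2 h3
    have e1 : W k z i ^ (1 - 1 / (P:ℝ)) = (W k z i ^ (P - 1)) ^ (1 / (P:ℝ)) := by
      rw [← Real.rpow_natCast, ← Real.rpow_mul (W_nonneg k z i)]
      congr 1
      rw [Nat.cast_sub (by omega)]
      field_simp
      push_cast
      ring
    have e2 : (W k z j ^ P) ^ (1 / (P:ℝ)) = W k z j := by
      rw [← Real.rpow_natCast, ← Real.rpow_mul (W_nonneg k z j)]
      rw [mul_one_div_cancel hP0.ne', Real.rpow_one]
    rw [e1, ← e2]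
    exact Real.rpow_le_rpow (pow_nonneg (W_nonneg k z i) _) h4 (by positivity)
  c3 j h1 h2 := by
    have hP0 : (0:ℝ) < P := by exact_mod_cast (by omega : 0 < P)
    obtain ⟨i, h3, h4, h5⟩ := h.v3 j (by omega) h2
    refine ⟨i, h4, ?_⟩
    have e1 : ((j : ℝ) ^ (4 * P)) ^ (1 / (P:ℝ) / 4) = j := by
      rw [← Real.rpow_natCast, ← Real.rpow_mul (Nat.cast_nonneg j)]
      have : ((4 * P : ℕ) : ℝ) * (1 / (P:ℝ) / 4) = 1 := by
        push_cast
        field_simp
      rw [this, Real.rpow_one]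
    rw [← e1]
    exact Real.rpow_le_rpow (by positivity) h5 (by positivity)

theorem first_fail (h : ¬ Skel.Val k P L z n) :
    ∃ n1, n1 < n ∧ Skel.Val k P L z n1 ∧ ¬ Skel.Val k P L z (n1 + 1) := by
  classical
  have hex : ∃ m, ¬ Skel.Val k P L z m := ⟨n, h⟩
  have h1 := Nat.find_spec hex
  have h2 : Nat.find hex ≤ n := Nat.find_min' hex h
  have h3 : Nat.find hex ≠ 0 := by
    intro h0
    rw [h0] at h1
    exact h1 val_zero
  refine ⟨Nat.find hex - 1, by omega, ?_, ?_⟩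
  · by_contra hcon
    exact Nat.find_min hex (by omega) hcon
  · have e : Nat.find hex - 1 + 1 = Nat.find hex := by omega
    rw [e]
    exact h1

theorem fail_cases (h : Skel.Val k P L z n1) (h' : ¬ Skel.Val k P L z (n1 + 1)) :
    (∃ m, m < L ∧ m ≤ n1 ∧ |V k ((T k)^[m] z).2| < k ^ ((2 : ℝ) / 3)) ∨
    ((∀ m, m < L → m ≤ n1 → k ^ ((2 : ℝ) / 3) ≤ |V k ((T k)^[m] z).2|) ∧
      ((∃ i, 1000 ≤ i ∧ i ≤ n1 + 1 ∧ ‖fld k z (n1 + 1)‖ ^ P < ‖fld k z i‖ ^ (P - 1)) ∨
       (1000 ≤ n1 + 1 ∧ ∀ i, 1000 ≤ i → i ≤ n1 + 1 →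
          ‖fld k z i‖ < ((n1 + 1 : ℕ) : ℝ) ^ (4 * P)))) := by
  by_cases hA : ∃ m, m < L ∧ m ≤ n1 ∧ |V k ((T k)^[m] z).2| < k ^ ((2 : ℝ) / 3)
  · exact Or.inl hA
  right
  push Not at hA
  refine ⟨hA, ?_⟩
  by_contra hcon
  push Not at hcon
  obtain ⟨hc1, hc2⟩ := hcon
  apply h'
  refine ⟨fun m h1 h2 => hA m h1 (by omega), ?_, ?_⟩
  · intro i j h1 h2 h3
    rcases Nat.lt_or_ge n1 j with h4 | h4
    · obtain rfl : j = n1 + 1 := by omega
      exact hc1 i h1 h2
    · exact h.v2 i j h1 h2 h4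
  · intro j h1 h2
    rcases Nat.lt_or_ge n1 j with h4 | h4
    · obtain rfl : j = n1 + 1 := by omega
      obtain ⟨i, h5, h6, h7⟩ := hc2 h1
      exact ⟨i, h5, h6, h7⟩
    · exact h.v3 j h1 h4

theorem sqrt_pow {k : ℝ} (hk : 0 ≤ k) : (k ^ (1 / 2 : ℝ)) ^ 1000 = k ^ 500 := by
  rw [← Real.rpow_natCast, ← Real.rpow_mul hk, ← Real.rpow_natCast]
  norm_num

/-- the field is large after `m ≥ 1000` regular digits -/
theorem W_big (hk : 100 ≤ k) {M : ℕ}
    (c1 : ∀ m, m < M → k ^ ((2 : ℝ) / 3) ≤ |V k ((T k)^[m] z).2|)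
    {m : ℕ} (h1 : 1000 ≤ m) (h2 : m ≤ M) : k ^ 500 ≤ W k z m := by
  have h3 := W_pow (ValD.three hk) c1 h2
  refine le_trans ?_ h3
  rw [← sqrt_pow (by linarith)]
  have h4 := beta_ge hk
  have h5 := ten_le hk
  calc (k ^ (1 / 2 : ℝ)) ^ 1000 ≤ (k ^ (1 / 2 : ℝ)) ^ m :=
        pow_le_pow_right₀ (by linarith) h1
    _ ≤ _ := pow_le_pow_left₀ (by linarith) (by linarith) m

theorem W_mono' (hk : 100 ≤ k) {M : ℕ}
    (c1 : ∀ m, m < M → k ^ ((2 : ℝ) / 3) ≤ |V k ((T k)^[m] z).2|)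
    {i j : ℕ} (hij : i ≤ j) (hj : j ≤ M) : W k z i ≤ W k z j := by
  have h1 := W_mono (ValD.three hk) c1 hij hj
  have h2 := beta_ge hk
  have h3 := ten_le hk
  have h4 : (1:ℝ) ≤ (k ^ (2/3 : ℝ) - 1 / 2) ^ (j - i) := one_le_pow₀ (by linarith)
  nlinarith [W_nonneg k z i]

/-- failure of the duration clause is a `LG` event -/
theorem toLG (hk : 100 ≤ k) (hP : 2 ≤ P) (hP' : P ≤ 1000) (hL : 1000 ≤ L) (hkL : (L : ℝ) ^ 8 ≤ k)
    (h : Skel.Val k P L z n1)
    (c1 : ∀ m, m < L → m ≤ n1 → k ^ ((2 : ℝ) / 3) ≤ |V k ((T k)^[m] z).2|)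
    (hLn : 1000 ≤ n1 + 1) (hP100 : 100 ≤ P)
    (hf : ∀ i, 1000 ≤ i → i ≤ n1 + 1 → ‖fld k z i‖ < ((n1 + 1 : ℕ) : ℝ) ^ (4 * P)) :
    z ∈ Skel.LG k L := by
  have hk1 : 1 ≤ k := by linarith
  have hL1 : (1:ℝ) ≤ L := by exact_mod_cast (by omega : 1 ≤ L)
  -- `L ^ (4 P) ≤ k ^ 500`
  have hLk : (L : ℝ) ^ (4 * P) ≤ k ^ 500 := by
    calc (L : ℝ) ^ (4 * P) ≤ (L:ℝ) ^ (8 * 500) := pow_le_pow_right₀ hL1 (by omega)
      _ = ((L:ℝ) ^ 8) ^ 500 := by rw [pow_mul]
      _ ≤ k ^ 500 := pow_le_pow_left₀ (by positivity) hkL _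
  have hn : L < n1 + 1 := by
    by_contra hcon
    push Not at hcon
    have h1 := W_big (z := z) hk (M := n1 + 1) (fun m hm => c1 m (by omega) (by omega))
      hLn le_rfl
    have h2 := hf (n1 + 1) hLn le_rfl
    have h3 : ((n1 + 1 : ℕ) : ℝ) ^ (4 * P) ≤ (L : ℝ) ^ (4 * P) :=
      pow_le_pow_left₀ (Nat.cast_nonneg _) (by exact_mod_cast hcon) _
    unfold W at h1
    linarith
  have c1' : ∀ m, m < L → k ^ ((2 : ℝ) / 3) ≤ |V k ((T k)^[m] z).2| :=
    fun m hm => c1 m hm (by omega)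
  have hWL := W_big (z := z) hk c1' (m := L) hL le_rfl
  have hD := toValD hP hL h (by omega : L ≤ n1)
  have hPr : (1 : ℝ) / P ≤ 1 / 4 := by
    have : (4:ℝ) ≤ P := by exact_mod_cast (by omega : 4 ≤ P)
    exact one_div_le_one_div_of_le (by norm_num) this
  have hPr0 : (0:ℝ) ≤ 1 / P := by positivity
  have hPr1 : (1 : ℝ) / P ≤ 1 / 100 := by
    have : (100:ℝ) ≤ P := by exact_mod_cast hP100
    exact one_div_le_one_div_of_le (by norm_num) this
  have one : ∀ m ≤ n1, 1 ≤ W k z m := fun m hm => hD.one_le hk hPr hm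
  refine ⟨?_, n1 + 1, hn, ?_, ?_⟩
  · rintro ⟨m, hm1, hm2⟩
    exact absurd hm2 (not_lt.mpr (c1' m hm1))
  · have e : n1 + 1 - 1 = n1 := by omega
    rw [e]
    refine ⟨W_big (z := z) hk c1' le_rfl hL, ?_, ?_⟩
    · intro i j hi hij hj
      have h4 := hD.all hk hPr0 hPr hij hj
      have h5 := one i (by omega)
      have h6 := one j hj
      have h7 := Real.log_le_log (by positivity) h4
      rw [Real.log_rpow (by linarith)] at h7
      have h8 := Real.log_nonneg h6
      have h9 := Real.log_nonneg h5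
      have h12 : (99 / 100 : ℝ) * Real.log (W k z i) ≤ (1 - 1 / (P:ℝ)) * Real.log (W k z i) :=
        mul_le_mul_of_nonneg_right (by linarith) h9
      have h10 : Real.log (W k z i ^ 89) ≤ Real.log (W k z j ^ 90) := by
        rw [Real.log_pow, Real.log_pow]
        push_cast
        linarith
      have h11 := (Real.log_le_log_iff (by positivity) (by positivity)).mp h10
      exact h11
    · intro j hj1 hj2
      obtain ⟨i, h5, h6, h7⟩ := h.v3 j hj1 hj2
      refine ⟨i, h5, h6, ?_⟩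
      have h8 : (1:ℝ) ≤ j := by exact_mod_cast (by omega : 1 ≤ j)
      have h9 : (j:ℝ) ^ 400 ≤ (j:ℝ) ^ (4 * P) := pow_le_pow_right₀ h8 (by omega)
      have : (0:ℝ) ≤ ‖fld k z i‖ := norm_nonneg _
      linarith
  · intro i hi1 hi2
    have hp : (0:ℝ) ≤ ((n1 + 1 : ℕ) : ℝ) ^ 4000 := by positivity
    have h1 := hf i hi1 hi2.le
    have h2 : ((n1 + 1 : ℕ) : ℝ) ^ (4 * P) ≤ ((n1 + 1 : ℕ) : ℝ) ^ 4000 :=
      pow_le_pow_right₀ (by exact_mod_cast (by omega : 1 ≤ n1 + 1)) (by omega)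
    linarith

/-- the drawdown alternative, in terms of the distances -/
theorem drop_of (hk : 100 ≤ k) (hP : 100 ≤ P) (hL : 1000 ≤ L) (h : Skel.Val k P L z n1)
    (c1 : ∀ m, m < L → m ≤ n1 → k ^ ((2 : ℝ) / 3) ≤ |V k ((T k)^[m] z).2|)
    {i : ℕ} (hi1 : 1000 ≤ i) (hi2 : i ≤ n1 + 1)
    (hlt : ‖fld k z (n1 + 1)‖ ^ P < ‖fld k z i‖ ^ (P - 1)) :
    ∃ i', L ≤ i' ∧ i' ≤ n1 ∧ ValD k (1 / P) L n1 z ∧
      Real.log (W k z (n1 + 1)) ≤ (1 - 1 / (P:ℝ)) * Real.log (W k z i') := by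
  have hP0 : (0:ℝ) < P := by exact_mod_cast (by omega : 0 < P)
  have hPr : (1 : ℝ) / P ≤ 1 / 4 := by
    have : (4:ℝ) ≤ P := by exact_mod_cast (by omega : 4 ≤ P)
    exact one_div_le_one_div_of_le (by norm_num) this
  have key : 1 ≤ W k z (n1 + 1) → W k z (n1 + 1) < W k z i := by
    intro h1
    by_contra hcon
    push Not at hcon
    have h2 : ‖fld k z i‖ ^ (P - 1) ≤ ‖fld k z (n1 + 1)‖ ^ (P - 1) :=
      pow_le_pow_left₀ (norm_nonneg _) hcon _
    have h3 : ‖fld k z (n1 + 1)‖ ^ (P - 1) ≤ ‖fld k z (n1 + 1)‖ ^ P :=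
      pow_le_pow_right₀ h1 (by omega)
    linarith
  rcases Nat.lt_or_ge n1 L with hn | hn
  · exfalso
    have h0 := W_big (z := z) hk (M := n1 + 1) (fun m hm => c1 m (by omega) (by omega))
      (m := n1 + 1) (by omega) le_rfl
    have h1 : (1:ℝ) ≤ k ^ 500 := one_le_pow₀ (by linarith)
    have h2 := key (h1.trans h0)
    have h3 := W_mono' (z := z) hk (M := n1 + 1) (fun m hm => c1 m (by omega) (by omega)) hi2 le_rfl
    linarith
  · have c1' : ∀ m, m < L → k ^ ((2 : ℝ) / 3) ≤ |V k ((T k)^[m] z).2| :=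
      fun m hm => c1 m hm (by omega)
    have hD := toValD (by omega) hL h hn
    have h1 := (hD.wt_succ hk (by omega) (by positivity) hPr (le_refl (n1 + 1))).2
    have h2 := key h1
    have hi3 : i ≤ n1 := by
      rcases Nat.lt_or_ge n1 i with h3 | h3
      · exfalso
        obtain rfl : i = n1 + 1 := by omega
        exact lt_irrefl _ h2
      · exact h3
    -- replace `i` by `max i L`
    obtain ⟨i', h3, h4, h5⟩ : ∃ i', L ≤ i' ∧ i' ≤ n1 ∧ W k z i ≤ W k z i' := by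
      rcases Nat.lt_or_ge i L with h6 | h6
      · exact ⟨L, le_rfl, hn, W_mono' hk c1' h6.le le_rfl⟩
      · exact ⟨i, h6, hi3, le_rfl⟩
    refine ⟨i', h3, h4, hD, ?_⟩
    have h6 := hD.one_le hk hPr hi3
    have h7 := Real.log_le_log (by unfold W at h1; positivity) hlt.le
    rw [Real.log_pow, Real.log_pow, Nat.cast_sub (by omega)] at h7
    push_cast at h7
    have h8 := Real.log_le_log (by linarith) h5
    have hd0 : (0:ℝ) ≤ 1 - 1 / (P:ℝ) := by linarith
    have h9 : Real.log (W k z (n1 + 1)) ≤ (1 - 1 / (P:ℝ)) * Real.log (W k z i) := by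
      have h10 : (P:ℝ) * Real.log (W k z (n1 + 1)) ≤ P * ((1 - 1 / (P:ℝ)) * Real.log (W k z i)) := by
        have e : (P:ℝ) * ((1 - 1 / (P:ℝ)) * Real.log (W k z i)) = (P - 1) * Real.log (W k z i) := by
          field_simp
        rw [e]
        exact h7
      exact le_of_mul_le_mul_left h10 hP0
    exact h9.trans (mul_le_mul_of_nonneg_left h8 hd0)

/-- the near critical times -/
def crit (k : ℝ) (z : Tor) (m : ℕ) : Prop := |V k ((T k)^[m] z).2| < k ^ ((2 : ℝ) / 3)

/-- the base times -/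
def base (k : ℝ) (L N : ℕ) (z : Tor) (v : ℕ) : Prop :=
  (∃ m, m ≤ N ∧ v ≤ m + L ∧ m ≤ v + L ∧ crit k z m) ∨ (T k)^[v] z ∈ Skel.LG k L ∨
    ((T k)^[v] z).swap ∈ Skel.LG k L

theorem swap_digit (k : ℝ) (z : Tor) {v m : ℕ} (hm : m < v) :
    V k ((T k)^[m] ((T k)^[v] z).swap).2 = V k ((T k)^[v - 1 - m] z).2 := by
  rw [Rev.digit_rev k hm.le]
  have e : v - m = (v - 1 - m) + 1 := by omega
  rw [e, Rev.fst_iter_succ]

theorem rv_dist (k : ℝ) (z : Tor) {v m : ℕ} (hv : v ≤ N) :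
    rv N (Hyp.dist (fun n => Mn k n z)) (N - v) (N - v + m) =
      Hyp.dist (fun n => Mn k n z) v (v - m) := by
  unfold rv
  have e1 : N - (N - v) = v := by omega
  have e2 : N - (N - v + m) = v - m := by omega
  rw [e1, e2]

theorem log_const_le {k : ℝ} (hk : Real.exp 20 ≤ k) : 20 ≤ Real.log k := by
  rw [Real.le_log_iff_exp_le (lt_of_lt_of_le (Real.exp_pos _) hk)]
  exact hk

theorem Bk_le {k : ℝ} (hk : 100 ≤ k) : NestedInst.Bk k ≤ Real.log k + 3 := by
  have h1 : NestedInst.Bk k ≤ Real.log (20 * k) := by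
    unfold NestedInst.Bk
    apply Real.log_le_log
    · have := Real.pi_pos
      positivity
    · have := Real.pi_lt_d2
      nlinarith
  rw [Real.log_mul (by norm_num) (by linarith)] at h1
  have h2 : Real.log 20 ≤ 3 := by
    rw [Real.log_le_iff_le_exp (by norm_num)]
    have h3 := Real.exp_one_gt_d9
    have h4 : Real.exp 3 = Real.exp 1 ^ 3 := by
      rw [← Real.exp_nat_mul]
      norm_num
    rw [h4]
    have h5 : (2.7182818283:ℝ) ^ 3 ≤ Real.exp 1 ^ 3 := pow_le_pow_left₀ (by norm_num) h3.le 3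
    norm_num at h5
    linarith
  linarith

theorem data (hk : Real.exp 20 ≤ k) (hk' : 100 ≤ k) (hP : 100 ≤ P) (hP' : P ≤ 1000)
    (hL : 300000 ≤ L) (hkL : (L : ℝ) ^ 8 ≤ k) (N : ℕ) (z : Tor) :
    Data (Hyp.dist (fun n => Mn k n z)) (fun m => bt (rr k z) m) N L (NestedInst.Bk k) (1 / P)
      (1 / P / 4) 10 (Real.log 2) (Real.log k * (L / 2)) (Real.log k) (Real.log (3 + 2 * Real.pi * k))
      (crit k z) (base k L N z) (fun v n => Skel.Val k P L ((T k)^[v] z) n)
      (fun v n => Skel.Val k P L ((T k)^[v] z).swap n) := by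
  have hP0 : (0:ℝ) < P := by exact_mod_cast (by omega : 0 < P)
  have hPr : (1 : ℝ) / P ≤ 1 / 4 := by
    have : (4:ℝ) ≤ P := by exact_mod_cast (by omega : 4 ≤ P)
    exact one_div_le_one_div_of_le (by norm_num) this
  have hPr2 : (1 : ℝ) / P ≤ 1 / 50 := by
    have : (50:ℝ) ≤ P := by exact_mod_cast (by omega : 50 ≤ P)
    exact one_div_le_one_div_of_le (by norm_num) this
  have hPr3 : (1 : ℝ) / 1000 ≤ 1 / P := by
    have : (P:ℝ) ≤ 1000 := by exact_mod_cast hP'
    exact one_div_le_one_div_of_le hP0 this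
  have hPp : (0:ℝ) < 1 / P := by positivity
  have hlk := log_const_le hk
  have hLr : (300000:ℝ) ≤ L := by exact_mod_cast hL
  have hbG : 150 * Real.log k ≤ 1 / P * (Real.log k * (L / 2)) := by
    have h1 : 1 / 1000 * (Real.log k * (L / 2)) ≤ 1 / P * (Real.log k * (L / 2)) :=
      mul_le_mul_of_nonneg_right hPr3 (by positivity)
    nlinarith
  exact {
    hyp := by
      refine Hyp.isHyp (fun i => det_Mn k i z) (fun i => ?_)
      have h1 := Dd_add k z i 1
      unfold Dd Hyp.dist at h1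
      simp only at h1
      rw [h1]
      have h2 : Mn k 1 ((T k)^[i] z) = Am k ((T k)^[i] z) := by
        rw [show (1:ℕ) = 0 + 1 from rfl, Mn_succ, Mn_zero, one_mul]
      rw [h2]
      have h3 := NestedInst.norm_Am_le (k := k) (by linarith) ((T k)^[i] z)
      have h4 := Hyp.one_le_norm (det_Am k ((T k)^[i] z))
      exact Real.log_le_log (by linarith) h3
    near := fun m => by
      have h1 := Dd_add k z 0 m
      rw [Dd_eq, Nat.zero_add] at h1
      rw [h1]
      simpa using NestedInst.near_bt k m z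
    f0 := fun m => bt_nonneg (rr_pos k z) (rr_h4 k z) m
    step := fun m => by
      have hV : ∀ n, 0 ≤ dg k z n := fun n => abs_nonneg _
      have hl : ∀ n, Real.log (1 + dg k z n) ≤ Real.log (3 + 2 * Real.pi * k) := by
        intro n
        have := dg_le k (by linarith) z n
        have := hV n
        exact Real.log_le_log (by linarith) (by linarith)
      have h1 := bt_succ_le hV (rr_pos k z) (rr_h2 k z) hl m
      have h2 := bt_le_succ hV (rr_pos k z) (rr_h3 k z) hl m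
      rw [abs_le]
      constructor <;> linarith
    hκ := Real.log_pos (by linarith)
    hB := by
      have := (NestedInst.log_two_le_Bk (k := k) (by linarith)).1
      linarith
    hc0 := Real.log_nonneg one_le_two
    hb0 := hPp
    hb := hPr2
    hb'0 := by positivity
    hb' := le_rfl
    hc := by norm_num
    hG := by
      have h1 := Bk_le hk'
      have h3 : Real.log 2 < 0.6931471808 := Real.log_two_lt_d9
      linarith
    hGκ := by linarith
    hL := by omega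
    top := fun i j l t hC h1 h2 h3 => by
      have h4 : (2:ℝ) < k ^ ((2:ℝ)/3) := by
        have := beta_ge hk'
        have := ten_le hk'
        linarith
      rcases TopCrit.topcrit hC h1 h2 h3 with h | h
      · exact Or.inl (lt_of_le_of_lt h h4)
      · exact Or.inr ⟨by omega, lt_of_le_of_lt h.2 h4⟩
    f1 := fun v n hvn h => by
      rcases Nat.lt_or_ge n L with hn | hn
      · exact ⟨fun h1 => absurd h1 (by omega), fun i j h1 h2 h3 h4 => absurd h3 (by omega),
          fun j h1 h2 => absurd h1 (by omega)⟩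
      · exact cleanF_forward (toValD (by omega) (by omega) h hn) hk' (by omega) hPp hPr (by norm_num)
    f2 := fun v n hvn h m h1 h2 h3 h4 => by
      have h5 := h.cl (m - v) (by omega) (by omega)
      rw [← Function.iterate_add_apply, show m - v + v = m by omega] at h5
      exact absurd h4 (not_lt.mpr h5)
    fm := fun v n m hmn h => val_mono h hmn
    f3 := fun v n hvn h => by
      obtain ⟨n1, hn1, h1, h2⟩ := first_fail h
      rcases fail_cases h1 h2 with ⟨m, hm1, hm2, hm3⟩ | ⟨c1, h3 | h3⟩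
      · left; left
        refine ⟨m + v, by omega, by omega, by omega, ?_⟩
        unfold crit
        rw [Function.iterate_add_apply]
        exact hm3
      · obtain ⟨i, hi1, hi2, hi3⟩ := h3
        obtain ⟨i', h3, h4, hD, h5⟩ := drop_of hk' hP (by omega) h1 c1 hi1 hi2 hi3
        right
        refine ⟨n1, hn1, cleanF_forward hD hk' (by omega) hPp hPr (by norm_num),
          i', h3, h4, ?_⟩
        have h6 := dist_forward (v := v) hD hk' (by omega) hPp hPr (le_refl (n1 + 1))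
        have h7 := dist_forward (v := v) hD hk' (by omega) hPp hPr (m := i') (by omega)
        rw [show v + n1 + 1 = v + (n1 + 1) by omega]
        have h8 := mul_le_mul_of_nonneg_left h7.1 (by linarith : (0:ℝ) ≤ 1 - 1 / (P:ℝ))
        linarith [h6.2]
      · left; right; left
        exact toLG hk' (by omega) hP' (by omega) hkL h1 c1 h3.1 hP h3.2
    b1 := fun v n hnv hvN h => by
      rcases Nat.lt_or_ge n L with hn | hn
      · exact ⟨fun h1 => absurd h1 (by omega), fun i j h1 h2 h3 h4 => absurd h3 (by omega),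
          fun j h1 h2 => absurd h1 (by omega)⟩
      · exact cleanF_backward (toValD (by omega) (by omega) h hn) hnv hvN hk' (by omega) hPp hPr
          (by norm_num)
    b2 := fun v n hnv hvN h m h1 h2 h3 h4 => by
      have h5 := h.cl (v - 1 - m) (by omega) (by omega)
      rw [swap_digit k z (by omega), show v - 1 - (v - 1 - m) = m by omega] at h5
      exact absurd h4 (not_lt.mpr h5)
    bm := fun v n m hmn h => val_mono h hmn
    b3 := fun v n hnv hvN h => by
      obtain ⟨n1, hn1, h1, h2⟩ := first_fail h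
      rcases fail_cases h1 h2 with ⟨m, hm1, hm2, hm3⟩ | ⟨c1, h3 | h3⟩
      · left; left
        refine ⟨v - 1 - m, by omega, by omega, by omega, ?_⟩
        unfold crit
        rw [swap_digit k z (by omega)] at hm3
        exact hm3
      · obtain ⟨i, hi1, hi2, hi3⟩ := h3
        obtain ⟨i', h3, h4, hD, h5⟩ := drop_of hk' hP (by omega) h1 c1 hi1 hi2 hi3
        right
        refine ⟨n1, hn1, cleanF_backward hD (by omega) hvN hk' (by omega) hPp hPr
          (by norm_num), i', h3, h4, ?_⟩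
        have h6 := dist_backward (j := v) hD hk' (by omega) hPp hPr
          (le_refl (n1 + 1)) (by omega)
        have h7 := dist_backward (j := v) hD hk' (by omega) hPp hPr (m := i') (by omega)
          (by omega)
        rw [show N - v + n1 + 1 = N - v + (n1 + 1) by omega, rv_dist k z hvN, rv_dist k z hvN]
        have h8 := mul_le_mul_of_nonneg_left h7.1 (by linarith : (0:ℝ) ≤ 1 - 1 / (P:ℝ))
        linarith [h6.2]
      · left; right; right
        exact toLG hk' (by omega) hP' (by omega) hkL h1 c1 h3.1 hP h3.2 }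


theorem J_le (hk : 100 ≤ k) : Real.log (3 + 2 * Real.pi * k) / Real.log k ≤ 2 := by
  have h0 : 0 < Real.log k := Real.log_pos (by linarith)
  rw [div_le_iff₀ h0]
  have h1 : Real.log (3 + 2 * Real.pi * k) ≤ Real.log (k ^ 2) := by
    apply Real.log_le_log
    · have := Real.pi_pos
      positivity
    · have := Real.pi_lt_d2
      nlinarith
  rw [Real.log_pow] at h1
  push_cast at h1
  exact h1

theorem mem_Ng_of_crit (hL : 0 < L) {m : ℕ} (h : crit k z m) : (T k)^[m] z ∈ Skel.Ng k L := by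
  left; left
  exact ⟨0, hL, h⟩

open Classical in
theorem card_base_le (hL : 0 < L) :
    #{v ∈ range (N + 1) | base k L N z v} ≤ (2 * L + 1) * Skel.vs k N z (fun _ => Skel.Ng k L) := by
  set M : Finset ℕ := {v ∈ range (N + 1) | (T k)^[v] z ∈ Skel.Ng k L} with hM
  have hsub : ({v ∈ range (N + 1) | base k L N z v} : Finset ℕ) ⊆
      M.biUnion (fun m => Finset.Icc (m - L) (m + L)) := by
    intro v hv
    rw [mem_filter, mem_range] at hv
    rw [mem_biUnion]
    rcases hv.2 with ⟨m, h1, h2, h3, h4⟩ | h | h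
    · refine ⟨m, ?_, ?_⟩
      · rw [hM, mem_filter, mem_range]
        exact ⟨by omega, mem_Ng_of_crit hL h4⟩
      · rw [mem_Icc]
        omega
    · refine ⟨v, ?_, ?_⟩
      · rw [hM, mem_filter, mem_range]
        exact ⟨hv.1, Or.inr (Or.inl h)⟩
      · rw [mem_Icc]
        omega
    · refine ⟨v, ?_, ?_⟩
      · rw [hM, mem_filter, mem_range]
        exact ⟨hv.1, Or.inr (Or.inr h)⟩
      · rw [mem_Icc]
        omega
  have h1 := (Finset.card_le_card hsub).trans Finset.card_biUnion_le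
  have h2 : ∑ m ∈ M, (Finset.Icc (m - L) (m + L)).card ≤ ∑ m ∈ M, (2 * L + 1) := by
    apply Finset.sum_le_sum
    intro m _
    rw [Nat.card_Icc]
    omega
  rw [Finset.sum_const, smul_eq_mul, mul_comm] at h2
  exact h1.trans h2

open Classical in
theorem card_le_vs_add {S1 S2 : ℕ → Set Tor} {A : Finset ℕ}
    (h : ∀ v ∈ A, v ∈ range (N + 1) ∧ ((T k)^[v] z ∈ S1 v ∨ (T k)^[v] z ∈ S2 v)) :
    #A ≤ Skel.vs k N z S1 + Skel.vs k N z S2 := by
  unfold Skel.vs
  refine le_trans (Finset.card_le_card ?_) (Finset.card_union_le _ _)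
  intro v hv
  obtain ⟨h1, h2⟩ := h v hv
  rw [mem_union, mem_filter, mem_filter]
  rcases h2 with h2 | h2
  · exact Or.inl ⟨h1, h2⟩
  · exact Or.inr ⟨h1, h2⟩

open Classical in
theorem card_double_le :
    #{v ∈ range (N + 1) | ¬ Skel.Val k 100 L ((T k)^[v] z) (N - v) ∧
      ¬ Skel.Val k 100 L ((T k)^[v] z).swap v} ≤
    Skel.vs k N z (fun v => Skel.Rc k L (N - v) ∩ Skel.bw (Skel.Rc k L v)) +
      Skel.vs k N z (fun _ => Skel.Ng k L) := by
  apply card_le_vs_add
  intro v hv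
  rw [mem_filter] at hv
  obtain ⟨hv1, hv2, hv3⟩ := hv
  refine ⟨hv1, ?_⟩
  by_cases hN : (T k)^[v] z ∈ Skel.Ng k L
  · exact Or.inr hN
  · left
    unfold Skel.Ng at hN
    simp only [Set.mem_union, not_or] at hN
    obtain ⟨⟨h1, h2⟩, h3, h4⟩ := hN
    exact ⟨⟨h1, h3, hv2⟩, ⟨h2, h4, hv3⟩⟩

open Classical in
/-- **V1** -/
theorem v1 : Skel.V1 := by
  refine ⟨300000, fun L hL => ⟨0, 6 * (2 * L + 1) + 48012,
    max (Real.exp 20) (max 100 ((L : ℝ) ^ 8)), fun k hk N z S hS => ?_⟩⟩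
  have hk1 : Real.exp 20 ≤ k := (le_max_left _ _).trans hk
  have hk2 : 100 ≤ k := ((le_max_left _ _).trans (le_max_right _ _)).trans hk
  have hk3 : (L : ℝ) ^ 8 ≤ k := ((le_max_right _ _).trans (le_max_right _ _)).trans hk
  have X1 := data (P := 1000) hk1 hk2 (by norm_num) (by norm_num) hL hk3 N z
  have X2 := data (P := 100) hk1 hk2 (by norm_num) (by norm_num) hL hk3 N z
  -- choose the feet
  have hch : ∀ p ∈ S, ∃ ij : ℕ × ℕ, Close.Cmp (Close.bz k z) (Real.log k) N ij.1 p.1 ij.2 p.2 := by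
    intro p hp
    obtain ⟨i, j, h⟩ := (hS p hp).1
    exact ⟨(i, j), h⟩
  choose! g hg using hch
  set F : ℕ × ℕ → ℕ × ℕ × ℤ := fun p => ((g p).1, (g p).2, (p.2 : ℤ)) with hF
  have hinj : Set.InjOn F S := by
    intro p hp q hq h
    simp only [hF, Prod.mk.injEq, Nat.cast_inj] at h
    obtain ⟨h1, h2, h3⟩ := h
    have cp := hg p hp
    have cq := hg q hq
    rw [← h1, ← h2] at cq
    rcases lt_trichotomy p.1 q.1 with h4 | h4 | h4
    · have := cq.first p.1 cp.it h4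
      have := cp.top q.1 cq.it cq.tj
      linarith
    · exact Prod.ext h4 h3
    · have := cp.first q.1 cq.it h4
      have := cq.top p.1 cp.it cp.tj
      linarith
  have hcount := X1.count X2 (S.image F) (by
    intro c hc
    rw [mem_image] at hc
    obtain ⟨p, hp, rfl⟩ := hc
    have C := hg p hp
    refine ⟨⟨by have := C.it; have := C.tj; simp only [hF]; omega, C.jN, ?_, ?_, ?_⟩, p.1, C.it, C.tj,
      C.top, ?_⟩
    · simpa [hF, Close.bz] using C.left
    · intro m h1 h2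
      simpa [hF, Close.bz] using C.above m h1 h2
    · simpa [hF, Close.bz] using C.right
    · have h1 := (hS p hp).2.2 _ _ C
      unfold Skel.Fresh at h1
      by_cases h2 : Skel.Val k 1000 L ((T k)^[(g p).1] z) (p.1 - (g p).1)
      · right
        intro h3
        exact h1 ⟨h2, h3⟩
      · exact Or.inl h2)
  rw [Finset.card_image_of_injOn hinj] at hcount
  have hJ := J_le hk2
  have hJ0 : 0 ≤ Real.log (3 + 2 * Real.pi * k) / Real.log k := by
    apply div_nonneg (Real.log_nonneg _) (Real.log_nonneg (by linarith))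
    have := Real.pi_pos
    nlinarith
  have hb := card_base_le (k := k) (N := N) (z := z) (L := L) (by omega)
  have hd := card_double_le (k := k) (N := N) (z := z) (L := L)
  set Y := Skel.vs k N z (fun _ => Skel.Ng k L) with hY
  set X := Skel.vs k N z (fun v => Skel.Rc k L (N - v) ∩ Skel.bw (Skel.Rc k L v)) with hX
  have hb' : ((((range (N + 1)).filter (base k L N z)).card : ℕ) : ℝ) ≤ (2 * L + 1) * Y := by
    exact_mod_cast hb
  have hd' : ((((range (N + 1)).filter (fun v => ¬ Skel.Val k 100 L ((T k)^[v] z) (N - v) ∧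
      ¬ Skel.Val k 100 L ((T k)^[v] z).swap v)).card : ℕ) : ℝ) ≤ X + Y := by
    exact_mod_cast hd
  have hfin : (S.card : ℝ) ≤ 6 * ((2 * L + 1) * Y) + 48012 * (X + Y) := by
    refine hcount.trans ?_
    have e1 : 2 * (Real.log (3 + 2 * Real.pi * k) / Real.log k + 1) ≤ 6 := by linarith
    have e2 : 2 * (8 / (1 / ((1000 : ℕ) : ℝ)) + 2) * (Real.log (3 + 2 * Real.pi * k) / Real.log k + 1) ≤
        48012 := by
      push_cast
      norm_num
      linarith
    refine add_le_add ?_ ?_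
    · exact mul_le_mul e1 hb' (by positivity) (by norm_num)
    · exact mul_le_mul e2 hd' (by positivity) (by norm_num)
  have hfin2 : (S.card : ℝ) ≤ ((6 * (2 * L + 1) + 48012 : ℕ) : ℝ) * ((X + Y : ℕ) : ℝ) := by
    refine hfin.trans ?_
    push_cast
    have hX0 : (0:ℝ) ≤ X := Nat.cast_nonneg _
    have hY0 : (0:ℝ) ≤ Y := Nat.cast_nonneg _
    have hL0 : (0:ℝ) ≤ L := Nat.cast_nonneg _
    have hXL : (0:ℝ) ≤ X * L := mul_nonneg hX0 hL0
    nlinarith
  exact_mod_cast hfin2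

end Crest.Agent.R128.V1
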