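import Mathlib
import Crest.Agent.R128.BVP3
import Crest.Agent.R128.TreeVal

-- ▼ part R128/ValSum
section

/-!
Row 128, node LAM0-VAL, part 1: the three numerical sums along a VALID field
(`W m = b ^ (u m)`, `δ = 1/100`).
-/

set_option autoImplicit false

open Finset

namespace Crest.Agent.R128.Val

/-- geometric sum bound -/
theorem geom_le {b : ℝ} (hb : 16 ≤ b) (s : Finset ℕ) (m : ℕ) :
    ∑ j ∈ s with m ≤ j, (b⁻¹) ^ (j - m) ≤ 16 / 15 := by
  have hb0 : 0 < b := by linarith
  have h1 : b⁻¹ ≤ 1 / 16 := by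
    rw [inv_eq_one_div]
    exact one_div_le_one_div_of_le (by norm_num) hb
  have h0 : 0 ≤ b⁻¹ := by positivity
  have hlt : b⁻¹ < 1 := by linarith
  have hinj : ∑ j ∈ s with m ≤ j, (b⁻¹) ^ (j - m) =
      ∑ i ∈ (s.filter (fun j => m ≤ j)).image (fun j => j - m), (b⁻¹) ^ i := by
    rw [Finset.sum_image]
    intro x hx y hy hxy
    simp only [Finset.coe_filter, Set.mem_ofPred_eq] at hx hy
    simp only at hxy
    omega
  rw [hinj]
  have hs : Summable (fun i : ℕ => (b⁻¹) ^ i) := summable_geometric_of_lt_one h0 hlt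
  refine (hs.sum_le_tsum _ (fun i _ => by positivity)).trans ?_
  rw [tsum_geometric_of_lt_one h0 hlt]
  rw [inv_eq_one_div, div_le_div_iff₀ (by linarith) (by norm_num)]
  linarith

variable {b : ℝ} {n : ℕ} {u lam : ℕ → ℝ}

/-- the hypotheses on the exponents -/
structure Expo (b : ℝ) (n : ℕ) (u : ℕ → ℝ) : Prop where
  hb : 16 ≤ b
  hn : 35 ≤ n
  u0 : u 0 = 0
  up : ∀ m < n, u (m + 1) ≤ u m + 2
  dn : ∀ m < n, u m ≤ u (m + 1) + 2
  cl : ∀ m < 35, u m + 1 ≤ u (m + 1)
  v2 : ∀ i j, i ≤ j → j ≤ n → 99 / 100 * u i - 1 / 10 ≤ u j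
  v3 : ∑ j ∈ range (n + 1), b ^ (-(1 / 100 * u j)) ≤ b

theorem Expo.b0 (E : Expo b n u) : 0 < b := by linarith [E.hb]

theorem Expo.clean (E : Expo b n u) {i j : ℕ} (hij : i ≤ j) (hj : j ≤ 35) :
    u i + ((j - i : ℕ) : ℝ) ≤ u j := by
  induction j, hij using Nat.le_induction with
  | base => simp
  | succ j hij ih =>
    have h1 := ih (by omega)
    have h2 := E.cl j (by omega)
    have h3 : ((j + 1 - i : ℕ) : ℝ) = ((j - i : ℕ) : ℝ) + 1 := by
      rw [Nat.sub_add_comm hij]; push_cast; ring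
    rw [h3]; linarith

theorem Expo.ub (E : Expo b n u) {m : ℕ} (hm : m ≤ n) : u m ≤ 2 * m := by
  induction m with
  | zero => simp [E.u0]
  | succ m ih =>
    have := E.up m (by omega)
    have := ih (by omega)
    push_cast
    linarith

theorem Expo.u30 (E : Expo b n u) : 30 ≤ u 30 := by
  have := E.clean (Nat.zero_le 30) (by norm_num)
  rw [E.u0] at this
  norm_num at this
  exact this

theorem Expo.big (E : Expo b n u) {m : ℕ} (h30 : 30 ≤ m) (hm : m ≤ n) : 296 / 10 ≤ u m := by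
  have := E.v2 30 m h30 hm
  have := E.u30
  linarith

theorem Expo.nonneg (E : Expo b n u) {m : ℕ} (hm : m ≤ n) : 0 ≤ u m := by
  rcases Nat.lt_or_ge m 30 with h | h
  · have := E.clean (Nat.zero_le m) (by omega)
    rw [E.u0] at this
    have : (0 : ℝ) ≤ ((m - 0 : ℕ) : ℝ) := Nat.cast_nonneg _
    linarith
  · have := E.big h hm
    linarith

theorem Expo.sum_le (E : Expo b n u) (s : Finset ℕ) (hs : s ⊆ range (n + 1)) :
    ∑ j ∈ s, b ^ (-(1 / 100 * u j)) ≤ b := by
  refine le_trans ?_ E.v3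
  exact Finset.sum_le_sum_of_subset_of_nonneg hs fun j _ _ => Real.rpow_nonneg E.b0.le _

theorem Expo.mono (E : Expo b n u) {x y : ℝ} (h : x ≤ y) : b ^ x ≤ b ^ y :=
  Real.rpow_le_rpow_of_exponent_le (by linarith [E.hb]) h

/-- the two upper bounds on `lam` -/
structure LamB (b : ℝ) (n : ℕ) (u lam : ℕ → ℝ) : Prop where
  pos : ∀ m ≤ n, 0 ≤ lam m
  c : ∀ m ≤ 30, lam m ≤ 3 * b ^ (-u m)
  g : ∀ m ≤ n, lam m ≤ 2 * b ^ (6 - 97 / 100 * u m)

theorem Expo.pow_inv (E : Expo b n u) (k : ℕ) : (b⁻¹) ^ k = b ^ (-(k : ℝ)) := by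
  rw [Real.rpow_neg E.b0.le, Real.rpow_natCast, inv_pow]

theorem Expo.small (E : Expo b n u) {x : ℝ} {k : ℕ} (h : x ≤ -(k : ℝ)) :
    b ^ x ≤ (1 / 16) ^ k := by
  refine (E.mono h).trans ?_
  rw [← E.pow_inv]
  apply pow_le_pow_left₀ (by have := E.b0; positivity)
  rw [inv_eq_one_div]
  exact one_div_le_one_div_of_le (by norm_num) E.hb

theorem sum2 (E : Expo b n u) (L : LamB b n u lam) :
    ∑ j ∈ Icc 1 n, lam j ^ 2 * b ^ u (j - 1) ≤ 11 * b ^ (-2 : ℝ) := by
  have hb0 := E.b0
  have hpt : ∀ j ∈ Icc 1 n, lam j ^ 2 * b ^ u (j - 1) ≤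
      9 * b ^ (-2 : ℝ) * (if 1 ≤ j then (b⁻¹) ^ (j - 1) else 0) +
        4 * b ^ (-13 : ℝ) * b ^ (-(1 / 100 * u j)) := by
    intro j hj
    rw [Finset.mem_Icc] at hj
    rw [if_pos hj.1]
    have hl := L.pos j hj.2
    rcases Nat.lt_or_ge 30 j with h | h
    · have h1 := L.g j hj.2
      have h2 : lam j ^ 2 ≤ (2 * b ^ (6 - 97 / 100 * u j)) ^ 2 := pow_le_pow_left₀ hl h1 2
      have h3 : b ^ u (j - 1) ≤ b ^ (u j + 2) := by
        apply E.mono
        have := E.dn (j - 1) (by omega)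
        rwa [Nat.sub_add_cancel hj.1] at this
      have h4 : (2 * b ^ (6 - 97 / 100 * u j)) ^ 2 * b ^ (u j + 2) =
          4 * b ^ (14 - 93 / 100 * u j) * b ^ (-(1 / 100 * u j)) := by
        rw [mul_pow, ← Real.rpow_natCast (b ^ _) 2, ← Real.rpow_mul hb0.le, mul_assoc,
          ← Real.rpow_add hb0, mul_assoc, ← Real.rpow_add hb0]
        congr 1
        · norm_num
        · congr 1
          push_cast
          ring
      have h5 : b ^ (14 - 93 / 100 * u j) ≤ b ^ (-13 : ℝ) := by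
        apply E.mono
        have := E.big h.le hj.2
        linarith
      calc lam j ^ 2 * b ^ u (j - 1) ≤ (2 * b ^ (6 - 97 / 100 * u j)) ^ 2 * b ^ (u j + 2) := by
            gcongr
        _ = 4 * b ^ (14 - 93 / 100 * u j) * b ^ (-(1 / 100 * u j)) := h4
        _ ≤ 4 * b ^ (-13 : ℝ) * b ^ (-(1 / 100 * u j)) := by gcongr
        _ ≤ _ := by
          have : 0 ≤ 9 * b ^ (-2 : ℝ) * (b⁻¹) ^ (j - 1) := by positivity
          linarith
    · have h1 := L.c j h
      have h2 : lam j ^ 2 ≤ (3 * b ^ (-u j)) ^ 2 := pow_le_pow_left₀ hl h1 2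
      have h4 : (3 * b ^ (-u j)) ^ 2 * b ^ u (j - 1) = 9 * b ^ (u (j - 1) - 2 * u j) := by
        rw [mul_pow, ← Real.rpow_natCast (b ^ _) 2, ← Real.rpow_mul hb0.le, mul_assoc,
          ← Real.rpow_add hb0]
        congr 1
        · norm_num
        · congr 1
          push_cast
          ring
      have h5 : b ^ (u (j - 1) - 2 * u j) ≤ b ^ (-2 : ℝ) * (b⁻¹) ^ (j - 1) := by
        rw [E.pow_inv, ← Real.rpow_add hb0]
        apply E.mono
        have h6 := E.clean (Nat.zero_le j) (by omega)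
        have h7 := E.cl (j - 1) (by omega)
        rw [Nat.sub_add_cancel hj.1] at h7
        rw [E.u0] at h6
        have h8 : ((j - 1 : ℕ) : ℝ) = (j : ℝ) - 1 := by
          rw [Nat.cast_sub hj.1]; simp
        rw [h8]
        simp only [Nat.sub_zero] at h6
        linarith
      calc lam j ^ 2 * b ^ u (j - 1) ≤ (3 * b ^ (-u j)) ^ 2 * b ^ u (j - 1) := by gcongr
        _ = 9 * b ^ (u (j - 1) - 2 * u j) := h4
        _ ≤ 9 * (b ^ (-2 : ℝ) * (b⁻¹) ^ (j - 1)) := by gcongr
        _ ≤ _ := by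
          have : 0 ≤ 4 * b ^ (-13 : ℝ) * b ^ (-(1 / 100 * u j)) := by positivity
          linarith
  refine (Finset.sum_le_sum hpt).trans ?_
  rw [Finset.sum_add_distrib, ← Finset.mul_sum, ← Finset.mul_sum, ← Finset.sum_filter]
  have g1 := geom_le E.hb (Icc 1 n) 1
  have g2 := E.sum_le (Icc 1 n) (by
    intro j hj
    rw [Finset.mem_Icc] at hj
    rw [Finset.mem_range]
    omega)
  have g3 : b ^ (-13 : ℝ) * b = b ^ (-12 : ℝ) := by
    conv_lhs => rw [← Real.rpow_one b, ← Real.rpow_mul hb0.le, ← Real.rpow_add hb0]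
    norm_num
  have g4 : b ^ (-12 : ℝ) ≤ b ^ (-2 : ℝ) * (1 / 16) := by
    have : b ^ (-12 : ℝ) = b ^ (-2 : ℝ) * b ^ (-10 : ℝ) := by
      rw [← Real.rpow_add hb0]; norm_num
    rw [this]
    have h12 : b ^ (-10 : ℝ) ≤ (1 / 16) ^ 1 := E.small (by norm_num)
    rw [pow_one] at h12
    gcongr
  have p2 : 0 ≤ b ^ (-2 : ℝ) := by positivity
  have p15 : 0 ≤ b ^ (-13 : ℝ) := by positivity
  nlinarith [mul_le_mul_of_nonneg_left g1 p2, mul_le_mul_of_nonneg_left g2 p15]

theorem sum3 (E : Expo b n u) (L : LamB b n u lam) {m : ℕ} (hm : m ∈ Icc 1 n) :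
    b ^ u (m - 1) * b ^ u m * ∑ j ∈ Ioc m n, lam j ^ 3 ≤ 30 * b ^ (-3 : ℝ) := by
  have hb0 := E.b0
  rw [Finset.mem_Icc] at hm
  have hpt : ∀ j ∈ Ioc m n, b ^ u (m - 1) * b ^ u m * lam j ^ 3 ≤
      27 * b ^ (-3 : ℝ) * (if m + 1 ≤ j then (b⁻¹) ^ (j - (m + 1)) else 0) +
        8 * b ^ (-5 : ℝ) * b ^ (-(1 / 100 * u j)) := by
    intro j hj
    rw [Finset.mem_Ioc] at hj
    rw [if_pos (by omega)]
    have hl := L.pos j hj.2
    rcases Nat.lt_or_ge 30 j with h | h
    · have h1 := L.g j hj.2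
      have h2 : lam j ^ 3 ≤ (2 * b ^ (6 - 97 / 100 * u j)) ^ 3 := pow_le_pow_left₀ hl h1 3
      have h3 : b ^ u (m - 1) ≤ b ^ (u m + 2) := by
        apply E.mono
        have := E.dn (m - 1) (by omega)
        rwa [Nat.sub_add_cancel hm.1] at this
      have h4 : b ^ (u m + 2) * b ^ u m * (2 * b ^ (6 - 97 / 100 * u j)) ^ 3 =
          8 * b ^ (20 + 2 * u m - 29 / 10 * u j) * b ^ (-(1 / 100 * u j)) := by
        rw [mul_pow, ← Real.rpow_natCast (b ^ (6 - 97 / 100 * u j)) 3, ← Real.rpow_mul hb0.le,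
          ← Real.rpow_add hb0]
        have : b ^ (u m + 2 + u m) * (2 ^ 3 * b ^ ((6 - 97 / 100 * u j) * ((3 : ℕ) : ℝ))) =
          8 * (b ^ (u m + 2 + u m) * b ^ ((6 - 97 / 100 * u j) * ((3 : ℕ) : ℝ))) := by ring
        rw [this, ← Real.rpow_add hb0, mul_assoc, ← Real.rpow_add hb0]
        congr 2
        push_cast
        ring
      have h5 : b ^ (20 + 2 * u m - 29 / 10 * u j) ≤ b ^ (-5 : ℝ) := by
        apply E.mono
        have h6 := E.big h.le hj.2
        have h7 := E.v2 m j hj.1.le hj.2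
        linarith
      calc b ^ u (m - 1) * b ^ u m * lam j ^ 3
          ≤ b ^ (u m + 2) * b ^ u m * (2 * b ^ (6 - 97 / 100 * u j)) ^ 3 := by gcongr
        _ = 8 * b ^ (20 + 2 * u m - 29 / 10 * u j) * b ^ (-(1 / 100 * u j)) := h4
        _ ≤ 8 * b ^ (-5 : ℝ) * b ^ (-(1 / 100 * u j)) := by gcongr
        _ ≤ _ := by
          have : 0 ≤ 27 * b ^ (-3 : ℝ) * (b⁻¹) ^ (j - (m + 1)) := by positivity
          linarith
    · have h1 := L.c j h
      have h2 : lam j ^ 3 ≤ (3 * b ^ (-u j)) ^ 3 := pow_le_pow_left₀ hl h1 3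
      have h4 : b ^ u (m - 1) * b ^ u m * (3 * b ^ (-u j)) ^ 3 =
          27 * b ^ (u (m - 1) + u m - 3 * u j) := by
        rw [mul_pow, ← Real.rpow_natCast (b ^ (-u j)) 3, ← Real.rpow_mul hb0.le,
          ← Real.rpow_add hb0]
        have : b ^ (u (m - 1) + u m) * (3 ^ 3 * b ^ ((-u j) * ((3 : ℕ) : ℝ))) =
          27 * (b ^ (u (m - 1) + u m) * b ^ ((-u j) * ((3 : ℕ) : ℝ))) := by ring
        rw [this, ← Real.rpow_add hb0]
        congr 2
        push_cast
        ring
      have h5 : b ^ (u (m - 1) + u m - 3 * u j) ≤ b ^ (-3 : ℝ) * (b⁻¹) ^ (j - (m + 1)) := by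
        rw [E.pow_inv, ← Real.rpow_add hb0]
        apply E.mono
        have h6 := E.clean hj.1.le (by omega : j ≤ 35)
        have h7 := E.cl (m - 1) (by omega)
        rw [Nat.sub_add_cancel hm.1] at h7
        have h8 : ((j - (m + 1) : ℕ) : ℝ) = (j : ℝ) - (m : ℝ) - 1 := by
          rw [Nat.cast_sub (by omega)]; push_cast; ring
        have h9 : ((j - m : ℕ) : ℝ) = (j : ℝ) - (m : ℝ) := by
          rw [Nat.cast_sub (by omega)]
        have h10 := E.nonneg hm.2
        have h11 : (m : ℝ) + 1 ≤ (j : ℝ) := by exact_mod_cast hj.1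
        rw [h8]
        rw [h9] at h6
        linarith
      calc b ^ u (m - 1) * b ^ u m * lam j ^ 3
          ≤ b ^ u (m - 1) * b ^ u m * (3 * b ^ (-u j)) ^ 3 := by gcongr
        _ = 27 * b ^ (u (m - 1) + u m - 3 * u j) := h4
        _ ≤ 27 * (b ^ (-3 : ℝ) * (b⁻¹) ^ (j - (m + 1))) := by gcongr
        _ ≤ _ := by
          have : 0 ≤ 8 * b ^ (-5 : ℝ) * b ^ (-(1 / 100 * u j)) := by positivity
          linarith
  rw [Finset.mul_sum]
  refine (Finset.sum_le_sum hpt).trans ?_
  rw [Finset.sum_add_distrib, ← Finset.mul_sum, ← Finset.mul_sum, ← Finset.sum_filter]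
  have g1 := geom_le E.hb (Ioc m n) (m + 1)
  have g2 := E.sum_le (Ioc m n) (by
    intro j hj
    rw [Finset.mem_Ioc] at hj
    rw [Finset.mem_range]
    omega)
  have g3 : b ^ (-5 : ℝ) * b = b ^ (-4 : ℝ) := by
    conv_lhs => rw [← Real.rpow_one b, ← Real.rpow_mul hb0.le, ← Real.rpow_add hb0]
    norm_num
  have g4 : b ^ (-4 : ℝ) ≤ b ^ (-3 : ℝ) * (1 / 16) := by
    have : b ^ (-4 : ℝ) = b ^ (-3 : ℝ) * b ^ (-1 : ℝ) := by
      rw [← Real.rpow_add hb0]; norm_num
    rw [this]
    have h12 : b ^ (-1 : ℝ) ≤ (1 / 16) ^ 1 := E.small (by norm_num)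
    have h13 : b ^ (-1 : ℝ) ≤ 1 / 16 := h12.trans (by norm_num)
    gcongr
  have p3 : 0 ≤ b ^ (-3 : ℝ) := by positivity
  have p8 : 0 ≤ b ^ (-5 : ℝ) := by positivity
  nlinarith [mul_le_mul_of_nonneg_left g1 p3, mul_le_mul_of_nonneg_left g2 p8]

theorem sum1 (E : Expo b n u) (L : LamB b n u lam) {m : ℕ} (hm : m ∈ Icc 1 n) :
    lam m * ∑ j ∈ Icc 1 m, (b ^ u (j - 1)) ^ 2 * lam j ≤ 10 * b ^ (-2 : ℝ) * b ^ u (m - 1) := by
  have hb0 := E.b0
  rw [Finset.mem_Icc] at hm
  have hlm := L.pos m hm.2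
  have hsq : ∀ x : ℝ, (b ^ x) ^ 2 = b ^ (2 * x) := by
    intro x
    rw [← Real.rpow_natCast (b ^ x) 2, ← Real.rpow_mul hb0.le]
    congr 1
    push_cast
    ring
  have hS0 : 0 ≤ ∑ j ∈ Icc 1 m, (b ^ u (j - 1)) ^ 2 * lam j := by
    apply Finset.sum_nonneg
    intro j hj
    rw [Finset.mem_Icc] at hj
    exact mul_nonneg (sq_nonneg _) (L.pos j (by omega))
  rcases Nat.lt_or_ge 30 m with h | h
  · have hpt : ∀ j ∈ Icc 1 m, (b ^ u (j - 1)) ^ 2 * lam j ≤
        2 * b ^ (1011 / 100 + 10506 / 10000 * u m) * b ^ (-(1 / 100 * u j)) := by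
      intro j hj
      rw [Finset.mem_Icc] at hj
      have h1 := L.g j (by omega)
      have h2 : b ^ (2 * u (j - 1)) ≤ b ^ (2 * u j + 4) := by
        apply E.mono
        have := E.dn (j - 1) (by omega)
        rw [Nat.sub_add_cancel hj.1] at this
        linarith
      have h3 := L.pos j (by omega)
      have h4 : b ^ (2 * u j + 4) * (2 * b ^ (6 - 97 / 100 * u j)) =
          2 * b ^ (10 + 104 / 100 * u j) * b ^ (-(1 / 100 * u j)) := by
        have : b ^ (2 * u j + 4) * (2 * b ^ (6 - 97 / 100 * u j)) =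
          2 * (b ^ (2 * u j + 4) * b ^ (6 - 97 / 100 * u j)) := by ring
        rw [this, ← Real.rpow_add hb0, mul_assoc, ← Real.rpow_add hb0]
        congr 2
        ring
      have h5 : b ^ (10 + 104 / 100 * u j) ≤ b ^ (1011 / 100 + 10506 / 10000 * u m) := by
        apply E.mono
        have h6 := E.v2 j m hj.2 hm.2
        have h7 := E.nonneg hm.2
        have h8 := E.nonneg (by omega : j ≤ n)
        linarith
      rw [hsq]
      calc b ^ (2 * u (j - 1)) * lam j ≤ b ^ (2 * u j + 4) * (2 * b ^ (6 - 97 / 100 * u j)) := by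
            gcongr
        _ = 2 * b ^ (10 + 104 / 100 * u j) * b ^ (-(1 / 100 * u j)) := h4
        _ ≤ _ := by gcongr
    have hS : ∑ j ∈ Icc 1 m, (b ^ u (j - 1)) ^ 2 * lam j ≤
        2 * b ^ (1111 / 100 + 10506 / 10000 * u m) := by
      refine (Finset.sum_le_sum hpt).trans ?_
      rw [← Finset.mul_sum]
      have g2 := E.sum_le (Icc 1 m) (by
        intro j hj
        rw [Finset.mem_Icc] at hj
        rw [Finset.mem_range]
        omega)
      have g3 : b ^ (1011 / 100 + 10506 / 10000 * u m) * b = b ^ (1111 / 100 + 10506 / 10000 * u m) := by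
        nth_rewrite 2 [← Real.rpow_one b]
        rw [← Real.rpow_add hb0]
        congr 1
        ring
      calc 2 * b ^ (1011 / 100 + 10506 / 10000 * u m) * ∑ j ∈ Icc 1 m, b ^ (-(1 / 100 * u j))
          ≤ 2 * b ^ (1011 / 100 + 10506 / 10000 * u m) * b := by gcongr
        _ = 2 * b ^ (1111 / 100 + 10506 / 10000 * u m) := by rw [mul_assoc, g3]
    have h1 := L.g m hm.2
    have h6 : b ^ (1711 / 100 + 806 / 10000 * u m) ≤ b ^ (-2 : ℝ) * b ^ u (m - 1) := by
      rw [← Real.rpow_add hb0]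
      apply E.mono
      have h7 := E.big h.le hm.2
      have h8 := E.up (m - 1) (by omega)
      rw [Nat.sub_add_cancel hm.1] at h8
      linarith
    calc lam m * ∑ j ∈ Icc 1 m, (b ^ u (j - 1)) ^ 2 * lam j
        ≤ (2 * b ^ (6 - 97 / 100 * u m)) * (2 * b ^ (1111 / 100 + 10506 / 10000 * u m)) :=
          mul_le_mul h1 hS hS0 (by positivity)
      _ = 4 * b ^ (1711 / 100 + 806 / 10000 * u m) := by
          have : (2 * b ^ (6 - 97 / 100 * u m)) * (2 * b ^ (1111 / 100 + 10506 / 10000 * u m)) =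
            4 * (b ^ (6 - 97 / 100 * u m) * b ^ (1111 / 100 + 10506 / 10000 * u m)) := by ring
          rw [this, ← Real.rpow_add hb0]
          congr 2
          ring
      _ ≤ 4 * (b ^ (-2 : ℝ) * b ^ u (m - 1)) := by gcongr
      _ ≤ 10 * b ^ (-2 : ℝ) * b ^ u (m - 1) := by
          have : 0 ≤ b ^ (-2 : ℝ) * b ^ u (m - 1) := by positivity
          linarith
  · have hpt : ∀ j ∈ Icc 1 m, (b ^ u (j - 1)) ^ 2 * lam j ≤
        3 * b ^ (u (m - 1) - 1) * (b⁻¹) ^ (m - j) := by
      intro j hj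
      rw [Finset.mem_Icc] at hj
      have h1 := L.c j (by omega)
      rw [hsq]
      calc b ^ (2 * u (j - 1)) * lam j ≤ b ^ (2 * u (j - 1)) * (3 * b ^ (-u j)) := by gcongr
        _ = 3 * b ^ (2 * u (j - 1) - u j) := by
          have : b ^ (2 * u (j - 1)) * (3 * b ^ (-u j)) =
            3 * (b ^ (2 * u (j - 1)) * b ^ (-u j)) := by ring
          rw [this, ← Real.rpow_add hb0]
          congr 1
        _ ≤ 3 * (b ^ (u (m - 1) - 1) * (b⁻¹) ^ (m - j)) := by
          rw [E.pow_inv, ← Real.rpow_add hb0]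
          have : b ^ (2 * u (j - 1) - u j) ≤ b ^ (u (m - 1) - 1 + -((m - j : ℕ) : ℝ)) := by
            apply E.mono
            have h7 := E.cl (j - 1) (by omega)
            rw [Nat.sub_add_cancel hj.1] at h7
            have h8 := E.clean (by omega : j - 1 ≤ m - 1) (by omega)
            have h9 : ((m - 1 - (j - 1) : ℕ) : ℝ) = ((m - j : ℕ) : ℝ) := by
              congr 1
              omega
            rw [h9] at h8
            linarith
          gcongr
        _ = _ := by ring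
    have hS : ∑ j ∈ Icc 1 m, (b ^ u (j - 1)) ^ 2 * lam j ≤ 3 * b ^ (u (m - 1) - 1) * (16 / 15) := by
      refine (Finset.sum_le_sum hpt).trans ?_
      rw [← Finset.mul_sum]
      have e : ∑ j ∈ Icc 1 m, (b⁻¹) ^ (m - j) ≤ 16 / 15 := by
        have e1 : ∑ j ∈ Icc 1 m, (b⁻¹) ^ (m - j) =
            ∑ i ∈ (Icc 1 m).image (fun j => m - j), (b⁻¹) ^ i := by
          rw [Finset.sum_image]
          intro x hx y hy hxy
          simp only [Finset.coe_Icc, Set.mem_Icc] at hx hy
          simp only at hxy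
          omega
        rw [e1]
        have := geom_le E.hb ((Icc 1 m).image (fun j => m - j)) 0
        simpa using this
      gcongr
    have h1 := L.c m h
    have h7 := E.cl (m - 1) (by omega)
    rw [Nat.sub_add_cancel hm.1] at h7
    calc lam m * ∑ j ∈ Icc 1 m, (b ^ u (j - 1)) ^ 2 * lam j
        ≤ (3 * b ^ (-u m)) * (3 * b ^ (u (m - 1) - 1) * (16 / 15)) :=
          mul_le_mul h1 hS hS0 (by positivity)
      _ = 9 * (16 / 15) * b ^ (u (m - 1) - 1 - u m) := by
          have : (3 * b ^ (-u m)) * (3 * b ^ (u (m - 1) - 1) * (16 / 15)) =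
            9 * (16 / 15) * (b ^ (-u m) * b ^ (u (m - 1) - 1)) := by ring
          rw [this, ← Real.rpow_add hb0]
          congr 2
          ring
      _ ≤ 9 * (16 / 15) * b ^ (-2 : ℝ) := by
          have : b ^ (u (m - 1) - 1 - u m) ≤ b ^ (-2 : ℝ) := by
            apply E.mono
            linarith
          gcongr
      _ ≤ 10 * b ^ (-2 : ℝ) * 1 := by
          have : 0 ≤ b ^ (-2 : ℝ) := by positivity
          linarith
      _ ≤ 10 * b ^ (-2 : ℝ) * b ^ u (m - 1) := by
          have : (1 : ℝ) ≤ b ^ u (m - 1) :=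
            Real.one_le_rpow (by linarith [E.hb]) (E.nonneg (by omega))
          gcongr

end Crest.Agent.R128.Val
end

-- ▼ part R128/Val

/-!
Row 128, node LAM0-VAL (NUM), part 2: for a VALID segment the Jacobi data `p, q` satisfy the numerical
hypotheses of `BVP.orb_exists` and `BVP.orb_diff` (left boundary moved, right boundary fixed).
-/

set_option autoImplicit false

open Finset

namespace Crest.Agent.R128.Val

open Crest.Agent.R128.TreeSum Crest.Agent.R128.BVP

variable {n : ℕ} {a p q : ℕ → ℝ}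

/-- Euclidean norms of the field `(p m, p (m+1))` -/
noncomputable def W (p : ℕ → ℝ) (m : ℕ) : ℝ := nn (p m, p (m + 1))

/-- max norms of the field `(p m, p (m+1))` -/
noncomputable def N (p : ℕ → ℝ) (m : ℕ) : ℝ := max |p m| |p (m + 1)|

theorem abs_le_W (p : ℕ → ℝ) (m : ℕ) : |p m| ≤ W p m := abs_fst_le (p m, p (m + 1))

theorem abs_succ_le_W (p : ℕ → ℝ) (m : ℕ) : |p (m + 1)| ≤ W p m := abs_snd_le (p m, p (m + 1))

theorem W_le_add (p : ℕ → ℝ) (m : ℕ) : W p m ≤ |p m| + |p (m + 1)| := nn_le_add (p m, p (m + 1))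

theorem N_le_W (p : ℕ → ℝ) (m : ℕ) : N p m ≤ W p m := max_le (abs_le_W p m) (abs_succ_le_W p m)

theorem W_le_N (p : ℕ → ℝ) (m : ℕ) : W p m ≤ 3 / 2 * N p m := by
  have h1 : |p m| ≤ N p m := le_max_left _ _
  have h2 : |p (m + 1)| ≤ N p m := le_max_right _ _
  have h0 : 0 ≤ N p m := (abs_nonneg _).trans h1
  have h3 : W p m ^ 2 ≤ (3 / 2 * N p m) ^ 2 := by
    unfold W
    rw [nn_sq]
    simp only
    rw [← sq_abs (p m), ← sq_abs (p (m + 1))]
    nlinarith [abs_nonneg (p m), abs_nonneg (p (m + 1))]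
  exact le_of_sq_le_sq h3 (by positivity)

theorem W_nonneg (p : ℕ → ℝ) (m : ℕ) : 0 ≤ W p m := nn_nonneg _

theorem N_nonneg (p : ℕ → ℝ) (m : ℕ) : 0 ≤ N p m := (abs_nonneg _).trans (le_max_left _ _)

/-- the global field with given initial value -/
def fld (c : ℕ → ℝ) (v : ℝ × ℝ) : ℕ → ℝ × ℝ
  | 0 => v
  | m + 1 => stp (c m) (fld c v m)

theorem fld_isField (c : ℕ → ℝ) (v : ℝ × ℝ) : IsField c (fld c v) := fun _ => rfl

theorem stp_p (J : Jac n a p q) {m : ℕ} (hm : m < n) :
    stp (a (m + 1)) (p m, p (m + 1)) = (p (m + 1), p (m + 2)) := by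
  unfold stp
  simp only [J.hp m hm]

theorem stp_q (J : Jac n a p q) {m : ℕ} (hm : m < n) :
    stp (a (m + 1)) (q m, q (m + 1)) = (q (m + 1), q (m + 2)) := by
  unfold stp
  have := J.hq m hm
  ext
  · rfl
  · simp only
    linarith

theorem fld_p (J : Jac n a p q) : ∀ m ≤ n, fld (fun m => a (m + 1)) (p 0, p 1) m = (p m, p (m + 1)) := by
  intro m
  induction m with
  | zero => intro _; rfl
  | succ m ih =>
    intro hm
    show stp (a (m + 1)) (fld _ _ m) = _
    rw [ih (by omega), stp_p J (by omega)]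

theorem fld_q (J : Jac n a p q) : ∀ m ≤ n, fld (fun m => a (m + 1)) (q 0, q 1) m = (q m, q (m + 1)) := by
  intro m
  induction m with
  | zero => intro _; rfl
  | succ m ih =>
    intro hm
    show stp (a (m + 1)) (fld _ _ m) = _
    rw [ih (by omega), stp_q J (by omega)]

theorem W_succ_le (J : Jac n a p q) {m : ℕ} (hm : m < n) :
    W p (m + 1) ≤ (|a (m + 1)| + 2) * W p m := by
  have := nn_stp_le (a (m + 1)) (p m, p (m + 1))
  rw [stp_p J hm] at this
  exact this

theorem W_le_succ (J : Jac n a p q) {m : ℕ} (hm : m < n) :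
    W p m ≤ (|a (m + 1)| + 2) * W p (m + 1) := by
  have := nn_le_stp (a (m + 1)) (p m, p (m + 1))
  rw [stp_p J hm] at this
  exact this

theorem W_zero (J : Jac n a p q) : W p 0 = 1 := by
  unfold W nn
  rw [J.p0, J.p1]
  simp

theorem W_pos (J : Jac n a p q) {m : ℕ} (hm : m ≤ n) : 0 < W p m := by
  have h := (fld_isField (fun m => a (m + 1)) (p 0, p 1)).pos (Nat.zero_le m) (by
    rw [fld_p J 0 (Nat.zero_le _)]
    have := W_zero J
    unfold W at this
    rw [this]; norm_num)
  rw [fld_p J m hm] at h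
  exact h

/-- the weight sum -/
noncomputable def wtt (a p : ℕ → ℝ) (m n : ℕ) : ℝ :=
  ∑ j ∈ Ico m n, (|a (j + 1)| + 2) / (W p j * W p (j + 1))

theorem wt_eq (J : Jac n a p q) {m : ℕ} :
    wt (fun m => a (m + 1)) (fld (fun m => a (m + 1)) (p 0, p 1)) m n = wtt a p m n := by
  unfold wt wtt
  apply Finset.sum_congr rfl
  intro j hj
  rw [Finset.mem_Ico] at hj
  rw [fld_p J j (by omega), fld_p J (j + 1) (by omega)]
  rfl

theorem wr_eq (J : Jac n a p q) {m : ℕ} (hm : m ≤ n) :
    wr (p m, p (m + 1)) (q m, q (m + 1)) = -p (n + 1) := by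
  have := wronski J m hm
  unfold wr
  simp only
  linarith

theorem le_W_mul (J : Jac n a p q) {m : ℕ} (hm : m ≤ n) : |p (n + 1)| ≤ W p m * W q m := by
  have := abs_wr_le (p m, p (m + 1)) (q m, q (m + 1))
  rw [wr_eq J hm, abs_neg] at this
  exact this

theorem W_q_le (J : Jac n a p q) {m : ℕ} (hm : m ≤ n) :
    W q m ≤ |p (n + 1)| / W p m + W p m * (|p (n + 1)| * wtt a p m n + 1 / W p n) := by
  set c : ℕ → ℝ := fun m => a (m + 1) with hc
  have hw := fld_isField c (p 0, p 1)
  have hz := fld_isField c (q 0, q 1)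
  have hWm := W_pos J hm
  have hWn := W_pos J le_rfl
  have h1 := nn_le_lam (p m, p (m + 1)) (q m, q (m + 1)) hWm
  have h2 := lam_diff hw hz hm (by rw [fld_p J m hm]; exact hWm)
  rw [wt_eq J, fld_p J m hm, fld_p J n le_rfl, fld_q J m hm, fld_q J n le_rfl, wr_eq J hm, abs_neg]
    at h2
  have h3 : |lam (p n, p (n + 1)) (q n, q (n + 1))| ≤ 1 / W p n := by
    unfold lam
    rw [abs_div, abs_of_pos (by positivity : 0 < nn (p n, p (n + 1)) ^ 2)]
    rw [div_le_div_iff₀ (by positivity) hWn]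
    have h4 : dt (q n, q (n + 1)) (p n, p (n + 1)) = p n := by
      unfold dt
      simp only [J.qn, J.qn1]
      ring
    rw [h4]
    have h5 := abs_le_W p n
    unfold W at h5 ⊢
    nlinarith [nn_nonneg (p n, p (n + 1))]
  have h6 : |lam (p m, p (m + 1)) (q m, q (m + 1))| ≤ 1 / W p n + |p (n + 1)| * wtt a p m n := by
    have h7 := abs_add_le (lam (p m, p (m + 1)) (q m, q (m + 1)) - lam (p n, p (n + 1)) (q n, q (n + 1)))
      (lam (p n, p (n + 1)) (q n, q (n + 1)))
    rw [sub_add_cancel, abs_sub_comm] at h7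
    linarith
  rw [wr_eq J hm, abs_neg] at h1
  have h8 := mul_le_mul_of_nonneg_right h6 hWm.le
  change W q m ≤ |lam (p m, p (m + 1)) (q m, q (m + 1))| * W p m + |p (n + 1)| / W p m at h1
  calc W q m ≤ |lam (p m, p (m + 1)) (q m, q (m + 1))| * W p m + |p (n + 1)| / W p m := h1
    _ ≤ (1 / W p n + |p (n + 1)| * wtt a p m n) * W p m + |p (n + 1)| / W p m := by linarith
    _ = _ := by ring

/-- The VALID hypotheses (base `b`; clean up to `L`, no drop below the power `99/100`, time bound with the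
exponent `1/400`, tip condition at the end). -/
structure Valid (b : ℝ) (L n : ℕ) (a p q : ℕ → ℝ) : Prop where
  J : Jac n a p q
  hb : 100 ≤ b
  hL : 35 ≤ L
  hLn : L ≤ n
  hLb : 2 * (L : ℝ) ≤ b
  hA : ∀ m ∈ Icc 1 n, |a m| + 2 ≤ b ^ 2
  hcl : ∀ m ∈ Icc 1 L, 2 * b ≤ |a m|
  V2 : ∀ i j, L ≤ i → i ≤ j → j ≤ n → (N p i) ^ (99 / 100 : ℝ) ≤ N p j
  V3 : ∀ j, L ≤ j → j ≤ n → ∃ i ≤ j, (j : ℝ) ≤ (N p i) ^ (1 / 400 : ℝ)
  tip : |p n| ≤ |p (n + 1)|

variable {b : ℝ} {L : ℕ}

theorem Valid.ratio (V : Valid b L n a p q) : ∀ m ≤ L, b * |p m| ≤ |p (m + 1)| := by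
  intro m
  induction m with
  | zero => intro _; rw [V.J.p0]; simp
  | succ m ih =>
    intro hm
    have h1 := ih (by omega)
    have h2 := V.J.hp m (by have := V.hLn; omega)
    have h3 := V.hcl (m + 1) (Finset.mem_Icc.mpr ⟨by omega, hm⟩)
    have hb := V.hb
    show b * |p (m + 1)| ≤ |p (m + 2)|
    rw [h2]
    have h4 : |a (m + 1)| * |p (m + 1)| - |p m| ≤ |a (m + 1) * p (m + 1) - p m| := by
      rw [← abs_mul]
      exact abs_sub_abs_le_abs_sub _ _
    have h5 : |p m| ≤ |p (m + 1)| := by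
      have := abs_nonneg (p m)
      nlinarith
    have h6 := abs_nonneg (p (m + 1))
    nlinarith

/-- clean step -/
theorem Valid.cleanstep (V : Valid b L n a p q) {m : ℕ} (hm : m < L) :
    (|a (m + 1)| + 2) * W p m ≤ 5 / 4 * W p (m + 1) := by
  have h1 := V.ratio m hm.le
  have h2 := V.J.hp m (by have := V.hLn; omega)
  have h3 := V.hcl (m + 1) (Finset.mem_Icc.mpr ⟨by omega, by omega⟩)
  have hb := V.hb
  have h4 : |a (m + 1)| * |p (m + 1)| - |p m| ≤ |a (m + 1) * p (m + 1) - p m| := by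
    rw [← abs_mul]
    exact abs_sub_abs_le_abs_sub _ _
  rw [← h2] at h4
  have h5 : 100 * |p m| ≤ |p (m + 1)| := by
    have := abs_nonneg (p m)
    nlinarith
  have h6 := abs_nonneg (p (m + 1))
  have h7 := W_le_add p m
  have h8 : |p (m + 2)| ≤ W p (m + 1) := abs_succ_le_W p (m + 1)
  have h9 : 0 ≤ |a (m + 1)| := abs_nonneg _
  have h10 : (|a (m + 1)| + 2) * W p m ≤ (|a (m + 1)| + 2) * (101 / 100 * |p (m + 1)|) := by
    apply mul_le_mul_of_nonneg_left _ (by linarith)
    linarith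
  have h11 : 200 * |p (m + 1)| ≤ |a (m + 1)| * |p (m + 1)| := by
    apply mul_le_mul_of_nonneg_right _ h6
    linarith
  nlinarith

/-- exponents -/
noncomputable def ex (b : ℝ) (p : ℕ → ℝ) (m : ℕ) : ℝ := Real.logb b (W p m)

theorem Valid.W_eq (V : Valid b L n a p q) {m : ℕ} (hm : m ≤ n) : W p m = b ^ ex b p m := by
  have hb := V.hb
  unfold ex
  rw [Real.rpow_logb (by linarith) (by linarith) (W_pos V.J hm)]

theorem Valid.ex_le (V : Valid b L n a p q) {i j : ℕ} {x : ℝ} (hi : i ≤ n) (hj : j ≤ n)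
    (h : W p i ≤ b ^ x * W p j) : ex b p i ≤ x + ex b p j := by
  have hb := V.hb
  rw [V.W_eq hi, V.W_eq hj, ← Real.rpow_add (by linarith)] at h
  exact (Real.rpow_le_rpow_left_iff (by linarith)).mp h

theorem Valid.clean_ex (V : Valid b L n a p q) {m : ℕ} (hm : m < L) :
    ex b p m + 1 ≤ ex b p (m + 1) := by
  have hb := V.hb
  have hLn := V.hLn
  have h1 := V.cleanstep hm
  have h3 := V.hcl (m + 1) (Finset.mem_Icc.mpr ⟨by omega, by omega⟩)
  have h4 : W p m ≤ b ^ (-1 : ℝ) * W p (m + 1) := by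
    have hW := W_nonneg p m
    have h5 : b * W p m ≤ W p (m + 1) := by nlinarith
    rw [Real.rpow_neg_one, inv_mul_eq_div, le_div_iff₀ (by linarith)]
    linarith
  have := V.ex_le (by omega) (by omega) h4
  linarith

theorem Valid.ex_zero (V : Valid b L n a p q) : ex b p 0 = 0 := by
  unfold ex
  rw [W_zero V.J, Real.logb_one]

theorem Valid.clean_mono (V : Valid b L n a p q) {i j : ℕ} (hij : i ≤ j) (hj : j ≤ L) :
    ex b p i ≤ ex b p j := by
  induction j, hij using Nat.le_induction with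
  | base => exact le_rfl
  | succ j hij ih =>
    have := ih (by omega)
    have := V.clean_ex (by omega : j < L)
    linarith

theorem Valid.ex_nonneg_clean (V : Valid b L n a p q) {m : ℕ} (hm : m ≤ L) : 0 ≤ ex b p m := by
  have := V.clean_mono (Nat.zero_le m) hm
  rwa [V.ex_zero] at this

theorem Valid.v2 (V : Valid b L n a p q) : ∀ i j, i ≤ j → j ≤ n →
    99 / 100 * ex b p i - 1 / 10 ≤ ex b p j := by
  have hb := V.hb
  have hb0 : 0 < b := by linarith
  have hLn := V.hLn
  have key : ∀ i j, L ≤ i → i ≤ j → j ≤ n → 99 / 100 * ex b p i - 1 / 10 ≤ ex b p j := by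
    intro i j hi hij hj
    have h1 := V.V2 i j hi hij hj
    have h2 := N_le_W p j
    have h3 := W_le_N p i
    have h4 : (3 / 2 : ℝ) ≤ b ^ (1 / 10 : ℝ) := by
      have h5 : ((3 / 2 : ℝ) ^ (10 : ℕ)) ^ (1 / 10 : ℝ) ≤ b ^ (1 / 10 : ℝ) := by
        apply Real.rpow_le_rpow (by positivity) _ (by norm_num)
        norm_num
        linarith
      have h6 : ((3 / 2 : ℝ) ^ (10 : ℕ)) ^ (1 / 10 : ℝ) = 3 / 2 := by
        rw [← Real.rpow_natCast, ← Real.rpow_mul (by norm_num)]
        norm_num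
      linarith
    have h7 : b ^ (ex b p i - 1 / 10) ≤ N p i := by
      rw [Real.rpow_sub hb0, ← V.W_eq (by omega), div_le_iff₀ (Real.rpow_pos_of_pos hb0 _)]
      calc W p i ≤ 3 / 2 * N p i := h3
        _ ≤ b ^ (1 / 10 : ℝ) * N p i := mul_le_mul_of_nonneg_right h4 (N_nonneg p i)
        _ = _ := mul_comm _ _
    have h8 : (b ^ (ex b p i - 1 / 10)) ^ (99 / 100 : ℝ) ≤ b ^ ex b p j := by
      rw [← V.W_eq hj]
      exact (Real.rpow_le_rpow (Real.rpow_nonneg hb0.le _) h7 (by norm_num)).trans (h1.trans h2)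
    rw [← Real.rpow_mul hb0.le] at h8
    have h9 := (Real.rpow_le_rpow_left_iff (by linarith)).mp h8
    linarith
  intro i j hij hj
  rcases Nat.lt_or_ge i L with hi | hi
  · rcases Nat.lt_or_ge j L with hj' | hj'
    · have := V.clean_mono hij hj'.le
      have := V.ex_nonneg_clean hi.le
      linarith
    · have h1 := key L j le_rfl hj' hj
      have h2 := V.clean_mono hi.le le_rfl
      linarith
  · exact key i j hi hij hj

theorem Valid.v3 (V : Valid b L n a p q) :
    ∑ j ∈ range (n + 1), b ^ (-(1 / 100 * ex b p j)) ≤ b := by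
  have hb := V.hb
  have hb0 : 0 < b := by linarith
  have hLn := V.hLn
  have hLb := V.hLb
  have hL := V.hL
  have hpt : ∀ j ∈ range (n + 1), b ^ (-(1 / 100 * ex b p j)) ≤
      (if j < L then 1 else 0) + b * (if L ≤ j then ((j : ℝ) ^ 2)⁻¹ else 0) := by
    intro j hj
    rw [Finset.mem_range] at hj
    rcases Nat.lt_or_ge j L with h | h
    · rw [if_pos h, if_neg (by omega)]
      have h1 := V.ex_nonneg_clean h.le
      have h2 : b ^ (-(1 / 100 * ex b p j)) ≤ 1 :=
        Real.rpow_le_one_of_one_le_of_nonpos (by linarith) (by linarith)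
      linarith
    · rw [if_neg (by omega), if_pos h, zero_add]
      obtain ⟨i, hij, hi⟩ := V.V3 j h (by omega)
      have h1 := V.v2 i j hij (by omega)
      have h2 : (j : ℝ) ≤ b ^ (1 / 400 * ex b p i) := by
        refine hi.trans ?_
        have h3 : (N p i) ^ (1 / 400 : ℝ) ≤ (W p i) ^ (1 / 400 : ℝ) :=
          Real.rpow_le_rpow (N_nonneg p i) (N_le_W p i) (by norm_num)
        refine h3.trans ?_
        rw [V.W_eq (by omega), ← Real.rpow_mul hb0.le]
        apply Real.rpow_le_rpow_of_exponent_le (by linarith)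
        linarith
      have hj0 : (0 : ℝ) < (j : ℝ) := by
        have : 0 < j := by omega
        exact_mod_cast this
      have h4 : (j : ℝ) ^ 2 ≤ b ^ (1 / 200 * ex b p i) := by
        have h5 : (j : ℝ) ^ 2 ≤ (b ^ (1 / 400 * ex b p i)) ^ 2 := pow_le_pow_left₀ hj0.le h2 2
        refine h5.trans ?_
        rw [← Real.rpow_natCast, ← Real.rpow_mul hb0.le]
        apply Real.rpow_le_rpow_of_exponent_le (by linarith)
        push_cast
        linarith
      have h6 : b ^ (-(1 / 100 * ex b p j)) * (j : ℝ) ^ 2 ≤ b := by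
        calc b ^ (-(1 / 100 * ex b p j)) * (j : ℝ) ^ 2
            ≤ b ^ (-(1 / 100 * ex b p j)) * b ^ (1 / 200 * ex b p i) := by gcongr
          _ = b ^ (-(1 / 100 * ex b p j) + 1 / 200 * ex b p i) := by rw [← Real.rpow_add hb0]
          _ ≤ b ^ (1 : ℝ) := by
            apply Real.rpow_le_rpow_of_exponent_le (by linarith)
            have h7 : 0 ≤ ex b p i := by
              have h8 : (1 : ℝ) ≤ b ^ (1 / 400 * ex b p i) := by
                refine le_trans ?_ h2
                have : 1 ≤ j := by omega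
                exact_mod_cast this
              have h9 : (b : ℝ) ^ (0 : ℝ) ≤ b ^ (1 / 400 * ex b p i) := by
                rw [Real.rpow_zero]; exact h8
              have := (Real.rpow_le_rpow_left_iff (by linarith)).mp h9
              linarith
            linarith
          _ = b := Real.rpow_one b
      rw [← div_eq_mul_inv, le_div_iff₀ (by positivity)]
      exact h6
  refine (Finset.sum_le_sum hpt).trans ?_
  rw [Finset.sum_add_distrib, ← Finset.mul_sum]
  have s1 : ∑ j ∈ range (n + 1), (if j < L then (1 : ℝ) else 0) ≤ L := by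
    rw [← Finset.sum_filter, Finset.sum_const, nsmul_eq_mul, mul_one]
    have : ((range (n + 1)).filter (fun j => j < L)).card ≤ L := by
      calc ((range (n + 1)).filter (fun j => j < L)).card ≤ (range L).card := by
            apply Finset.card_le_card
            intro j hj
            rw [Finset.mem_filter] at hj
            rw [Finset.mem_range]
            exact hj.2
        _ = L := Finset.card_range L
    exact_mod_cast this
  have s2 : ∑ j ∈ range (n + 1), (if L ≤ j then ((j : ℝ) ^ 2)⁻¹ else 0) ≤ 1 / 2 := by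
    rw [← Finset.sum_filter]
    have h1 : (range (n + 1)).filter (fun j => L ≤ j) = Ioo (L - 1) (n + 1) := by
      ext j
      simp only [Finset.mem_filter, Finset.mem_range, Finset.mem_Ioo]
      omega
    rw [h1]
    have h2 := sum_Ioo_inv_sq_le (α := ℝ) (L - 1) (n + 1)
    refine h2.trans ?_
    rw [div_le_div_iff₀ (by positivity) (by norm_num)]
    have : (35 : ℝ) ≤ (L : ℝ) := by exact_mod_cast hL
    have h3 : ((L - 1 : ℕ) : ℝ) = (L : ℝ) - 1 := by
      rw [Nat.cast_sub (by omega)]; simp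
    rw [h3]
    linarith
  nlinarith

theorem Valid.expo (V : Valid b L n a p q) : Expo b n (ex b p) where
  hb := by linarith [V.hb]
  hn := V.hL.trans V.hLn
  u0 := V.ex_zero
  up := by
    intro m hm
    have hb := V.hb
    have h1 := W_succ_le V.J hm
    have h2 := V.hA (m + 1) (Finset.mem_Icc.mpr ⟨by omega, by omega⟩)
    have h3 : W p (m + 1) ≤ b ^ (2 : ℝ) * W p m := by
      rw [Real.rpow_two]
      exact h1.trans (mul_le_mul_of_nonneg_right h2 (W_nonneg p m))
    have := V.ex_le (by omega) (by omega) h3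
    linarith
  dn := by
    intro m hm
    have hb := V.hb
    have h1 := W_le_succ V.J hm
    have h2 := V.hA (m + 1) (Finset.mem_Icc.mpr ⟨by omega, by omega⟩)
    have h3 : W p m ≤ b ^ (2 : ℝ) * W p (m + 1) := by
      rw [Real.rpow_two]
      exact h1.trans (mul_le_mul_of_nonneg_right h2 (W_nonneg p (m + 1)))
    have := V.ex_le (by omega) (by omega) h3
    linarith
  cl := fun m hm => V.clean_ex (lt_of_lt_of_le hm V.hL)
  v2 := V.v2
  v3 := V.v3

/-- weights: `lw m = W q m / |p (n+1)|` -/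
noncomputable def lw (n : ℕ) (p q : ℕ → ℝ) (m : ℕ) : ℝ := W q m / |p (n + 1)|

/-- weights: `rw' m = W p (m-1) / |p (n+1)|` -/
noncomputable def rh (n : ℕ) (p : ℕ → ℝ) (m : ℕ) : ℝ := W p (m - 1) / |p (n + 1)|

theorem Valid.Dpos (V : Valid b L n a p q) : 0 < |p (n + 1)| := abs_pos.mpr V.J.W0

theorem Valid.Dge (V : Valid b L n a p q) : W p n ≤ 2 * |p (n + 1)| := by
  have := W_le_add p n
  have := V.tip
  linarith

/-- the raw bound for `lw` -/
theorem Valid.lw_le (V : Valid b L n a p q) {m : ℕ} (hm : m ≤ n) :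
    lw n p q m ≤ 1 / W p m + W p m * (wtt a p m n + 2 / W p n ^ 2) := by
  have hD := V.Dpos
  have hWm := W_pos V.J hm
  have hWn := W_pos V.J le_rfl
  have h1 := W_q_le V.J hm
  unfold lw
  rw [div_le_iff₀ hD]
  have h2 : 1 / W p n ≤ 2 / W p n ^ 2 * |p (n + 1)| := by
    rw [div_mul_eq_mul_div, div_le_div_iff₀ hWn (by positivity)]
    have := V.Dge
    nlinarith
  calc W q m ≤ |p (n + 1)| / W p m + W p m * (|p (n + 1)| * wtt a p m n + 1 / W p n) := h1
    _ ≤ |p (n + 1)| / W p m + W p m * (|p (n + 1)| * wtt a p m n + 2 / W p n ^ 2 * |p (n + 1)|) := by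
        gcongr
    _ = _ := by ring

theorem Valid.one_div_le_lw (V : Valid b L n a p q) {m : ℕ} (hm : m ≤ n) :
    1 / W p m ≤ lw n p q m := by
  unfold lw
  rw [div_le_div_iff₀ (W_pos V.J hm) V.Dpos]
  have := le_W_mul V.J hm
  linarith

theorem Valid.term_le (V : Valid b L n a p q) {j : ℕ} (hj : j < n) :
    (|a (j + 1)| + 2) / (W p j * W p (j + 1)) ≤ b ^ (4 - 2 * ex b p j) := by
  have hb := V.hb
  have hb0 : 0 < b := by linarith
  have h1 := W_le_succ V.J hj
  have h2 := V.hA (j + 1) (Finset.mem_Icc.mpr ⟨by omega, by omega⟩)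
  have hWj := W_pos V.J hj.le
  have hWj' := W_pos V.J (by omega : j + 1 ≤ n)
  have h3 : 0 ≤ |a (j + 1)| := abs_nonneg _
  have h4 : W p j ≤ b ^ 2 * W p (j + 1) := h1.trans (mul_le_mul_of_nonneg_right h2 hWj'.le)
  have h5 : b ^ (4 - 2 * ex b p j) = b ^ 4 / W p j ^ 2 := by
    rw [Real.rpow_sub hb0, V.W_eq hj.le]
    congr 1
    · exact_mod_cast Real.rpow_natCast b 4
    · rw [← Real.rpow_natCast (b ^ ex b p j) 2, ← Real.rpow_mul hb0.le]
      congr 1
      push_cast
      ring
  rw [h5, div_le_div_iff₀ (by positivity) (by positivity)]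
  calc (|a (j + 1)| + 2) * W p j ^ 2 ≤ b ^ 2 * (W p j * (b ^ 2 * W p (j + 1))) := by
        rw [sq (W p j)]
        gcongr
    _ = b ^ 4 * (W p j * W p (j + 1)) := by ring

theorem Valid.lamB (V : Valid b L n a p q) : LamB b n (ex b p) (lw n p q) where
  pos := fun m hm => div_nonneg (W_nonneg q m) (abs_nonneg _)
  c := by
    intro m hm
    have hb := V.hb
    have hb0 : 0 < b := by linarith
    have E := V.expo
    have hL := V.hL
    have hLn := V.hLn
    have h1 := V.lw_le (by omega : m ≤ n)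
    have hWm := W_pos V.J (by omega : m ≤ n)
    have hum := E.ub (by omega : m ≤ n)
    have hum60 : ex b p m ≤ 60 := by
      have : (m : ℝ) ≤ 30 := by exact_mod_cast hm
      linarith
    have h35 : ex b p m + 5 ≤ ex b p 35 := by
      have h2 := E.clean (by omega : m ≤ 35) le_rfl
      have h3 : (5 : ℝ) ≤ ((35 - m : ℕ) : ℝ) := by
        have : 5 ≤ 35 - m := by omega
        exact_mod_cast this
      linarith
    have hWsq : ∀ x : ℝ, (b ^ x) ^ 2 = b ^ (2 * x) := by
      intro x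
      rw [← Real.rpow_natCast (b ^ x) 2, ← Real.rpow_mul hb0.le]
      congr 1
      push_cast
      ring
    -- the weight sum
    have hw : W p m ^ 2 * wtt a p m n ≤ 5 / 4 * (16 / 15) + 1 / 16 := by
      have hpt : ∀ j ∈ Ico m n, W p m ^ 2 * ((|a (j + 1)| + 2) / (W p j * W p (j + 1))) ≤
          5 / 4 * (if m ≤ j then (b⁻¹) ^ (j - m) else 0) +
            b ^ (-2 : ℝ) * b ^ (-(1 / 100 * ex b p j)) := by
        intro j hj
        rw [Finset.mem_Ico] at hj
        rw [if_pos hj.1]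
        have hWj := W_pos V.J hj.2.le
        have hWj' := W_pos V.J (by omega : j + 1 ≤ n)
        rcases Nat.lt_or_ge j 35 with h | h
        · have h2 := V.cleanstep (by omega : j < L)
          have h3 : (|a (j + 1)| + 2) / (W p j * W p (j + 1)) ≤ 5 / 4 / W p j ^ 2 := by
            rw [div_le_div_iff₀ (by positivity) (by positivity)]
            nlinarith
          have h4 : W p m ^ 2 * (5 / 4 / W p j ^ 2) = 5 / 4 * b ^ (2 * ex b p m - 2 * ex b p j) := by
            rw [Real.rpow_sub hb0, ← hWsq, ← hWsq, ← V.W_eq (by omega), ← V.W_eq (by omega)]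
            ring
          have h5 : b ^ (2 * ex b p m - 2 * ex b p j) ≤ (b⁻¹) ^ (j - m) := by
            rw [E.pow_inv]
            apply E.mono
            have h6 := E.clean hj.1 h.le
            have h7 : (0 : ℝ) ≤ ((j - m : ℕ) : ℝ) := Nat.cast_nonneg _
            linarith
          calc W p m ^ 2 * ((|a (j + 1)| + 2) / (W p j * W p (j + 1)))
              ≤ W p m ^ 2 * (5 / 4 / W p j ^ 2) := by gcongr
            _ = 5 / 4 * b ^ (2 * ex b p m - 2 * ex b p j) := h4
            _ ≤ 5 / 4 * (b⁻¹) ^ (j - m) := by gcongr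
            _ ≤ _ := by
              have : 0 ≤ b ^ (-2 : ℝ) * b ^ (-(1 / 100 * ex b p j)) := by positivity
              linarith
        · have h2 := V.term_le hj.2
          have h3 := E.v2 35 j h (by omega)
          have h4 : W p m ^ 2 * b ^ (4 - 2 * ex b p j) ≤ b ^ (-2 : ℝ) * b ^ (-(1 / 100 * ex b p j)) := by
            rw [V.W_eq (by omega), hWsq, ← Real.rpow_add hb0, ← Real.rpow_add hb0]
            apply E.mono
            linarith
          calc W p m ^ 2 * ((|a (j + 1)| + 2) / (W p j * W p (j + 1)))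
              ≤ W p m ^ 2 * b ^ (4 - 2 * ex b p j) := by gcongr
            _ ≤ b ^ (-2 : ℝ) * b ^ (-(1 / 100 * ex b p j)) := h4
            _ ≤ _ := by
              have : 0 ≤ 5 / 4 * (b⁻¹) ^ (j - m) := by positivity
              linarith
      unfold wtt
      rw [Finset.mul_sum]
      refine (Finset.sum_le_sum hpt).trans ?_
      rw [Finset.sum_add_distrib, ← Finset.mul_sum, ← Finset.mul_sum, ← Finset.sum_filter]
      have g1 := geom_le E.hb (Ico m n) m
      have g2 := E.sum_le (Ico m n) (by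
        intro j hj
        rw [Finset.mem_Ico] at hj
        rw [Finset.mem_range]
        omega)
      have g3 : b ^ (-2 : ℝ) * b = b ^ (-1 : ℝ) := by
        conv_lhs => rw [← Real.rpow_one b, ← Real.rpow_mul hb0.le, ← Real.rpow_add hb0]
        norm_num
      have g4 : b ^ (-1 : ℝ) ≤ (1 / 16) ^ 1 := E.small (by norm_num)
      have p2 : 0 ≤ b ^ (-2 : ℝ) := by positivity
      nlinarith [mul_le_mul_of_nonneg_left g2 p2]
    have hn2 : W p m ^ 2 * (2 / W p n ^ 2) ≤ 1 / 16 := by
      have h2 := E.v2 35 n (by omega) le_rfl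
      have e : W p m ^ 2 * (2 / W p n ^ 2) = 2 * b ^ (2 * ex b p m - 2 * ex b p n) := by
        rw [Real.rpow_sub hb0, ← hWsq, ← hWsq, ← V.W_eq (by omega), ← V.W_eq le_rfl]
        ring
      rw [e]
      have h3 : b ^ (2 * ex b p m - 2 * ex b p n) ≤ (1 / 16) ^ 2 := by
        apply E.small
        push_cast
        linarith
      have h4 : ((1 : ℝ) / 16) ^ 2 = 1 / 256 := by norm_num
      linarith
    have h6 : b ^ (-ex b p m) = 1 / W p m := by
      rw [Real.rpow_neg hb0.le, ← V.W_eq (by omega), one_div]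
    rw [h6]
    calc lw n p q m ≤ 1 / W p m + W p m * (wtt a p m n + 2 / W p n ^ 2) := h1
      _ = (1 + (W p m ^ 2 * wtt a p m n + W p m ^ 2 * (2 / W p n ^ 2))) * (1 / W p m) := by
          field_simp
      _ ≤ 3 * (1 / W p m) := by
          apply mul_le_mul_of_nonneg_right _ (by positivity)
          linarith
  g := by
    intro m hm
    have hb := V.hb
    have hb0 : 0 < b := by linarith
    have E := V.expo
    have h1 := V.lw_le hm
    have hWm := W_pos V.J hm
    have hu := E.nonneg hm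
    have hw : wtt a p m n ≤ b ^ (52 / 10 - 19701 / 10000 * ex b p m) := by
      have hpt : ∀ j ∈ Ico m n, (|a (j + 1)| + 2) / (W p j * W p (j + 1)) ≤
          b ^ (42 / 10 - 19701 / 10000 * ex b p m) * b ^ (-(1 / 100 * ex b p j)) := by
        intro j hj
        rw [Finset.mem_Ico] at hj
        refine (V.term_le hj.2).trans ?_
        rw [← Real.rpow_add hb0]
        apply E.mono
        have := E.v2 m j hj.1 (by omega)
        linarith
      unfold wtt
      refine (Finset.sum_le_sum hpt).trans ?_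
      rw [← Finset.mul_sum]
      have g2 := E.sum_le (Ico m n) (by
        intro j hj
        rw [Finset.mem_Ico] at hj
        rw [Finset.mem_range]
        omega)
      calc b ^ (42 / 10 - 19701 / 10000 * ex b p m) * ∑ j ∈ Ico m n, b ^ (-(1 / 100 * ex b p j))
          ≤ b ^ (42 / 10 - 19701 / 10000 * ex b p m) * b := by gcongr
        _ = b ^ (42 / 10 - 19701 / 10000 * ex b p m) * b ^ (1 : ℝ) := by rw [Real.rpow_one]
        _ = b ^ (52 / 10 - 19701 / 10000 * ex b p m) := by
          rw [← Real.rpow_add hb0]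
          congr 1
          ring
    have t1 : 1 / W p m ≤ 1 / 16 * b ^ (6 - 97 / 100 * ex b p m) := by
      have e : 1 / W p m = b ^ (-ex b p m) := by
        rw [Real.rpow_neg hb0.le, ← V.W_eq hm, one_div]
      have e2 : b ^ (-ex b p m) = b ^ (-1 + (-6 - 3 / 100 * ex b p m + 1)) * b ^ (6 - 97 / 100 * ex b p m) := by
        rw [← Real.rpow_add hb0]
        congr 1
        ring
      rw [e, e2]
      have h3 : b ^ (-1 + (-6 - 3 / 100 * ex b p m + 1)) ≤ (1 / 16) ^ 1 := by
        apply E.small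
        push_cast
        linarith
      rw [pow_one] at h3
      gcongr
    have t2 : W p m * wtt a p m n ≤ b ^ (6 - 97 / 100 * ex b p m) := by
      calc W p m * wtt a p m n ≤ W p m * b ^ (52 / 10 - 19701 / 10000 * ex b p m) := by gcongr
        _ = b ^ (ex b p m + (52 / 10 - 19701 / 10000 * ex b p m)) := by
          rw [Real.rpow_add hb0, ← V.W_eq hm]
        _ ≤ _ := by
          apply E.mono
          linarith
    have t3 : W p m * (2 / W p n ^ 2) ≤ 1 / 8 * b ^ (6 - 97 / 100 * ex b p m) := by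
      have h2 := E.v2 m n hm le_rfl
      have e : W p m * (2 / W p n ^ 2) = 2 * b ^ (ex b p m - 2 * ex b p n) := by
        rw [Real.rpow_sub hb0, ← V.W_eq hm]
        have : b ^ (2 * ex b p n) = W p n ^ 2 := by
          rw [V.W_eq le_rfl, ← Real.rpow_natCast (b ^ ex b p n) 2, ← Real.rpow_mul hb0.le]
          congr 1
          push_cast
          ring
        rw [this]
        ring
      have e2 : b ^ (ex b p m - 2 * ex b p n) =
          b ^ (-6 + 197 / 100 * ex b p m - 2 * ex b p n) * b ^ (6 - 97 / 100 * ex b p m) := by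
        rw [← Real.rpow_add hb0]
        congr 1
        ring
      have h3 : b ^ (-6 + 197 / 100 * ex b p m - 2 * ex b p n) ≤ (1 / 16) ^ 1 := by
        apply E.small
        push_cast
        linarith
      rw [pow_one] at h3
      rw [e, e2]
      have p1 : 0 ≤ b ^ (6 - 97 / 100 * ex b p m) := by positivity
      nlinarith
    calc lw n p q m ≤ 1 / W p m + W p m * (wtt a p m n + 2 / W p n ^ 2) := h1
      _ = 1 / W p m + W p m * wtt a p m n + W p m * (2 / W p n ^ 2) := by ring
      _ ≤ 2 * b ^ (6 - 97 / 100 * ex b p m) := by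
        have p1 : 0 ≤ b ^ (6 - 97 / 100 * ex b p m) := by positivity
        linarith

end Crest.Agent.R128.Val
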