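import Crest.Agent.R128.Skel
import Crest.Agent.R128.DDRootC
import Crest.Agent.R128.ProdT_Mg
import Mathlib
import Crest.Agent.R128.Disp
import Crest.Agent.R128.Chain
import Crest.Agent.R128.CleanDisc
import Crest.Agent.R128.Good
import Crest.Agent.R128.CleanStart
import Crest.Agent.R128.Rev
import Crest.Agent.R128.Lam0U
import Crest.Agent.R128.CleanCont
import Crest.Agent.R128.ValNorm2
import Crest.Agent.R128.Val
import Crest.Agent.R128.LocA1
import Crest.Agent.R128.LocA2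
import Crest.Agent.R128.LocDef
import Crest.Agent.R128.BaseNum
import Crest.Agent.R128.LocA4
import Crest.Agent.R128.LocA6
import Crest.Agent.R128.V1_Mg
import Crest.Agent.R128.ShxE_Mg
import Crest.Agent.R128.LocBX2_Mg
import Crest.Agent.R128.Bridge882C_Mg

-- ▼ part R128/V2Proof
section

/-!
# Row 128: V2 (single cover) in the form of the skeleton (helper136)
-/

set_option autoImplicit false

namespace Crest.Agent.R128.V2Proof

/-- **V2** -/
theorem v2 : Skel.V2 := by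
  refine ⟨2000, 8000000, (10:ℝ) ^ 3, ?_⟩
  intro k hk N J z
  exact DDRoot.v2_form hk N J z

end Crest.Agent.R128.V2Proof
end

-- ▼ part R128/V4Of
section

/-!
# Row 128, node V4 (helper287): `Core.CoreStmt2 → Skel.V4`
-/

set_option autoImplicit false

namespace Crest.Agent.R128.V4Of

/-- **V4** from CORE2 (product of strips by helper815, classification by helper379) -/
theorem v4_of_core (hC : Core.CoreStmt2) : Skel.V4 :=
  Cls287.v4_of_prod (Prod.prod_of_core hC)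

end Crest.Agent.R128.V4Of
end

-- ▼ part R128/VM
section

/-!
# Row 128, node VM of `Skel.lean`: measurability of the sets `C1`, `LG`, `Rc`, `RD` (helper499)
-/

set_option autoImplicit false
open MeasureTheory Filter Topology Finset
open scoped ENNReal NNReal
open Crest.AnalysisR.StandardFamily

namespace Crest.Agent.R128.VM

open Crest.Agent.R128.Acc Crest.Agent.R128.AccRoot Crest.Agent.R128.Lam0 Crest.Agent.R128.Close
  Crest.Agent.R128.Skel

theorem measurable_digit (k : ℝ) (m : ℕ) : Measurable fun z : Tor => |V k ((T k)^[m] z).2| := by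
  have h1 : Continuous fun z : Tor => ((T k)^[m] z) := (continuous_T k).iterate m
  exact ((continuous_V k).comp (continuous_snd.comp h1)).abs.measurable

theorem ms_C1 (k : ℝ) (L0 : ℕ) : MeasurableSet (C1 k L0) := by
  have e : C1 k L0 = ⋃ (m : ℕ) (_ : m < L0), {z | |V k ((T k)^[m] z).2| < k ^ ((2 : ℝ) / 3)} := by
    ext z; simp [C1]
  rw [e]
  exact MeasurableSet.iUnion fun m => MeasurableSet.iUnion fun _ =>
    measurableSet_lt (measurable_digit k m) measurable_const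

theorem ms_LG (k : ℝ) (L0 : ℕ) : MeasurableSet (LG k L0) := by
  have e : LG k L0 = (C1 k L0)ᶜ ∩ ⋃ (m : ℕ) (_ : L0 < m), ({z | RV k 1000 z (m - 1)} ∩
      ⋂ (i : ℕ) (_ : 1000 ≤ i) (_ : i < m), {z | ‖fld k z i‖ ≤ 2 * (m : ℝ) ^ 4000}) := by
    ext z
    simp only [LG, Set.mem_ofPred_eq, Set.mem_inter_iff, Set.mem_compl_iff, Set.mem_iUnion,
      Set.mem_iInter, exists_prop]
  rw [e]
  refine (ms_C1 k L0).compl.inter (MeasurableSet.iUnion fun m => MeasurableSet.iUnion fun _ =>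
    (measurable_RV k 1000 (m - 1)).inter ?_)
  exact MeasurableSet.iInter fun i => MeasurableSet.iInter fun _ => MeasurableSet.iInter fun _ =>
    measurableSet_le (measurable_nf k i) measurable_const

theorem ms_Val (k : ℝ) (P L0 n : ℕ) : MeasurableSet {z | Val k P L0 z n} := by
  have e : {z | Val k P L0 z n} =
      (⋂ (m : ℕ) (_ : m < L0) (_ : m < n), {z | k ^ ((2 : ℝ) / 3) ≤ |V k ((T k)^[m] z).2|}) ∩
      (⋂ (i : ℕ) (j : ℕ) (_ : 1000 ≤ i) (_ : i ≤ j) (_ : j ≤ n),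
        {z | ‖fld k z i‖ ^ (P - 1) ≤ ‖fld k z j‖ ^ P}) ∩
      (⋂ (j : ℕ) (_ : 1000 ≤ j) (_ : j ≤ n), ⋃ (i : ℕ) (_ : 1000 ≤ i) (_ : i ≤ j),
        {z | (j : ℝ) ^ (4 * P) ≤ ‖fld k z i‖}) := by
    ext z
    simp only [Set.mem_inter_iff, Set.mem_ofPred_eq, Set.mem_iInter, Set.mem_iUnion, exists_prop]
    constructor
    · rintro ⟨a, b, c⟩
      exact ⟨⟨a, b⟩, c⟩
    · rintro ⟨⟨a, b⟩, c⟩
      exact ⟨a, b, c⟩
  rw [e]
  refine (MeasurableSet.inter ?_ ?_).inter ?_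
  · exact MeasurableSet.iInter fun m => MeasurableSet.iInter fun _ => MeasurableSet.iInter fun _ =>
      measurableSet_le measurable_const (measurable_digit k m)
  · refine MeasurableSet.iInter fun i => MeasurableSet.iInter fun j => MeasurableSet.iInter fun _ =>
      MeasurableSet.iInter fun _ => MeasurableSet.iInter fun _ => ?_
    exact measurableSet_le ((measurable_nf k i).pow_const _) ((measurable_nf k j).pow_const _)
  · refine MeasurableSet.iInter fun j => MeasurableSet.iInter fun _ => MeasurableSet.iInter fun _ =>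
      MeasurableSet.iUnion fun i => MeasurableSet.iUnion fun _ => MeasurableSet.iUnion fun _ => ?_
    exact measurableSet_le measurable_const (measurable_nf k i)

theorem ms_Rc (k : ℝ) (L0 M : ℕ) : MeasurableSet (Rc k L0 M) := by
  have e : Rc k L0 M = ((C1 k L0)ᶜ ∩ (LG k L0)ᶜ) ∩ {z | Val k 100 L0 z M}ᶜ := by
    ext z
    simp only [Rc, Set.mem_ofPred_eq, Set.mem_inter_iff, Set.mem_compl_iff, and_assoc]
  rw [e]
  exact ((ms_C1 k L0).compl.inter (ms_LG k L0).compl).inter (ms_Val k 100 L0 M).compl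

theorem ms_RD (k : ℝ) (D M : ℕ) : MeasurableSet (RD k D M) := by
  have e : RD k D M = ⋃ (n : ℕ) (n' : ℕ) (_ : 1000 ≤ n) (_ : n < n') (_ : n' ≤ M),
      (((⋂ (j : ℕ) (_ : j < n), {z | ‖fld k z j‖ < ‖fld k z n‖}) ∩
      (⋂ (j : ℕ) (_ : j ≤ n'), {z | ‖fld k z j‖ ≤ ‖fld k z n‖}) ∩
      {z | ‖fld k z n'‖ ^ 102 ≤ ‖fld k z n‖ ^ 101} ∩ {z | k ^ D ≤ ‖fld k z n‖} ∩
      {z | ‖fld k z n‖ ≤ k ^ 2 * k ^ D} ∩ {z | RV k 1000 z n}) ∩ {z | RV k 1000 z (n' - 1)}) := by
    ext z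
    simp only [RD, Set.mem_inter_iff, Set.mem_ofPred_eq, Set.mem_iInter, Set.mem_iUnion, exists_prop]
    constructor
    · rintro ⟨n, n', ⟨a, b, c, d, e, f, g, h, i⟩, r⟩
      exact ⟨n, n', a, b, c, ⟨⟨⟨⟨⟨d, e⟩, f⟩, g⟩, h⟩, i⟩, r⟩
    · rintro ⟨n, n', a, b, c, ⟨⟨⟨⟨⟨d, e⟩, f⟩, g⟩, h⟩, i⟩, r⟩
      exact ⟨n, n', ⟨a, b, c, d, e, f, g, h, i⟩, r⟩
  rw [e]
  refine MeasurableSet.iUnion fun n => MeasurableSet.iUnion fun n' => MeasurableSet.iUnion fun _ =>
    MeasurableSet.iUnion fun _ => MeasurableSet.iUnion fun _ => ?_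
  refine MeasurableSet.inter ?_ (measurable_RV k 1000 (n' - 1))
  refine ((((MeasurableSet.inter ?_ ?_).inter ?_).inter ?_).inter ?_).inter (measurable_RV k 1000 n)
  · exact MeasurableSet.iInter fun j => MeasurableSet.iInter fun _ =>
      measurableSet_lt (measurable_nf k j) (measurable_nf k n)
  · exact MeasurableSet.iInter fun j => MeasurableSet.iInter fun _ =>
      measurableSet_le (measurable_nf k j) (measurable_nf k n)
  · exact measurableSet_le ((measurable_nf k n').pow_const 102) ((measurable_nf k n).pow_const 101)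
  · exact measurableSet_le measurable_const (measurable_nf k n)
  · exact measurableSet_le (measurable_nf k n) measurable_const


/-- **VM** -/
theorem vm : Skel.VM := fun k L0 M => ⟨ms_C1 k L0, ms_LG k L0, ms_Rc k L0 M, ms_RD k L0 M⟩

end Crest.Agent.R128.VM
end

-- ▼ part R128/Shadow
section

set_option autoImplicit false

open Finset

namespace Crest.Agent.R128.Shadow

/-- clean backward path from the foot `n` to time `0`; `q i` is the size of the transfer `i → n`. -/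
structure Clean (n : ℕ) (q : ℕ → ℝ) : Prop where
  one_le : ∀ i ≤ n, 1 ≤ q i
  c2 : ∀ i m, i ≤ m → m ≤ n → (q m) ^ (99 / 100 : ℝ) ≤ q i
  c3 : ∀ i < n, ((n - i : ℕ) : ℝ) ^ 2 ≤ (q i) ^ (1 / 100 : ℝ)

theorem sum_inv_sq_le (N : ℕ) : ∑ j ∈ range N, 1 / ((j : ℝ) + 1) ^ 2 ≤ 2 := by
  have h : ∀ N : ℕ, ∑ j ∈ range (N + 1), 1 / ((j : ℝ) + 1) ^ 2 ≤ 2 - 1 / ((N : ℝ) + 1) := by
    intro N
    induction N with
    | zero => norm_num
    | succ N ih =>
      rw [Finset.sum_range_succ]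
      have hN : (0 : ℝ) < (N : ℝ) + 1 := by positivity
      have h1 : 1 / (((N + 1 : ℕ) : ℝ) + 1) ^ 2 ≤ 1 / ((N : ℝ) + 1) - 1 / (((N + 1 : ℕ) : ℝ) + 1) := by
        push_cast
        rw [div_sub_div _ _ hN.ne' (by positivity), div_le_div_iff₀ (by positivity) (by positivity)]
        nlinarith [hN]
      linarith
  rcases N with _ | N
  · simp
  · have := h N
    have h2 : 0 ≤ 1 / ((N : ℝ) + 1) := by positivity
    linarith

theorem sum_inv_sq_rev_le {n M : ℕ} (hM : M ≤ n) :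
    ∑ i ∈ range M, 1 / (((n - i : ℕ) : ℝ)) ^ 2 ≤ 2 := by
  have h1 : ∑ i ∈ range M, 1 / (((n - i : ℕ) : ℝ)) ^ 2 ≤
      ∑ i ∈ range n, 1 / (((n - i : ℕ) : ℝ)) ^ 2 :=
    Finset.sum_le_sum_of_subset_of_nonneg (Finset.range_subset_range.mpr hM)
      (fun i _ _ => by positivity)
  refine h1.trans ?_
  have h2 := Finset.sum_range_reflect (fun j => 1 / ((j : ℝ) + 1) ^ 2) n
  have h3 : ∑ i ∈ range n, 1 / (((n - i : ℕ) : ℝ)) ^ 2 =
      ∑ j ∈ range n, 1 / (((n - 1 - j : ℕ) : ℝ) + 1) ^ 2 := by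
    refine Finset.sum_congr rfl fun i hi => ?_
    have := Finset.mem_range.1 hi
    have e : ((n - i : ℕ) : ℝ) = ((n - 1 - i : ℕ) : ℝ) + 1 := by
      have : n - i = (n - 1 - i) + 1 := by omega
      rw [this]; push_cast; ring
    rw [e]
  rw [h3, h2]
  exact sum_inv_sq_le n

variable {n : ℕ} {q : ℕ → ℝ}

/-- the basic summation of a clean path -/
theorem Clean.sum_pow (h : Clean n q) {θ : ℝ} (hθ : 0 ≤ θ) {m M : ℕ} (hm : m ≤ n) (hM : M ≤ n)
    (hmM : ∀ i < M, i ≤ m) :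
    ∑ i ∈ range M, (q i) ^ (-(θ + 1 / 100)) ≤ 2 * (q m) ^ (-(99 / 100 * θ)) := by
  have hqm : 1 ≤ q m := h.one_le m hm
  have hterm : ∀ i ∈ range M, (q i) ^ (-(θ + 1 / 100)) ≤
      (q m) ^ (-(99 / 100 * θ)) * (1 / (((n - i : ℕ) : ℝ)) ^ 2) := by
    intro i hi
    have hiM := Finset.mem_range.1 hi
    have hin : i < n := lt_of_lt_of_le hiM hM
    have hqi : 1 ≤ q i := h.one_le i hin.le
    have hqi0 : 0 < q i := by linarith
    have e1 : (q i) ^ (-(θ + 1 / 100)) = ((q i) ^ θ)⁻¹ * ((q i) ^ (1 / 100 : ℝ))⁻¹ := by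
      rw [Real.rpow_neg hqi0.le, Real.rpow_add hqi0, mul_inv]
    rw [e1]
    have hni : (0 : ℝ) < ((n - i : ℕ) : ℝ) := by
      have : 0 < n - i := by omega
      exact_mod_cast this
    have h1 : ((q i) ^ (1 / 100 : ℝ))⁻¹ ≤ 1 / (((n - i : ℕ) : ℝ)) ^ 2 := by
      have h5 := inv_anti₀ (pow_pos hni 2) (h.c3 i hin)
      rwa [← one_div (((n - i : ℕ) : ℝ) ^ 2)] at h5
    have h2 : ((q i) ^ θ)⁻¹ ≤ (q m) ^ (-(99 / 100 * θ)) := by
      rw [Real.rpow_neg (by linarith), Real.rpow_mul (by linarith)]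
      have h3 := h.c2 i m (hmM i hiM) hm
      have h4 : 0 < (q m) ^ (99 / 100 : ℝ) := Real.rpow_pos_of_pos (by linarith) _
      exact inv_anti₀ (Real.rpow_pos_of_pos h4 _) (Real.rpow_le_rpow h4.le h3 hθ)
    exact mul_le_mul h2 h1 (by positivity) (Real.rpow_nonneg (by linarith) _)
  refine (Finset.sum_le_sum hterm).trans ?_
  rw [← Finset.mul_sum, mul_comm]
  exact mul_le_mul_of_nonneg_right (sum_inv_sq_rev_le hM) (Real.rpow_nonneg (by linarith) _)

/-- (S1): the field from the tip decays away from the spine -/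
theorem Clean.R_le (h : Clean n q) {R : ℕ → ℝ} {C1 : ℝ} (hC1 : 1 ≤ C1) (hR0 : R 0 ≤ 1)
    (h1 : ∀ m, 0 < m → m ≤ n → R m ≤ C1 * q 0 * q m * ∑ i ∈ range m, 1 / (q i) ^ 2) :
    ∀ m ≤ n, R m ≤ 2 * C1 * q 0 * (q m) ^ (-(97 / 100) : ℝ) := by
  intro m hm
  have hq0 : 1 ≤ q 0 := h.one_le 0 (Nat.zero_le n)
  have hqm : 1 ≤ q m := h.one_le m hm
  rcases Nat.eq_zero_or_pos m with rfl | hpos
  · refine hR0.trans ?_
    have h2 : 1 ≤ q 0 * (q 0) ^ (-(97 / 100) : ℝ) := by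
      have e : q 0 * (q 0) ^ (-(97 / 100) : ℝ) = (q 0) ^ (3 / 100 : ℝ) := by
        conv_lhs => rw [← Real.rpow_one (q 0)]
        rw [Real.rpow_one, ← Real.rpow_one_add' (by linarith) (by norm_num)]
        norm_num
      rw [e]
      exact Real.one_le_rpow hq0 (by norm_num)
    nlinarith
  · have hs := h.sum_pow (θ := 199 / 100) (by norm_num) hm hm (fun i hi => hi.le)
    have e2 : ∑ i ∈ range m, 1 / (q i) ^ 2 = ∑ i ∈ range m, (q i) ^ (-(199 / 100 + 1 / 100) : ℝ) := by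
      refine Finset.sum_congr rfl fun i hi => ?_
      have hi' : i ≤ n := (Finset.mem_range.1 hi).le.trans hm
      have hqi : 1 ≤ q i := h.one_le i hi'
      rw [show (-(199 / 100 + 1 / 100) : ℝ) = -((2 : ℕ) : ℝ) by norm_num,
        Real.rpow_neg (by linarith), Real.rpow_natCast, one_div]
    have h3 := h1 m hpos hm
    rw [e2] at h3
    refine h3.trans ?_
    have hA : 0 ≤ C1 * q 0 * q m := by positivity
    calc C1 * q 0 * q m * ∑ i ∈ range m, (q i) ^ (-(199 / 100 + 1 / 100) : ℝ)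
        ≤ C1 * q 0 * q m * (2 * (q m) ^ (-(99 / 100 * (199 / 100)) : ℝ)) :=
          mul_le_mul_of_nonneg_left hs hA
      _ = 2 * C1 * q 0 * (q m * (q m) ^ (-(99 / 100 * (199 / 100)) : ℝ)) := by ring
      _ ≤ 2 * C1 * q 0 * (q m) ^ (-(97 / 100) : ℝ) := by
          refine mul_le_mul_of_nonneg_left ?_ (by positivity)
          rw [← Real.rpow_one_add' (by linarith) (by norm_num)]
          exact Real.rpow_le_rpow_of_exponent_le hqm (by norm_num)


end Crest.Agent.R128.Shadow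
end

-- ▼ part R128/SideClean
section

/-!
# Row 128, node V5 (helper398): clean side data in sequence form

`F` = reversed Dirichlet field at the foot (`F 0 = (0,1)`), `P` = tip field of `(0,1)`, `X` = real
tip vector.  `n + 1` = foot.
-/

set_option autoImplicit false
open Finset
open Crest.Agent.R128.TreeSum

namespace Crest.Agent.R128.SideClean

theorem norm_eq (v : ℝ × ℝ) : ‖v‖ = max |v.1| |v.2| := by
  rw [Prod.norm_def, Real.norm_eq_abs, Real.norm_eq_abs]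

theorem norm_le_nn (v : ℝ × ℝ) : ‖v‖ ≤ nn v := by
  rw [norm_eq]; exact max_le (abs_fst_le v) (abs_snd_le v)

theorem nn_le_norm (v : ℝ × ℝ) : nn v ≤ 2 * ‖v‖ := by
  have h1 : |v.1| ≤ ‖v‖ := by rw [norm_eq]; exact le_max_left _ _
  have h2 : |v.2| ≤ ‖v‖ := by rw [norm_eq]; exact le_max_right _ _
  linarith [nn_le_add v]

theorem nn_swap (v : ℝ × ℝ) : nn v.swap = nn v := by
  unfold nn; simp [add_comm]

/-- reversed field -/
theorem rev_field {α b : ℕ → ℝ} {E F : ℕ → ℝ × ℝ} {n : ℕ} (hE : IsField α E) (hF : IsField b F)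
    (hab : ∀ m < n, α m = b (n - 1 - m)) (h0 : E 0 = (F n).swap) :
    ∀ m ≤ n, E m = (F (n - m)).swap := by
  intro m
  induction m with
  | zero => intro _; simpa using h0
  | succ m ih =>
    intro hm
    have h1 := ih (by omega)
    have h2 := hF (n - (m + 1))
    have e1 : n - (m + 1) + 1 = n - m := by omega
    rw [e1] at h2
    rw [hE m, h1, h2, hab m (by omega)]
    have e2 : n - 1 - m = n - (m + 1) := by omega
    rw [e2]
    unfold stp
    ext
    · simp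
    · simp

/-- cone growth over regular digits -/
theorem cone {b : ℕ → ℝ} {F : ℕ → ℝ × ℝ} (hF : IsField b F) {κ : ℝ} (hκ : 2 ≤ κ) {i n : ℕ}
    (h0 : |(F i).1| ≤ |(F i).2|) (hb : ∀ j, i ≤ j → j < n → κ ≤ |b j|) :
    ∀ j, i ≤ j → j ≤ n → |(F j).1| ≤ |(F j).2| ∧
      (j < n → (κ - 1) * |(F j).2| ≤ |(F (j + 1)).2| ∧ (F (j + 1)).1 = (F j).2) := by
  have key : ∀ j, i ≤ j → j < n → |(F j).1| ≤ |(F j).2| →
      (κ - 1) * |(F j).2| ≤ |(F (j + 1)).2| ∧ (F (j + 1)).1 = (F j).2 := by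
    intro j hij hjn hj
    have h1 := hF j
    have h2 : (F (j + 1)).2 = b j * (F j).2 - (F j).1 := by rw [h1]; rfl
    have h3 : (F (j + 1)).1 = (F j).2 := by rw [h1]; rfl
    refine ⟨?_, h3⟩
    rw [h2]
    have h4 : |b j * (F j).2| - |(F j).1| ≤ |b j * (F j).2 - (F j).1| := abs_sub_abs_le_abs_sub _ _
    rw [abs_mul] at h4
    have h5 := mul_le_mul_of_nonneg_right (hb j hij hjn) (abs_nonneg (F j).2)
    linarith
  have main : ∀ j, i ≤ j → j ≤ n → |(F j).1| ≤ |(F j).2| := by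
    intro j hij
    induction j, hij using Nat.le_induction with
    | base => intro _; exact h0
    | succ j hij ih =>
      intro hjn
      have h1 := ih (by omega)
      obtain ⟨h2, h3⟩ := key j hij (by omega) h1
      rw [h3]
      have : 0 ≤ |(F j).2| := abs_nonneg _
      nlinarith
  exact fun j hij hjn => ⟨main j hij hjn, fun hlt => key j hij hlt (main j hij hjn)⟩

theorem norm_of_cone {v : ℝ × ℝ} (h : |v.1| ≤ |v.2|) : ‖v‖ = |v.2| := by
  rw [norm_eq]; exact max_eq_right h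

/-- clean reversed start in sequence form -/
structure Rev (κ : ℝ) (L n : ℕ) (b : ℕ → ℝ) (F : ℕ → ℝ × ℝ) : Prop where
  hκ : (2 : ℝ) ^ 201 ≤ κ
  hL : 20 ≤ L
  hLn : L ≤ n
  hF : IsField b F
  F0 : F 0 = (0, 1)
  cl : ∀ m < L, κ ≤ |b m|
  v2 : ∀ i j, L ≤ i → i ≤ j → j ≤ n → ‖F i‖ ^ 99 ≤ ‖F j‖ ^ 100
  v3 : ∀ j, L ≤ j → j ≤ n → ∃ i, L ≤ i ∧ i ≤ j ∧ (j : ℝ) ^ 400 ≤ ‖F i‖

variable {κ : ℝ} {L n : ℕ} {b : ℕ → ℝ} {F : ℕ → ℝ × ℝ}

theorem Rev.cone' (h : Rev κ L n b F) : ∀ j ≤ L, |(F j).1| ≤ |(F j).2| ∧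
      (j < L → (κ - 1) * |(F j).2| ≤ |(F (j + 1)).2| ∧ (F (j + 1)).1 = (F j).2) := by
  intro j hj
  have h2 : (2:ℝ) ≤ κ := le_trans (by norm_num) h.hκ
  exact cone h.hF h2 (i := 0) (n := L) (by rw [h.F0]; simp) (fun j _ hj => h.cl j hj) j
    (Nat.zero_le j) hj

theorem Rev.step (h : Rev κ L n b F) {j : ℕ} (hj : j < L) : (κ - 1) * ‖F j‖ ≤ ‖F (j + 1)‖ := by
  rw [norm_of_cone (h.cone' j hj.le).1, norm_of_cone (h.cone' (j + 1) hj).1]
  exact ((h.cone' j hj.le).2 hj).1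

theorem Rev.pow_le (h : Rev κ L n b F) : ∀ j ≤ L, (κ - 1) ^ j ≤ ‖F j‖ := by
  intro j
  induction j with
  | zero => intro _; rw [h.F0]; simp [Prod.norm_def]
  | succ j ih =>
    intro hj
    have h1 := ih (by omega)
    have h2 := h.step (j := j) (by omega)
    have h3 : (0:ℝ) ≤ κ - 1 := by
      have : (2:ℝ) ≤ κ := le_trans (by norm_num) h.hκ
      linarith
    calc (κ - 1) ^ (j + 1) = (κ - 1) * (κ - 1) ^ j := by ring
      _ ≤ (κ - 1) * ‖F j‖ := mul_le_mul_of_nonneg_left h1 h3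
      _ ≤ _ := h2

theorem Rev.km1 (h : Rev κ L n b F) : (2 : ℝ) ^ 200 ≤ κ - 1 := by
  have := h.hκ
  have h2 : (2 : ℝ) ^ 201 = 2 ^ 200 + 2 ^ 200 := by norm_num
  have h3 : (1 : ℝ) ≤ 2 ^ 200 := by norm_num
  linarith

theorem Rev.one_le_low (h : Rev κ L n b F) {j : ℕ} (hj : j ≤ L) : 1 ≤ ‖F j‖ := by
  have h1 := h.pow_le j hj
  have h2 : (1:ℝ) ≤ κ - 1 := le_trans (by norm_num) h.km1
  exact (one_le_pow₀ h2).trans h1

theorem Rev.one_le (h : Rev κ L n b F) {j : ℕ} (hj : j ≤ n) : 1 ≤ ‖F j‖ := by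
  rcases le_total j L with h1 | h1
  · exact h.one_le_low h1
  · have h2 := h.v2 L j le_rfl h1 hj
    have h3 : 1 ≤ ‖F L‖ ^ 99 := one_le_pow₀ (h.one_le_low le_rfl)
    by_contra hcon
    push Not at hcon
    have : ‖F j‖ ^ 100 < 1 := pow_lt_one₀ (norm_nonneg _) hcon (by norm_num)
    linarith

theorem Rev.mono (h : Rev κ L n b F) {i j : ℕ} (hij : i ≤ j) (hj : j ≤ L) : ‖F i‖ ≤ ‖F j‖ := by
  induction j, hij using Nat.le_induction with
  | base => exact le_rfl
  | succ j hij ih =>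
    have h1 := ih (by omega)
    have h2 := h.step (j := j) (by omega)
    have h3 : (1:ℝ) ≤ κ - 1 := le_trans (by norm_num) h.km1
    have h4 : 0 ≤ ‖F j‖ := norm_nonneg _
    nlinarith

theorem rpow_of_pow {a c : ℝ} (ha : 0 ≤ a) (hc : 0 ≤ c) (h : a ^ 99 ≤ c ^ 100) :
    a ^ (99 / 100 : ℝ) ≤ c := by
  have ha99 : 0 ≤ a ^ 99 := pow_nonneg ha 99
  have h1 : (a ^ 99) ^ (1 / 100 : ℝ) ≤ (c ^ 100) ^ (1 / 100 : ℝ) :=
    Real.rpow_le_rpow ha99 h (by norm_num)
  have e1 : (a ^ 99) ^ (1 / 100 : ℝ) = a ^ (99 / 100 : ℝ) := by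
    rw [← Real.rpow_natCast a 99, ← Real.rpow_mul ha]
    norm_num
  have e2 : (c ^ 100) ^ (1 / 100 : ℝ) = c := by
    rw [← Real.rpow_natCast c 100, ← Real.rpow_mul hc]
    norm_num
  rwa [e1, e2] at h1

theorem Rev.big (h : Rev κ L n b F) {j : ℕ} (hj1 : 1 ≤ j) (hjn : j ≤ n) :
    (2:ℝ) ^ 198 ≤ ‖F j‖ := by
  rcases le_total j L with h1 | h1
  · have h2 := h.pow_le j h1
    have h3 : (1:ℝ) ≤ κ - 1 := le_trans (by norm_num) h.km1
    calc (2:ℝ) ^ 198 ≤ 2 ^ 200 := by norm_num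
      _ ≤ κ - 1 := h.km1
      _ = (κ - 1) ^ 1 := (pow_one _).symm
      _ ≤ (κ - 1) ^ j := pow_le_pow_right₀ h3 hj1
      _ ≤ _ := h2
  · have h2 := h.v2 L j le_rfl h1 hjn
    have h3 := h.pow_le L le_rfl
    have hL := h.hL
    have h4 : (1:ℝ) ≤ κ - 1 := le_trans (by norm_num) h.km1
    have h5 : (2:ℝ) ^ 200 ≤ ‖F L‖ := by
      calc (2:ℝ) ^ 200 ≤ κ - 1 := h.km1
        _ = (κ - 1) ^ 1 := (pow_one _).symm
        _ ≤ (κ - 1) ^ L := pow_le_pow_right₀ h4 (by omega)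
        _ ≤ _ := h3
    have h6 : ((2:ℝ) ^ 198) ^ 100 ≤ ‖F j‖ ^ 100 := by
      calc ((2:ℝ) ^ 198) ^ 100 = ((2:ℝ) ^ 200) ^ 99 := by rw [← pow_mul, ← pow_mul]
        _ ≤ ‖F L‖ ^ 99 := pow_le_pow_left₀ (pow_nonneg (by norm_num) 200) h5 99
        _ ≤ _ := h2
    exact le_of_pow_le_pow_left₀ (by norm_num) (norm_nonneg _) h6

theorem Rev.val (h : Rev κ L n b F) {i j : ℕ} (hij : i ≤ j) (hj : j ≤ n) :
    (2 * ‖F i‖) ^ (1 - 1 / 60 : ℝ) ≤ ‖F j‖ ∨ i = 0 := by
  rcases Nat.eq_zero_or_pos i with hi | hi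
  · exact Or.inr hi
  left
  have hbig := h.big (j := i) hi (by omega)
  have h1 : ‖F i‖ ^ (99 / 100 : ℝ) ≤ ‖F j‖ := by
    have hi1 : 1 ≤ ‖F i‖ := h.one_le (by omega)
    rcases le_total j L with h1 | h1
    · refine le_trans ?_ (h.mono hij h1)
      calc ‖F i‖ ^ (99 / 100 : ℝ) ≤ ‖F i‖ ^ (1 : ℝ) :=
            Real.rpow_le_rpow_of_exponent_le hi1 (by norm_num)
        _ = _ := Real.rpow_one _
    · rcases le_total L i with h2 | h2
      · exact rpow_of_pow (norm_nonneg _) (norm_nonneg _) (h.v2 _ _ h2 hij hj)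
      · have h3 := h.mono (i := i) (j := L) h2 le_rfl
        have h4 := rpow_of_pow (norm_nonneg _) (norm_nonneg _) (h.v2 L j le_rfl h1 hj)
        exact (Real.rpow_le_rpow (norm_nonneg _) h3 (by norm_num)).trans h4
  refine le_trans ?_ h1
  have hpos : 0 < ‖F i‖ := lt_of_lt_of_le (pow_pos (by norm_num) 198) hbig
  have e : ‖F i‖ ^ (99 / 100 : ℝ) = ‖F i‖ ^ (1 - 1 / 60 : ℝ) * ‖F i‖ ^ (1 / 150 : ℝ) := by
    rw [← Real.rpow_add hpos]; norm_num
  rw [e, Real.mul_rpow (by norm_num) hpos.le, mul_comm]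
  apply mul_le_mul_of_nonneg_left _ (Real.rpow_nonneg hpos.le _)
  calc (2:ℝ) ^ (1 - 1 / 60 : ℝ) ≤ 2 ^ (1 : ℝ) :=
        Real.rpow_le_rpow_of_exponent_le (by norm_num) (by norm_num)
    _ ≤ (2:ℝ) ^ ((198:ℝ) / 150) := Real.rpow_le_rpow_of_exponent_le (by norm_num) (by norm_num)
    _ = ((2:ℝ) ^ 198) ^ (1 / 150 : ℝ) := by
        rw [← Real.rpow_natCast 2 198, ← Real.rpow_mul (by norm_num)]
        norm_num
    _ ≤ ‖F i‖ ^ (1 / 150 : ℝ) :=
        Real.rpow_le_rpow (pow_nonneg (by norm_num) 198) hbig (by norm_num)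

theorem Rev.dur (h : Rev κ L n b F) {j : ℕ} (hj1 : 1 ≤ j) (hjn : j ≤ n) :
    (j : ℝ) ^ 200 ≤ ‖F j‖ := by
  rcases lt_or_ge j L with h1 | h1
  · have h2 := h.pow_le j h1.le
    have h3 : ((2:ℝ) ^ 200) ^ j ≤ (κ - 1) ^ j :=
      pow_le_pow_left₀ (pow_nonneg (by norm_num) 200) h.km1 j
    have h4 : (j : ℝ) ≤ 2 ^ j := by
      exact_mod_cast (Nat.lt_two_pow_self (n := j)).le
    calc (j : ℝ) ^ 200 ≤ (2 ^ j) ^ 200 := pow_le_pow_left₀ (Nat.cast_nonneg j) h4 200
      _ = ((2:ℝ) ^ 200) ^ j := by rw [← pow_mul, ← pow_mul, mul_comm]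
      _ ≤ _ := h3.trans h2
  · obtain ⟨i', h2, h3, h4⟩ := h.v3 j h1 hjn
    have h5 := h.v2 i' j h2 h3 hjn
    have hjr : (1:ℝ) ≤ j := by exact_mod_cast hj1
    have h6 : ((j : ℝ) ^ 200) ^ 100 ≤ ‖F j‖ ^ 100 := by
      calc ((j : ℝ) ^ 200) ^ 100 = (j : ℝ) ^ 20000 := by rw [← pow_mul]
        _ ≤ (j : ℝ) ^ 39600 := pow_le_pow_right₀ hjr (by norm_num)
        _ = ((j : ℝ) ^ 400) ^ 99 := by rw [← pow_mul]
        _ ≤ ‖F i'‖ ^ 99 := pow_le_pow_left₀ (pow_nonneg (Nat.cast_nonneg j) 400) h4 99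
        _ ≤ _ := h5
    exact le_of_pow_le_pow_left₀ (by norm_num) (norm_nonneg _) h6

/-! ### `CleanNum.Clean` -/

section toClean

variable {α : ℕ → ℝ} {E P X : ℕ → ℝ × ℝ} {A : ℝ}

theorem wr_P0 {P : ℕ → ℝ × ℝ} (hP0 : P 0 = (0, 1)) (v : ℝ × ℝ) : wr (P 0) v = -v.1 := by
  rw [hP0]; unfold wr; simp

theorem E0_le (h : Rev κ L n b F) (hE : IsField α E) (hX : IsField α X)
    (hab : ∀ m < n, α m = b (n - 1 - m)) (hE0 : E 0 = (F n).swap) (hX0 : |(X 0).1| = 1)
    (hX1 : |(X 0).2| ≤ 1) (hXn : |(X n).2| ≤ 1) :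
    nn (E 0) ≤ 4 * |(E 0).1| ∧ ‖F n‖ ≤ 2 * |(E 0).1| := by
  have hrev := rev_field hE h.hF hab hE0
  have hEn : E n = (1, 0) := by
    rw [hrev n le_rfl, Nat.sub_self, h.F0]; rfl
  have hw : wr (X n) (E n) = wr (X 0) (E 0) := hX.wr_eq hE (Nat.zero_le n)
  rw [hEn] at hw
  unfold wr at hw
  simp only [mul_zero, mul_one, zero_sub] at hw
  have h1 : |(E 0).2| ≤ |(E 0).1| + 1 := by
    have e : (X 0).1 * (E 0).2 = (X 0).2 * (E 0).1 - (X n).2 := by linarith
    have h2 : |(X 0).1 * (E 0).2| ≤ |(X 0).2 * (E 0).1| + |(X n).2| := by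
      rw [e]; exact abs_sub _ _
    rw [abs_mul, abs_mul, hX0, one_mul] at h2
    have h3 : |(X 0).2| * |(E 0).1| ≤ 1 * |(E 0).1| :=
      mul_le_mul_of_nonneg_right hX1 (abs_nonneg _)
    linarith
  have hn1 : 1 ≤ n := by have := h.hL; have := h.hLn; omega
  have hbig : (2:ℝ) ^ 198 ≤ ‖F n‖ := h.big hn1 le_rfl
  have hnorm : ‖F n‖ = max |(E 0).2| |(E 0).1| := by
    rw [hE0, norm_eq]; rfl
  have h4 : ‖F n‖ ≤ |(E 0).1| + 1 := by
    rw [hnorm]; exact max_le h1 (by linarith)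
  have h5 : (2:ℝ) ≤ 2 ^ 198 := by norm_num
  have h6 : ‖F n‖ ≤ 2 * |(E 0).1| := by linarith
  refine ⟨?_, h6⟩
  have h7 : nn (E 0) ≤ 2 * ‖F n‖ := by
    rw [hE0, nn_swap]; exact nn_le_norm _
  linarith

theorem Rev.toClean (h : Rev κ L n b F) (hE : IsField α E) (hP : IsField α P) (hX : IsField α X)
    (hab : ∀ m < n, α m = b (n - 1 - m)) (hE0 : E 0 = (F n).swap) (hP0 : P 0 = (0, 1))
    (hX0 : |(X 0).1| = 1) (hX1 : |(X 0).2| ≤ 1) (hXn : |(X n).2| ≤ 1)
    (hA : ∀ j, |α j| + 2 ≤ A) : CleanNum.Clean α P E n (1 / 60) 3 A 4 := by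
  have hrev := rev_field hE h.hF hab hE0
  have hnnE : ∀ m ≤ n, nn (E m) = nn (F (n - m)) := fun m hm => by rw [hrev m hm, nn_swap]
  refine ⟨hP, hE, ?_, ?_, hA, by norm_num, le_rfl, by norm_num, by norm_num, ?_, ?_, ?_, ?_⟩
  · rw [hP0]; unfold nn; norm_num
  · have := hA 0; have := abs_nonneg (α 0); linarith
  · intro m hm
    rw [hnnE m hm]
    exact (h.one_le (by omega)).trans (norm_le_nn _)
  · intro i j hij hj
    rw [hnnE j hj, hnnE i (hij.trans hj)]
    rcases h.val (i := n - j) (j := n - i) (by omega) (by omega) with h1 | h1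
    · refine le_trans ?_ (h1.trans (norm_le_nn _))
      exact Real.rpow_le_rpow (nn_nonneg _) (nn_le_norm _) (by norm_num)
    · rw [h1, h.F0]
      have : nn ((0:ℝ), (1:ℝ)) = 1 := by unfold nn; norm_num
      rw [this, Real.one_rpow]
      exact (h.one_le (by omega)).trans (norm_le_nn _)
  · rw [← Finset.sum_range_reflect, Finset.sum_range_succ']
    have hz : nn (E (n + 1 - 1 - 0)) ^ (-(1 / 60 : ℝ)) = 1 := by
      have e : E (n + 1 - 1 - 0) = (1, 0) := by
        have : n + 1 - 1 - 0 = n := by omega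
        rw [this, hrev n le_rfl, Nat.sub_self, h.F0]; rfl
      rw [e]
      have : nn ((1:ℝ), (0:ℝ)) = 1 := by unfold nn; norm_num
      rw [this, Real.one_rpow]
    rw [hz]
    have hsum : ∑ k ∈ range n, nn (E (n + 1 - 1 - (k + 1))) ^ (-(1 / 60 : ℝ)) ≤ 2 := by
      refine le_trans (Finset.sum_le_sum fun j hj => ?_) (Shadow.sum_inv_sq_le n)
      have hjn := Finset.mem_range.1 hj
      rw [hnnE _ (by omega)]
      have e : n - (n + 1 - 1 - (j + 1)) = j + 1 := by omega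
      rw [e]
      have h1 := (h.dur (j := j + 1) (by omega) (by omega)).trans (norm_le_nn _)
      push_cast at h1
      have hj0 : (0:ℝ) < (j : ℝ) + 1 := by positivity
      have hj1 : (1:ℝ) ≤ (j : ℝ) + 1 := by
        have : (0:ℝ) ≤ j := Nat.cast_nonneg j
        linarith
      have h200 : 0 < ((j : ℝ) + 1) ^ 200 := pow_pos hj0 200
      calc nn (F (j + 1)) ^ (-(1 / 60 : ℝ)) ≤ (((j : ℝ) + 1) ^ 200) ^ (-(1 / 60 : ℝ)) :=
            Real.rpow_le_rpow_of_nonpos h200 h1 (by norm_num)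
        _ = ((j : ℝ) + 1) ^ (-(200 / 60) : ℝ) := by
            rw [← Real.rpow_natCast ((j : ℝ) + 1) 200, ← Real.rpow_mul hj0.le]
            norm_num
        _ ≤ ((j : ℝ) + 1) ^ (-(2:ℝ)) := Real.rpow_le_rpow_of_exponent_le hj1 (by norm_num)
        _ = 1 / ((j : ℝ) + 1) ^ 2 := by
            rw [Real.rpow_neg hj0.le, one_div]
            norm_num
    linarith
  · have h1 := (E0_le h hE hX hab hE0 hX0 hX1 hXn).1
    have h2 : nn (P 0) = 1 := by rw [hP0]; unfold nn; norm_num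
    rw [h2, one_mul, wr_P0 hP0, abs_neg]
    exact h1

end toClean

end Crest.Agent.R128.SideClean
end

-- ▼ part R128/SideSize
section

/-!
# Row 128, node V5 (helper398): a very fresh side in the vocabulary of the complexified curve
-/

set_option autoImplicit false
open Finset
open Crest.Agent.R128 Crest.Agent.R128.TreeSum Crest.Agent.R128.SideClean
open Crest.Agent.R128.CleanDisc Crest.Agent.R128.DictY Crest.Agent.R128.AlignMn

namespace Crest.Agent.R128.SideSize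

/-- threshold of regular digits -/
noncomputable def kp (k : ℝ) : ℝ := k ^ ((2 : ℝ) / 3)

theorem four_le {k : ℝ} (hk : (2:ℝ) ^ 400 ≤ k) : (4:ℝ) ≤ k := by
  refine le_trans ?_ hk
  calc (4:ℝ) = 2 ^ 2 := by norm_num
    _ ≤ 2 ^ 400 := pow_le_pow_right₀ (by norm_num) (by norm_num)

theorem kp_ge {k : ℝ} (hk : (2:ℝ) ^ 400 ≤ k) : (2:ℝ) ^ 201 ≤ kp k := by
  unfold kp
  have h1 : ((2:ℝ) ^ 400) ^ ((2:ℝ) / 3) ≤ k ^ ((2:ℝ) / 3) :=
    Real.rpow_le_rpow (pow_nonneg (by norm_num) 400) hk (by norm_num)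
  refine le_trans ?_ h1
  rw [← Real.rpow_natCast 2 400, ← Real.rpow_mul (by norm_num), ← Real.rpow_natCast 2 201]
  exact Real.rpow_le_rpow_of_exponent_le (by norm_num) (by norm_num)

theorem kp_cube {k : ℝ} (hk : 0 < k) : kp k ^ 3 = k ^ 2 := by
  unfold kp
  rw [← Real.rpow_natCast, ← Real.rpow_mul hk.le]
  norm_num

theorem ap_eq_ra (k c t : ℝ) (m : ℕ) : ap k (zt k c t) (m + 1) = ra k c t m := by
  unfold ap dz ra
  rw [Two.Tz_natCast, Function.iterate_succ_apply, T_zt]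

theorem ap_eq_iter (k : ℝ) (y : Tor) (m : ℕ) : ap k y m = V k ((T k)^[m] y).2 := by
  unfold ap dz
  rw [Two.Tz_natCast]

/-- reversed digits -/
theorem rev_dig (k c t : ℝ) {w m : ℕ} (hm : m < w - 1) :
    ra k c t m = V k ((T k)^[w - 1 - 1 - m] (((T k)^[w] (zt k c t)).swap)).2 := by
  rw [Rev.digit_rev k (by omega), ← ap_eq_ra, ap_eq_iter]
  have e : w - (w - 1 - 1 - m) = (m + 1) + 1 := by omega
  rw [e, Rev.fst_iter_succ]

variable {k ρ c t : ℝ} {L w M : ℕ} {x : ℕ → ℝ}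

theorem toRev (hk : (2:ℝ) ^ 400 ≤ k) (hL : 20 ≤ L) (h : Good.Side k L ρ (zt k c t) x w M) :
    SideClean.Rev (kp k) L (w - 1)
      (fun m => V k ((T k)^[m] (((T k)^[w] (zt k c t)).swap)).2)
      (Lam0.fld k (((T k)^[w] (zt k c t)).swap)) where
  hκ := kp_ge hk
  hL := hL
  hLn := by have := h.hw; omega
  hF := Lam0.isField_fld k _
  F0 := Lam0.fld_zero k _
  cl := fun m hm => h.val.cl m hm (by have := h.hw; omega)
  v2 := h.val.v2
  v3 := h.val.v3

/-- tip vector as a field -/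
def XF (x : ℕ → ℝ) (m : ℕ) : ℝ × ℝ := (x m, x (m + 1))

theorem isField_XF (h : Good.Side k L ρ (zt k c t) x w M) : IsField (ra k c t) (XF x) := by
  intro m
  unfold XF stp
  ext
  · rfl
  · show x (m + 1 + 1) = ra k c t m * x (m + 1) - x m
    rw [← ap_eq_ra]
    exact h.xrec m

/-- the reversed field in the forward time -/
noncomputable def EF (k c t : ℝ) (w : ℕ) (m : ℕ) : ℝ × ℝ :=
  AlignLam.W (fun j => ap k (zt k c t) j)
    ((Lam0.fld k (((T k)^[w] (zt k c t)).swap) (w - 1)).2)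
    ((Lam0.fld k (((T k)^[w] (zt k c t)).swap) (w - 1)).1) m

theorem isField_EF (k c t : ℝ) (w : ℕ) : IsField (ra k c t) (EF k c t w) := by
  have h := AlignLam.isField_W (fun j => ap k (zt k c t) j)
    ((Lam0.fld k (((T k)^[w] (zt k c t)).swap) (w - 1)).2)
    ((Lam0.fld k (((T k)^[w] (zt k c t)).swap) (w - 1)).1)
  intro m
  have h2 := h m
  unfold AlignLam.sh at h2
  change _ = stp (ap k (zt k c t) (m + 1)) _ at h2
  rw [ap_eq_ra] at h2
  exact h2

theorem EF_zero (k c t : ℝ) (w : ℕ) :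
    EF k c t w 0 = (Lam0.fld k (((T k)^[w] (zt k c t)).swap) (w - 1)).swap := by
  unfold EF AlignLam.W
  ext <;> simp [Align.sol]

theorem exp_le_one (hρ : 0 ≤ ρ) : Real.exp (-ρ) ≤ 1 := by
  rw [Real.exp_le_one_iff]; linarith

theorem x_foot_le (hρ : 0 ≤ ρ) (h : Good.Side k L ρ (zt k c t) x w M) :
    |(XF x (w - 1)).2| ≤ 1 := by
  have h1 := (le_max_right |x (w - 1)| |x w|).trans (h.hi.trans (exp_le_one hρ))
  have e : w - 1 + 1 = w := by have := h.hw; omega
  show |x (w - 1 + 1)| ≤ 1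
  rw [e]
  exact h1

/-- **816's clean structure for a very fresh side** -/
theorem clean (hk : (2:ℝ) ^ 400 ≤ k) (hL : 20 ≤ L) (hρ : 0 ≤ ρ)
    (h : Good.Side k L ρ (zt k c t) x w M) :
    CleanNum.Clean (ra k c t) (wf k c t) (EF k c t w) (w - 1) (1 / 60) 3 (8 * k) 4 := by
  have hk4 : (4:ℝ) ≤ k := four_le hk
  exact Rev.toClean (toRev hk hL h) (isField_EF k c t w) (isField_wf k c t) (isField_XF h)
    (fun m hm => rev_dig k c t hm) (EF_zero k c t w) (wf_zero k c t)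
    (by show |x 0| = 1; exact h.x0) (by show |x 1| ≤ 1; exact h.x1) (x_foot_le hρ h)
    (fun j => Lam0.abs_V_le hk4 _)

theorem EF_last (hk : (2:ℝ) ^ 400 ≤ k) (hL : 20 ≤ L) (h : Good.Side k L ρ (zt k c t) x w M) :
    EF k c t w (w - 1) = (1, 0) := by
  have h1 := rev_field (isField_EF k c t w) (toRev hk hL h).hF (fun m hm => rev_dig k c t hm)
    (EF_zero k c t w) (w - 1) le_rfl
  rw [h1, Nat.sub_self, Lam0.fld_zero]
  rfl

/-- digits before the foot -/
theorem dig_before (h : Good.Side k L ρ (zt k c t) x w M) {m : ℕ}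
    (h1 : w - 1 ≤ m + L) (h2 : m < w - 1) : kp k ≤ |ra k c t m| := by
  rw [rev_dig k c t h2]
  exact h.val.cl _ (by omega) (by omega)

/-- digits after the foot -/
theorem dig_after (h : Good.Side k L ρ (zt k c t) x w M) {m : ℕ}
    (h1 : w ≤ m + 1) (h2 : m + 1 ≤ w + M) : kp k ≤ |ra k c t m| := by
  rw [← ap_eq_ra]
  exact h.run (m + 1) h1 h2


/-! ### sizes -/

theorem kp_pos {k : ℝ} (hk : (2:ℝ) ^ 400 ≤ k) : 4 ≤ kp k := by
  refine le_trans ?_ (kp_ge hk)
  calc (4:ℝ) = 2 ^ 2 := by norm_num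
    _ ≤ 2 ^ 201 := pow_le_pow_right₀ (by norm_num) (by norm_num)

theorem XX_eq (hk : (2:ℝ) ^ 400 ≤ k) (hL : 20 ≤ L) (h : Good.Side k L ρ (zt k c t) x w M) :
    (wf k c t (w - 1)).2 = (EF k c t w 0).1 ∧
      CleanCont.XX (wf k c t) (EF k c t w) = |(wf k c t (w - 1)).2| := by
  have h1 : wr (wf k c t (w - 1)) (EF k c t w (w - 1)) = wr (wf k c t 0) (EF k c t w 0) :=
    (isField_wf k c t).wr_eq (isField_EF k c t w) (Nat.zero_le _)
  have h2 := wr_P0 (wf_zero k c t) (EF k c t w 0)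
  rw [EF_last hk hL h, h2] at h1
  unfold wr at h1
  simp only [mul_zero, mul_one, zero_sub] at h1
  have h3 : (wf k c t (w - 1)).2 = (EF k c t w 0).1 := by linarith
  refine ⟨h3, ?_⟩
  unfold CleanCont.XX
  rw [h2, abs_neg, h3]

/-- the cone condition just before the foot -/
theorem cone_foot (hk : (2:ℝ) ^ 400 ≤ k) (hL : 20 ≤ L) (hρ : 0 ≤ ρ)
    (h : Good.Side k L ρ (zt k c t) x w M) :
    (kp k - 1) * |(wf k c t (w - 1)).1| ≤ |(wf k c t (w - 1)).2| := by
  have hC := clean hk hL hρ h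
  have hw := h.hw
  have hk4 := four_le hk
  have hk0 : 0 < k := lt_of_lt_of_le (by norm_num) hk4
  have hkp := kp_pos hk
  have hkp0 := kp_ge hk
  have hrev := rev_field (isField_EF k c t w) (toRev hk hL h).hF (fun m hm => rev_dig k c t hm)
    (EF_zero k c t w)
  clear hk
  refine CleanStart.cone' hC (b := kp k) hkp (m0 := w - 1 - 6) (s0 := 5) (by omega)
    (fun m hm1 hm2 => dig_before h (by omega) hm2) ?_ (w - 1) (by omega) le_rfl
  have e : w - 1 - 6 + 5 = w - 1 - 1 := by omega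
  rw [e, hrev (w - 1 - 1) (by omega), nn_swap]
  have e2 : w - 1 - (w - 1 - 1) = 1 := by omega
  rw [e2]
  have hnn : nn (Lam0.fld k (((T k)^[w] (zt k c t)).swap) 1) ≤ 8 * k := by
    have h1 := Lam0.fld_succ k (((T k)^[w] (zt k c t)).swap) 0
    rw [zero_add] at h1
    rw [h1]
    refine (nn_stp_le _ _).trans ?_
    rw [Lam0.fld_zero]
    have : nn ((0:ℝ), (1:ℝ)) = 1 := by unfold nn; norm_num
    rw [this, mul_one]
    exact Lam0.abs_V_le hk4 _
  have hpow : nn (Lam0.fld k (((T k)^[w] (zt k c t)).swap) 1) ^ (4 * (1 / 60) : ℝ) ≤ 8 * k := by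
    have h1 : nn (Lam0.fld k (((T k)^[w] (zt k c t)).swap) 1) ^ (4 * (1 / 60) : ℝ) ≤
        (8 * k) ^ (4 * (1 / 60) : ℝ) := Real.rpow_le_rpow (nn_nonneg _) hnn (by norm_num)
    refine h1.trans ?_
    calc (8 * k) ^ (4 * (1 / 60) : ℝ) ≤ (8 * k) ^ (1 : ℝ) :=
          Real.rpow_le_rpow_of_exponent_le (by linarith) (by norm_num)
      _ = _ := Real.rpow_one _
  have hC1 : CleanNum.C1 (8 * k) 3 4 ≤ 200 * k ^ 2 := by
    unfold CleanNum.C1
    nlinarith [mul_self_le_mul_self (by norm_num : (0:ℝ) ≤ 4) hk4]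
  have hC10 : 0 ≤ CleanNum.C1 (8 * k) 3 4 := by unfold CleanNum.C1; positivity
  have hkk : 2 * kp k / 3 ≤ kp k - 1 := by linarith
  have hcube := kp_cube hk0
  -- (kp-1)^5 ≥ (2/3 kp)^5, and k^3 = kp^4.5 ≤ kp^5 / 2^100
  have h3 : (2 * kp k / 3) ^ 5 ≤ (kp k - 1) ^ 5 := pow_le_pow_left₀ (by positivity) hkk 5
  refine lt_of_lt_of_le ?_ h3
  have h4 : 2 * CleanNum.C1 (8 * k) 3 4 *
      nn (Lam0.fld k (((T k)^[w] (zt k c t)).swap) 1) ^ (4 * (1 / 60) : ℝ) ≤
      2 * (200 * k ^ 2) * (8 * k) := by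
    apply mul_le_mul _ hpow (Real.rpow_nonneg (nn_nonneg _) _) (by positivity)
    linarith
  refine lt_of_le_of_lt h4 ?_
  -- 3200 k^3 < (2/3)^5 kp^5 ; square: k^6 = kp^9
  have h5 : (k ^ 3) ^ 2 = kp k ^ 9 := by
    have : kp k ^ 9 = (kp k ^ 3) ^ 3 := by ring
    rw [this, hcube]
    ring
  have h6 : (2 * (200 * k ^ 2) * (8 * k)) ^ 2 < ((2 * kp k / 3) ^ 5) ^ 2 := by
    have e1 : (2 * (200 * k ^ 2) * (8 * k)) ^ 2 = 3200 ^ 2 * kp k ^ 9 := by
      rw [← h5]; ring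
    have e2 : ((2 * kp k / 3) ^ 5) ^ 2 = (2 / 3) ^ 10 * kp k * kp k ^ 9 := by ring
    rw [e1, e2]
    apply mul_lt_mul_of_pos_right _ (by positivity)
    have : (2:ℝ) ^ 40 ≤ kp k := le_trans (pow_le_pow_right₀ (by norm_num) (by norm_num)) hkp0
    norm_num at this ⊢
    linarith
  exact lt_of_pow_lt_pow_left₀ 2 (by positivity) h6

/-- the tip vector is contracting at the foot -/
theorem x_contr (hk : (2:ℝ) ^ 400 ≤ k) (h : Good.Side k L ρ (zt k c t) x w M) :
    |x w| ≤ |x (w - 1)| := by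
  by_contra hcon
  push Not at hcon
  have hw := h.hw
  have hkp := kp_pos hk
  have hlog : 0 < Real.log k := Real.log_pos (lt_of_lt_of_le (by norm_num) (four_le hk))
  clear hk
  have e1 : w - 1 + 1 = w := by omega
  have hc := cone (isField_XF h) (κ := kp k) (by linarith) (i := w - 1) (n := w + M - 1)
    (by show |x (w - 1)| ≤ |x (w - 1 + 1)|; rw [e1]; exact hcon.le)
    (fun j h1 h2 => dig_after h (by omega) (by omega))
  have hmono : ∀ j, w - 1 ≤ j → j ≤ w + M - 1 → |x w| ≤ |x (j + 1)| := by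
    intro j hj
    induction j, hj using Nat.le_induction with
    | base => intro _; rw [e1]
    | succ j hj ih =>
      intro hj2
      have h1 := ih (by omega)
      have h2 := ((hc j hj (by omega)).2 (by omega)).1
      have h3 : (kp k - 1) * |x (j + 1)| ≤ |x (j + 1 + 1)| := h2
      have h4 := abs_nonneg (x (j + 1))
      nlinarith
  have h5 := hmono (w + M - 1) (by omega) le_rfl
  have e2 : w + M - 1 + 1 = w + M := by omega
  rw [e2] at h5
  have h6 := (le_max_right |x (w + M - 1)| |x (w + M)|).trans h.fin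
  have h7 := h.lo
  rw [max_eq_right hcon.le] at h7
  have h8 : Real.exp (-ρ - 80 * Real.log k) < Real.exp (-ρ - 3 * Real.log k) :=
    Real.exp_lt_exp.mpr (by linarith)
  linarith

/-- **sizes at the foot** -/
theorem sizes (hk : (2:ℝ) ^ 400 ≤ k) (hL : 20 ≤ L) (hρ : 0 ≤ ρ)
    (h : Good.Side k L ρ (zt k c t) x w M) :
    Real.exp ρ / 2 ≤ |(wf k c t (w - 1)).2| ∧
      |(wf k c t (w - 1)).2| ≤ 2 * k ^ 3 * Real.exp ρ := by
  have hw := h.hw
  have hk0 : 0 < k := lt_of_lt_of_le (by norm_num) (four_le hk)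
  have hkp := kp_pos hk
  have e1 : w - 1 + 1 = w := by omega
  have hwr : wr (XF x (w - 1)) (wf k c t (w - 1)) = wr (XF x 0) (wf k c t 0) :=
    (isField_XF h).wr_eq (isField_wf k c t) (Nat.zero_le _)
  have h0 : wr (XF x 0) (wf k c t 0) = x 0 := by
    rw [wf_zero]; unfold wr XF; simp
  rw [h0] at hwr
  unfold wr XF at hwr
  simp only [e1] at hwr
  set p := |(wf k c t (w - 1)).2| with hp
  set p' := |(wf k c t (w - 1)).1| with hp'
  have hcone := cone_foot hk hL hρ h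
  rw [← hp, ← hp'] at hcone
  have hp'0 : 0 ≤ p' := abs_nonneg _
  have hpp : 3 * p' ≤ p := by nlinarith
  have hx1 := h.x0
  have hcon := x_contr hk h
  have hhi := h.hi
  have hlo := h.lo
  rw [max_eq_left hcon] at hhi hlo
  have hxw : |x w| ≤ Real.exp (-ρ) := hcon.trans hhi
  have hexp : Real.exp ρ * Real.exp (-ρ) = 1 := by rw [← Real.exp_add]; simp
  have he0 := Real.exp_pos ρ
  constructor
  · have h1 : 1 ≤ |x (w - 1)| * p + |x w| * p' := by
      rw [← hx1, ← hwr]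
      refine (abs_sub _ _).trans ?_
      rw [abs_mul, abs_mul]
    have h2 : |x (w - 1)| * p + |x w| * p' ≤ Real.exp (-ρ) * p + Real.exp (-ρ) * p' := by
      gcongr
    have h3 : 1 ≤ Real.exp (-ρ) * (2 * p) := by
      have : Real.exp (-ρ) * p + Real.exp (-ρ) * p' ≤ Real.exp (-ρ) * (2 * p) := by
        have := Real.exp_pos (-ρ)
        nlinarith
      linarith
    have h4 : Real.exp ρ * 1 ≤ Real.exp ρ * (Real.exp (-ρ) * (2 * p)) :=
      mul_le_mul_of_nonneg_left h3 he0.le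
    rw [← mul_assoc, hexp, one_mul, mul_one] at h4
    linarith
  · have h1 : |x (w - 1)| * p - |x w| * p' ≤ 1 := by
      rw [← hx1, ← hwr]
      have := abs_sub_abs_le_abs_sub (x (w - 1) * (wf k c t (w - 1)).2)
        (x w * (wf k c t (w - 1)).1)
      rwa [abs_mul, abs_mul] at this
    have h2 : |x w| * p' ≤ |x (w - 1)| * p' := mul_le_mul_of_nonneg_right hcon hp'0
    have h3 : |x (w - 1)| * p ≤ 2 := by
      have h4 : |x (w - 1)| * (3 * p') ≤ |x (w - 1)| * p :=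
        mul_le_mul_of_nonneg_left hpp (abs_nonneg _)
      nlinarith
    have h4 : Real.exp (-ρ - 3 * Real.log k) * p ≤ 2 :=
      (mul_le_mul_of_nonneg_right hlo (abs_nonneg _)).trans h3
    have h5 : Real.exp (ρ + 3 * Real.log k) * Real.exp (-ρ - 3 * Real.log k) = 1 := by
      rw [← Real.exp_add]; ring_nf; simp
    have h6 : Real.exp (ρ + 3 * Real.log k) = Real.exp ρ * k ^ 3 := by
      rw [Real.exp_add]
      congr 1
      rw [show (3:ℝ) * Real.log k = ((3:ℕ):ℝ) * Real.log k by norm_num, Real.exp_nat_mul,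
        Real.exp_log hk0]
    have h7 := mul_le_mul_of_nonneg_left h4 (Real.exp_pos (ρ + 3 * Real.log k)).le
    rw [← mul_assoc, h5, one_mul, h6] at h7
    linarith


end Crest.Agent.R128.SideSize
end

-- ▼ part R128/SideStart376
section

/-!
# Row 128, node V5-LOC: from `Good.Side` to the disc data of one side (helper376)

`Side k L ρ (zt k c t0) x w M` (foot `w`, depth `ρ`) gives a `CleanNum.Clean` structure for the
`t`-field `wf k c t0` up to the time `w - 1`, the size of the slope `X = |Q_w|` at the foot, and the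
complex disc of radius `k^(-12) / X` on which everything up to the foot is controlled.
-/

set_option autoImplicit false

open Finset Metric

namespace Crest.Agent.R128.SideStart376

open Crest.Agent.R128 Crest.Agent.R128.Cell Crest.Agent.R128.CellB
open Crest.Agent.R128.TreeSum Crest.Agent.R128.Acc Crest.Agent.R128.AlignMn
open Crest.Agent.R128.DictY Crest.Agent.R128.Lam0 Crest.Agent.R128.Good
open Crest.Agent.R128.CleanNum Crest.Agent.R128.CleanDisc Crest.Agent.R128.CleanCont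
open Crest.Agent.R128.ValNorm

theorem ap_nat (k : ℝ) (y : Tor) (n : ℕ) : ap k y n = V k ((T k)^[n] y).2 := by
  unfold AlignMn.ap dz
  rw [Two.Tz_natCast]

theorem ap_succ_zt (k c t0 : ℝ) (n : ℕ) : ap k (zt k c t0) (n + 1) = ra k c t0 n := by
  rw [ap_nat, Function.iterate_succ_apply, T_zt]
  rfl

/-- digits of the reversed start at the foot -/
theorem digit_foot (k : ℝ) (y : Tor) {w j : ℕ} (hj : j < w) :
    V k ((T k)^[j] ((T k)^[w] y).swap).2 = ap k y (w - 1 - j) := by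
  rw [T_iter_swap, ValNorm.Tinv_iter_T_iter k hj.le, ap_nat]
  have e : w - j = (w - 1 - j) + 1 := by omega
  rw [e, Function.iterate_succ_apply']
  rfl

/-- `CVal` gives `ValD` with exponent `1/100` -/
theorem valD {k : ℝ} {L n : ℕ} {z : Tor} (h : CVal k L z n) (hL : L ≤ n) :
    ValD k (1 / 100) L n z where
  c1 := fun m hm => h.cl m hm (lt_of_lt_of_le hm hL)
  c2 := by
    intro i j hi hij hj
    have h1 := h.v2 i j hi hij hj
    unfold W
    have n1 := norm_nonneg (fld k z i)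
    have n2 := norm_nonneg (fld k z j)
    have h2 : (‖fld k z i‖ ^ 99) ^ (1 / 100 : ℝ) ≤ (‖fld k z j‖ ^ 100) ^ (1 / 100 : ℝ) :=
      Real.rpow_le_rpow (pow_nonneg n1 _) h1 (by norm_num)
    rw [← Real.rpow_natCast, ← Real.rpow_natCast, ← Real.rpow_mul n1, ← Real.rpow_mul n2] at h2
    norm_num at h2 ⊢
    exact h2
  c3 := by
    intro j hLj hj
    obtain ⟨i, _, hij, hi⟩ := h.v3 j hLj hj
    refine ⟨i, hij, ?_⟩
    unfold W
    have n1 := norm_nonneg (fld k z i)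
    have h2 : ((j : ℝ) ^ 400) ^ (1 / 400 : ℝ) ≤ ‖fld k z i‖ ^ (1 / 400 : ℝ) :=
      Real.rpow_le_rpow (by positivity) hi (by norm_num)
    have h3 : ((j : ℝ) ^ 400) ^ (1 / 400 : ℝ) = (j : ℝ) := by
      rw [← Real.rpow_natCast, ← Real.rpow_mul (Nat.cast_nonneg _)]
      norm_num
    rw [h3] at h2
    have e : (1 / 100 / 4 : ℝ) = 1 / 400 := by norm_num
    rw [e]
    exact h2

/-- the foot field, forward in time -/
noncomputable def zf (k c t0 : ℝ) (w : ℕ) : ℕ → ℝ × ℝ :=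
  Crest.Agent.R128.Val.fld (ra k c t0) (fld k (((T k)^[w] (zt k c t0)).swap) (w - 1)).swap

theorem isField_zf (k c t0 : ℝ) (w : ℕ) : IsField (ra k c t0) (zf k c t0 w) :=
  Crest.Agent.R128.Val.fld_isField _ _

theorem zf_eq (k c t0 : ℝ) {w : ℕ} (hw : 0 < w) : ∀ m ≤ w - 1,
    zf k c t0 w m = (fld k (((T k)^[w] (zt k c t0)).swap) (w - 1 - m)).swap := by
  intro m
  induction m with
  | zero => intro _; rfl
  | succ m ih =>
    intro hm
    have h := ih (by omega)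
    rw [isField_zf k c t0 w m, h]
    have e1 : w - 1 - m = (w - 1 - (m + 1)) + 1 := by omega
    rw [e1, fld_succ, digit_foot k _ (by omega : w - 1 - (m + 1) < w)]
    have e2 : w - 1 - (w - 1 - (m + 1)) = m + 1 := by omega
    rw [e2, ap_succ_zt]
    unfold stp
    ext
    · simp
    · simp

theorem nn_swap (v : ℝ × ℝ) : nn v.swap = nn v := by
  unfold nn
  rw [Prod.fst_swap, Prod.snd_swap, add_comm]

section foot

variable {k : ℝ} {L n : ℕ} {s : Tor}

theorem W_le_nn (k : ℝ) (s : Tor) (j : ℕ) : W k s j ≤ nn (fld k s j) := norm_le_nn _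

theorem nn_le_W (k : ℝ) (s : Tor) (j : ℕ) : nn (fld k s j) ≤ 2 * W k s j := nn_le_norm _

theorem clean_nn (h : ValD k (1 / 100) L n s) (hk : 100 ≤ k) {j : ℕ} (hj : j < L) :
    nn (fld k s j) ≤ W k s (j + 1) := by
  have h3 := ValD.three hk
  have h1 := clean_cone h3 h.c1 j hj.le
  have h2 := W_growth h3 h.c1 hj
  have h4 := h.c1 j hj
  have h5 := W_eq_snd h3 h.c1 hj.le
  have h6 := nn_le_add (fld k s j)
  have h7 := W_nonneg k s j
  nlinarith

theorem late_pow (h : ValD k (1 / 100) L n s) (hk : 100 ≤ k) (hL : 1000 ≤ L) {j : ℕ}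
    (hLj : L ≤ j) (hj : j ≤ n) : (2 : ℝ) ^ 150 ≤ W k s j := by
  have h1 := h.c2 L j le_rfl hLj hj
  have h2 := h.W_L hk
  have h3 := ten_le hk
  have h4 : (10 : ℝ) ^ 1000 ≤ W k s L := by
    calc (10 : ℝ) ^ 1000 ≤ (k ^ (1/2 : ℝ)) ^ 1000 := pow_le_pow_left₀ (by norm_num) h3 _
      _ ≤ (k ^ (1/2 : ℝ)) ^ L := pow_le_pow_right₀ (by linarith) hL
      _ ≤ _ := h2
  have h5 : ((10 : ℝ) ^ 1000) ^ (99 / 100 : ℝ) ≤ W k s L ^ (1 - 1 / 100 : ℝ) := by
    have e : (1 - 1 / 100 : ℝ) = 99 / 100 := by norm_num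
    rw [e]
    exact Real.rpow_le_rpow (by positivity) h4 (by norm_num)
  have h6 : ((10 : ℝ) ^ 1000) ^ (99 / 100 : ℝ) = (10 : ℝ) ^ 990 := by
    rw [← Real.rpow_natCast, ← Real.rpow_natCast, ← Real.rpow_mul (by norm_num)]
    norm_num
  rw [h6] at h5
  have h7 : (2 : ℝ) ^ 150 ≤ 10 ^ 990 := by
    calc (2 : ℝ) ^ 150 ≤ 10 ^ 150 := pow_le_pow_left₀ (by norm_num) (by norm_num) _
      _ ≤ 10 ^ 990 := pow_le_pow_right₀ (by norm_num) (by norm_num)
  exact h7.trans (h5.trans h1)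

theorem nn_val (h : ValD k (1 / 100) L n s) (hk : 100 ≤ k) (hL : 1000 ≤ L) {i j : ℕ}
    (hij : i ≤ j) (hj : j ≤ n) : nn (fld k s i) ^ (1 - 1 / 60 : ℝ) ≤ nn (fld k s j) := by
  have one : ∀ m ≤ n, 1 ≤ W k s m := fun m hm => h.one_le hk (by norm_num) hm
  have hF : ∀ m ≤ n, 1 ≤ nn (fld k s m) := fun m hm => (one m hm).trans (W_le_nn k s m)
  rcases Nat.eq_or_lt_of_le hij with heq | hlt
  · rw [← heq]
    calc nn (fld k s i) ^ (1 - 1 / 60 : ℝ) ≤ nn (fld k s i) ^ (1 : ℝ) :=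
          Real.rpow_le_rpow_of_exponent_le (hF i (by omega)) (by norm_num)
      _ = _ := Real.rpow_one _
  · refine le_trans ?_ (W_le_nn k s j)
    rcases Nat.lt_or_ge i L with hi | hi
    · have h1 := clean_nn h hk hi
      have h2 := one (i + 1) (by omega)
      calc nn (fld k s i) ^ (1 - 1 / 60 : ℝ) ≤ W k s (i + 1) ^ (1 - 1 / 60 : ℝ) :=
            Real.rpow_le_rpow (nn_nonneg _) h1 (by norm_num)
        _ ≤ W k s (i + 1) ^ (1 - 1 / 100 : ℝ) :=
            Real.rpow_le_rpow_of_exponent_le h2 (by norm_num)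
        _ ≤ _ := h.all hk (by norm_num) (by norm_num) (by omega) hj
    · have h1 := nn_le_W k s i
      have h2 := late_pow h hk hL hi (by omega)
      have h3 : (0 : ℝ) < W k s i := lt_of_lt_of_le (by positivity) h2
      have h4 : (2 : ℝ) ≤ W k s i ^ (1 / 150 : ℝ) := by
        have h5 : ((2 : ℝ) ^ 150) ^ (1 / 150 : ℝ) ≤ W k s i ^ (1 / 150 : ℝ) :=
          Real.rpow_le_rpow (by positivity) h2 (by norm_num)
        have h6 : ((2 : ℝ) ^ 150) ^ (1 / 150 : ℝ) = 2 := by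
          rw [← Real.rpow_natCast, ← Real.rpow_mul (by norm_num)]
          norm_num
        linarith
      have h7 : (2 : ℝ) ^ (1 - 1 / 60 : ℝ) ≤ 2 := by
        calc (2 : ℝ) ^ (1 - 1 / 60 : ℝ) ≤ 2 ^ (1 : ℝ) :=
              Real.rpow_le_rpow_of_exponent_le (by norm_num) (by norm_num)
          _ = 2 := Real.rpow_one _
      calc nn (fld k s i) ^ (1 - 1 / 60 : ℝ) ≤ (2 * W k s i) ^ (1 - 1 / 60 : ℝ) :=
            Real.rpow_le_rpow (nn_nonneg _) h1 (by norm_num)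
        _ = 2 ^ (1 - 1 / 60 : ℝ) * W k s i ^ (1 - 1 / 60 : ℝ) :=
            Real.mul_rpow (by norm_num) h3.le
        _ ≤ W k s i ^ (1 / 150 : ℝ) * W k s i ^ (1 - 1 / 60 : ℝ) := by
            apply mul_le_mul_of_nonneg_right (h7.trans h4) (Real.rpow_nonneg h3.le _)
        _ = W k s i ^ (1 - 1 / 100 : ℝ) := by
            rw [← Real.rpow_add h3]
            norm_num
        _ ≤ _ := h.all hk (by norm_num) (by norm_num) hij hj

theorem nn_dur (h : ValD k (1 / 100) L n s) (hk : 100 ≤ k) (hL : 1000 ≤ L) (hLn : L ≤ n) :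
    ∑ j ∈ range (n + 1), nn (fld k s j) ^ (-(1 / 60) : ℝ) ≤ L + 1 := by
  have one : ∀ m ≤ n, 1 ≤ W k s m := fun m hm => h.one_le hk (by norm_num) hm
  have hF : ∀ m ≤ n, 1 ≤ nn (fld k s m) := fun m hm => (one m hm).trans (W_le_nn k s m)
  rw [← Finset.sum_range_add_sum_Ico _ (by omega : L ≤ n + 1)]
  have h1 : ∑ j ∈ range L, nn (fld k s j) ^ (-(1 / 60) : ℝ) ≤ L := by
    calc ∑ j ∈ range L, nn (fld k s j) ^ (-(1 / 60) : ℝ) ≤ ∑ _j ∈ range L, (1 : ℝ) := by
          refine Finset.sum_le_sum fun j hj => ?_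
          exact Real.rpow_le_one_of_one_le_of_nonpos
            (hF j (by rw [Finset.mem_range] at hj; omega)) (by norm_num)
      _ = L := by simp
  have h2 : ∑ j ∈ Ico L (n + 1), nn (fld k s j) ^ (-(1 / 60) : ℝ) ≤ 1 := by
    rw [Finset.sum_Ico_eq_sum_range]
    have h3 : ∀ i ∈ range (n + 1 - L), nn (fld k s (L + i)) ^ (-(1 / 60) : ℝ) ≤
        1 / ((L + i : ℕ) : ℝ) ^ 2 := by
      intro i hi
      rw [Finset.mem_range] at hi
      have hLi : L + i ≤ n := by omega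
      obtain ⟨i', hi'1, hi'2⟩ := h.c3 (L + i) (by omega) hLi
      have h4 := h.all hk (by norm_num) (by norm_num) hi'1 hLi
      have h5 := one i' (hi'1.trans hLi)
      have hpos : (0 : ℝ) < ((L + i : ℕ) : ℝ) := by
        have : 0 < L + i := by omega
        exact_mod_cast this
      have h6 : ((L + i : ℕ) : ℝ) ^ 120 ≤ nn (fld k s (L + i)) := by
        calc ((L + i : ℕ) : ℝ) ^ 120 ≤ (W k s i' ^ (1 / 100 / 4 : ℝ)) ^ 120 :=
              pow_le_pow_left₀ hpos.le hi'2 _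
          _ = W k s i' ^ (3 / 10 : ℝ) := by
              rw [← Real.rpow_natCast, ← Real.rpow_mul (by linarith)]
              norm_num
          _ ≤ W k s i' ^ (1 - 1 / 100 : ℝ) :=
              Real.rpow_le_rpow_of_exponent_le h5 (by norm_num)
          _ ≤ _ := h4.trans (W_le_nn k s _)
      calc nn (fld k s (L + i)) ^ (-(1 / 60) : ℝ) ≤ (((L + i : ℕ) : ℝ) ^ 120) ^ (-(1 / 60) : ℝ) :=
            Real.rpow_le_rpow_of_nonpos (by positivity) h6 (by norm_num)
        _ = 1 / ((L + i : ℕ) : ℝ) ^ 2 := by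
            rw [← Real.rpow_natCast _ 120, ← Real.rpow_mul hpos.le, one_div (_ ^ 2),
              ← Real.rpow_natCast _ 2, ← Real.rpow_neg hpos.le]
            norm_num
    refine (Finset.sum_le_sum h3).trans ?_
    have h7 := sum_inv_sq L (n + 1 - L) (by omega)
    rw [← Finset.range_eq_Ico] at h7
    refine h7.trans ?_
    have : (1000 : ℝ) ≤ L := by exact_mod_cast hL
    rw [div_le_one (by linarith)]
    linarith
  linarith

end foot

/-- **The clean structure of a side.** -/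
theorem clean_side {k ρ c t0 : ℝ} {L w M : ℕ} {x : ℕ → ℝ} (hk : 100 ≤ k) (hL : 1000 ≤ L)
    (hρ : 0 ≤ ρ) (S : Side k L ρ (zt k c t0) x w M) :
    Clean (ra k c t0) (wf k c t0) (zf k c t0 w) (w - 1) (1 / 60) (L + 1) (8 * k) 4 := by
  have hw := S.hw
  have hw0 : 0 < w := by omega
  have hV := valD S.val (by omega : L ≤ w - 1)
  set s := ((T k)^[w] (zt k c t0)).swap with hs
  have one : ∀ m ≤ w - 1, 1 ≤ W k s m := fun m hm => hV.one_le hk (by norm_num) hm
  have hF : ∀ m ≤ w - 1, 1 ≤ nn (fld k s m) := fun m hm => (one m hm).trans (W_le_nn k s m)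
  have hz : ∀ m ≤ w - 1, nn (zf k c t0 w m) = nn (fld k s (w - 1 - m)) := by
    intro m hm
    rw [zf_eq k c t0 hw0 m hm, nn_swap]
  have hLr : (1000 : ℝ) ≤ L := by exact_mod_cast hL
  refine
    { hw := isField_wf k c t0
      hz := isField_zf k c t0 w
      w0 := by rw [nn_wf_zero]; exact one_pos
      A1 := by linarith
      hA := fun j => ?_
      δ0 := by norm_num
      δ1 := by norm_num
      K1 := by linarith
      c1 := by norm_num
      one := fun m hm => by rw [hz m hm]; exact hF _ (by omega)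
      val := fun i j hij hj => ?_
      dur := ?_
      tr := ?_ }
  · exact abs_V_le (by linarith) _
  · rw [hz i (hij.trans hj), hz j hj]
    exact nn_val hV hk hL (by omega) (by omega)
  · have e : ∑ m ∈ range (w - 1 + 1), nn (zf k c t0 w m) ^ (-(1 / 60) : ℝ) =
        ∑ m ∈ range (w - 1 + 1), nn (fld k s (w - 1 + 1 - 1 - m)) ^ (-(1 / 60) : ℝ) := by
      refine Finset.sum_congr rfl fun m hm => ?_
      rw [Finset.mem_range] at hm
      rw [hz m (by omega)]
      rfl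
    rw [e, Finset.sum_range_reflect (fun j => nn (fld k s j) ^ (-(1 / 60) : ℝ))]
    exact nn_dur hV hk hL (by omega)
  · rw [nn_wf_zero, one_mul, wf_zero]
    have hz0 := zf_eq k c t0 hw0 0 (by omega)
    have hzl := zf_eq k c t0 hw0 (w - 1) le_rfl
    rw [Nat.sub_self, fld_zero] at hzl
    rw [← hs, Nat.sub_zero] at hz0
    -- the Wronskian of `x` and the foot field
    have hxF : IsField (ra k c t0) (fun m => (x m, x (m + 1))) := by
      intro m
      unfold stp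
      have := S.xrec m
      rw [ap_succ_zt] at this
      simp only
      rw [this]
    have hwr := hxF.wr_eq (isField_zf k c t0 w) (m := 0) (n := w - 1) (by omega)
    have hxw : |x w| ≤ 1 := by
      refine (le_max_right _ _).trans (S.hi.trans ?_)
      exact Real.exp_le_one_iff.mpr (by linarith)
    have ew : w - 1 + 1 = w := by omega
    rw [hzl, ew] at hwr
    simp only [Prod.swap_prod_mk, zero_add] at hwr
    have hlate := (hV.late hk (by omega) (by norm_num) (by norm_num) (j := w - 1) (by omega)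
      le_rfl).1
    have hWn : W k s (w - 1) = max |(zf k c t0 w 0).2| |(zf k c t0 w 0).1| := by
      rw [hz0]
      rfl
    have hnn : nn (zf k c t0 w 0) ≤ 2 * W k s (w - 1) := by
      rw [hz0, nn_swap]
      exact nn_le_W k s (w - 1)
    set ζ0 := (zf k c t0 w 0).1 with hζ0
    set ζ1 := (zf k c t0 w 0).2 with hζ1
    have hwr2 : x 0 * ζ1 - x 1 * ζ0 = -x w := by
      have : wr (x (w - 1), x w) (1, 0) = -x w := by unfold wr; simp
      rw [this] at hwr
      have h2 : wr (x 0, x 1) (zf k c t0 w 0) = x 0 * ζ1 - x 1 * ζ0 := rfl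
      rw [← h2, ← hwr]
    have h1 : |ζ1| ≤ |ζ0| + 1 := by
      have e1 : x 0 * ζ1 = x 1 * ζ0 - x w := by linarith
      have e2 : |ζ1| = |x 0 * ζ1| := by rw [abs_mul, S.x0, one_mul]
      rw [e2, e1]
      refine (abs_sub _ _).trans ?_
      rw [abs_mul]
      have := mul_le_mul_of_nonneg_right S.x1 (abs_nonneg ζ0)
      linarith
    have h2 : W k s (w - 1) ≤ |ζ0| + 1 := by
      rw [hWn]
      exact max_le h1 (by linarith)
    have h3 : |wr ((0 : ℝ), (1 : ℝ)) (zf k c t0 w 0)| = |ζ0| := by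
      unfold wr
      simp only [zero_mul, one_mul, zero_sub, abs_neg]
      rfl
    rw [h3]
    have h4 : (2 : ℝ) ≤ 64 * k ^ 2 := by nlinarith
    linarith

/-- slope number `m` at the base point (real) -/
noncomputable def Qr (k c t0 : ℝ) (m : ℕ) : ℝ := |(wf k c t0 m).1|

theorem norm_yd (k c t0 : ℝ) (m : ℕ) : ‖yd k c m (t0 : ℂ)‖ = Qr k c t0 m := by
  rw [← wf_fst, Complex.norm_real]
  rfl

theorem wf_snd_eq (k c t0 : ℝ) (m : ℕ) : (wf k c t0 m).2 = (wf k c t0 (m + 1)).1 := by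
  rw [isField_wf k c t0 m]
  rfl

theorem abs_wf_snd (k c t0 : ℝ) (m : ℕ) : |(wf k c t0 m).2| = Qr k c t0 (m + 1) := by
  rw [wf_snd_eq]
  rfl

theorem wf_rec (k c t0 : ℝ) (m : ℕ) : (wf k c t0 (m + 2)).1 =
    ra k c t0 m * (wf k c t0 (m + 1)).1 - (wf k c t0 m).1 := by
  rw [← wf_snd_eq k c t0 (m + 1), isField_wf k c t0 m]
  rfl

theorem Qr_nonneg (k c t0 : ℝ) (m : ℕ) : 0 ≤ Qr k c t0 m := abs_nonneg _

theorem Qr_up (k c t0 : ℝ) (m : ℕ) : Qr k c t0 (m + 2) ≤
    |ra k c t0 m| * Qr k c t0 (m + 1) + Qr k c t0 m := by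
  unfold Qr
  rw [wf_rec]
  refine (abs_sub _ _).trans ?_
  rw [abs_mul]

theorem Qr_dn (k c t0 : ℝ) (m : ℕ) : |ra k c t0 m| * Qr k c t0 (m + 1) - Qr k c t0 m ≤
    Qr k c t0 (m + 2) := by
  unfold Qr
  rw [wf_rec]
  have := abs_sub_abs_le_abs_sub (ra k c t0 m * (wf k c t0 (m + 1)).1) (wf k c t0 m).1
  rw [abs_mul] at this
  exact this

theorem zf_last (k c t0 : ℝ) {w : ℕ} (hw : 0 < w) : zf k c t0 w (w - 1) = (1, 0) := by
  have h := zf_eq k c t0 hw (w - 1) le_rfl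
  rw [Nat.sub_self, fld_zero] at h
  exact h

theorem XX_eq (k c t0 : ℝ) {w : ℕ} (hw : 0 < w) :
    XX (wf k c t0) (zf k c t0 w) = Qr k c t0 w := by
  have h := (isField_wf k c t0).wr_eq (isField_zf k c t0 w) (m := 0) (n := w - 1) (by omega)
  unfold XX
  rw [← h, zf_last k c t0 hw]
  have e : wr (wf k c t0 (w - 1)) (1, 0) = -(wf k c t0 (w - 1)).2 := by unfold wr; simp
  rw [e, abs_neg, abs_wf_snd]
  congr 1
  omega



theorem Qr_succ_le_nn (k c t0 : ℝ) (m : ℕ) : Qr k c t0 (m + 1) ≤ nn (wf k c t0 m) := by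
  rw [← abs_wf_snd]
  exact abs_snd_le _

/-- numerical hypotheses -/
structure NumK (k : ℝ) (L : ℕ) : Prop where
  hk : (10 : ℝ) ^ 20 ≤ k
  hL : 1000 ≤ L
  hLk : 10 ^ 14 * ((L : ℝ) + 1) ^ 5 ≤ k

theorem NumK.k1 {k : ℝ} {L : ℕ} (h : NumK k L) : 1 ≤ k := le_trans (by norm_num) h.hk
theorem NumK.k100 {k : ℝ} {L : ℕ} (h : NumK k L) : 100 ≤ k := le_trans (by norm_num) h.hk

theorem NumK.C1_le {k : ℝ} {L : ℕ} (h : NumK k L) : C1 (8 * k) (L + 1) 4 ≤ 65 * k ^ 2 * (L + 1) := by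
  have h1 := h.k100
  have h2 : (1000 : ℝ) ≤ L := by exact_mod_cast h.hL
  unfold C1
  nlinarith [sq_nonneg k, mul_pos (by linarith : (0:ℝ) < k) (by linarith : (0:ℝ) < k)]

theorem NumK.rho0_ge {k : ℝ} {L : ℕ} (h : NumK k L) {a : ℕ → ℝ} {w z : ℕ → ℝ × ℝ} {n : ℕ}
    {δ : ℝ} (hc : Clean a w z n δ (L + 1) (8 * k) 4) :
    1 / k ^ 10 ≤ rho0 k (8 * k) (L + 1) 4 := by
  have hk1 := h.k1
  have hk0 : 0 < k := by linarith
  have hL0 : (0 : ℝ) ≤ L := Nat.cast_nonneg _
  have hCL := LocA.CL_le hk1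
  have hCL0 := CL_ge hk1
  have hC1 := h.C1_le
  have hC10 := C1_pos hc
  have hC20 := (C2_ge hc).2
  unfold rho0
  apply one_div_le_one_div_of_le
  · have := hc.A1
    positivity
  · have hC2 : C2 (8 * k) (L + 1) 4 ≤ 2197000 * k ^ 7 * ((L : ℝ) + 1) ^ 5 := by
      unfold C2
      calc C1 (8 * k) (L + 1) 4 ^ 3 * ((L : ℝ) + 1) ^ 2 * (8 * k)
          ≤ (65 * k ^ 2 * (L + 1)) ^ 3 * ((L : ℝ) + 1) ^ 2 * (8 * k) := by gcongr
        _ = 2197000 * k ^ 7 * ((L : ℝ) + 1) ^ 5 := by ring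
    calc 80 * CL k * (8 * k + 1) * C2 (8 * k) (L + 1) 4
        ≤ 80 * (44000 * k) * (9 * k) * (2197000 * k ^ 7 * ((L : ℝ) + 1) ^ 5) := by
          gcongr
          linarith
      _ = 69600960000000 * ((L : ℝ) + 1) ^ 5 * k ^ 9 := by ring
      _ ≤ 10 ^ 14 * ((L : ℝ) + 1) ^ 5 * k ^ 9 := by
          gcongr
          norm_num
      _ ≤ k * k ^ 9 := by
          apply mul_le_mul_of_nonneg_right h.hLk (by positivity)
      _ = k ^ 10 := by ring

/-- regular digits before the foot -/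
theorem reg_before {k ρ c t0 : ℝ} {L w M : ℕ} {x : ℕ → ℝ} (S : Side k L ρ (zt k c t0) x w M)
    {m : ℕ} (h1 : w ≤ m + 1 + L) (h2 : m + 2 ≤ w) : k ^ (2 / 3 : ℝ) ≤ |ra k c t0 m| := by
  have h := S.val.cl (w - 1 - (m + 1)) (by have := S.hw; omega) (by have := S.hw; omega)
  rw [digit_foot k _ (by omega : w - 1 - (m + 1) < w)] at h
  have e : w - 1 - (w - 1 - (m + 1)) = m + 1 := by omega
  rw [e, ap_succ_zt] at h
  exact h

/-- **The slope doubles at the foot.** -/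
theorem foot_ratio {k ρ c t0 : ℝ} {L w M : ℕ} {x : ℕ → ℝ} (hN : NumK k L)
    (hρ : 0 ≤ ρ) (S : Side k L ρ (zt k c t0) x w M) :
    2 * Qr k c t0 (w - 1) ≤ Qr k c t0 w := by
  have hk := hN.k100
  have hk0 : 0 < k := by linarith
  have hL := hN.hL
  have hw := S.hw
  have hC := clean_side hk hL hρ S
  have hX := XX_eq k c t0 (by omega : 0 < w)
  have hXpos : 0 < Qr k c t0 w := by rw [← hX]; exact hC.Xpos
  have hb := ValD.three hk
  -- the small field 21 steps before the foot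
  have hsmall : nn (wf k c t0 (w - 21)) * (9 * k) < Qr k c t0 w := by
    have h1 := hC.R_le (m := w - 21) (by omega)
    have hXe : |wr (wf k c t0 0) (zf k c t0 w 0)| = Qr k c t0 w := hX
    rw [hXe] at h1
    have hV := valD S.val (by omega : L ≤ w - 1)
    have h2 : (k ^ (1/2 : ℝ)) ^ 20 ≤ nn (zf k c t0 w (w - 21)) := by
      rw [zf_eq k c t0 (by omega) (w - 21) (by omega), nn_swap]
      have e : w - 1 - (w - 21) = 20 := by omega
      rw [e]
      exact (hV.W_clean hk (by omega)).trans (W_le_nn _ _ _)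
    have h3 : (k ^ (1/2 : ℝ)) ^ 20 = k ^ 10 := by
      rw [← Real.rpow_natCast, ← Real.rpow_mul hk0.le, ← Real.rpow_natCast]
      norm_num
    rw [h3] at h2
    have h4 : nn (zf k c t0 w (w - 21)) ^ (-(1 - 3 * (1 / 60)) : ℝ) ≤
        (k ^ 10) ^ (-(1 - 3 * (1 / 60)) : ℝ) :=
      Real.rpow_le_rpow_of_nonpos (by positivity) h2 (by norm_num)
    have h5 : (k ^ 10) ^ (-(1 - 3 * (1 / 60)) : ℝ) ≤ 1 / k ^ 9 := by
      rw [← Real.rpow_natCast, ← Real.rpow_mul hk0.le, one_div (k ^ 9), ← Real.rpow_natCast k 9,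
        ← Real.rpow_neg hk0.le]
      apply Real.rpow_le_rpow_of_exponent_le (by linarith)
      norm_num
    have h6 := hN.C1_le
    have hC1 := C1_pos hC
    have h7 : ((L : ℝ) + 1) ≤ k := by
      have hL0 : (1 : ℝ) ≤ (L : ℝ) + 1 := by
        have : (0 : ℝ) ≤ L := Nat.cast_nonneg _
        linarith
      calc ((L : ℝ) + 1) = ((L : ℝ) + 1) ^ 1 := (pow_one _).symm
        _ ≤ ((L : ℝ) + 1) ^ 5 := pow_le_pow_right₀ hL0 (by norm_num)
        _ = 1 * ((L : ℝ) + 1) ^ 5 := (one_mul _).symm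
        _ ≤ 10 ^ 14 * ((L : ℝ) + 1) ^ 5 := by gcongr; norm_num
        _ ≤ k := hN.hLk
    calc nn (wf k c t0 (w - 21)) * (9 * k)
        ≤ (C1 (8 * k) (L + 1) 4 * Qr k c t0 w *
            nn (zf k c t0 w (w - 21)) ^ (-(1 - 3 * (1 / 60)) : ℝ)) * (9 * k) := by gcongr
      _ ≤ (65 * k ^ 2 * k * Qr k c t0 w * (1 / k ^ 9)) * (9 * k) := by
          have h8 : C1 (8 * k) (L + 1) 4 ≤ 65 * k ^ 2 * k := by
            refine h6.trans ?_
            gcongr
          have h9 := h4.trans h5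
          have h10 := Real.rpow_nonneg (nn_nonneg (zf k c t0 w (w - 21)))
            (-(1 - 3 * (1 / 60)) : ℝ)
          gcongr
      _ = (585 / k ^ 5) * Qr k c t0 w := by
          field_simp
          ring
      _ < 1 * Qr k c t0 w := by
          apply mul_lt_mul_of_pos_right _ hXpos
          rw [div_lt_one (by positivity)]
          calc (585 : ℝ) < 100 ^ 5 := by norm_num
            _ ≤ k ^ 5 := pow_le_pow_left₀ (by norm_num) hk _
      _ = _ := one_mul _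
  -- switch point
  have hsw : ∃ m, w - 20 ≤ m ∧ m + 2 ≤ w ∧ Qr k c t0 m ≤ Qr k c t0 (m + 1) := by
    by_contra hcon
    push Not at hcon
    have hdec : ∀ j, j ≤ 19 → Qr k c t0 (w - 20 + j) ≤ Qr k c t0 (w - 20) := by
      intro j
      induction j with
      | zero => intro _; rfl
      | succ j ih =>
        intro hj
        have h1 := ih (by omega)
        have h2 := hcon (w - 20 + j) (by omega) (by omega)
        rw [← add_assoc]
        linarith
    have h1 := hdec 19 le_rfl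
    have h2 := hdec 18 (by norm_num)
    have e1 : w - 20 + 19 = w - 1 := by omega
    have e2 : w - 20 + 18 = w - 2 := by omega
    rw [e1] at h1
    rw [e2] at h2
    have h3 := Qr_up k c t0 (w - 2)
    have e3 : w - 2 + 2 = w := by omega
    have e4 : w - 2 + 1 = w - 1 := by omega
    rw [e3, e4] at h3
    have h4 := Qr_succ_le_nn k c t0 (w - 21)
    have e5 : w - 21 + 1 = w - 20 := by omega
    rw [e5] at h4
    have h5 := hC.hA (w - 2)
    have h6 := Qr_nonneg k c t0 (w - 20)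
    have h7 := abs_nonneg (ra k c t0 (w - 2))
    have h8 : |ra k c t0 (w - 2)| * Qr k c t0 (w - 1) ≤ (8 * k - 2) * Qr k c t0 (w - 20) :=
      mul_le_mul (by linarith) h1 (Qr_nonneg _ _ _ _) (by linarith)
    nlinarith
  obtain ⟨m, hm1, hm2, hm3⟩ := hsw
  have hgrow : ∀ j, m + 1 + j ≤ w - 1 → Qr k c t0 (m + j) ≤ Qr k c t0 (m + 1 + j) ∧
      2 * Qr k c t0 (m + 1 + j) ≤ Qr k c t0 (m + 2 + j) := by
    intro j
    induction j with
    | zero =>
      intro hj
      have h1 := Qr_dn k c t0 m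
      have h2 := reg_before S (m := m) (by omega) (by omega)
      have h3 := Qr_nonneg k c t0 (m + 1)
      refine ⟨hm3, ?_⟩
      have h4 := mul_le_mul_of_nonneg_right (hb.trans h2) h3
      simp only [add_zero]
      linarith
    | succ j ih =>
      intro hj
      obtain ⟨i1, i2⟩ := ih (by omega)
      have h1 := Qr_dn k c t0 (m + 1 + j)
      have h2 := reg_before S (m := m + 1 + j) (by omega) (by omega)
      have e1 : m + 1 + (j + 1) = m + 1 + j + 1 := by ring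
      have e2 : m + (j + 1) = m + 1 + j := by ring
      have e3 : m + 2 + (j + 1) = m + 1 + j + 2 := by ring
      have e4 : m + 2 + j = m + 1 + j + 1 := by ring
      rw [e1, e2, e3]
      rw [e4] at i2
      have h3 := Qr_nonneg k c t0 (m + 1 + j)
      have h4 := mul_le_mul_of_nonneg_right (hb.trans h2) (Qr_nonneg k c t0 (m + 1 + j + 1))
      constructor
      · linarith
      · linarith
  obtain ⟨_, h2⟩ := hgrow (w - 2 - m) (by omega)
  have e1 : m + 1 + (w - 2 - m) = w - 1 := by omega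
  have e2 : m + 2 + (w - 2 - m) = w := by omega
  rw [e1, e2] at h2
  exact h2

section sizes

variable {k ρ c t0 : ℝ} {L w M n : ℕ} {x : ℕ → ℝ}

/-- digits of the run -/
theorem run_dig (S : Side k L ρ (zt k c t0) x w M) {j : ℕ} (hj : j ≤ M) :
    k ^ (2 / 3 : ℝ) ≤ |ra k c t0 (w - 1 + j)| := by
  have h := S.run (w + j) (by omega) (by omega)
  have hw := S.hw
  have e : w + j = (w - 1 + j) + 1 := by omega
  rw [e, ap_succ_zt] at h
  exact h

theorem xrec' (S : Side k L ρ (zt k c t0) x w M) (m : ℕ) :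
    x (m + 2) = ra k c t0 m * x (m + 1) - x m := by
  have := S.xrec m
  rwa [ap_succ_zt] at this

theorem wr_x (S : Side k L ρ (zt k c t0) x w M) (m : ℕ) :
    |(wf k c t0 m).1 * x (m + 1) - (wf k c t0 (m + 1)).1 * x m| = 1 := by
  have hxF : IsField (ra k c t0) (fun m => (x m, x (m + 1))) := by
    intro m
    unfold stp
    simp only
    rw [xrec' S m]
  have h := (isField_wf k c t0).wr_eq hxF (m := 0) (n := m) (by omega)
  have e : wr (wf k c t0 m) (x m, x (m + 1)) =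
      (wf k c t0 m).1 * x (m + 1) - (wf k c t0 (m + 1)).1 * x m := by
    rw [← wf_snd_eq]
    rfl
  rw [e, wf_zero] at h
  rw [h]
  unfold wr
  simp only [zero_mul, one_mul, zero_sub, abs_neg, zero_add]
  exact S.x0




/-- size of the slope at the end of the run -/
theorem run_big (hN : NumK k L) (hρ : 0 ≤ ρ) (S : Side k L ρ (zt k c t0) x w M) :
    k ^ 80 * Real.exp ρ ≤ 2 * Qr k c t0 (w + M) := by
  have hk := hN.k100
  have hk0 : 0 < k := by linarith
  have hw := S.hw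
  have hb := ValD.three hk
  have h2 := foot_ratio hN hρ S
  have hgrow : ∀ j, j ≤ M → 2 * Qr k c t0 (w - 1 + j) ≤ Qr k c t0 (w + j) := by
    intro j
    induction j with
    | zero => intro _; simpa using h2
    | succ j ih =>
      intro hj
      have i2 := ih (by omega)
      have h1 := Qr_dn k c t0 (w - 1 + j)
      have h3 := run_dig S (j := j) (by omega)
      have e1 : w - 1 + j + 2 = w + (j + 1) := by omega
      have e2 : w - 1 + j + 1 = w + j := by omega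
      have e3 : w - 1 + (j + 1) = w + j := by omega
      rw [e1, e2] at h1
      rw [e3]
      have h4 := mul_le_mul_of_nonneg_right (hb.trans h3) (Qr_nonneg k c t0 (w + j))
      have h5 := Qr_nonneg k c t0 (w + j)
      linarith
  have h3 := hgrow M le_rfl
  have h4 := wr_x S (w - 1 + M)
  have e : w - 1 + M + 1 = w + M := by omega
  rw [e] at h4
  have hfin := S.fin
  have e5 : w + M - 1 = w - 1 + M := by omega
  rw [e5] at hfin
  have h5 : 1 ≤ Qr k c t0 (w - 1 + M) * |x (w + M)| + Qr k c t0 (w + M) * |x (w - 1 + M)| := by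
    rw [← h4]
    refine (abs_sub _ _).trans ?_
    rw [abs_mul, abs_mul]
    rfl
  have h6 := (le_max_left |x (w - 1 + M)| |x (w + M)|).trans hfin
  have h7 := (le_max_right |x (w - 1 + M)| |x (w + M)|).trans hfin
  set E := Real.exp (-ρ - 80 * Real.log k) with hE
  have hQ := Qr_nonneg k c t0 (w + M)
  have hQ' := Qr_nonneg k c t0 (w - 1 + M)
  have h8 : Qr k c t0 (w - 1 + M) * |x (w + M)| ≤ Qr k c t0 (w + M) * E :=
    mul_le_mul (by linarith) h7 (abs_nonneg _) hQ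
  have h9 : Qr k c t0 (w + M) * |x (w - 1 + M)| ≤ Qr k c t0 (w + M) * E :=
    mul_le_mul_of_nonneg_left h6 hQ
  have h10 : E * (k ^ 80 * Real.exp ρ) = 1 := by
    have e3 : k ^ 80 = Real.exp (80 * Real.log k) := by
      rw [show (80 : ℝ) * Real.log k = ((80 : ℕ) : ℝ) * Real.log k by norm_num, Real.exp_nat_mul,
        Real.exp_log hk0]
    rw [hE, e3, ← Real.exp_add, ← Real.exp_add]
    rw [show -ρ - 80 * Real.log k + (80 * Real.log k + ρ) = 0 by ring, Real.exp_zero]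
  have h11 : 1 ≤ 2 * Qr k c t0 (w + M) * E := by linarith
  have hp : 0 ≤ k ^ 80 * Real.exp ρ := by positivity
  calc k ^ 80 * Real.exp ρ = 1 * (k ^ 80 * Real.exp ρ) := (one_mul _).symm
    _ ≤ (2 * Qr k c t0 (w + M) * E) * (k ^ 80 * Real.exp ρ) := mul_le_mul_of_nonneg_right h11 hp
    _ = 2 * Qr k c t0 (w + M) * (E * (k ^ 80 * Real.exp ρ)) := by ring
    _ = _ := by rw [h10, mul_one]

end sizes

end Crest.Agent.R128.SideStart376
end

-- ▼ part R128/LocSize
section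

/-!
# Row 128, node V5-LOC: sizes before the exits (helper662)

`foot` : on the real/complex disc of a clean side the derivatives up to the foot are at most `2 C1 X`;
`foot_loc` : the same in the vocabulary of `LocDef`, for both sides;
`SideOK.size` : from the foot to the exit of `595`'s `SideOK`.
These are the `size` hypotheses of `H4.good3` (220).
-/

set_option autoImplicit false

open Metric
open Crest.Agent.R128 Crest.Agent.R128.Cell Crest.Agent.R128.CellB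
open Crest.Agent.R128.TreeSum Crest.Agent.R128.Disp Crest.Agent.R128.CleanNum
open Crest.Agent.R128.CleanDisc Crest.Agent.R128.CleanCont

namespace Crest.Agent.R128.LocSize

/-- sizes up to the foot, on the disc of a clean side -/
theorem foot {k c t0 : ℝ} {z : ℕ → ℝ × ℝ} {n : ℕ} {δ K A c0 : ℝ}
    (h : Clean (ra k c t0) (wf k c t0) z n δ K A c0) (hk : 1 ≤ k) {u : ℂ}
    (hu : ‖u - t0‖ ≤ rho0 k A K c0 / XX (wf k c t0) z) :
    ∀ m ≤ n + 1, ‖yd k c m u‖ ≤ 2 * (C1 A K c0 * XX (wf k c t0) z) := by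
  have hX : 0 < XX (wf k c t0) z := h.Xpos
  have hρ := rho0_pos h hk
  have hδ0 := h.δ0
  have hδ1 := h.δ1
  have hz1 := h.one n le_rfl
  have hZ15 : 1 ≤ nn (z n) ^ (1 - 15 * δ) := Real.one_le_rpow hz1 (by linarith)
  have hu' : ‖u - t0‖ ≤ rho0 k A K c0 / XX (wf k c t0) z * nn (z n) ^ (1 - 15 * δ) := by
    refine hu.trans ?_
    exact le_mul_of_one_le_right (by positivity) hZ15
  have hf := fields h hk le_rfl hu'
  have hC1 := C1_pos h
  have hR : ∀ m ≤ n, nn (wf k c t0 m) ≤ C1 A K c0 * XX (wf k c t0) z := by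
    intro m hm
    refine (h.R_le hm).trans ?_
    have hzm := h.one m hm
    have h1 : nn (z m) ^ (-(1 - 3 * δ)) ≤ 1 :=
      Real.rpow_le_one_of_one_le_of_nonpos hzm (by linarith)
    have h2 : 0 ≤ C1 A K c0 * |wr (wf k c t0 0) (z 0)| := by
      have := abs_nonneg (wr (wf k c t0 0) (z 0))
      positivity
    calc _ ≤ C1 A K c0 * |wr (wf k c t0 0) (z 0)| * 1 := mul_le_mul_of_nonneg_left h1 h2
      _ = _ := by rw [mul_one]; rfl
  have hpos : 0 ≤ C1 A K c0 * XX (wf k c t0) z := by positivity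
  intro m hm
  rcases Nat.lt_or_ge n m with hmn | hmn
  · obtain rfl : m = n + 1 := by omega
    have h3 := (hf n le_rfl).2.2.2.2.2.2.2.2
    have h4 := hR n le_rfl
    have h5 := norm_ofReal_snd_le (wf k c t0 n)
    have h6 : ‖yd k c (n + 1) u‖ ≤ ‖yd k c (n + 1) u - (wf k c t0 n).2‖ + ‖((wf k c t0 n).2 : ℂ)‖ := by
      have := norm_add_le (yd k c (n + 1) u - (wf k c t0 n).2) ((wf k c t0 n).2 : ℂ)
      rwa [sub_add_cancel] at this
    linarith
  · have h3 := (hf m hmn).2.2.2.2.2.2.2.1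
    have h4 := hR m hmn
    have h5 := norm_ofReal_fst_le (wf k c t0 m)
    have h6 : ‖yd k c m u‖ ≤ ‖yd k c m u - (wf k c t0 m).1‖ + ‖((wf k c t0 m).1 : ℂ)‖ := by
      have := norm_add_le (yd k c m u - (wf k c t0 m).1) ((wf k c t0 m).1 : ℂ)
      rwa [sub_add_cancel] at this
    linarith

/-- base point of the side `s` -/
noncomputable def bp (k c : ℝ) (s : Bool) (t0 : ℝ) : ℝ := if s then t0 else CellDy.kap k c - t0

theorem norm_sdC_sub (k c : ℝ) (s : Bool) (t0 : ℝ) (u : ℂ) :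
    ‖Loc.sdC k c s u - (bp k c s t0 : ℂ)‖ = ‖u - t0‖ := by
  unfold Loc.sdC bp
  cases s with
  | true => simp
  | false =>
    simp only [Bool.false_eq_true, if_false]
    rw [← norm_neg]
    congr 1
    push_cast
    ring

/-- sizes up to the foot, `LocDef` vocabulary -/
theorem foot_loc {k c t0 : ℝ} (s : Bool) {z : ℕ → ℝ × ℝ} {n : ℕ} {δ K A c0 : ℝ}
    (h : Clean (ra k c (bp k c s t0)) (wf k c (bp k c s t0)) z n δ K A c0) (hk : 1 ≤ k) {u : ℂ}
    (hu : ‖u - t0‖ ≤ rho0 k A K c0 / XX (wf k c (bp k c s t0)) z) :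
    ∀ m ≤ n + 1, ‖Loc.D k c s m u‖ ≤ 2 * (C1 A K c0 * XX (wf k c (bp k c s t0)) z) := by
  intro m hm
  unfold Loc.D
  exact foot h hk (by rw [norm_sdC_sub]; exact hu) m hm

open Crest.Agent.R128.LocA

variable {k c : ℝ} {s : Bool} {n0 jS : ℕ} {r0 ρ δ A t₁ : ℝ}


end Crest.Agent.R128.LocSize
end

-- ▼ part R128/H4
section

/-!
# Row 128, node V5-LOC, (H4) (helper220)

A very fresh point `t` near the centre of a cell `Cell3` is a `Good3` point.

* `core` : one side, real sequences;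
* `zs` : base point of a side; `dg_eq`, `D_eq`, `mu_eq`, `cont_eq` : dictionary with `LocDef`;
* `good3` : the two sides together, for `Good.VF`.
-/

set_option autoImplicit false

open Metric MeasureTheory
open Crest.Agent.R128 Crest.Agent.R128.Cell Crest.Agent.R128.CellB Crest.Agent.R128.CellDy
open Crest.Agent.R128.AlignMn Crest.Agent.R128.DictY Crest.Agent.R128.Two Crest.Agent.R128.Acc

namespace Crest.Agent.R128.H4

/-! ## one side -/

/-- growth upper bound -/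
theorem up {a : ℕ → ℝ} {B H : ℝ} {n : ℕ} (hB : 1 ≤ B) (ha : ∀ j, |a j| + 1 ≤ B)
    (h0 : |Align.Q a n| ≤ H) (h1 : |Align.Q a (n + 1)| ≤ H) (i : ℕ) :
    |Align.Q a (n + i)| ≤ B ^ i * H ∧ |Align.Q a (n + 1 + i)| ≤ B ^ i * H := by
  have hH : 0 ≤ H := le_trans (abs_nonneg _) h0
  induction i with
  | zero => simpa using ⟨h0, h1⟩
  | succ i ih =>
    have hp : 0 ≤ B ^ i * H := by positivity
    constructor
    · have e : n + (i + 1) = n + 1 + i := by ring
      rw [e]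
      refine ih.2.trans ?_
      rw [pow_succ]
      nlinarith [ih.2]
    · have e : n + 1 + (i + 1) = n + i + 2 := by ring
      have e2 : n + 1 + i = n + i + 1 := by ring
      rw [e, Align.Q_add_two]
      rw [e2] at ih
      calc |a (n + i + 1) * Align.Q a (n + i + 1) - Align.Q a (n + i)|
          ≤ |a (n + i + 1) * Align.Q a (n + i + 1)| + |Align.Q a (n + i)| := abs_sub _ _
        _ = |a (n + i + 1)| * |Align.Q a (n + i + 1)| + |Align.Q a (n + i)| := by rw [abs_mul]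
        _ ≤ |a (n + i + 1)| * (B ^ i * H) + B ^ i * H := by
            have := mul_le_mul_of_nonneg_left ih.2 (abs_nonneg (a (n + i + 1)))
            linarith [ih.1]
        _ = (|a (n + i + 1)| + 1) * (B ^ i * H) := by ring
        _ ≤ B * (B ^ i * H) := mul_le_mul_of_nonneg_right (ha _) hp
        _ = B ^ (i + 1) * H := by ring

/-- expansion is stable along regular digits -/
theorem expand {a : ℕ → ℝ} {u v A : ℝ} {w J j : ℕ} (hA : 2 ≤ A)
    (run : ∀ i, w ≤ i → i ≤ J → A ≤ |a i|) (hw : w ≤ j)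
    (h : |Align.sol a u v j| ≤ |Align.sol a u v (j + 1)|) :
    ∀ i, j ≤ i → i ≤ J → |Align.sol a u v i| ≤ |Align.sol a u v (i + 1)| ∧
      |Align.sol a u v (j + 1)| ≤ |Align.sol a u v (i + 1)| := by
  intro i hi
  induction i, hi using Nat.le_induction with
  | base => exact fun _ => ⟨h, le_rfl⟩
  | succ i hi ih =>
    intro hJ
    obtain ⟨h1, h2⟩ := ih (by omega)
    have hr := run (i + 1) (by omega) hJ
    have e : Align.sol a u v (i + 1 + 1) = a (i + 1) * Align.sol a u v (i + 1) - Align.sol a u v i :=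
      Align.sol_add_two a u v i
    have h3 : |a (i + 1)| * |Align.sol a u v (i + 1)| ≤ |Align.sol a u v (i + 1 + 1)| +
        |Align.sol a u v i| := by
      rw [← abs_mul]
      calc |a (i + 1) * Align.sol a u v (i + 1)|
          = |Align.sol a u v (i + 1 + 1) + Align.sol a u v i| := by rw [e]; ring_nf
        _ ≤ _ := abs_add_le _ _
    have h4 : |Align.sol a u v (i + 1)| ≤ |Align.sol a u v (i + 1 + 1)| := by
      have := abs_nonneg (Align.sol a u v (i + 1))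
      nlinarith [mul_le_mul_of_nonneg_right (hA.trans hr) this]
    exact ⟨h4, h2.trans h4⟩

/-- **one side**: the exit `n + 1` lies in the run, and the contracted solution is tiny there -/
theorem core {a : ℕ → ℝ} {u v A B H F e : ℝ} {w M n : ℕ} (hu : |u| = 1) (hA : 4 ≤ A) (hB : 1 ≤ B)
    (ha : ∀ j, |a j| + 1 ≤ B)
    (run : ∀ j, w ≤ j → j ≤ w + M → A ≤ |a j|)
    (end0 : |Align.sol a u v (w + M)| ≤ e) (end1 : |Align.sol a u v (w + M + 1)| ≤ e)
    (foot : ∀ j ≤ w, |Align.Q a j| ≤ F) (hF : F < |Align.Q a (n + 1)|)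
    (hH : ∀ j ≤ n + 1, |Align.Q a j| ≤ H) (hQ : |Align.Q a n| ≤ |Align.Q a (n + 1)|)
    (small : 2 * B ^ 5 * H * e < 1) :
    w ≤ n ∧ n + 6 ≤ w + M ∧
    (A / 2 * |Align.Q a (n + 1)| ≤ |Align.Q a (n + 2)|) ∧
    |Align.sol a u v (n + 2) / Align.Q a (n + 2)| ≤ 16 / (A ^ 3 * Align.Q a (n + 1) ^ 2) ∧
    |Align.sol a u v (n + 3) / Align.Q a (n + 3)| ≤ 16 / (A ^ 3 * Align.Q a (n + 2) ^ 2) := by
  have hH0 : 0 ≤ H := le_trans (abs_nonneg _) (hH 0 (by omega))
  have he0 : 0 ≤ e := le_trans (abs_nonneg _) end0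
  have hw : w ≤ n := by
    by_contra h
    have := foot (n + 1) (by omega)
    linarith
  have hQ6 : ∀ j ≤ n + 6, |Align.Q a j| ≤ B ^ 5 * H := by
    intro j hj
    rcases le_or_gt j (n + 1) with h | h
    · refine (hH j h).trans ?_
      have : (1 : ℝ) ≤ B ^ 5 := one_le_pow₀ hB
      nlinarith
    · obtain ⟨i, rfl⟩ : ∃ i, j = n + 1 + i := ⟨j - (n + 1), by omega⟩
      refine (up hB ha (hH n (by omega)) (hH (n + 1) le_rfl) i).2.trans ?_
      exact mul_le_mul_of_nonneg_right (pow_le_pow_right₀ hB (by omega)) hH0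
  have wr : ∀ j, |Align.sol a u v j| ≤ e → |Align.sol a u v (j + 1)| ≤ e → j + 1 ≤ n + 6 → False := by
    intro j h1 h2 h3
    have h4 := Align.wronskian_Q a u v j
    have h5 : (1 : ℝ) ≤ |Align.sol a u v j| * |Align.Q a (j + 1)| +
        |Align.sol a u v (j + 1)| * |Align.Q a j| := by
      calc (1 : ℝ) = |Align.sol a u v j * Align.Q a (j + 1) - Align.sol a u v (j + 1) * Align.Q a j| := by
            rw [h4, hu]
        _ ≤ |Align.sol a u v j * Align.Q a (j + 1)| + |Align.sol a u v (j + 1) * Align.Q a j| :=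
            abs_sub _ _
        _ = _ := by rw [abs_mul, abs_mul]
    have h6 := hQ6 j (by omega)
    have h7 := hQ6 (j + 1) h3
    have h8 : |Align.sol a u v j| * |Align.Q a (j + 1)| ≤ e * (B ^ 5 * H) :=
      mul_le_mul h1 h7 (abs_nonneg _) he0
    have h9 : |Align.sol a u v (j + 1)| * |Align.Q a j| ≤ e * (B ^ 5 * H) :=
      mul_le_mul h2 h6 (abs_nonneg _) he0
    nlinarith
  have hM : n + 6 ≤ w + M := by
    by_contra h
    exact wr (w + M) end0 end1 (by omega)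
  -- contraction
  have dec : ∀ j, w ≤ j → j ≤ n + 5 → |Align.sol a u v (j + 1)| < |Align.sol a u v j| := by
    intro j h1 h2
    by_contra h
    push Not at h
    have h3 := (expand (a := a) (u := u) (v := v) (J := w + M) (by linarith) run h1 h (w + M)
      (by omega) le_rfl).2
    have h4 := h3.trans end1
    exact wr j (h.trans h4) h4 (by omega)
  have con : ∀ j, w ≤ j → j ≤ n + 4 →
      A / 2 * |Align.sol a u v (j + 1)| ≤ |Align.sol a u v j| := by
    intro j h1 h2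
    have h3 := dec (j + 1) (by omega) (by omega)
    have hr := run (j + 1) (by omega) (by omega)
    have e1 : Align.sol a u v (j + 1 + 1) = a (j + 1) * Align.sol a u v (j + 1) - Align.sol a u v j :=
      Align.sol_add_two a u v j
    have h4 : |a (j + 1)| * |Align.sol a u v (j + 1)| ≤ |Align.sol a u v (j + 1 + 1)| +
        |Align.sol a u v j| := by
      rw [← abs_mul]
      calc |a (j + 1) * Align.sol a u v (j + 1)|
          = |Align.sol a u v (j + 1 + 1) + Align.sol a u v j| := by rw [e1]; ring_nf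
        _ ≤ _ := abs_add_le _ _
    have h5 := mul_le_mul_of_nonneg_right hr (abs_nonneg (Align.sol a u v (j + 1)))
    have h6 := mul_le_mul_of_nonneg_right hA (abs_nonneg (Align.sol a u v (j + 1)))
    have h7 := abs_nonneg (Align.sol a u v (j + 1))
    linarith
  -- growth of Q
  have gr : ∀ j, n ≤ j → j ≤ n + 4 → |Align.Q a j| ≤ |Align.Q a (j + 1)| ∧
      (j + 1 ≤ n + 4 → A / 2 * |Align.Q a (j + 1)| ≤ |Align.Q a (j + 2)|) := by
    intro j hj
    have key : ∀ j, n ≤ j → j + 1 ≤ n + 4 → |Align.Q a j| ≤ |Align.Q a (j + 1)| →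
        A / 2 * |Align.Q a (j + 1)| ≤ |Align.Q a (j + 2)| := by
      intro j h1 h2 h3
      have hr := run (j + 1) (by omega) (by omega)
      have e1 := Align.Q_add_two a j
      have h4 : |a (j + 1)| * |Align.Q a (j + 1)| ≤ |Align.Q a (j + 2)| + |Align.Q a j| := by
        rw [← abs_mul]
        calc |a (j + 1) * Align.Q a (j + 1)| = |Align.Q a (j + 2) + Align.Q a j| := by
              rw [e1]; ring_nf
          _ ≤ _ := abs_add_le _ _
      have h5 := mul_le_mul_of_nonneg_right hr (abs_nonneg (Align.Q a (j + 1)))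
      have h6 := mul_le_mul_of_nonneg_right hA (abs_nonneg (Align.Q a (j + 1)))
      have h7 := abs_nonneg (Align.Q a (j + 1))
      linarith
    induction j, hj using Nat.le_induction with
    | base => exact fun _ => ⟨hQ, fun h => key n le_rfl h hQ⟩
    | succ j hj ih =>
      intro h
      obtain ⟨h1, h2⟩ := ih (by omega)
      have h3 := h2 (by omega)
      have h4 : |Align.Q a (j + 1)| ≤ |Align.Q a (j + 1 + 1)| := by
        have := abs_nonneg (Align.Q a (j + 1))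
        have e2 : j + 1 + 1 = j + 2 := rfl
        rw [e2]
        nlinarith
      exact ⟨h4, fun h' => key (j + 1) (by omega) h' h4⟩
  have hFn : 0 ≤ F := le_trans (abs_nonneg _) (foot 0 (by omega))
  have hQ1 : 0 < |Align.Q a (n + 1)| := lt_of_le_of_lt hFn hF
  have g2 := (gr n le_rfl (by omega)).2 (by omega)
  have g3 := (gr (n + 1) (by omega) (by omega)).2 (by omega)
  have g4 := (gr (n + 2) (by omega) (by omega)).2 (by omega)
  have e2 : n + 1 + 1 = n + 2 := rfl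
  have e3 : n + 1 + 2 = n + 3 := rfl
  have e4 : n + 2 + 1 = n + 3 := rfl
  have e5 : n + 2 + 2 = n + 4 := rfl
  rw [e2, e3] at g3
  rw [e4, e5] at g4
  -- general estimate
  have est : ∀ j, w ≤ j → j ≤ n + 3 → 0 < |Align.Q a j| →
      A / 2 * |Align.Q a j| ≤ |Align.Q a (j + 1)| →
      |Align.sol a u v j / Align.Q a j| ≤ 4 / (A * |Align.Q a j| ^ 2) := by
    intro j h1 h2 h3 h4
    have h5 := con j h1 (by omega)
    have h6 := Align.wronskian_Q a u v j
    have h7 : |Align.sol a u v j| * |Align.Q a (j + 1)| ≤ 1 +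
        |Align.sol a u v (j + 1)| * |Align.Q a j| := by
      calc |Align.sol a u v j| * |Align.Q a (j + 1)|
          = |u + Align.sol a u v (j + 1) * Align.Q a j| := by
            rw [← abs_mul]
            congr 1
            linarith
        _ ≤ |u| + |Align.sol a u v (j + 1) * Align.Q a j| := abs_add_le _ _
        _ = _ := by rw [abs_mul, hu]
    set X := |Align.sol a u v j|
    set X' := |Align.sol a u v (j + 1)|
    set q := |Align.Q a j|
    set q' := |Align.Q a (j + 1)|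
    have hX : 0 ≤ X := abs_nonneg _
    have hX' : 0 ≤ X' := abs_nonneg _
    -- X' q ≤ (2/A) X * (2/A) q' ≤ X q' / 4
    have h8 : X' * q ≤ 1 / 4 * (X * q') := by
      have s1 : 2 * X' ≤ X := by nlinarith
      have s2 : 2 * q ≤ q' := by nlinarith
      nlinarith [mul_le_mul s1 s2 (by positivity) hX]
    have h9 : X * q' ≤ 4 / 3 := by linarith
    have h10 : X * (A / 2 * q) ≤ 4 / 3 :=
      (mul_le_mul_of_nonneg_left h4 hX).trans h9
    rw [abs_div, div_le_div_iff₀ h3 (by positivity)]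
    change X * (A * q ^ 2) ≤ 4 * q
    nlinarith [mul_le_mul_of_nonneg_right h10 h3.le]
  have p1 : 0 < |Align.Q a (n + 2)| := by nlinarith
  have p2 : 0 < |Align.Q a (n + 3)| := by nlinarith
  refine ⟨hw, hM, g2, ?_, ?_⟩
  · refine (est (n + 2) (by omega) (by omega) p1 g3).trans ?_
    rw [← sq_abs (Align.Q a (n + 1))]
    have hA0 : 0 < A := by linarith
    rw [div_le_div_iff₀ (by positivity) (by positivity)]
    have : (A / 2 * |Align.Q a (n + 1)|) ^ 2 ≤ |Align.Q a (n + 2)| ^ 2 :=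
      pow_le_pow_left₀ (by positivity) g2 2
    nlinarith [mul_le_mul_of_nonneg_left this hA0.le]
  · refine (est (n + 3) (by omega) (by omega) p2 g4).trans ?_
    rw [← sq_abs (Align.Q a (n + 2))]
    have hA0 : 0 < A := by linarith
    rw [div_le_div_iff₀ (by positivity) (by positivity)]
    have : (A / 2 * |Align.Q a (n + 2)|) ^ 2 ≤ |Align.Q a (n + 3)| ^ 2 :=
      pow_le_pow_left₀ (by positivity) g3 2
    nlinarith [mul_le_mul_of_nonneg_left this hA0.le]

/-! ## dictionary -/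

/-- base point of the side `s` -/
noncomputable def zs (k c : ℝ) (s : Bool) (t : ℝ) : Tor :=
  if s then zt k c t else Rev k (zt k c t)

theorem dg_eq (k c : ℝ) (s : Bool) (t : ℝ) (n : ℕ) :
    ((ap k (zs k c s t) n : ℝ) : ℂ) = Loc.dg k c s t n := by
  unfold Loc.dg Loc.Y zs Loc.sdC
  cases s with
  | true => simpa using ap_eq k c t n
  | false =>
    have h := am_eq k c t n
    rw [am_eq_ap] at h
    simp only [Bool.false_eq_true, if_false]
    rw [h]
    congr 2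
    unfold tb kap
    push_cast
    ring

theorem D_eq (k c : ℝ) (s : Bool) (t : ℝ) (n : ℕ) :
    ((Align.Q (ap k (zs k c s t)) n : ℝ) : ℂ) = Loc.D k c s n t := by
  rw [← Loc.Q_dg]
  have := sol_cast (A := Loc.dg k c s t) (fun n => dg_eq k c s t n) 0 1 n
  rw [Complex.ofReal_zero, Complex.ofReal_one] at this
  exact this

theorem mu_eq (k c : ℝ) (s : Bool) (t : ℝ) (n : ℕ) :
    ((Align.mu (ap k (zs k c s t)) n : ℝ) : ℂ) = Loc.mu k c s n t := by
  unfold Loc.mu Align.mu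
  have h1 := sol_cast (A := Loc.dg k c s t) (fun n => dg_eq k c s t n) 0 1 n
  have h2 := sol_cast (A := Loc.dg k c s t) (fun n => dg_eq k c s t n) 1 0 n
  rw [Complex.ofReal_zero, Complex.ofReal_one] at h1 h2
  push_cast
  unfold Align.Q Align.P
  rw [h1, h2]

theorem norm_dg (k c : ℝ) (s : Bool) (t : ℝ) (n : ℕ) :
    ‖Loc.dg k c s t n‖ = |ap k (zs k c s t) n| := by
  rw [← dg_eq, Complex.norm_real, Real.norm_eq_abs]

theorem norm_D (k c : ℝ) (s : Bool) (t : ℝ) (n : ℕ) :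
    ‖Loc.D k c s n t‖ = |Align.Q (ap k (zs k c s t)) n| := by
  rw [← D_eq, Complex.norm_real, Real.norm_eq_abs]

theorem cont_eq (k c : ℝ) (s : Bool) (n n' : ℕ) (t : ℝ) :
    ((V k (c : UnitAddCircle) - Align.mu (ap k (zs k c s t)) n
      - Align.mu (ap k (zs k c (!s) t)) n' : ℝ) : ℂ) = Loc.cont k c s n n' t := by
  unfold Loc.cont
  push_cast
  rw [mu_eq, mu_eq, cV_ofReal]

/-- the content in terms of the two halves of a tip field -/
theorem norm_cont_le {k c : ℝ} {s : Bool} {n n' : ℕ} {t u v v' : ℝ} (hu : |u| = 1)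
    (hrec : v + v' = V k (c : UnitAddCircle) * u)
    (h : Align.Q (ap k (zs k c s t)) n ≠ 0) (h' : Align.Q (ap k (zs k c (!s) t)) n' ≠ 0) :
    ‖Loc.cont k c s n n' t‖ ≤
      |Align.sol (ap k (zs k c s t)) u v n / Align.Q (ap k (zs k c s t)) n| +
      |Align.sol (ap k (zs k c (!s) t)) u v' n' / Align.Q (ap k (zs k c (!s) t)) n'| := by
  rw [← cont_eq, Complex.norm_real, Real.norm_eq_abs, ← Align.sub_mu u v h, ← Align.sub_mu u v' h']
  calc |V k (c : UnitAddCircle) - Align.mu (ap k (zs k c s t)) n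
        - Align.mu (ap k (zs k c (!s) t)) n'|
      = |u * (V k (c : UnitAddCircle) - Align.mu (ap k (zs k c s t)) n
        - Align.mu (ap k (zs k c (!s) t)) n')| := by rw [abs_mul, hu, one_mul]
    _ = |(v - u * Align.mu (ap k (zs k c s t)) n) +
          (v' - u * Align.mu (ap k (zs k c (!s) t)) n')| := by
        congr 1
        linear_combination -hrec
    _ ≤ _ := abs_add_le _ _

theorem eq_sol' {a x : ℕ → ℝ} (h : ∀ n, x (n + 2) = a (n + 1) * x (n + 1) - x n) (n : ℕ) :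
    Align.sol a (x 0) (x 1) n = x n := by
  induction n using Nat.strong_induction_on with
  | _ n ih =>
    match n with
    | 0 => rfl
    | 1 => rfl
    | n + 2 => rw [Align.sol_add_two, ih (n + 1) (by omega), ih n (by omega), h]

/-- **one side of a very fresh point** -/
theorem side_core {k ρ F H : ℝ} {L n w M : ℕ} {y : Tor} {x : ℕ → ℝ} (hk : 64 ≤ k)
    (S : Good.Side k L ρ y x w M)
    (foot : ∀ j ≤ w, |Align.Q (ap k y) j| ≤ F) (hF : F < |Align.Q (ap k y) (n + 1)|)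
    (hH : ∀ j ≤ n + 1, |Align.Q (ap k y) j| ≤ H)
    (hQ : |Align.Q (ap k y) n| ≤ |Align.Q (ap k y) (n + 1)|)
    (small : 2 * (8 * k) ^ 5 * H * Real.exp (-ρ - 80 * Real.log k) < 1) :
    (∀ i < 3, k ^ ((2 : ℝ) / 3) ≤ |ap k y (n + 1 + i)|) ∧
    0 < |Align.Q (ap k y) (n + 2)| ∧ 0 < |Align.Q (ap k y) (n + 3)| ∧
    |Align.sol (ap k y) (x 0) (x 1) (n + 2) / Align.Q (ap k y) (n + 2)| ≤
      16 / (k ^ 2 * Align.Q (ap k y) (n + 1) ^ 2) ∧
    |Align.sol (ap k y) (x 0) (x 1) (n + 3) / Align.Q (ap k y) (n + 3)| ≤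
      16 / (k ^ 2 * Align.Q (ap k y) (n + 2) ^ 2) := by
  have hk0 : (0 : ℝ) < k := by linarith
  have hA : (4 : ℝ) ≤ k ^ ((2 : ℝ) / 3) := by
    calc (4 : ℝ) ≤ (64 : ℝ) ^ ((2 : ℝ) / 3) := by
          rw [show (64 : ℝ) = 4 ^ (3 : ℝ) by norm_num, ← Real.rpow_mul (by norm_num)]
          norm_num
      _ ≤ _ := Real.rpow_le_rpow (by norm_num) hk (by norm_num)
  have hA3 : (k ^ ((2 : ℝ) / 3)) ^ 3 = k ^ 2 := by
    rw [← Real.rpow_natCast, ← Real.rpow_mul hk0.le]
    norm_num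
  have hlog : 0 < Real.log k := Real.log_pos (by linarith)
  have hM : 1 ≤ M := by
    by_contra hM
    have hM0 : M = 0 := by omega
    have h1 := S.fin
    have h2 := S.lo
    rw [hM0] at h1
    have h3 := h2.trans (by simpa using h1)
    rw [Real.exp_le_exp] at h3
    linarith
  have hw := S.hw
  have e1 : w + (M - 1) = w + M - 1 := by omega
  have e2 : w + (M - 1) + 1 = w + M := by omega
  have hsol := eq_sol' S.xrec
  obtain ⟨c1, c2, c3, c4, c5⟩ := core (a := ap k y) (u := x 0) (v := x 1) (A := k ^ ((2 : ℝ) / 3))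
    (B := 8 * k) (H := H) (F := F) (e := Real.exp (-ρ - 80 * Real.log k)) (w := w) (M := M - 1)
    (n := n) S.x0 hA (by linarith)
    (fun j => by
      have := Lam0.abs_V_le (k := k) (by linarith) (Tz k j y)
      change |V k (Tz k j y).2| + 1 ≤ 8 * k
      linarith)
    (fun j h1 h2 => S.run j h1 (by omega))
    (by rw [hsol, e1]; exact (le_max_left _ _).trans S.fin)
    (by rw [hsol, e2]; exact (le_max_right _ _).trans S.fin)
    foot hF hH hQ small
  have hF0 : 0 ≤ F := le_trans (abs_nonneg _) (foot 0 (by omega))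
  have hQ1 : 0 < |Align.Q (ap k y) (n + 1)| := lt_of_le_of_lt hF0 hF
  have hA0 : 0 < k ^ ((2 : ℝ) / 3) := by linarith
  have p1 : 0 < |Align.Q (ap k y) (n + 2)| := by nlinarith
  have p2 : 0 < |Align.Q (ap k y) (n + 3)| := by
    have hr := S.run (n + 2) (by omega) (by omega)
    have e3 : Align.Q (ap k y) (n + 3) = ap k y (n + 2) * Align.Q (ap k y) (n + 2) -
      Align.Q (ap k y) (n + 1) := Align.Q_add_two _ _
    have h4 : |ap k y (n + 2)| * |Align.Q (ap k y) (n + 2)| ≤ |Align.Q (ap k y) (n + 3)| +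
        |Align.Q (ap k y) (n + 1)| := by
      rw [← abs_mul]
      calc |ap k y (n + 2) * Align.Q (ap k y) (n + 2)|
          = |Align.Q (ap k y) (n + 3) + Align.Q (ap k y) (n + 1)| := by rw [e3]; ring_nf
        _ ≤ _ := abs_add_le _ _
    nlinarith
  rw [hA3] at c4 c5
  refine ⟨fun i hi => S.run _ (by omega) (by omega), p1, p2, c4, c5⟩

theorem sides {k c u ρ : ℝ} {L : ℕ} (s : Bool) (h : Good.VF k L ρ (zt k c u)) :
    ∃ (x x' : ℕ → ℝ) (w M w' M' : ℕ), Good.Side k L ρ (zs k c s u) x w M ∧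
      Good.Side k L ρ (zs k c (!s) u) x' w' M' ∧ x 0 = x' 0 ∧
      x 1 + x' 1 = V k (c : UnitAddCircle) * x 0 := by
  obtain ⟨xp, xm, w, M, w', M', h1, h2, h3, h4⟩ := h
  rw [zt_snd] at h4
  cases s with
  | true => exact ⟨xp, xm, w, M, w', M', h1, h2, h3, h4⟩
  | false => exact ⟨xm, xp, w', M', w, M, h2, h1, h3.symm, by rw [← h3]; linarith⟩

/-- from the sizes of the two halves of the tip field to `Good3` -/
theorem final {k c u R b v v' : ℝ} {s : Bool} {n1 n1' : ℕ} (hk : 10 ^ 4 ≤ k) (hR0 : 0 < R)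
    (hb : |b| = 1) (erec : v + v' = V k (c : UnitAddCircle) * b)
    (r1 : ∀ i < 3, k ^ ((2 : ℝ) / 3) ≤ |ap k (zs k c s u) (n1 + 1 + i)|)
    (r1' : ∀ i < 3, k ^ ((2 : ℝ) / 3) ≤ |ap k (zs k c (!s) u) (n1' + 1 + i)|)
    (p1 : 0 < |Align.Q (ap k (zs k c s u)) (n1 + 2)|)
    (p2 : 0 < |Align.Q (ap k (zs k c s u)) (n1 + 3)|)
    (p1' : 0 < |Align.Q (ap k (zs k c (!s) u)) (n1' + 2)|)
    (p2' : 0 < |Align.Q (ap k (zs k c (!s) u)) (n1' + 3)|)
    (g1 : |Align.sol (ap k (zs k c s u)) b v (n1 + 2) / Align.Q (ap k (zs k c s u)) (n1 + 2)| ≤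
      16 / (k ^ 2 * Align.Q (ap k (zs k c s u)) (n1 + 1) ^ 2))
    (g2 : |Align.sol (ap k (zs k c s u)) b v (n1 + 3) / Align.Q (ap k (zs k c s u)) (n1 + 3)| ≤
      16 / (k ^ 2 * Align.Q (ap k (zs k c s u)) (n1 + 2) ^ 2))
    (g1' : |Align.sol (ap k (zs k c (!s) u)) b v' (n1' + 2) /
        Align.Q (ap k (zs k c (!s) u)) (n1' + 2)| ≤
      16 / (k ^ 2 * Align.Q (ap k (zs k c (!s) u)) (n1' + 1) ^ 2))
    (g2' : |Align.sol (ap k (zs k c (!s) u)) b v' (n1' + 3) /
        Align.Q (ap k (zs k c (!s) u)) (n1' + 3)| ≤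
      16 / (k ^ 2 * Align.Q (ap k (zs k c (!s) u)) (n1' + 2) ^ 2))
    (hQ : R / 2 ≤ |Align.Q (ap k (zs k c s u)) (n1 + 1)|)
    (hQ' : R / 2 ≤ |Align.Q (ap k (zs k c (!s) u)) (n1' + 1)|) :
    Loc.Good3 k c s n1 n1' R u := by
  have hk0 : 0 < k := by linarith
  have hpi := Real.pi_pos
  have hpi4 : Real.pi < 4 := by linarith [Real.pi_lt_d2]
  have hk2 : 0 < k ^ 2 := by positivity
  have hzD : ‖Loc.D k c s (n1 + 2) u‖ = |Align.Q (ap k (zs k c s u)) (n1 + 2)| := norm_D k c s u _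
  have hzD' : ‖Loc.D k c (!s) (n1' + 2) u‖ = |Align.Q (ap k (zs k c (!s) u)) (n1' + 2)| :=
    norm_D k c (!s) u _
  generalize ha : ap k (zs k c s u) = a at *
  generalize ha' : ap k (zs k c (!s) u) = a' at *
  have step : ∀ {X Y W : ℝ}, 0 < W → W ≤ |Y| → X ≤ 16 / (k ^ 2 * Y ^ 2) →
      X ≤ 16 / (k ^ 2 * W ^ 2) := by
    intro X Y W hW hWY hX
    refine hX.trans (div_le_div_of_nonneg_left (by norm_num) (by positivity)
      (mul_le_mul_of_nonneg_left ?_ hk2.le))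
    rw [← sq_abs Y]
    exact pow_le_pow_left₀ hW.le hWY 2
  refine ⟨?_, ?_, ?_, ?_⟩
  · intro i hi
    rw [norm_dg, ha]
    exact r1 i hi
  · intro i hi
    rw [norm_dg, ha']
    exact r1' i hi
  · have h1 := norm_cont_le (k := k) (c := c) (s := s) (n := n1 + 2) (n' := n1' + 2) (t := u)
      (u := b) (v := v) (v' := v') hb erec (by rw [ha]; exact abs_pos.mp p1)
      (by rw [ha']; exact abs_pos.mp p1')
    rw [ha, ha'] at h1
    have hR2 : 0 < R / 2 := by linarith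
    have h2 := step hR2 hQ g1
    have h3 := step hR2 hQ' g1'
    have h4 : ‖Loc.cont k c s (n1 + 2) (n1' + 2) u‖ ≤ 128 / (k ^ 2 * R ^ 2) := by
      refine h1.trans ((add_le_add h2 h3).trans (le_of_eq ?_))
      field_simp
      ring
    calc (2 * Real.pi * k * R ^ 2) * ‖Loc.cont k c s (n1 + 2) (n1' + 2) u‖
        ≤ (2 * Real.pi * k * R ^ 2) * (128 / (k ^ 2 * R ^ 2)) :=
          mul_le_mul_of_nonneg_left h4 (by positivity)
      _ = 256 * Real.pi / k := by field_simp; ring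
      _ ≤ 1 / 8 := by
          rw [div_le_div_iff₀ hk0 (by norm_num)]
          linarith
  · have h1 := norm_cont_le (k := k) (c := c) (s := s) (n := n1 + 3) (n' := n1' + 3) (t := u)
      (u := b) (v := v) (v' := v') hb erec (by rw [ha]; exact abs_pos.mp p2)
      (by rw [ha']; exact abs_pos.mp p2')
    rw [ha, ha'] at h1
    have m1 : min ‖Loc.D k c s (n1 + 2) u‖ ‖Loc.D k c (!s) (n1' + 2) u‖ ≤ |Align.Q a (n1 + 2)| := by
      rw [← hzD]; exact min_le_left _ _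
    have m2 : min ‖Loc.D k c s (n1 + 2) u‖ ‖Loc.D k c (!s) (n1' + 2) u‖ ≤ |Align.Q a' (n1' + 2)| := by
      rw [← hzD']; exact min_le_right _ _
    have m0 : 0 < min ‖Loc.D k c s (n1 + 2) u‖ ‖Loc.D k c (!s) (n1' + 2) u‖ := by
      rw [hzD, hzD']; exact lt_min p1 p1'
    generalize min ‖Loc.D k c s (n1 + 2) u‖ ‖Loc.D k c (!s) (n1' + 2) u‖ = μ at *
    have h2 := step m0 m1 g2
    have h3 := step m0 m2 g2'
    have h4 : ‖Loc.cont k c s (n1 + 3) (n1' + 3) u‖ ≤ 32 / (k ^ 2 * μ ^ 2) := by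
      refine h1.trans ((add_le_add h2 h3).trans (le_of_eq ?_))
      ring
    calc (2 * Real.pi * k * μ ^ 2) * ‖Loc.cont k c s (n1 + 3) (n1' + 3) u‖
        ≤ (2 * Real.pi * k * μ ^ 2) * (32 / (k ^ 2 * μ ^ 2)) :=
          mul_le_mul_of_nonneg_left h4 (by positivity)
      _ = 64 * Real.pi / k := by field_simp; ring
      _ ≤ 1 / 8 := by
          rw [div_le_div_iff₀ hk0 (by norm_num)]
          linarith

set_option maxHeartbeats 1000000 in
/-- **(H4)**: a very fresh point near the centre of a cell is a `Good3` point.  Hypotheses: `foot`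
(sizes before the foot, from cleanness) and `size`, `size'` (sizes before the exits). -/
theorem good3 (C1 : ℝ) (L : ℕ) : ∃ k1 : ℝ, ∀ k : ℝ, k1 ≤ k →
    (∀ (ρ : ℝ) (y : Tor) (x : ℕ → ℝ) (w M : ℕ), 0 ≤ ρ → Good.Side k L ρ y x w M →
      ∀ j ≤ w, |Align.Q (ap k y) j| ≤ k ^ 50 * Real.exp ρ) →
    ∀ (c u : ℝ) (n : ℕ) (s : Bool) (n1 n1' : ℕ) (m R lam q0 q1 q2 : ℝ),
    zt k c u ∈ Good.G k L n → k ^ 60 * 2 ^ n ≤ R / 4 → R ≤ k ^ 74 * 2 ^ n →
    |lam| ≤ C1 * Real.sqrt k → Loc.Cell3 k c s n1 n1' m R lam C1 q0 q1 q2 → |u - m| ≤ 3 / R →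
    (∀ i ≤ n1, ‖Loc.D k c s i u‖ ≤ k ^ 74 * Real.sqrt k * 2 ^ n) →
    (∀ i ≤ n1', ‖Loc.D k c (!s) i u‖ ≤ k ^ 74 * Real.sqrt k * 2 ^ n) →
    Loc.Good3 k c s n1 n1' R u := by
  obtain ⟨C2, hC2⟩ : ∃ C2, C2 = max C1 1 := ⟨_, rfl⟩
  have hC21 : 1 ≤ C2 := hC2 ▸ le_max_right _ _
  have hC12 : C1 ≤ C2 := hC2 ▸ le_max_left _ _
  refine ⟨10 ^ 11 * C2 ^ 4, ?_⟩
  intro k hk foot c u n s n1 n1' m R lam q0 q1 q2 hG hR1 hR2 hlam hC hu size size'
  have hk4 : (10 : ℝ) ^ 11 ≤ k := by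
    have : (1 : ℝ) ≤ C2 ^ 4 := one_le_pow₀ hC21
    nlinarith
  have hk0 : (0 : ℝ) < k := by linarith
  obtain ⟨q, hq⟩ : ∃ q, q = Real.sqrt k := ⟨_, rfl⟩
  have hqq : q * q = k := by rw [hq]; exact Real.mul_self_sqrt hk0.le
  have hq0 : 0 < q := by rw [hq]; exact Real.sqrt_pos.mpr hk0
  have hqC : 3 * 10 ^ 5 * C2 ^ 2 ≤ q := by
    rw [hq]
    refine Real.le_sqrt_of_sq_le ?_
    nlinarith [hk]
  rw [← hq] at hlam size size'
  have hC2q : C2 ≤ q / (3 * 10 ^ 5) := by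
    rw [le_div_iff₀ (by norm_num)]
    nlinarith
  have hR0 : 0 < R := lt_of_lt_of_le one_pos hC.hR
  have hmem : (u : ℂ) ∈ ball (m : ℂ) (4 / R) := by
    rw [mem_ball, dist_eq_norm, ← Complex.ofReal_sub, Complex.norm_real, Real.norm_eq_abs]
    refine hu.trans_lt ?_
    exact div_lt_div_of_pos_right (by norm_num) hR0
  -- slow side sizes
  have hC1k : 2 * C1 ≤ k := by
    have h1 : C2 ≤ C2 ^ 4 := le_self_pow₀ hC21 (by norm_num)
    linarith
  have hCk : C1 * R / k ≤ R / 2 := by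
    rw [div_le_div_iff₀ hk0 (by norm_num)]
    have := mul_le_mul_of_nonneg_right hC1k hR0.le
    linarith
  have slow1 : R / 2 ≤ ‖Loc.D k c s (n1 + 1) u‖ ∧ ‖Loc.D k c s (n1 + 1) u‖ ≤ 3 / 2 * R := by
    obtain ⟨σ, hσ, h⟩ := hC.slow
    have h1 := (h u hmem).trans hCk
    have hn : ‖((σ * R : ℝ) : ℂ)‖ = R := by
      rw [Complex.norm_real, Real.norm_eq_abs, abs_mul, abs_of_pos hR0]
      rcases hσ with h | h <;> rw [h] <;> norm_num
    have h2 := abs_norm_sub_norm_le (Loc.D k c s (n1 + 1) u) ((σ * R : ℝ) : ℂ)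
    rw [hn] at h2
    have h3 := abs_le.mp (h2.trans h1)
    constructor <;> linarith [h3.1, h3.2]
  have slow0 : ‖Loc.D k c s n1 u‖ ≤ R / 2 := (hC.slow0 u hmem).trans hCk
  -- fast side sizes
  have hl0 : 0 < |lam| := lt_of_lt_of_le one_pos hC.hlam
  have hlR : R ≤ |lam| * R := by nlinarith [hC.hlam]
  have hlam2 : |lam| ≤ C2 * q := hlam.trans (mul_le_mul_of_nonneg_right hC12 hq0.le)
  have hCl : C1 * |lam| ≤ q * q / 2 := by
    calc C1 * |lam| ≤ C2 * |lam| := mul_le_mul_of_nonneg_right hC12 hl0.le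
      _ ≤ C2 * (C2 * q) := mul_le_mul_of_nonneg_left hlam2 (by linarith)
      _ ≤ q * q / 2 := by nlinarith
  have hCk2 : C1 * |lam| ^ 2 * R / k ≤ |lam| * R / 2 := by
    rw [div_le_div_iff₀ hk0 (by norm_num), ← hqq]
    have := mul_le_mul_of_nonneg_right hCl (by positivity : 0 ≤ |lam| * R)
    nlinarith
  have hCk3 : C1 * |lam| * R / k ≤ |lam| * R / 2 := by
    rw [div_le_div_iff₀ hk0 (by norm_num), ← hqq]
    have := mul_le_mul_of_nonneg_right hCl hR0.le
    have h3 : q * q ≤ q * q * |lam| := by nlinarith [hC.hlam, mul_pos hq0 hq0]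
    nlinarith
  have fast1 : |lam| * R / 2 ≤ ‖Loc.D k c (!s) (n1' + 1) u‖ ∧
      ‖Loc.D k c (!s) (n1' + 1) u‖ ≤ 3 / 2 * (|lam| * R) := by
    have h1 := (hC.fast u hmem).trans hCk2
    have hn : ‖((lam * R : ℝ) : ℂ)‖ = |lam| * R := by
      rw [Complex.norm_real, Real.norm_eq_abs, abs_mul, abs_of_pos hR0]
    have h2 := abs_norm_sub_norm_le (Loc.D k c (!s) (n1' + 1) u) ((lam * R : ℝ) : ℂ)
    rw [hn] at h2
    have h3 := abs_le.mp (h2.trans h1)
    constructor <;> linarith [h3.1, h3.2]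
  have fast0 : ‖Loc.D k c (!s) n1' u‖ ≤ |lam| * R / 2 := (hC.fast0 u hmem).trans hCk3
  -- the tip field
  obtain ⟨-, ρ, hρ1, hρ2, hVF⟩ := hG
  have hρ0 : 0 ≤ ρ := le_trans (by positivity) hρ1
  obtain ⟨x, x', w, M, w', M', S, S', e0, erec⟩ := sides s hVF
  have hexp : Real.exp ρ ≤ 2 ^ n * k ^ 2 := by
    refine (Real.exp_le_exp.mpr hρ2).trans (le_of_eq ?_)
    rw [Real.exp_add, Real.exp_nat_mul, Real.exp_log (by norm_num),
      show (2 : ℝ) * Real.log k = ((2 : ℕ) : ℝ) * Real.log k by norm_num, Real.exp_nat_mul,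
      Real.exp_log hk0]
  have hexp2 : Real.exp (-ρ - 80 * Real.log k) ≤ 1 / (2 ^ n * k ^ 80) := by
    rw [show -ρ - 80 * Real.log k = -(ρ + ((80 : ℕ) : ℝ) * Real.log k) by push_cast; ring,
      Real.exp_neg, ← one_div, Real.exp_add, Real.exp_nat_mul, Real.exp_log hk0]
    refine one_div_le_one_div_of_le (by positivity) ?_
    refine mul_le_mul_of_nonneg_right ?_ (by positivity)
    calc (2 : ℝ) ^ n = Real.exp (n * Real.log 2) := by
          rw [Real.exp_nat_mul, Real.exp_log (by norm_num)]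
      _ ≤ _ := Real.exp_le_exp.mpr hρ1
  set z := zs k c s u with hz
  set z' := zs k c (!s) u with hz'
  have h2n : (0 : ℝ) < 2 ^ n := by positivity
  have hFF : k ^ 50 * Real.exp ρ < R / 2 := by
    have h1 : k ^ 50 * Real.exp ρ ≤ k ^ 52 * 2 ^ n := by
      calc k ^ 50 * Real.exp ρ ≤ k ^ 50 * (2 ^ n * k ^ 2) :=
            mul_le_mul_of_nonneg_left hexp (by positivity)
        _ = k ^ 52 * 2 ^ n := by ring
    have h2 : k ^ 52 * 2 ^ n < k ^ 60 * 2 ^ n :=
      mul_lt_mul_of_pos_right (pow_lt_pow_right₀ (by linarith) (by norm_num)) h2n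
    linarith
  obtain ⟨H, hH⟩ : ∃ H, H = 3 / 2 * C2 * (k ^ 74 * q * 2 ^ n) := ⟨_, rfl⟩
  have hbase : 0 < k ^ 74 * q * 2 ^ n := by positivity
  have hH1 : k ^ 74 * q * 2 ^ n ≤ H := by rw [hH]; nlinarith
  have hH2 : 3 / 2 * (|lam| * R) ≤ H := by
    rw [hH]
    have : |lam| * R ≤ C2 * q * (k ^ 74 * 2 ^ n) := mul_le_mul hlam2 hR2 hR0.le (by positivity)
    nlinarith
  have hH3 : 3 / 2 * R ≤ H := by linarith
  have small : 2 * (8 * k) ^ 5 * H * Real.exp (-ρ - 80 * Real.log k) < 1 := by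
    have hH0 : 0 < H := by linarith
    refine (mul_le_mul_of_nonneg_left hexp2 (by positivity)).trans_lt ?_
    rw [mul_one_div, div_lt_one (by positivity), hH]
    have e1 : 2 * (8 * k) ^ 5 * (3 / 2 * C2 * (k ^ 74 * q * 2 ^ n)) =
        98304 * C2 * q * (k ^ 79 * 2 ^ n) := by ring
    have e2 : (2 : ℝ) ^ n * k ^ 80 = (q * q) * (k ^ 79 * 2 ^ n) := by rw [hqq]; ring
    rw [e1, e2]
    refine mul_lt_mul_of_pos_right ?_ (by positivity)
    nlinarith
  have hk64 : (64 : ℝ) ≤ k := by linarith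
  have hzD : ∀ i, ‖Loc.D k c s i u‖ = |Align.Q (ap k z) i| := fun i => norm_D k c s u i
  have hzD' : ∀ i, ‖Loc.D k c (!s) i u‖ = |Align.Q (ap k z') i| := fun i => norm_D k c (!s) u i
  obtain ⟨r1, p1, p2, g1, g2⟩ := side_core (n := n1) hk64 S (foot ρ z x w M hρ0 S)
    (by rw [← hzD]; linarith [slow1.1])
    (by
      intro j hj
      rw [← hzD]
      rcases Nat.lt_or_ge j (n1 + 1) with h | h
      · exact (size j (by omega)).trans hH1
      · have : j = n1 + 1 := by omega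
        rw [this]
        linarith [slow1.2])
    (by rw [← hzD, ← hzD]; linarith [slow1.1]) small
  obtain ⟨r1', p1', p2', g1', g2'⟩ := side_core (n := n1') hk64 S' (foot ρ z' x' w' M' hρ0 S')
    (by rw [← hzD']; linarith [fast1.1])
    (by
      intro j hj
      rw [← hzD']
      rcases Nat.lt_or_ge j (n1' + 1) with h | h
      · exact (size' j (by omega)).trans hH1
      · have : j = n1' + 1 := by omega
        rw [this]
        linarith [fast1.2])
    (by rw [← hzD', ← hzD']; linarith [fast1.1]) small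
  rw [← e0] at g1' g2'
  exact final (by linarith) hR0 S.x0 erec r1 r1' p1 p2 p1' p2' g1 g2 g1' g2'
    (by rw [← hzD]; exact slow1.1)
    (by rw [← hzD']; linarith [fast1.1])

end Crest.Agent.R128.H4
end

-- ▼ part R128/LocGlue365
section

/-!
# Row 128, V5: final packaging of `Good.LocA L` (helper365)

`LocA` = (very fresh point ⟹ base data of both sides, `VFBase`) + (595's `locA4`, `LocA4Stmt`) +
(220's `H4.good3`, `H4Stmt`).  Everything is stated over an abstract base predicate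
`B k c s n0 M t0 r0 r` (595: `LocA.Base`).
-/

set_option autoImplicit false

open Metric MeasureTheory
open Crest.Agent.R128 Crest.Agent.R128.Cell Crest.Agent.R128.CellB Crest.Agent.R128.CellDy
open Crest.Agent.R128.AlignMn Crest.Agent.R128.DictY

namespace Crest.Agent.R128.LocGlue365

/-- the conclusion of 595's `locA4` at a base point -/
def Out (k c t0 r : ℝ) (n0 : Bool → ℕ) : Prop :=
  ∃ N : Set ℝ, N ⊆ Set.Icc (t0 - r) (t0 + r) ∧ ENNReal.ofReal r ≤ volume N ∧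
    ∀ m ∈ N, ∃ (s : Bool) (n n' : ℕ) (R lam q0 q1 q2 : ℝ), k ≤ R * (2 * r) ∧ R * (2 * r) ≤ k ^ 8 ∧
      |lam| ≤ 10 ^ 19 * Real.sqrt k ∧ Loc.Cell3 k c s n n' m R lam (10 ^ 19) q0 q1 q2 ∧
      (∀ i, n0 s + 1 ≤ i → i ≤ n + 1 → ∀ t ∈ ball (m : ℂ) (4 / R), ‖Loc.D k c s i t‖ ≤ 2 * R) ∧
      (∀ i, n0 (!s) + 1 ≤ i → i ≤ n' + 1 → ∀ t ∈ ball (m : ℂ) (4 / R),
        ‖Loc.D k c (!s) i t‖ ≤ 2 * |lam| * R)

/-- the old content is quadratic -/
def OldC (k c t0 r : ℝ) (n0 : Bool → ℕ) : Prop :=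
  ∃ p0 p1 p2 : ℝ, ∀ z ∈ ball (t0 : ℂ) (2 * r),
    ‖Loc.cont k c true (n0 true + 1) (n0 false + 1) z -
      (p0 + p1 * (z - t0) + p2 * (z - t0) ^ 2)‖ ≤ r ^ 2 / k ^ 18

def LocA4Stmt (B : ℝ → ℝ → Bool → ℕ → ℕ → ℝ → ℝ → ℝ → Prop) : Prop :=
  ∃ k1 : ℝ, ∀ k : ℝ, k1 ≤ k → ∀ c t0 r : ℝ, 2 * r ≤ 1 → ∀ (n0 M : Bool → ℕ) (r0 : Bool → ℝ),
    (∀ s, B k c s (n0 s) (M s) t0 (r0 s) r) → OldC k c t0 r n0 → Out k c t0 r n0

/-- very fresh ⟹ base data, old content, old sizes (`r = 1 / (k^60 2^n)`) -/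
def VFBase (L : ℕ) (B : ℝ → ℝ → Bool → ℕ → ℕ → ℝ → ℝ → ℝ → Prop) : Prop :=
  ∃ k1 : ℝ, ∀ k : ℝ, k1 ≤ k → ∀ (c t0 : ℝ) (n : ℕ), zt k c t0 ∈ Good.G k L n →
    ∃ (n0 M : Bool → ℕ) (r0 : Bool → ℝ),
      (∀ s, B k c s (n0 s) (M s) t0 (r0 s) (1 / (k ^ 60 * 2 ^ n))) ∧
      OldC k c t0 (1 / (k ^ 60 * 2 ^ n)) n0 ∧
      ∀ s, ∀ i ≤ n0 s, ∀ u : ℝ, |u - t0| ≤ 2 * (1 / (k ^ 60 * 2 ^ n)) →
        ‖Loc.D k c s i u‖ ≤ k ^ 74 * 2 ^ n

/-- 220's `H4.good3` (after FOOT) -/
def H4Stmt (L : ℕ) : Prop :=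
  ∀ C1 : ℝ, ∃ k1 : ℝ, ∀ k : ℝ, k1 ≤ k →
    ∀ (c u : ℝ) (n : ℕ) (s : Bool) (n1 n1' : ℕ) (m R lam q0 q1 q2 : ℝ),
    zt k c u ∈ Good.G k L n → k ^ 60 * 2 ^ n ≤ R / 4 → R ≤ k ^ 74 * 2 ^ n →
    |lam| ≤ C1 * Real.sqrt k → Loc.Cell3 k c s n1 n1' m R lam C1 q0 q1 q2 → |u - m| ≤ 3 / R →
    (∀ i ≤ n1, ‖Loc.D k c s i u‖ ≤ k ^ 74 * Real.sqrt k * 2 ^ n) →
    (∀ i ≤ n1', ‖Loc.D k c (!s) i u‖ ≤ k ^ 74 * Real.sqrt k * 2 ^ n) →
    Loc.Good3 k c s n1 n1' R u

theorem locA_of {L : ℕ} {B : ℝ → ℝ → Bool → ℕ → ℕ → ℝ → ℝ → ℝ → Prop} (hA : LocA4Stmt B)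
    (hB : VFBase L B) (hH : H4Stmt L) : Good.LocA L := by
  obtain ⟨ka, hA⟩ := hA
  obtain ⟨kb, hB⟩ := hB
  obtain ⟨kh, hH⟩ := hH (10 ^ 19)
  refine ⟨10 ^ 19, by norm_num, max (max ka kb) (max kh (10 ^ 20)), ?_⟩
  intro k hk c t0 n hG
  have hka : ka ≤ k := (le_max_left _ _).trans ((le_max_left _ _).trans hk)
  have hkb : kb ≤ k := (le_max_right _ _).trans ((le_max_left _ _).trans hk)
  have hkh : kh ≤ k := (le_max_left _ _).trans ((le_max_right _ _).trans hk)
  have hk20 : (10 : ℝ) ^ 20 ≤ k := (le_max_right _ _).trans ((le_max_right _ _).trans hk)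
  have hk0 : 0 < k := lt_of_lt_of_le (by norm_num) hk20
  have hk1 : 1 ≤ k := le_trans (by norm_num) hk20
  have h2n : (1 : ℝ) ≤ 2 ^ n := one_le_pow₀ (by norm_num)
  set X : ℝ := k ^ 60 * 2 ^ n with hX
  have hX1 : 2 ≤ X := by
    have h1 : k ≤ k ^ 60 := le_self_pow₀ hk1 (by norm_num)
    have h2 : k ^ 60 * 1 ≤ k ^ 60 * 2 ^ n := mul_le_mul_of_nonneg_left h2n (by positivity)
    have h3 : (2 : ℝ) ≤ 10 ^ 20 := by norm_num
    linarith
  have hX0 : 0 < X := by linarith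
  obtain ⟨n0, M, r0, hb, hc, hs⟩ := hB k hkb c t0 n hG
  have hr2 : 2 * (1 / X) ≤ 1 := by
    rw [mul_one_div, div_le_one hX0]
    exact hX1
  obtain ⟨N, hN1, hN2, hN3⟩ := hA k hka c t0 (1 / X) hr2 n0 M r0 hb hc
  refine ⟨N, hN1, hN2, fun m hm => ?_⟩
  obtain ⟨s, n1, n1', R, lam, q0, q1, q2, h1, h2, h3, h4, h5, h6⟩ := hN3 m hm
  have hR0 : 0 < R := lt_of_lt_of_le one_pos h4.hR
  -- the window of `R`
  have e1 : R * (2 * (1 / X)) = 2 * R / X := by ring
  rw [e1, le_div_iff₀ hX0] at h1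
  rw [e1, div_le_iff₀ hX0] at h2
  have hlo : X ≤ R / 4 := by
    have : (10 : ℝ) ^ 20 * X ≤ k * X := mul_le_mul_of_nonneg_right hk20 hX0.le
    have h7 : (8 : ℝ) * X ≤ 10 ^ 20 * X := mul_le_mul_of_nonneg_right (by norm_num) hX0.le
    linarith
  have hk68 : k ^ 8 * X = k ^ 68 * 2 ^ n := by rw [hX]; ring
  have hR68 : 2 * R ≤ k ^ 68 * 2 ^ n := by rw [← hk68]; exact h2
  have hR74 : R ≤ k ^ 74 * 2 ^ n := by
    have : k ^ 68 * 2 ^ n ≤ k ^ 74 * 2 ^ n :=
      mul_le_mul_of_nonneg_right (pow_le_pow_right₀ hk1 (by norm_num)) (by positivity)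
    linarith
  refine ⟨s, n1, n1', R, lam, q0, q1, q2, hlo, hR74, h3, h4, fun u hu hGu => ?_⟩
  have hq1 : 1 ≤ Real.sqrt k := by
    rw [Real.one_le_sqrt]
    exact hk1
  have h74 : k ^ 74 * 2 ^ n ≤ k ^ 74 * Real.sqrt k * 2 ^ n := by
    have h7 : k ^ 74 * 1 ≤ k ^ 74 * Real.sqrt k := mul_le_mul_of_nonneg_left hq1 (by positivity)
    calc k ^ 74 * 2 ^ n = k ^ 74 * 1 * 2 ^ n := by ring
      _ ≤ _ := mul_le_mul_of_nonneg_right h7 (by positivity)
  -- `u` is close to `t0`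
  have hut : |u - t0| ≤ 2 * (1 / X) := by
    have hmN := hN1 hm
    have h7 : |m - t0| ≤ 1 / X := abs_le.2 ⟨by linarith [hmN.1], by linarith [hmN.2]⟩
    have h8 : 3 / R ≤ 1 / X := by
      rw [div_le_div_iff₀ hR0 hX0]
      linarith
    calc |u - t0| ≤ |u - m| + |m - t0| := abs_sub_le _ _ _
      _ ≤ 3 / R + 1 / X := add_le_add hu h7
      _ ≤ _ := by linarith
  have hmem : (u : ℂ) ∈ ball (m : ℂ) (4 / R) := by
    rw [mem_ball, dist_eq_norm, ← Complex.ofReal_sub, Complex.norm_real, Real.norm_eq_abs]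
    exact hu.trans_lt (div_lt_div_of_pos_right (by norm_num) hR0)
  refine hH k hkh c u n s n1 n1' m R lam q0 q1 q2 hGu hlo hR74 h3 h4 hu ?_ ?_
  · intro i hi
    rcases Nat.lt_or_ge (n0 s) i with h7 | h7
    · refine (h5 i h7 (by omega) u hmem).trans ?_
      have : k ^ 68 * 2 ^ n ≤ k ^ 74 * 2 ^ n :=
        mul_le_mul_of_nonneg_right (pow_le_pow_right₀ hk1 (by norm_num)) (by positivity)
      linarith
    · exact (hs s i h7 u hut).trans h74
  · intro i hi
    rcases Nat.lt_or_ge (n0 (!s)) i with h7 | h7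
    · refine (h6 i h7 (by omega) u hmem).trans ?_
      calc 2 * |lam| * R = |lam| * (2 * R) := by ring
        _ ≤ (10 ^ 19 * Real.sqrt k) * (k ^ 68 * 2 ^ n) :=
            mul_le_mul h3 hR68 (by positivity) (by positivity)
        _ = 10 ^ 19 * (k ^ 68 * Real.sqrt k * 2 ^ n) := by ring
        _ ≤ k * (k ^ 68 * Real.sqrt k * 2 ^ n) :=
            mul_le_mul_of_nonneg_right (le_trans (by norm_num) hk20) (by positivity)
        _ = k ^ 69 * Real.sqrt k * 2 ^ n := by ring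
        _ ≤ k ^ 74 * Real.sqrt k * 2 ^ n := by
            refine mul_le_mul_of_nonneg_right (mul_le_mul_of_nonneg_right
              (pow_le_pow_right₀ hk1 (by norm_num)) (by positivity)) (by positivity)
    · exact (hs (!s) i h7 u hut).trans h74


end Crest.Agent.R128.LocGlue365
end

-- ▼ part R128/VFB162
section

/-!
# Row 128, V5-LOC (helper162): very fresh point ⟹ base data of both sides

`vfBase : 1000 ≤ L → LocGlue365.VFBase L LocA.Base` (365's Prop for 595's `LocA.Base`), from 816's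
`BaseNum.base_num`, `StartNum.content_foot`, the side estimates `SideSize`, `SideStart` and `LocSize`.
-/

set_option autoImplicit false

open Metric MeasureTheory
open Crest.Agent.R128 Crest.Agent.R128.Cell Crest.Agent.R128.CellB Crest.Agent.R128.CellDy
open Crest.Agent.R128.TreeSum Crest.Agent.R128.Disp Crest.Agent.R128.CleanNum
open Crest.Agent.R128.CleanDisc Crest.Agent.R128.CleanCont Crest.Agent.R128.AlignMn
open Crest.Agent.R128.DictY

namespace Crest.Agent.R128.VFB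

theorem zs_eq (k c : ℝ) (s : Bool) (t : ℝ) : H4.zs k c s t = zt k c (CellDy.sd k c s t) := by
  unfold H4.zs CellDy.sd
  cases s with
  | true => simp
  | false =>
    simp only [Bool.false_eq_true, if_false]
    rw [Rev_zt]
    rfl

/-- the two sizes of a side at the foot, in terms of `2 ^ n` -/
theorem exp_sizes {k ρ : ℝ} {n : ℕ} (hk : 0 < k) (h1 : n * Real.log 2 ≤ ρ)
    (h2 : ρ ≤ n * Real.log 2 + 2 * Real.log k) :
    (2 : ℝ) ^ n ≤ Real.exp ρ ∧ Real.exp ρ ≤ 2 ^ n * k ^ 2 := by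
  constructor
  · calc (2 : ℝ) ^ n = Real.exp (n * Real.log 2) := by
          rw [Real.exp_nat_mul, Real.exp_log (by norm_num)]
      _ ≤ _ := Real.exp_le_exp.mpr h1
  · refine (Real.exp_le_exp.mpr h2).trans (le_of_eq ?_)
    rw [Real.exp_add, Real.exp_nat_mul, Real.exp_log (by norm_num),
      show (2 : ℝ) * Real.log k = ((2 : ℕ) : ℝ) * Real.log k by norm_num, Real.exp_nat_mul,
      Real.exp_log hk]

/-- one side -/
theorem side_base {k c t0 ρ : ℝ} {L n n0 M : ℕ} {x : ℕ → ℝ} (s : Bool) (hk : (2 : ℝ) ^ 400 ≤ k)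
    (hL : 1000 ≤ L) (hLk : 10 ^ 14 * ((L : ℝ) + 1) ^ 5 ≤ k) (h1 : n * Real.log 2 ≤ ρ)
    (h2 : ρ ≤ n * Real.log 2 + 2 * Real.log k)
    (S : Good.Side k L ρ (zt k c (CellDy.sd k c s t0)) x (n0 + 1) M) :
    ∃ r0 : ℝ, LocA.Base k c s n0 M t0 r0 (1 / (k ^ 60 * 2 ^ n)) := by
  have hk200 : (2 : ℝ) ^ 200 ≤ k := le_trans (pow_le_pow_right₀ (by norm_num) (by norm_num)) hk
  have hk20 : (10 : ℝ) ^ 20 ≤ k := le_trans (by norm_num) hk200
  have hN : SideStart376.NumK k L := ⟨hk20, hL, hLk⟩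
  have hk0 : 0 < k := lt_of_lt_of_le (by norm_num) hk20
  have hk1 : 1 ≤ k := le_trans (by norm_num) hk20
  have hρ : 0 ≤ ρ := le_trans (by have := Real.log_nonneg (by norm_num : (1 : ℝ) ≤ 2); positivity) h1
  obtain ⟨he1, he2⟩ := exp_sizes hk0 h1 h2
  have h2n : (0 : ℝ) < 2 ^ n := by positivity
  have hC := SideSize.clean hk (by omega) hρ S
  have hX := (SideSize.XX_eq hk (by omega) S).2
  have hc := SideSize.cone_foot hk (by omega) hρ S
  have hz := SideSize.sizes hk (by omega) hρ S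
  have hkp := SideSize.kp_ge hk
  have hrb := SideStart376.run_big hN hρ S
  have hrd := fun {j : ℕ} (hj : j ≤ M) => SideStart376.run_dig S hj
  have hc2 : 2 * |(wf k c (CellDy.sd k c s t0) (n0 + 1 - 1)).1| ≤
      |(wf k c (CellDy.sd k c s t0) (n0 + 1 - 1)).2| := by
    refine le_trans ?_ hc
    apply mul_le_mul_of_nonneg_right _ (abs_nonneg _)
    have : (3 : ℝ) ≤ 2 ^ 201 := by norm_num
    have h3 := this.trans hkp
    linarith only [h3]
  have hD := BaseNum.norm_D_real k c s (n0 + 1) (by omega) t0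
  have hk60 : (0 : ℝ) < k ^ 60 * 2 ^ n := by positivity
  have hr0 : 0 < 1 / (k ^ 60 * 2 ^ n) := by positivity
  have hup : ‖Loc.D k c s (n0 + 1) (t0 : ℂ)‖ ≤ 2 * k ^ 5 * 2 ^ n := by
    rw [hD]
    refine hz.2.trans ?_
    calc 2 * k ^ 3 * Real.exp ρ ≤ 2 * k ^ 3 * (2 ^ n * k ^ 2) := by gcongr
      _ = 2 * k ^ 5 * 2 ^ n := by ring
  have hlo : 2 ^ n / 2 ≤ ‖Loc.D k c s (n0 + 1) (t0 : ℂ)‖ := by
    rw [hD]
    refine le_trans ?_ hz.1
    linarith only [he1]
  have hXr : ‖Loc.D k c s (n0 + 1) (t0 : ℂ)‖ * (1 / (k ^ 60 * 2 ^ n)) ≤ 1 / k ^ 50 := by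
    calc ‖Loc.D k c s (n0 + 1) (t0 : ℂ)‖ * (1 / (k ^ 60 * 2 ^ n))
        ≤ (2 * k ^ 5 * 2 ^ n) * (1 / (k ^ 60 * 2 ^ n)) := by gcongr
      _ = 2 / k ^ 55 := by field_simp
      _ ≤ 1 / k ^ 50 := by
          rw [div_le_div_iff₀ (by positivity) (by positivity)]
          have h5 : (2 : ℝ) ≤ k ^ 5 := le_trans (le_trans (by norm_num) hk20) (le_self_pow₀ hk1 (by norm_num))
          calc 2 * k ^ 50 ≤ k ^ 5 * k ^ 50 := by gcongr
            _ = 1 * k ^ 55 := by ring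
  obtain ⟨r0, g1, g2, g3, g4, g5, g6⟩ := BaseNum.base_num s hk200 (by omega) hC hX hc2 hr0 hXr
  rw [Nat.add_sub_cancel] at g3
  refine ⟨r0, g1, hr0, g2, g3, g4, g5, g6, ?_, ?_, ?_⟩
  · -- lower
    calc (1 : ℝ) ≤ k := hk1
      _ = k ^ 61 * (2 ^ n / 2 * (2 * (1 / (k ^ 60 * 2 ^ n)))) := by field_simp
      _ ≤ k ^ 61 * (‖Loc.D k c s (n0 + 1) (t0 : ℂ)‖ * (2 * (1 / (k ^ 60 * 2 ^ n)))) := by gcongr
  · -- digits
    intro j hj
    have h3 := hrd hj.le
    rw [Nat.add_sub_cancel] at h3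
    have e : n0 + 1 + j = (n0 + j) + 1 := by omega
    unfold Loc.Y
    rw [BaseNum.sdC_real, e, cV_y, Complex.norm_real, Real.norm_eq_abs]
    exact h3
  · -- the end of the run
    have h3 : ‖Loc.D k c s (n0 + 1 + M) (t0 : ℂ)‖ =
        SideStart376.Qr k c (CellDy.sd k c s t0) (n0 + 1 + M) := by
      unfold Loc.D
      rw [BaseNum.sdC_real, SideStart376.norm_yd]
    rw [h3]
    have h4 : k ^ 80 * 2 ^ n / 2 ≤ SideStart376.Qr k c (CellDy.sd k c s t0) (n0 + 1 + M) := by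
      have : k ^ 80 * 2 ^ n ≤ k ^ 80 * Real.exp ρ := by gcongr
      linarith only [this, hrb]
    calc k ^ (-(7 / 20) : ℝ) ≤ 1 := Real.rpow_le_one_of_one_le_of_nonpos hk1 (by norm_num)
      _ ≤ k ^ 20 := one_le_pow₀ hk1
      _ = k ^ 80 * 2 ^ n / 2 * (2 * (1 / (k ^ 60 * 2 ^ n))) := by field_simp
      _ ≤ _ := by gcongr

/-- **VF ⟹ Base** -/
theorem vfBase {L : ℕ} (hL : 1000 ≤ L) : LocGlue365.VFBase L LocA.Base := by
  refine ⟨max ((2 : ℝ) ^ 400) (10 ^ 14 * ((L : ℝ) + 1) ^ 5), ?_⟩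
  intro k hkk c t0 n hG
  have hk : (2 : ℝ) ^ 400 ≤ k := (le_max_left _ _).trans hkk
  have hLk : 10 ^ 14 * ((L : ℝ) + 1) ^ 5 ≤ k := (le_max_right _ _).trans hkk
  have hk200 : (2 : ℝ) ^ 200 ≤ k := le_trans (pow_le_pow_right₀ (by norm_num) (by norm_num)) hk
  have hk70 : (2 : ℝ) ^ 70 ≤ k := le_trans (pow_le_pow_right₀ (by norm_num) (by norm_num)) hk200
  have hk4 : (4 : ℝ) ≤ k := le_trans (by norm_num) hk70
  have hk1 : (1 : ℝ) ≤ k := le_trans (by norm_num) hk4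
  have hk0 : 0 < k := lt_of_lt_of_le (by norm_num) hk4
  obtain ⟨-, ρ, h1, h2, hVF⟩ := hG
  have hρ : 0 ≤ ρ := le_trans (by have := Real.log_nonneg (by norm_num : (1 : ℝ) ≤ 2); positivity) h1
  obtain ⟨he1, he2⟩ := exp_sizes hk0 h1 h2
  have hside : ∀ s : Bool, ∃ (x : ℕ → ℝ) (n0 M : ℕ),
      Good.Side k L ρ (zt k c (CellDy.sd k c s t0)) x (n0 + 1) M := by
    intro s
    obtain ⟨x, -, w, M, -, -, S, -⟩ := H4.sides s hVF
    rw [zs_eq] at S
    have hw := S.hw
    obtain ⟨n0, rfl⟩ : ∃ n0, w = n0 + 1 := ⟨w - 1, by omega⟩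
    exact ⟨x, n0, M, S⟩
  choose x n0 M S using hside
  choose r0 hB using fun s => side_base s hk hL hLk h1 h2 (S s)
  have hC := fun s => SideSize.clean hk (by omega) hρ (S s)
  have hX := fun s => (SideSize.XX_eq hk (by omega) (S s)).2
  have hz := fun s => SideSize.sizes hk (by omega) hρ (S s)
  have hkp := SideSize.kp_ge hk
  have hE : ∀ s, nn (SideSize.EF k c (CellDy.sd k c s t0) (n0 s + 1) (n0 s + 1 - 1)) = 1 := by
    intro s
    rw [SideSize.EF_last hk (by omega) (S s)]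
    unfold nn
    simp
  have hc2 : ∀ s, 2 * |(wf k c (CellDy.sd k c s t0) (n0 s + 1 - 1)).1| ≤
      |(wf k c (CellDy.sd k c s t0) (n0 s + 1 - 1)).2| := by
    intro s
    refine le_trans ?_ (SideSize.cone_foot hk (by omega) hρ (S s))
    apply mul_le_mul_of_nonneg_right _ (abs_nonneg _)
    have : (3 : ℝ) ≤ 2 ^ 201 := by norm_num
    have h3 := this.trans hkp
    linarith only [h3]
  have hXle : ∀ s, XX (wf k c (CellDy.sd k c s t0)) (SideSize.EF k c (CellDy.sd k c s t0) (n0 s + 1)) ≤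
      2 * k ^ 5 * 2 ^ n := by
    intro s
    rw [hX s]
    refine (hz s).2.trans ?_
    calc 2 * k ^ 3 * Real.exp ρ ≤ 2 * k ^ 3 * (2 ^ n * k ^ 2) := by gcongr
      _ = 2 * k ^ 5 * 2 ^ n := by ring
  have hXpos : ∀ s, 0 < XX (wf k c (CellDy.sd k c s t0))
      (SideSize.EF k c (CellDy.sd k c s t0) (n0 s + 1)) := fun s => (hC s).Xpos
  set r : ℝ := 1 / (k ^ 60 * 2 ^ n) with hr
  have hr0 : 0 < r := by positivity
  have hrX : ∀ X : ℝ, X ≤ 2 * k ^ 5 * 2 ^ n → r * X ≤ 2 / k ^ 55 := by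
    intro X hX
    calc r * X ≤ r * (2 * k ^ 5 * 2 ^ n) := by gcongr
      _ = 2 / k ^ 55 := by rw [hr]; field_simp
  have hkpow : ∀ {a b : ℕ} {C : ℝ}, C ≤ 2 ^ 70 → a + 1 ≤ b → C * k ^ a ≤ k ^ b := by
    intro a b C hC hab
    calc C * k ^ a ≤ k * k ^ a := mul_le_mul_of_nonneg_right (hC.trans hk70) (by positivity)
      _ = k ^ (a + 1) := by ring
      _ ≤ k ^ b := pow_le_pow_right₀ hk1 hab
  refine ⟨n0, M, r0, hB, ?_, ?_⟩
  · -- the old content
    have hsm : ∀ X : ℝ, X ≤ 2 * k ^ 5 * 2 ^ n → 2 ^ 59 * k ^ 9 * (2 * r) * X ≤ 1 := by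
      intro X hX
      have h3 := hrX X hX
      calc 2 ^ 59 * k ^ 9 * (2 * r) * X = 2 ^ 60 * k ^ 9 * (r * X) := by ring
        _ ≤ 2 ^ 60 * k ^ 9 * (2 / k ^ 55) := by gcongr
        _ = (2 ^ 61 * k ^ 9) / k ^ 55 := by ring
        _ ≤ 1 := by
            rw [div_le_one (by positivity)]
            exact hkpow (by norm_num) (by norm_num)
    have ht := hC true
    have hf := hC false
    have e1 : CellDy.sd k c true t0 = t0 := rfl
    have e2 : CellDy.sd k c false t0 = CellDy.kap k c - t0 := rfl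
    obtain ⟨q0, q1, q2, hq⟩ := StartNum.content_foot (k := k) (c := c) (t0 := t0) hk200
      (w := n0 true + 1) (w' := n0 false + 1) (by omega) (by omega) ht hf (hE true) (hE false)
      (hc2 true) (hc2 false) (r := 2 * r) (by positivity) (hsm _ (hXle true)) (hsm _ (hXle false)) t0
    refine ⟨q0, q1, q2, fun z hz => ?_⟩
    refine (hq z (ball_subset_closedBall hz)).trans ?_
    have h3 := hrX _ (hXle true)
    have h4 := hrX _ (hXle false)
    rw [e1] at h3
    rw [e2] at h4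
    set Xt := XX (wf k c t0) (SideSize.EF k c t0 (n0 true + 1)) with hXt
    set Xf := XX (wf k c (CellDy.kap k c - t0)) (SideSize.EF k c (CellDy.kap k c - t0) (n0 false + 1))
      with hXf
    calc k ^ 32 * (2 * r) ^ 3 * (Xt + Xf) = 8 * k ^ 32 * r ^ 2 * (r * Xt + r * Xf) := by ring
      _ ≤ 8 * k ^ 32 * r ^ 2 * (2 / k ^ 55 + 2 / k ^ 55) := by gcongr
      _ = r ^ 2 * ((32 * k ^ 32) / k ^ 55) := by ring
      _ ≤ r ^ 2 * (1 / k ^ 18) := by
          apply mul_le_mul_of_nonneg_left _ (by positivity)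
          rw [div_le_div_iff₀ (by positivity) (by positivity), one_mul]
          calc 32 * k ^ 32 * k ^ 18 = 32 * k ^ 50 := by ring
            _ ≤ k ^ 55 := hkpow (by norm_num) (by norm_num)
      _ = r ^ 2 / k ^ 18 := by ring
  · -- old sizes
    intro s i hi u hu
    have hρ0 := StartNum.rho0_ge hk4
    have hb : LocSize.bp k c s t0 = CellDy.sd k c s t0 := rfl
    have h3 := LocSize.foot_loc s (t0 := t0) (u := (u : ℂ)) (hC s) hk1 (by
      rw [hb, ← Complex.ofReal_sub, Complex.norm_real, Real.norm_eq_abs, le_div_iff₀ (hXpos s)]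
      refine le_trans ?_ hρ0
      rw [le_div_iff₀ (by positivity)]
      have h4 := hrX _ (hXle s)
      set X := XX (wf k c (CellDy.sd k c s t0)) (SideSize.EF k c (CellDy.sd k c s t0) (n0 s + 1))
      have hXp : 0 < X := hXpos s
      calc |u - t0| * X * (2 ^ 58 * k ^ 9) ≤ (2 * r) * X * (2 ^ 58 * k ^ 9) := by gcongr
        _ = 2 ^ 59 * k ^ 9 * (r * X) := by ring
        _ ≤ 2 ^ 59 * k ^ 9 * (2 / k ^ 55) := by gcongr
        _ = (2 ^ 60 * k ^ 9) / k ^ 55 := by ring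
        _ ≤ 1 := by
            rw [div_le_one (by positivity)]
            exact hkpow (by norm_num) (by norm_num)) i (by omega)
    refine h3.trans ?_
    have hC1 := StartNum.C1_le hk4
    have hC10 : 0 ≤ C1 (8 * k) 3 4 := by unfold C1; positivity
    calc 2 * (C1 (8 * k) 3 4 * XX (wf k c (LocSize.bp k c s t0))
          (SideSize.EF k c (CellDy.sd k c s t0) (n0 s + 1)))
        ≤ 2 * ((2 ^ 8 * k ^ 2) * (2 * k ^ 5 * 2 ^ n)) := by
          have := hXle s
          rw [hb]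
          have := (hXpos s).le
          gcongr
      _ = (2 ^ 10 * k ^ 7) * 2 ^ n := by ring
      _ ≤ k ^ 74 * 2 ^ n := by
          apply mul_le_mul_of_nonneg_right _ (by positivity)
          exact hkpow (by norm_num) (by norm_num)

end Crest.Agent.R128.VFB
end

-- ▼ part R128/H4Fin
section

/-!
# Row 128, V5-LOC, (H4): sizes before the foot (helper220)

`foot` : for a side of a very fresh point all `|Q_j|`, `j ≤ w`, are at most `k^50 e^ρ`;
`good3` : `H4.good3` with this hypothesis discharged (only the sizes before the exits remain).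
-/

set_option autoImplicit false

open Crest.Agent.R128 Crest.Agent.R128.Cell Crest.Agent.R128.CellB Crest.Agent.R128.TreeSum
open Crest.Agent.R128.AlignMn Crest.Agent.R128.DictY Crest.Agent.R128.CleanDisc

namespace Crest.Agent.R128.H4Fin

theorem exists_zt (k : ℝ) (y : Tor) : ∃ c t : ℝ, y = zt k c t := by
  obtain ⟨y1, y2⟩ := y
  obtain ⟨c, hc⟩ := QuotientAddGroup.mk_surjective y2
  obtain ⟨s, hs⟩ := QuotientAddGroup.mk_surjective y1
  refine ⟨c, tb k c s, ?_⟩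
  unfold zt pr
  rw [tb_tb]
  ext
  · exact hs.symm
  · exact hc.symm

theorem Q_eq_wf (k c t : ℝ) (m : ℕ) :
    Align.Q (ap k (zt k c t)) (m + 1) = (wf k c t m).2 := by
  apply Complex.ofReal_injective
  rw [Qp_eq, wf_snd]

theorem foot {k ρ : ℝ} {L w M : ℕ} {y : Tor} {x : ℕ → ℝ} (hk : (2 : ℝ) ^ 400 ≤ k) (hL : 20 ≤ L)
    (hρ : 0 ≤ ρ) (h : Good.Side k L ρ y x w M) :
    ∀ j ≤ w, |Align.Q (ap k y) j| ≤ k ^ 50 * Real.exp ρ := by
  obtain ⟨c, t, rfl⟩ := exists_zt k y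
  have hC := SideSize.clean hk hL hρ h
  have hS := SideSize.sizes hk hL hρ h
  have hX := SideSize.XX_eq hk hL h
  have hk4 : 4 ≤ k := SideSize.four_le hk
  have hk20 : (2 : ℝ) ^ 20 ≤ k := le_trans (pow_le_pow_right₀ (by norm_num) (by norm_num)) hk
  clear hk
  have he := Real.exp_pos ρ
  intro j hj
  rcases Nat.eq_zero_or_pos j with h0 | h0
  · rw [h0, Align.Q_zero, abs_zero]
    positivity
  obtain ⟨m, rfl⟩ : ∃ m, j = m + 1 := ⟨j - 1, by omega⟩
  have hm : m ≤ w - 1 := by omega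
  rw [Q_eq_wf]
  have h1 := hC.R_le hm
  have h2 : nn (SideSize.EF k c t w m) ^ (-(1 - 3 * (1 / 60 : ℝ))) ≤ 1 :=
    Real.rpow_le_one_of_one_le_of_nonpos (hC.one m hm) (by norm_num)
  have hCC : CleanNum.C1 (8 * k) 3 4 ≤ 200 * k ^ 2 := by
    unfold CleanNum.C1
    nlinarith
  have hC0 : 0 ≤ CleanNum.C1 (8 * k) 3 4 := by
    unfold CleanNum.C1
    positivity
  have hXle : |wr (wf k c t 0) (SideSize.EF k c t w 0)| ≤ 2 * k ^ 3 * Real.exp ρ := by
    have : |wr (wf k c t 0) (SideSize.EF k c t w 0)| = |(wf k c t (w - 1)).2| := hX.2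
    rw [this]
    exact hS.2
  calc |(wf k c t m).2| ≤ nn (wf k c t m) := abs_snd_le _
    _ ≤ CleanNum.C1 (8 * k) 3 4 * |wr (wf k c t 0) (SideSize.EF k c t w 0)| *
        nn (SideSize.EF k c t w m) ^ (-(1 - 3 * (1 / 60 : ℝ))) := h1
    _ ≤ CleanNum.C1 (8 * k) 3 4 * |wr (wf k c t 0) (SideSize.EF k c t w 0)| * 1 :=
        mul_le_mul_of_nonneg_left h2 (mul_nonneg hC0 (abs_nonneg _))
    _ = CleanNum.C1 (8 * k) 3 4 * |wr (wf k c t 0) (SideSize.EF k c t w 0)| := mul_one _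
    _ ≤ (200 * k ^ 2) * (2 * k ^ 3 * Real.exp ρ) :=
        mul_le_mul hCC hXle (abs_nonneg _) (by positivity)
    _ = (400 * k ^ 5) * Real.exp ρ := by ring
    _ ≤ k ^ 50 * Real.exp ρ := by
        refine mul_le_mul_of_nonneg_right ?_ he.le
        have h5 : (400 : ℝ) ≤ k := le_trans (by norm_num) hk20
        calc 400 * k ^ 5 ≤ k * k ^ 5 := mul_le_mul_of_nonneg_right h5 (by positivity)
          _ = k ^ 6 := by ring
          _ ≤ k ^ 50 := pow_le_pow_right₀ (by linarith) (by norm_num)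

/-- **(H4)**, final form: only the sizes before the exits are hypotheses. -/
theorem good3 (C1 : ℝ) {L : ℕ} (hL : 20 ≤ L) : ∃ k1 : ℝ, ∀ k : ℝ, k1 ≤ k →
    ∀ (c u : ℝ) (n : ℕ) (s : Bool) (n1 n1' : ℕ) (m R lam q0 q1 q2 : ℝ),
    zt k c u ∈ Good.G k L n → k ^ 60 * 2 ^ n ≤ R / 4 → R ≤ k ^ 74 * 2 ^ n →
    |lam| ≤ C1 * Real.sqrt k → Loc.Cell3 k c s n1 n1' m R lam C1 q0 q1 q2 → |u - m| ≤ 3 / R →
    (∀ i ≤ n1, ‖Loc.D k c s i u‖ ≤ k ^ 74 * Real.sqrt k * 2 ^ n) →
    (∀ i ≤ n1', ‖Loc.D k c (!s) i u‖ ≤ k ^ 74 * Real.sqrt k * 2 ^ n) →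
    Loc.Good3 k c s n1 n1' R u := by
  obtain ⟨k1, h⟩ := H4.good3 C1 L
  refine ⟨max k1 (2 ^ 400), fun k hk => ?_⟩
  exact h k (le_trans (le_max_left _ _) hk)
    (fun ρ y x w M hρ S => foot (le_trans (le_max_right _ _) hk) hL hρ S)

end Crest.Agent.R128.H4Fin
end

-- ▼ part R128/H4Stmt
section

/-! Row 128: `H4Stmt` of the final packaging of `Good.LocA` (helper220). -/

set_option autoImplicit false

namespace Crest.Agent.R128.H4Fin

/-- (H4) in the form of the final packaging -/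
theorem h4 {L : ℕ} (hL : 20 ≤ L) : LocGlue365.H4Stmt L := fun C1 => good3 C1 hL

/-- `Good.LocA` from the two remaining statements -/
theorem locA_of {L : ℕ} (hL : 20 ≤ L) {B : ℝ → ℝ → Bool → ℕ → ℕ → ℝ → ℝ → ℝ → Prop}
    (hA : LocGlue365.LocA4Stmt B) (hB : LocGlue365.VFBase L B) : Good.LocA L :=
  LocGlue365.locA_of hA hB (h4 hL)

end Crest.Agent.R128.H4Fin
end

-- ▼ part R128/FinA291
section

/-! Row 128: `Good.LocA` (helper595 `locA4`, helper162 `vfBase`, helper220/365 `H4Fin.locA_of`). -/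

set_option autoImplicit false

namespace Crest.Agent.R128.FinA291

theorem locA4Stmt : LocGlue365.LocA4Stmt LocA.Base := by
  refine ⟨10 ^ 1000, fun k hk c t0 r hr n0 M r0 B old => ?_⟩
  obtain ⟨N, h1, h2, h3⟩ := LocA.locA4 hk hr B old
  refine ⟨N, h1, h2, fun m hm => ?_⟩
  obtain ⟨s, n, n', R, lam, q0, q1, q2, a, b, o⟩ := h3 m hm
  exact ⟨s, n, n', R, lam, q0, q1, q2, a, b, o.lam_le, o.cell, o.mon, o.mon'⟩

/-- **LocA** -/
theorem locA : ∃ L1 : ℕ, ∀ L, L1 ≤ L → Good.LocA L :=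
  ⟨1000, fun L hL => H4Fin.locA_of (by omega) locA4Stmt (VFB.vfBase hL)⟩

end Crest.Agent.R128.FinA291
end

-- ▼ part R128/Fin291

/-!
# Row 128 (S0172): final assembly

V1 (helper337), V2 (helper136), V2L (helper892), V4 (helper287, 815, 756, 163, 516), V6 (helper310,
744), VM (helper499), V5: final (helper183), LOC (helper284), G measurable (helper365), LocB
(helper197), RA (helper123, 117, 189), bridge (helper882), LocA (helper595, 162, 220, 365).
-/

set_option autoImplicit false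

namespace Crest.Agent.R128.Fin291

theorem v4 : Skel.V4 := V4Of.v4_of_core (Core.coreStmt2_of Shx.shadow_stmt CoreA.coh_stmt)

theorem v5 : Skel.V5 := by
  refine V5Fin.v5_final (LocBX2.locB_of_RA RA123.ra) FinA291.locA ?_
  obtain ⟨L1, h⟩ := Bridge882.br_all
  refine ⟨L1, fun L0 hL0 => ?_⟩
  obtain ⟨X, k₁, h⟩ := h L0 hL0
  exact ⟨86, X, k₁, fun k hk => h k hk⟩

theorem res : Skel.Res :=
  SkelMeas.v6 V1.v1 V2Proof.v2 V2L.v2l v4 v5 VM.vm

end Crest.Agent.R128.Fin291
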