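import Mathlib

set_option autoImplicit false

namespace Crest.Agent.R128.Tips

/-- Gromov product `(i|j)_w` -/
noncomputable def gp (d : ℕ → ℕ → ℝ) (i j w : ℕ) : ℝ := (d i w + d j w - d i j) / 2

/-- a `δ`-hyperbolic pseudo-metric on `ℕ` with steps `≤ B` -/
structure IsHyp (d : ℕ → ℕ → ℝ) (δ B : ℝ) : Prop where
  symm : ∀ i j, d i j = d j i
  self : ∀ i, d i i = 0
  nonneg : ∀ i j, 0 ≤ d i j
  tri : ∀ i j l, d i l ≤ d i j + d j l
  hyp : ∀ i j l w, min (gp d i j w) (gp d j l w) - δ ≤ gp d i l w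
  step : ∀ i, d i (i + 1) ≤ B
  δ_nonneg : 0 ≤ δ

variable {d : ℕ → ℕ → ℝ} {δ B : ℝ}



theorem gp_le_right (h : IsHyp d δ B) (i j w : ℕ) : gp d i j w ≤ d j w := by
  unfold gp
  have h1 := h.tri i j w
  linarith



/-- chain lemma -/
theorem chain (h : IsHyp d δ B) (w : ℕ) (y : ℝ) (n : ℕ) :
    ∀ (r : ℕ) (c : ℕ → ℕ), r ≤ 2 ^ n → 1 ≤ r → (∀ i < r, y < gp d (c i) (c (i + 1)) w) →
      y - n * δ < gp d (c 0) (c r) w := by
  induction n with
  | zero =>
    intro r c hr hr1 hc
    have : r = 1 := by simpa using le_antisymm hr hr1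
    subst this
    simpa using hc 0 (by norm_num)
  | succ n ih =>
    intro r c hr hr1 hc
    by_cases hle : r ≤ 2 ^ n
    · have := ih r c hle hr1 hc
      have hδ := h.δ_nonneg
      push_cast
      nlinarith
    · push Not at hle
      have h1 := ih (2 ^ n) c le_rfl Nat.one_le_two_pow (fun i hi => hc i (hi.trans hle))
      have h2 := ih (r - 2 ^ n) (fun i => c (i + 2 ^ n)) (by rw [pow_succ] at hr; omega) (by omega)
        (fun i hi => by
          have := hc (i + 2 ^ n) (by omega)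
          simpa [add_right_comm] using this)
      simp only [zero_add] at h2
      have e : r - 2 ^ n + 2 ^ n = r := by omega
      rw [e] at h2
      have h3 := h.hyp (c 0) (c (2 ^ n)) (c r) w
      have h4 : y - n * δ < min (gp d (c 0) (c (2 ^ n)) w) (gp d (c (2 ^ n)) (c r) w) :=
        lt_min h1 h2
      push_cast
      linarith

/-- the graph of large Gromov products on the window `[0, N]` -/
def G (d : ℕ → ℕ → ℝ) (N : ℕ) (y : ℝ) : SimpleGraph (Fin (N + 1)) where
  Adj a b := a ≠ b ∧ y < gp d a b 0 ∧ y < gp d b a 0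
  symm := ⟨fun a b hab => ⟨hab.1.symm, hab.2.2, hab.2.1⟩⟩
  loopless := ⟨fun a ha => ha.1 rfl⟩



end Crest.Agent.R128.Tips
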